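import Vale.Agent.P217.Basics
import Mathlib.Analysis.Normed.Field.Basic
import Mathlib.FieldTheory.Perfect
import Mathlib.FieldTheory.IsAlgClosed.Basic
import Mathlib.Algebra.CharP.Subring

/-!
The closed unit ball of an ultrametric field, as a complete unit-normed ring.
-/

noncomputable section

namespace Vale.P217

variable (K : Type*) [NormedField K] [IsUltrametricDist K]

/-- The valuation ring of an ultrametric field. -/
def Ball : Subring K where
  carrier := {x | ‖x‖ ≤ 1}
  mul_mem' {a b} ha hb := by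
    simpa [norm_mul] using mul_le_one₀ ha (norm_nonneg b) hb
  one_mem' := by simp
  add_mem' {a b} ha hb := (IsUltrametricDist.norm_add_le_max a b).trans (max_le ha hb)
  zero_mem' := by simp
  neg_mem' {a} ha := by simpa using ha

variable {K}

theorem mem_Ball {x : K} : x ∈ Ball K ↔ ‖x‖ ≤ 1 := Iff.rfl

instance : UnitNormed (Ball K) := ⟨fun x => x.2⟩

instance [CompleteSpace K] : CompleteSpace (Ball K) :=
  (show IsClosed (Ball K : Set K) from
    isClosed_le continuous_norm continuous_const).completeSpace_coe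

theorem norm_coe (x : Ball K) : ‖(x : K)‖ = ‖x‖ := rfl

theorem norm_mul_Ball (x y : Ball K) : ‖x * y‖ = ‖x‖ * ‖y‖ := norm_mul (x : K) (y : K)

theorem norm_pow_Ball (x : Ball K) (k : ℕ) : ‖x ^ k‖ = ‖x‖ ^ k := norm_pow (x : K) k

instance (p : ℕ) [CharP K p] : CharP (Ball K) p := CharP.subring K p (Ball K)

instance (p : ℕ) [Fact p.Prime] [CharP K p] [PerfectRing K p] : PerfectRing (Ball K) p := by
  refine ⟨⟨frobenius_inj _ p, fun x => ?_⟩⟩
  obtain ⟨y, hy⟩ := (PerfectRing.bijective_frobenius (R := K) (p := p)).2 (x : K)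
  have hy' : y ^ p = (x : K) := by simpa [frobenius_def] using hy
  have hy1 : ‖y‖ ≤ 1 := by
    have h : ‖y‖ ^ p ≤ 1 := by rw [← norm_pow, hy']; exact x.2
    exact (pow_le_one_iff_of_nonneg (norm_nonneg y) (Fact.out : p.Prime).ne_zero).1 h
  exact ⟨⟨y, hy1⟩, Subtype.ext (by simpa [frobenius_def] using hy')⟩

end Vale.P217

end
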