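import Mathlib.RingTheory.MvPowerSeries.Evaluation
import Mathlib.RingTheory.MvPowerSeries.Substitution
import Mathlib.RingTheory.PowerSeries.Substitution
import Mathlib.RingTheory.PowerSeries.Evaluation
import Mathlib.Analysis.Normed.Ring.Basic
import Mathlib.Analysis.Normed.Group.Ultra
import Mathlib.Analysis.Normed.Ring.Lemmas
import Mathlib.Analysis.SpecificLimits.Normed
import Mathlib.Topology.MetricSpace.Ultra.Basic
import Mathlib.Topology.Algebra.LinearTopology
import Mathlib.Topology.Algebra.InfiniteSum.Nonarchimedean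

/-!
Evaluation of power series with coefficients in a complete ultrametric ring whose norm is bounded
by one, at points of norm less than one.
-/

noncomputable section

set_option linter.unusedSectionVars false

namespace Vale.P217

open Filter Topology

/-- All elements have norm at most one. -/
class UnitNormed (O : Type*) [NormedCommRing O] : Prop where
  norm_le_one : ∀ x : O, ‖x‖ ≤ 1

section

variable {O : Type*} [NormedCommRing O] [IsUltrametricDist O] [UnitNormed O]

/-- The closed ball of radius `ε`, as an ideal. -/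
def ballIdeal (ε : ℝ) (hε : 0 ≤ ε) : Ideal O where
  carrier := {x | ‖x‖ ≤ ε}
  add_mem' {a b} ha hb := (IsUltrametricDist.norm_add_le_max a b).trans (max_le ha hb)
  zero_mem' := by simpa using hε
  smul_mem' r x hx := by
    refine (norm_mul_le r x).trans ?_
    calc ‖r‖ * ‖x‖ ≤ 1 * ε :=
          mul_le_mul (UnitNormed.norm_le_one r) hx (norm_nonneg _) zero_le_one
      _ = ε := one_mul ε

theorem mem_ballIdeal {ε : ℝ} {hε : 0 ≤ ε} {x : O} : x ∈ ballIdeal ε hε ↔ ‖x‖ ≤ ε := Iff.rfl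

instance isLinearTopology_unitNormed : IsLinearTopology O O :=
  IsLinearTopology.mk_of_hasBasis O (p := fun ε : {ε : ℝ // 0 ≤ ε} => 0 < ε.1)
    (s := fun ε => (ballIdeal ε.1 ε.2 : Ideal O)) <| by
    refine Metric.nhds_basis_closedBall.to_hasBasis (fun ε hε => ?_) (fun ε hε => ?_)
    · exact ⟨⟨ε, hε.le⟩, hε, fun x hx => by simpa [Metric.mem_closedBall, mem_ballIdeal] using hx⟩
    · exact ⟨ε.1, hε, fun x hx => by simpa [Metric.mem_closedBall, mem_ballIdeal] using hx⟩

/-- The value of a power series at a point, as a sum. -/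
def evalMv {σ : Type*} (f : MvPowerSeries σ O) (x : σ → O) : O :=
  ∑' d : σ →₀ ℕ, MvPowerSeries.coeff d f * d.prod fun i e => x i ^ e

/-- The value of a one-variable power series at a point. -/
def evalP (f : PowerSeries O) (x : O) : O :=
  evalMv f fun _ => x

theorem hasEval_of_lt {σ : Type*} [Finite σ] {x : σ → O} (hx : ∀ i, ‖x i‖ < 1) :
    MvPowerSeries.HasEval x where
  hpow i := by
    rw [IsTopologicallyNilpotent]
    exact tendsto_pow_atTop_nhds_zero_of_norm_lt_one (hx i)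
  tendsto_zero := by
    rw [Filter.cofinite_eq_bot]
    exact tendsto_bot

theorem norm_pow_le' (x : O) : ∀ k : ℕ, ‖x ^ k‖ ≤ ‖x‖ ^ k
  | 0 => by simpa using UnitNormed.norm_le_one (1 : O)
  | k + 1 => by
    rw [pow_succ, pow_succ]
    exact (norm_mul_le _ _).trans (mul_le_mul_of_nonneg_right (norm_pow_le' x k) (norm_nonneg _))

variable [CompleteSpace O]

section Hom

variable {σ : Type*} [Finite σ] {x : σ → O}

theorem evalMv_eq_eval₂ (hx : ∀ i, ‖x i‖ < 1) (f : MvPowerSeries σ O) :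
    evalMv f x = MvPowerSeries.eval₂ (RingHom.id O) x f :=
  (MvPowerSeries.eval₂_eq_tsum (φ := RingHom.id O) continuous_id (hasEval_of_lt hx) f).symm

/-- Evaluation at a small point, as a ring homomorphism. -/
def evalHom (x : σ → O) (hx : ∀ i, ‖x i‖ < 1) : MvPowerSeries σ O →+* O :=
  MvPowerSeries.eval₂Hom (φ := RingHom.id O) continuous_id (hasEval_of_lt hx)

theorem evalHom_apply (hx : ∀ i, ‖x i‖ < 1) (f : MvPowerSeries σ O) :
    evalHom x hx f = evalMv f x := by
  rw [evalMv_eq_eval₂ hx]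
  exact congr_fun (MvPowerSeries.coe_eval₂Hom _ _) f

theorem hasSum_evalMv (hx : ∀ i, ‖x i‖ < 1) (f : MvPowerSeries σ O) :
    HasSum (fun d => MvPowerSeries.coeff d f * d.prod fun i e => x i ^ e) (evalMv f x) := by
  rw [evalMv_eq_eval₂ hx]
  exact MvPowerSeries.hasSum_eval₂ (φ := RingHom.id O) continuous_id (hasEval_of_lt hx) f

theorem evalMv_add (hx : ∀ i, ‖x i‖ < 1) (f g : MvPowerSeries σ O) :
    evalMv (f + g) x = evalMv f x + evalMv g x := by
  simp only [← evalHom_apply hx, map_add]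

theorem evalMv_sub (hx : ∀ i, ‖x i‖ < 1) (f g : MvPowerSeries σ O) :
    evalMv (f - g) x = evalMv f x - evalMv g x := by
  simp only [← evalHom_apply hx, map_sub]

theorem evalMv_mul (hx : ∀ i, ‖x i‖ < 1) (f g : MvPowerSeries σ O) :
    evalMv (f * g) x = evalMv f x * evalMv g x := by
  simp only [← evalHom_apply hx, map_mul]

theorem evalMv_pow (hx : ∀ i, ‖x i‖ < 1) (f : MvPowerSeries σ O) (k : ℕ) :
    evalMv (f ^ k) x = evalMv f x ^ k := by
  simp only [← evalHom_apply hx, map_pow]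

theorem evalMv_zero (hx : ∀ i, ‖x i‖ < 1) : evalMv (0 : MvPowerSeries σ O) x = 0 := by
  rw [← evalHom_apply hx, map_zero]

@[simp]
theorem evalMv_X (hx : ∀ i, ‖x i‖ < 1) (i : σ) :
    evalMv (MvPowerSeries.X i) x = x i := by
  rw [evalMv_eq_eval₂ hx, MvPowerSeries.eval₂_X]

@[simp]
theorem evalMv_C (hx : ∀ i, ‖x i‖ < 1) (a : O) :
    evalMv (MvPowerSeries.C a) x = a := by
  rw [evalMv_eq_eval₂ hx, MvPowerSeries.eval₂_C, RingHom.id_apply]

/-- Values are bounded by any bound for all terms. -/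
theorem norm_evalMv_le (hx : ∀ i, ‖x i‖ < 1) (f : MvPowerSeries σ O) {B : ℝ} (hB : 0 ≤ B)
    (h : ∀ d, ‖MvPowerSeries.coeff d f * d.prod fun i e => x i ^ e‖ ≤ B) :
    ‖evalMv f x‖ ≤ B := by
  refine le_of_tendsto ((hasSum_evalMv hx f).norm) ?_
  exact Filter.Eventually.of_forall fun s =>
    IsUltrametricDist.norm_sum_le_of_forall_le_of_nonneg hB fun d _ => h d

theorem norm_term_le (f : MvPowerSeries σ O) (hx : ∀ i, ‖x i‖ ≤ 1) (d : σ →₀ ℕ) :
    ‖MvPowerSeries.coeff d f * d.prod fun i e => x i ^ e‖ ≤ ‖MvPowerSeries.coeff d f‖ :=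
  (norm_mul_le _ _).trans <| mul_le_of_le_one_right (norm_nonneg _) (UnitNormed.norm_le_one _)

/-- A uniform bound on coefficients bounds the values. -/
theorem norm_evalMv_le_of_coeff (hx : ∀ i, ‖x i‖ < 1) (f : MvPowerSeries σ O) {B : ℝ} (hB : 0 ≤ B)
    (h : ∀ d, ‖MvPowerSeries.coeff d f‖ ≤ B) : ‖evalMv f x‖ ≤ B :=
  norm_evalMv_le hx f hB fun d => (norm_term_le f (fun i => (hx i).le) d).trans (h d)

/-- A series without constant term has values bounded by the coordinates. -/
theorem norm_evalMv_le_coords (hx : ∀ i, ‖x i‖ < 1) (f : MvPowerSeries σ O)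
    (h0 : MvPowerSeries.constantCoeff f = 0) {B : ℝ} (hB : 0 ≤ B) (h : ∀ i, ‖x i‖ ≤ B) :
    ‖evalMv f x‖ ≤ B := by
  refine norm_evalMv_le hx f hB fun d => ?_
  rcases eq_or_ne d 0 with rfl | hd
  · simp [h0, hB]
  obtain ⟨i, hi⟩ := Finsupp.support_nonempty_iff.mpr hd
  refine (norm_mul_le _ _).trans ?_
  refine le_trans (mul_le_of_le_one_left (norm_nonneg _) (UnitNormed.norm_le_one _)) ?_
  classical
  rw [Finsupp.prod, ← Finset.mul_prod_erase _ _ hi]
  refine (norm_mul_le _ _).trans ?_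
  refine le_trans (mul_le_of_le_one_right (norm_nonneg _) (UnitNormed.norm_le_one _)) ?_
  refine (norm_pow_le' _ _).trans ?_
  refine le_trans ?_ (h i)
  exact pow_le_of_le_one (norm_nonneg _) (hx i).le (Finsupp.mem_support_iff.mp hi)

/-- Evaluation is `1`-Lipschitz in the point. -/
theorem norm_evalMv_sub_le {y : σ → O} (hx : ∀ i, ‖x i‖ < 1) (hy : ∀ i, ‖y i‖ < 1)
    (f : MvPowerSeries σ O) {B : ℝ} (hB : 0 ≤ B) (h : ∀ i, ‖x i - y i‖ ≤ B) :
    ‖evalMv f x - evalMv f y‖ ≤ B := by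
  rw [← mem_ballIdeal (hε := hB)]
  have key : ∀ d : σ →₀ ℕ, MvPowerSeries.coeff d f * (d.prod fun i e => x i ^ e) -
      MvPowerSeries.coeff d f * (d.prod fun i e => y i ^ e) ∈ ballIdeal (O := O) B hB := by
    intro d
    rw [← mul_sub]
    refine Ideal.mul_mem_left _ _ ?_
    rw [← Ideal.Quotient.mk_eq_mk_iff_sub_mem, Finsupp.prod, Finsupp.prod, map_prod, map_prod]
    refine Finset.prod_congr rfl fun i _ => ?_
    rw [map_pow, map_pow,
      (Ideal.Quotient.mk_eq_mk_iff_sub_mem (x i) (y i)).2 (mem_ballIdeal.2 (h i))]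
  rw [mem_ballIdeal]
  refine le_of_tendsto ((hasSum_evalMv hx f).sub (hasSum_evalMv hy f)).norm
    (Filter.Eventually.of_forall fun s => ?_)
  exact IsUltrametricDist.norm_sum_le_of_forall_le_of_nonneg hB fun d _ => key d

theorem norm_evalMv_lt_one [Nonempty σ] (hx : ∀ i, ‖x i‖ < 1) (f : MvPowerSeries σ O)
    (h0 : MvPowerSeries.constantCoeff f = 0) : ‖evalMv f x‖ < 1 := by
  obtain ⟨i, hi⟩ := Finite.exists_max fun i => ‖x i‖
  exact lt_of_le_of_lt (norm_evalMv_le_coords hx f h0 (norm_nonneg (x i)) hi) (hx i)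

theorem norm_prod_pow_le {ρ : ℝ} (hρ : ∀ i, ‖x i‖ ≤ ρ) (d : σ →₀ ℕ) :
    ‖d.prod fun i e => x i ^ e‖ ≤ ρ ^ d.degree := by
  classical
  rw [Finsupp.prod, Finsupp.degree_apply]
  induction d.support using Finset.induction_on with
  | empty => simpa using UnitNormed.norm_le_one (1 : O)
  | insert a s ha ih =>
    rw [Finset.prod_insert ha, Finset.sum_insert ha, pow_add]
    refine (norm_mul_le _ _).trans (mul_le_mul ?_ ih (norm_nonneg _)
      (pow_nonneg ((norm_nonneg _).trans (hρ a)) _))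
    exact (norm_pow_le' _ _).trans (pow_le_pow_left₀ (norm_nonneg _) (hρ a) _)

/-- A series of order at least `M` has values at most `ρ ^ M`. -/
theorem norm_evalMv_le_pow (hx : ∀ i, ‖x i‖ < 1) (f : MvPowerSeries σ O) {M : ℕ}
    (hf : ∀ d, d.degree < M → MvPowerSeries.coeff d f = 0) {ρ : ℝ} (hρ0 : 0 ≤ ρ) (hρ1 : ρ ≤ 1)
    (hρ : ∀ i, ‖x i‖ ≤ ρ) : ‖evalMv f x‖ ≤ ρ ^ M := by
  refine norm_evalMv_le hx f (pow_nonneg hρ0 M) fun d => ?_
  rcases lt_or_ge d.degree M with hd | hd
  · simp [hf d hd, pow_nonneg hρ0 M]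
  · refine (norm_mul_le _ _).trans ?_
    refine (mul_le_of_le_one_left (norm_nonneg _) (UnitNormed.norm_le_one _)).trans ?_
    exact (norm_prod_pow_le hρ d).trans (pow_le_pow_of_le_one hρ0 hρ1 hd)

theorem exists_radius (hx : ∀ i, ‖x i‖ < 1) : ∃ ρ : ℝ, 0 ≤ ρ ∧ ρ < 1 ∧ ∀ i, ‖x i‖ ≤ ρ := by
  rcases isEmpty_or_nonempty σ with h | h
  · exact ⟨0, le_rfl, one_pos, fun i => (IsEmpty.false i).elim⟩
  · obtain ⟨i, hi⟩ := Finite.exists_max fun i => ‖x i‖
    exact ⟨‖x i‖, norm_nonneg _, hx i, hi⟩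

/-- Evaluation commutes with substitution. -/
theorem evalMv_subst {τ : Type*} [Finite τ] {a : τ → MvPowerSeries σ O}
    (hx : ∀ i, ‖x i‖ < 1) (ha : ∀ t, MvPowerSeries.constantCoeff (a t) = 0)
    (f : MvPowerSeries τ O) :
    evalMv (MvPowerSeries.subst a f) x = evalMv f fun t => evalMv (a t) x := by
  have hax : ∀ t, ‖evalMv (a t) x‖ < 1 := fun t => by
    rcases isEmpty_or_nonempty σ with h | h
    · have : a t = 0 := by
        ext d
        rw [Subsingleton.elim d 0]
        simpa using ha t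
      simp [this, evalMv_zero hx]
    · exact norm_evalMv_lt_one hx _ (ha t)
  obtain ⟨ρ, hρ0, hρ1, hρ⟩ := exists_radius hx
  have hρt : ∀ t, ‖evalMv (a t) x‖ ≤ ρ := fun t => norm_evalMv_le_coords hx _ (ha t) hρ0 hρ
  have hs : MvPowerSeries.HasSubst a := MvPowerSeries.hasSubst_of_constantCoeff_zero ha
  refine sub_eq_zero.mp (norm_le_zero_iff.mp ?_)
  refine ge_of_tendsto' (tendsto_pow_atTop_nhds_zero_of_lt_one hρ0 hρ1) fun M => ?_
  set P : MvPolynomial τ O := MvPowerSeries.truncTotal M f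
  have hPf : ∀ d : τ →₀ ℕ, d.degree < M →
      MvPowerSeries.coeff d (f - (P : MvPowerSeries τ O)) = 0 := fun d hd => by
    rw [map_sub, MvPolynomial.coeff_coe, MvPowerSeries.coeff_truncTotal _ hd, sub_self]
  have hP : evalMv (MvPowerSeries.subst a (P : MvPowerSeries τ O)) x =
      evalMv (P : MvPowerSeries τ O) fun t => evalMv (a t) x := by
    rw [← evalHom_apply hx, ← evalHom_apply hax]
    have : (evalHom x hx).comp ((MvPowerSeries.substAlgHom (R := O) hs).toRingHom.comp
        (MvPolynomial.coeToMvPowerSeries.ringHom)) =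
        (evalHom (fun t => evalMv (a t) x) hax).comp MvPolynomial.coeToMvPowerSeries.ringHom := by
      refine MvPolynomial.ringHom_ext (fun r => ?_) fun t => ?_
      · simp only [RingHom.comp_apply, MvPolynomial.coeToMvPowerSeries.ringHom_apply,
          MvPolynomial.coe_C, evalHom_apply, evalMv_C hax]
        rw [AlgHom.toRingHom_eq_coe, RingHom.coe_coe, MvPowerSeries.c_eq_algebraMap,
          AlgHom.commutes, ← MvPowerSeries.c_eq_algebraMap, evalMv_C hx]
      · simp only [RingHom.comp_apply, MvPolynomial.coeToMvPowerSeries.ringHom_apply,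
          MvPolynomial.coe_X, evalHom_apply, evalMv_X hax]
        rw [AlgHom.toRingHom_eq_coe, RingHom.coe_coe, MvPowerSeries.substAlgHom_X]
    have h2 := DFunLike.congr_fun this P
    simpa [MvPowerSeries.coe_substAlgHom hs, evalHom_apply] using h2
  have e1 : evalMv (MvPowerSeries.subst a f) x -
      evalMv f (fun t => evalMv (a t) x) =
      evalMv (MvPowerSeries.subst a (f - (P : MvPowerSeries τ O))) x -
        evalMv (f - (P : MvPowerSeries τ O)) (fun t => evalMv (a t) x) := by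
    rw [MvPowerSeries.subst_sub hs, evalMv_sub hx, evalMv_sub hax, hP]
    ring
  rw [e1]
  rw [sub_eq_add_neg]
  refine (IsUltrametricDist.norm_add_le_max _ _).trans (max_le ?_ ?_)
  · refine norm_evalMv_le_pow hx _ (fun d hd => ?_) hρ0 hρ1.le hρ
    refine MvPowerSeries.coeff_of_lt_order (lt_of_lt_of_le (Nat.cast_lt.mpr hd) ?_)
    refine le_trans ?_ (MvPowerSeries.le_order_subst hs _)
    have h1 : (1 : ℕ∞) ≤ ⨅ t, (a t).order := le_iInf fun t => by
      rw [Order.one_le_iff_pos]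
      exact pos_iff_ne_zero.mpr (MvPowerSeries.order_ne_zero_iff_constCoeff_eq_zero.mpr (ha t))
    calc (M : ℕ∞) ≤ (f - (P : MvPowerSeries τ O)).order := MvPowerSeries.nat_le_order hPf
      _ = 1 * (f - (P : MvPowerSeries τ O)).order := (one_mul _).symm
      _ ≤ _ := mul_le_mul_left h1 _
  · rw [norm_neg]
    exact norm_evalMv_le_pow hax _ hPf hρ0 hρ1.le hρt

end Hom

section OneVar

theorem evalP_add {x : O} (hx : ‖x‖ < 1) (f g : PowerSeries O) :
    evalP (f + g) x = evalP f x + evalP g x := evalMv_add (fun _ => hx) f g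

theorem evalP_mul {x : O} (hx : ‖x‖ < 1) (f g : PowerSeries O) :
    evalP (f * g) x = evalP f x * evalP g x := evalMv_mul (fun _ => hx) f g

theorem evalP_pow {x : O} (hx : ‖x‖ < 1) (f : PowerSeries O) (k : ℕ) :
    evalP (f ^ k) x = evalP f x ^ k := evalMv_pow (fun _ => hx) f k

theorem evalP_zero {x : O} (hx : ‖x‖ < 1) : evalP (0 : PowerSeries O) x = 0 :=
  evalMv_zero (fun _ => hx)

theorem evalP_X {x : O} (hx : ‖x‖ < 1) : evalP (PowerSeries.X : PowerSeries O) x = x :=
  evalMv_X (fun _ => hx) ()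

theorem evalP_C {x : O} (hx : ‖x‖ < 1) (a : O) : evalP (PowerSeries.C a) x = a :=
  evalMv_C (fun _ => hx) a

/-- One-variable values as sums over the exponents. -/
theorem hasSum_evalP {x : O} (hx : ‖x‖ < 1) (f : PowerSeries O) :
    HasSum (fun d : ℕ => PowerSeries.coeff d f * x ^ d) (evalP f x) := by
  have h := hasSum_evalMv (x := fun _ : Unit => x) (fun _ => hx) f
  have e := (Finsupp.uniqueLinearEquiv ℕ ℕ ()).toEquiv.symm.hasSum_iff.mpr h
  refine e.congr_fun fun d => ?_
  have hd : (Finsupp.uniqueLinearEquiv ℕ ℕ ()).toEquiv.symm d = Finsupp.single () d := by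
    ext; simp
  simp [hd, PowerSeries.coeff]

theorem norm_evalP_le {x : O} (hx : ‖x‖ < 1) (f : PowerSeries O)
    (h0 : PowerSeries.constantCoeff f = 0) : ‖evalP f x‖ ≤ ‖x‖ :=
  norm_evalMv_le_coords (fun _ => hx) f h0 (norm_nonneg x) fun _ => le_rfl

theorem norm_evalP_lt_one {x : O} (hx : ‖x‖ < 1) (f : PowerSeries O)
    (h0 : PowerSeries.constantCoeff f = 0) : ‖evalP f x‖ < 1 :=
  (norm_evalP_le hx f h0).trans_lt hx

theorem evalMv_subst_evalP {σ : Type*} [Finite σ] {x : σ → O} (hx : ∀ i, ‖x i‖ < 1)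
    (a : MvPowerSeries σ O) (ha : MvPowerSeries.constantCoeff a = 0) (f : PowerSeries O) :
    evalMv (PowerSeries.subst a f) x = evalP f (evalMv a x) :=
  evalMv_subst hx (fun _ => ha) f

theorem evalP_subst {x : O} (hx : ‖x‖ < 1) (a : PowerSeries O)
    (ha : PowerSeries.constantCoeff a = 0) (f : PowerSeries O) :
    evalP (PowerSeries.subst a f) x = evalP f (evalP a x) :=
  evalMv_subst (fun _ => hx) (fun _ => ha) f

end OneVar

section Map

variable {O' : Type*} [NormedCommRing O'] [IsUltrametricDist O'] [UnitNormed O'] [CompleteSpace O']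

/-- Evaluation commutes with continuous ring homomorphisms. -/
theorem map_evalMv {σ : Type*} [Finite σ] {x : σ → O} (φ : O →+* O') (hφ : Continuous φ)
    (hx : ∀ i, ‖x i‖ < 1) (hx' : ∀ i, ‖φ (x i)‖ < 1) (f : MvPowerSeries σ O) :
    φ (evalMv f x) = evalMv (MvPowerSeries.map φ f) fun i => φ (x i) := by
  have h := (hasSum_evalMv hx f).map φ hφ
  have h' := hasSum_evalMv hx' (MvPowerSeries.map φ f)
  refine h.unique (h'.congr_fun fun d => ?_)
  simp [map_finsuppProd]

end Map


end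

end Vale.P217

end
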