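import Vale.Agent.P217.Defs
import Vale.Agent.P217.Eval

/-!
Points of formal group laws and small general facts.
-/

noncomputable section

set_option linter.unusedSectionVars false

namespace Vale.P217

open MvPowerSeries

section Series

variable {R : Type*} [CommRing R]

theorem hasSubst_one_var (a : MvPowerSeries (Fin 2) R) (b : PowerSeries R)
    (c : PowerSeries R) (hb : PowerSeries.constantCoeff b = 0)
    (hc : PowerSeries.constantCoeff c = 0) :
    MvPowerSeries.HasSubst ![b, c] :=
  hasSubst_of_constantCoeff_zero fun i => by fin_cases i <;> assumption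

theorem X_pow_dvd_term_sub {n : ℕ} {c d : PowerSeries R} (hc : PowerSeries.X ∣ c)
    (hd : PowerSeries.X ∣ d) (hcd : PowerSeries.X ^ n ∣ c - d) (i j : ℕ)
    (hij : ¬(i = 0 ∧ j = 1)) :
    PowerSeries.X ^ (n + 1) ∣
      PowerSeries.X ^ i * c ^ j - PowerSeries.X ^ i * d ^ j := by
  rcases Nat.eq_zero_or_pos j with rfl | hj
  · simp
  rw [← mul_sub]
  rcases Nat.eq_zero_or_pos i with rfl | hi
  · have hj2 : 2 ≤ j := by omega
    rw [pow_zero, one_mul, ← geom_sum₂_mul c d j, add_comm n 1, pow_add, pow_one]
    refine mul_dvd_mul (Finset.dvd_sum fun t ht => ?_) hcd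
    rw [Finset.mem_range] at ht
    rcases Nat.eq_zero_or_pos t with rfl | htp
    · exact Dvd.dvd.mul_left (hd.trans (dvd_pow_self d (by omega))) _
    · exact Dvd.dvd.mul_right (hc.trans (dvd_pow_self c (by omega))) _
  · rw [add_comm n 1, pow_add, pow_one]
    exact mul_dvd_mul (dvd_pow_self _ (by omega)) (hcd.trans (sub_dvd_pow_sub_pow c d j))

theorem coeff_subst_right_sub (F : FormalGroup R) {n : ℕ} {c d : PowerSeries R}
    (hc : PowerSeries.constantCoeff c = 0) (hd : PowerSeries.constantCoeff d = 0)
    (hcd : ∀ j < n, PowerSeries.coeff j c = PowerSeries.coeff j d) :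
    PowerSeries.coeff n (MvPowerSeries.subst ![PowerSeries.X, c] F.toPowerSeries) -
        PowerSeries.coeff n (MvPowerSeries.subst ![PowerSeries.X, d] F.toPowerSeries) =
      PowerSeries.coeff n c - PowerSeries.coeff n d := by
  have hsc := hasSubst_one_var F.toPowerSeries PowerSeries.X c PowerSeries.constantCoeff_X hc
  have hsd := hasSubst_one_var F.toPowerSeries PowerSeries.X d PowerSeries.constantCoeff_X hd
  have hdvd : PowerSeries.X ^ n ∣ c - d :=
    PowerSeries.X_pow_dvd_iff.mpr fun j hj => by rw [map_sub, hcd j hj, sub_self]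
  rw [PowerSeries.coeff, coeff_subst hsc, coeff_subst hsd,
    ← finsum_sub_distrib (coeff_subst_finite hsc _ _) (coeff_subst_finite hsd _ _)]
  rw [finsum_eq_single _ (Finsupp.single (1 : Fin 2) 1)]
  · simp [F.lin_coeff_Y]
  · intro e he
    have hij : ¬(e 0 = 0 ∧ e 1 = 1) := by
      rintro ⟨h0, h1⟩
      refine he (Finsupp.ext fun t => ?_)
      fin_cases t
      · simp [h0]
      · simp [h1]
    have h := X_pow_dvd_term_sub (PowerSeries.X_dvd_iff.mpr hc) (PowerSeries.X_dvd_iff.mpr hd)
      hdvd (e 0) (e 1) hij
    rw [PowerSeries.X_pow_dvd_iff] at h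
    have h' := h n n.lt_succ_self
    rw [map_sub, sub_eq_zero] at h'
    simp [Fin.prod_univ_two, Finsupp.prod_pow, PowerSeries.coeff] at h' ⊢
    rw [h', sub_self]

/-- The coefficients of the inverse series. -/
def negCoeff (F : FormalGroup R) (n : ℕ) : R :=
  if n = 0 then 0 else
    -PowerSeries.coeff n (MvPowerSeries.subst
      ![PowerSeries.X, PowerSeries.mk fun j => if _h : j < n then negCoeff F j else 0]
      F.toPowerSeries)

/-- Existence of the inverse series. -/
theorem exists_negSeries (F : FormalGroup R) :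
    ∃ b : PowerSeries R, PowerSeries.constantCoeff b = 0 ∧
      MvPowerSeries.subst ![PowerSeries.X, b] F.toPowerSeries = 0 := by
  have h0 : negCoeff F 0 = 0 := by rw [negCoeff, if_pos rfl]
  refine ⟨PowerSeries.mk (negCoeff F), by
    rw [← PowerSeries.coeff_zero_eq_constantCoeff, PowerSeries.coeff_mk, h0], ?_⟩
  have hb : PowerSeries.constantCoeff (PowerSeries.mk (negCoeff F)) = 0 := by
    rw [← PowerSeries.coeff_zero_eq_constantCoeff, PowerSeries.coeff_mk, h0]
  ext n
  rw [map_zero]
  rcases Nat.eq_zero_or_pos n with rfl | hn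
  · rw [PowerSeries.coeff_zero_eq_constantCoeff]
    exact constantCoeff_subst_eq_zero
      (hasSubst_one_var F.toPowerSeries _ _ PowerSeries.constantCoeff_X hb)
      (fun i => by fin_cases i <;> simp_all [PowerSeries.constantCoeff, PowerSeries.X])
      F.zero_constantCoeff
  set d : PowerSeries R := PowerSeries.mk fun j => if _h : j < n then negCoeff F j else 0 with hd
  have hd0 : PowerSeries.constantCoeff d = 0 := by
    rw [← PowerSeries.coeff_zero_eq_constantCoeff, hd, PowerSeries.coeff_mk, dif_pos hn, h0]
  have key := coeff_subst_right_sub F hb hd0 (n := n) fun j hj => by simp [hd, hj]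
  have hnc : negCoeff F n =
      -PowerSeries.coeff n (MvPowerSeries.subst ![PowerSeries.X, d] F.toPowerSeries) := by
    rw [negCoeff, if_neg hn.ne', hd]
  rw [PowerSeries.coeff_mk] at key
  simp [hd] at key hnc
  rw [hnc] at key
  linear_combination key

/-- The inverse series of a formal group law. -/
def negSeries (F : FormalGroup R) : PowerSeries R := (exists_negSeries F).choose

theorem constantCoeff_negSeries (F : FormalGroup R) :
    PowerSeries.constantCoeff (negSeries F) = 0 := (exists_negSeries F).choose_spec.1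

theorem subst_negSeries (F : FormalGroup R) :
    MvPowerSeries.subst ![PowerSeries.X, negSeries F] F.toPowerSeries = 0 :=
  (exists_negSeries F).choose_spec.2

theorem constantCoeff_mulSeries (F : FormalGroup R) (m : ℕ) :
    PowerSeries.constantCoeff (mulSeries F m) = 0 := by
  induction m with
  | zero => simp [mulSeries]
  | succ m ih =>
    rw [mulSeries]
    exact constantCoeff_subst_eq_zero
      (hasSubst_one_var F.toPowerSeries _ _ ih PowerSeries.constantCoeff_X)
      (fun i => by fin_cases i <;> simp_all [PowerSeries.constantCoeff, PowerSeries.X])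
      F.zero_constantCoeff

end Series

variable {O : Type*} [NormedCommRing O] [IsUltrametricDist O] [UnitNormed O] [CompleteSpace O]

/-- The sum of two small elements under a formal group law. -/
def fadd (F : FormalGroup O) (a b : O) : O := evalMv F.toPowerSeries ![a, b]

theorem norm_fadd_lt_one (F : FormalGroup O) {a b : O} (ha : ‖a‖ < 1) (hb : ‖b‖ < 1) :
    ‖fadd F a b‖ < 1 :=
  norm_evalMv_lt_one (fun i => by fin_cases i <;> assumption) _ F.zero_constantCoeff

/-- The points of `F` in the open unit ball. -/
@[nolint unusedArguments]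
def Pt (_F : FormalGroup O) : Type _ := {x : O // ‖x‖ < 1}

namespace Pt

variable {F : FormalGroup O}

/-- The underlying element. -/
def val (a : Pt F) : O := Subtype.val a

/-- A small element as a point. -/
def mk (F : FormalGroup O) (x : O) (hx : ‖x‖ < 1) : Pt F := ⟨x, hx⟩

theorem norm_lt (a : Pt F) : ‖a.val‖ < 1 := Subtype.prop a

@[ext]
theorem ext {a b : Pt F} (h : a.val = b.val) : a = b := Subtype.ext h

@[simp]
theorem val_mk (x : O) (hx : ‖x‖ < 1) : (mk F x hx).val = x := rfl

instance : Zero (Pt F) := ⟨mk F 0 (by simp)⟩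

instance : Add (Pt F) := ⟨fun a b => mk F _ (norm_fadd_lt_one F a.norm_lt b.norm_lt)⟩

instance : Neg (Pt F) :=
  ⟨fun a => mk F _ (norm_evalP_lt_one a.norm_lt _ (constantCoeff_negSeries F))⟩

@[simp]
theorem val_zero : (0 : Pt F).val = 0 := rfl

theorem val_add (a b : Pt F) : (a + b).val = fadd F a.val b.val := rfl

theorem val_neg (a : Pt F) : (-a).val = evalP (negSeries F) a.val := rfl

theorem small₂ (a b : Pt F) : ∀ i, ‖(![a.val, b.val] : Fin 2 → O) i‖ < 1 := fun i => by
  fin_cases i
  · exact a.norm_lt
  · exact b.norm_lt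

theorem small₃ (a b c : Pt F) : ∀ i, ‖(![a.val, b.val, c.val] : Fin 3 → O) i‖ < 1 := fun i => by
  fin_cases i
  · exact a.norm_lt
  · exact b.norm_lt
  · exact c.norm_lt

theorem add_assoc' (a b c : Pt F) : a + b + c = a + (b + c) := by
  have hc : ∀ i j : Fin 3, ∀ t, constantCoeff
      ((![MvPowerSeries.X i, MvPowerSeries.X j] : Fin 2 → MvPowerSeries (Fin 3) O) t) = 0 :=
    fun i j t => by fin_cases t <;> simp
  have hcl : ∀ t, constantCoeff ((![subst ![MvPowerSeries.X 0, MvPowerSeries.X 1] F.toPowerSeries,
      MvPowerSeries.X 2] : Fin 2 → MvPowerSeries (Fin 3) O) t) = 0 := fun t => by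
    fin_cases t
    · exact constantCoeff_subst_eq_zero HasSubst.X_X (hc 0 1) F.zero_constantCoeff
    · simp
  have hcr : ∀ t, constantCoeff ((![MvPowerSeries.X 0,
      subst ![MvPowerSeries.X 1, MvPowerSeries.X 2] F.toPowerSeries] :
      Fin 2 → MvPowerSeries (Fin 3) O) t) = 0 := fun t => by
    fin_cases t
    · simp
    · exact constantCoeff_subst_eq_zero HasSubst.X_X (hc 1 2) F.zero_constantCoeff
  have h := congrArg (fun f => evalMv f ![a.val, b.val, c.val]) F.assoc
  simp only [evalMv_subst (small₃ a b c) hcl, evalMv_subst (small₃ a b c) hcr] at h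
  ext
  simp only [val_add, fadd]
  convert h using 2 <;> funext t <;> fin_cases t <;>
    simp [evalMv_subst (small₃ a b c) (hc 0 1), evalMv_subst (small₃ a b c) (hc 1 2),
      evalMv_X (small₃ a b c)] <;> (congr 1; funext s; fin_cases s <;>
      simp [evalMv_X (small₃ a b c)])

theorem zero_add' (a : Pt F) : 0 + a = a := by
  have hc : ∀ t, constantCoeff ((![0, PowerSeries.X] : Fin 2 → PowerSeries O) t) = 0 := fun t => by
    fin_cases t <;> simp [PowerSeries.X]
  have hx : ∀ _ : Unit, ‖a.val‖ < 1 := fun _ => a.norm_lt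
  have h := congrArg (fun f => evalP f a.val) F.zeroX_eq_X
  simp only [FormalGroup.zeroX, evalP] at h
  rw [evalMv_subst hx hc] at h
  simp only [PowerSeries.X, evalMv_X hx] at h
  ext
  simp only [val_add, fadd, val_zero]
  convert h using 2
  funext t
  fin_cases t <;> simp [evalMv_zero hx, PowerSeries.X, evalMv_X hx]

theorem add_zero' (a : Pt F) : a + 0 = a := by
  have hc : ∀ t, constantCoeff ((![PowerSeries.X, 0] : Fin 2 → PowerSeries O) t) = 0 := fun t => by
    fin_cases t <;> simp [PowerSeries.X]
  have hx : ∀ _ : Unit, ‖a.val‖ < 1 := fun _ => a.norm_lt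
  have h := congrArg (fun f => evalP f a.val) F.Xzero_eq_X
  simp only [FormalGroup.Xzero, evalP] at h
  rw [evalMv_subst hx hc] at h
  simp only [PowerSeries.X, evalMv_X hx] at h
  ext
  simp only [val_add, fadd, val_zero]
  convert h using 2
  funext t
  fin_cases t <;> simp [evalMv_zero hx, PowerSeries.X, evalMv_X hx]

theorem add_neg' (a : Pt F) : a + -a = 0 := by
  have hc : ∀ t, constantCoeff
      ((![PowerSeries.X, negSeries F] : Fin 2 → PowerSeries O) t) = 0 := fun t => by
    fin_cases t
    · simp [PowerSeries.X]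
    · exact constantCoeff_negSeries F
  have hx : ∀ _ : Unit, ‖a.val‖ < 1 := fun _ => a.norm_lt
  have h := congrArg (fun f => evalP f a.val) (subst_negSeries F)
  simp only [evalP, evalMv_subst hx hc, evalMv_zero hx] at h
  ext
  simp only [val_add, fadd, val_zero, val_neg, evalP]
  convert h using 2
  funext t
  fin_cases t <;> simp [PowerSeries.X, evalMv_X hx]

variable [F.IsComm]

theorem add_comm' (a b : Pt F) : a + b = b + a := by
  have hc : ∀ t, constantCoeff
      ((![MvPowerSeries.X 1, MvPowerSeries.X 0] : Fin 2 → MvPowerSeries (Fin 2) O) t) = 0 :=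
    fun t => by fin_cases t <;> simp
  have h := congrArg (fun f => evalMv f ![a.val, b.val]) (FormalGroup.IsComm.comm (F := F))
  simp only [evalMv_subst (small₂ a b) hc] at h
  ext
  simp only [val_add, fadd]
  refine h.trans ?_
  congr 1
  funext t
  fin_cases t <;> simp [evalMv_X (small₂ a b)]

instance : AddCommGroup (Pt F) where
  add_assoc := add_assoc'
  zero_add := zero_add'
  add_zero := add_zero'
  add_comm := add_comm'
  neg_add_cancel a := by rw [add_comm', add_neg']
  nsmul := nsmulRec
  zsmul := zsmulRec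

end Pt

theorem nsmul_val (F : FormalGroup O) [F.IsComm] (a : Pt F) (m : ℕ) :
    (m • a).val = evalP (mulSeries F m) a.val := by
  induction m with
  | zero => simp [mulSeries, evalP_zero a.norm_lt]
  | succ m ih =>
    have hx : ∀ _ : Unit, ‖a.val‖ < 1 := fun _ => a.norm_lt
    rw [succ_nsmul, Pt.val_add, ih, mulSeries]
    simp only [evalP]
    rw [evalMv_subst hx fun t => by
      fin_cases t
      · exact constantCoeff_mulSeries F m
      · simp [PowerSeries.X]]
    simp only [fadd]
    congr 1
    funext t
    fin_cases t <;> simp [PowerSeries.X, evalMv_X hx]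

/-- A homomorphism of formal group laws acts on points. -/
theorem evalP_hom {F G : FormalGroup O} {f : PowerSeries O} (hf : IsHomSeries F G f)
    {a b : O} (ha : ‖a‖ < 1) (hb : ‖b‖ < 1) :
    evalP f (fadd F a b) = fadd G (evalP f a) (evalP f b) := by
  have hx : ∀ i, ‖(![a, b] : Fin 2 → O) i‖ < 1 := fun i => by fin_cases i <;> assumption
  have h := congrArg (fun g => evalMv g ![a, b]) hf.2
  rw [evalMv_subst_evalP hx _ F.zero_constantCoeff] at h
  rw [evalMv_subst hx fun t => by
    fin_cases t <;>
      exact constantCoeff_subst_eq_zero (hasSubst_of_constantCoeff_zero fun _ => by simp)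
        (fun _ => by simp) hf.1] at h
  simp only [fadd] at h ⊢
  refine h.trans ?_
  congr 1
  funext t
  fin_cases t <;>
    simp [evalMv_subst_evalP hx, evalMv_X hx]

/-- The map on points induced by a homomorphism. -/
def homPt {F G : FormalGroup O} [F.IsComm] [G.IsComm] {f : PowerSeries O}
    (hf : IsHomSeries F G f) : Pt F →+ Pt G :=
  AddMonoidHom.mk' (fun a => Pt.mk G _ (norm_evalP_lt_one a.norm_lt f hf.1))
    fun a b => Pt.ext (evalP_hom hf a.norm_lt b.norm_lt)

end Vale.P217

end
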