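import Vale.Agent.P217.Universal
import Mathlib.Algebra.MvPolynomial.PDeriv

/-!
Dependence of the law and of `[p]` on the parameters, and basic estimates on points.
-/

noncomputable section

set_option linter.unusedSectionVars false

namespace Vale.P217

open Filter Topology

variable {O : Type*} [NormedCommRing O] [IsUltrametricDist O] [UnitNormed O]

theorem norm_mul_le_right (x y : O) : ‖x * y‖ ≤ ‖y‖ :=
  (norm_mul_le x y).trans (mul_le_of_le_one_left (norm_nonneg y) (UnitNormed.norm_le_one x))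

theorem norm_mul_le_left (x y : O) : ‖x * y‖ ≤ ‖x‖ := by rw [mul_comm]; exact norm_mul_le_right y x

theorem norm_sub_le_ultra (x y : O) : ‖x - y‖ ≤ max ‖x‖ ‖y‖ := by
  rw [sub_eq_add_neg]
  exact (IsUltrametricDist.norm_add_le_max x (-y)).trans (by rw [norm_neg])

theorem norm_sub_trans (x y z : O) : ‖x - z‖ ≤ max ‖x - y‖ ‖y - z‖ := by
  rw [show x - z = (x - y) + (y - z) by ring]
  exact IsUltrametricDist.norm_add_le_max _ _

/-- Values of a polynomial at close parameters are close. -/
theorem norm_aeval_sub_le {σ : Type*} (P : MvPolynomial σ ℤ) {u v : σ → O} {δ : ℝ} (hδ : 0 ≤ δ)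
    (h : ∀ i, ‖u i - v i‖ ≤ δ) :
    ‖MvPolynomial.aeval u P - MvPolynomial.aeval v P‖ ≤ δ := by
  induction P using MvPolynomial.induction_on with
  | C a => simpa using hδ
  | add P Q hP hQ =>
    rw [map_add, map_add, show ∀ a b c d : O, a + b - (c + d) = (a - c) + (b - d) by intros; ring]
    exact (IsUltrametricDist.norm_add_le_max _ _).trans (max_le hP hQ)
  | mul_X P i hP =>
    simp only [map_mul, MvPolynomial.aeval_X]
    refine (norm_sub_trans _ (MvPolynomial.aeval v P * u i) _).trans (max_le ?_ ?_)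
    · rw [← sub_mul]; exact (norm_mul_le_left _ _).trans hP
    · rw [← mul_sub]; exact (norm_mul_le_right _ _).trans (h i)

variable {σ : Type*} [Fintype σ]

/-- The derivative of a polynomial at `u` in the direction `c`. -/
def dirDeriv (u c : σ → O) (P : MvPolynomial σ ℤ) : O :=
  ∑ i, c i * MvPolynomial.aeval u (MvPolynomial.pderiv i P)

/-- First order expansion of a polynomial. -/
theorem norm_aeval_taylor (P : MvPolynomial σ ℤ) (u c : σ → O) (t : O) :
    ‖MvPolynomial.aeval (fun i => u i + t * c i) P - MvPolynomial.aeval u P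
      - t * dirDeriv u c P‖ ≤ ‖t‖ ^ 2 := by
  classical
  induction P using MvPolynomial.induction_on with
  | C a => simp [dirDeriv, sq_nonneg]
  | add P Q hP hQ =>
    have h : dirDeriv u c (P + Q) = dirDeriv u c P + dirDeriv u c Q := by
      simp only [dirDeriv, map_add, mul_add, Finset.sum_add_distrib]
    rw [map_add, map_add, h, show ∀ a b c d e f : O,
      a + b - (c + d) - t * (e + f) = (a - c - t * e) + (b - d - t * f) by intros; ring]
    exact (IsUltrametricDist.norm_add_le_max _ _).trans (max_le hP hQ)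
  | mul_X P j hP =>
    have hsum : ∑ i, c i * (MvPolynomial.aeval u) (Pi.single (M := fun _ => MvPolynomial σ ℤ) i 1 j)
        = c j := by
      rw [Finset.sum_eq_single j]
      · simp
      · intro i _ hij
        simp [Pi.single_eq_of_ne (Ne.symm hij)]
      · simp
    have h : dirDeriv u c (P * MvPolynomial.X j) =
        dirDeriv u c P * u j + MvPolynomial.aeval u P * c j := by
      simp only [dirDeriv, MvPolynomial.pderiv_mul, MvPolynomial.pderiv_X, map_add, map_mul,
        MvPolynomial.aeval_X, mul_add, Finset.sum_add_distrib]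
      congr 1
      · rw [Finset.sum_mul]; exact Finset.sum_congr rfl fun i _ => by ring
      · conv_rhs => rw [← hsum]
        rw [Finset.mul_sum]
        exact Finset.sum_congr rfl fun i _ => by ring
    rw [map_mul, map_mul, MvPolynomial.aeval_X, MvPolynomial.aeval_X, h]
    set A := MvPolynomial.aeval (fun i => u i + t * c i) P
    set B := MvPolynomial.aeval u P
    rw [show A * (u j + t * c j) - B * u j - t * (dirDeriv u c P * u j + B * c j) =
      (A - B - t * dirDeriv u c P) * (u j + t * c j) + t * t * (dirDeriv u c P * c j) by ring]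
    refine (IsUltrametricDist.norm_add_le_max _ _).trans (max_le ?_ ?_)
    · exact (norm_mul_le_left _ _).trans hP
    · refine (norm_mul_le_left _ _).trans ?_
      rw [← sq]
      exact norm_pow_le' t 2

variable (p : ℕ) [Fact p.Prime] (n : ℕ)

theorem coeff_fg {R : Type*} [CommRing R] (u : Fin (n - 1) → R) (d : Fin 2 →₀ ℕ) :
    MvPowerSeries.coeff d (fg p n u).toPowerSeries =
      MvPolynomial.aeval u (MvPowerSeries.coeff d (univFG p n).toPowerSeries) := by
  simp [fg]

theorem coeff_mulSeries_fg {R : Type*} [CommRing R] (u : Fin (n - 1) → R) (m d : ℕ) :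
    PowerSeries.coeff d (mulSeries (fg p n u) m) =
      MvPolynomial.aeval u (PowerSeries.coeff d (mulSeries (univFG p n) m)) := by
  rw [fg, ← mulSeries_map, PowerSeries.coeff_map]
  rfl

variable [CompleteSpace O]

theorem norm_fadd_param {u v : Fin (n - 1) → O} {δ : ℝ} (hδ : 0 ≤ δ) (h : ∀ i, ‖u i - v i‖ ≤ δ)
    {a b : O} (ha : ‖a‖ < 1) (hb : ‖b‖ < 1) :
    ‖fadd (fg p n u) a b - fadd (fg p n v) a b‖ ≤ δ := by
  have hx : ∀ i, ‖(![a, b] : Fin 2 → O) i‖ < 1 := fun i => by fin_cases i <;> assumption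
  rw [fadd, fadd, ← evalMv_sub hx]
  refine norm_evalMv_le_of_coeff hx _ hδ fun d => ?_
  rw [map_sub, coeff_fg, coeff_fg]
  exact norm_aeval_sub_le _ hδ h

theorem norm_fadd_sub_le (F : FormalGroup O) {a b a' b' : O} (ha : ‖a‖ < 1) (hb : ‖b‖ < 1)
    (ha' : ‖a'‖ < 1) (hb' : ‖b'‖ < 1) {B : ℝ} (hB : 0 ≤ B) (h1 : ‖a - a'‖ ≤ B)
    (h2 : ‖b - b'‖ ≤ B) : ‖fadd F a b - fadd F a' b'‖ ≤ B := by
  refine norm_evalMv_sub_le (fun i => ?_) (fun i => ?_) _ hB fun i => ?_ <;> fin_cases i <;>
    assumption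

theorem fadd_tendsto (F : FormalGroup O) {f g : ℕ → O} {a b : O} (hf : Tendsto f atTop (𝓝 a))
    (hg : Tendsto g atTop (𝓝 b)) (hf1 : ∀ l, ‖f l‖ < 1) (hg1 : ∀ l, ‖g l‖ < 1) (ha : ‖a‖ < 1)
    (hb : ‖b‖ < 1) : Tendsto (fun l => fadd F (f l) (g l)) atTop (𝓝 (fadd F a b)) := by
  rw [tendsto_iff_norm_sub_tendsto_zero]
  refine squeeze_zero (fun l => norm_nonneg _) (fun l => norm_fadd_sub_le F (hf1 l) (hg1 l) ha hb
    (le_max_of_le_left (norm_nonneg _)) (le_max_left _ _) (le_max_right _ _)) ?_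
  simpa using ((tendsto_iff_norm_sub_tendsto_zero.1 hf).max (tendsto_iff_norm_sub_tendsto_zero.1 hg))

theorem evalP_tendsto (F : PowerSeries O) {f : ℕ → O} {a : O} (hf : Tendsto f atTop (𝓝 a))
    (hf1 : ∀ l, ‖f l‖ < 1) (ha : ‖a‖ < 1) :
    Tendsto (fun l => evalP F (f l)) atTop (𝓝 (evalP F a)) := by
  rw [tendsto_iff_norm_sub_tendsto_zero]
  exact squeeze_zero (fun l => norm_nonneg _) (fun l => norm_evalMv_sub_le (fun _ => hf1 l)
    (fun _ => ha) _ (norm_nonneg _) fun _ => le_rfl) (tendsto_iff_norm_sub_tendsto_zero.1 hf)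

theorem norm_evalP_sub_coeff {f g : PowerSeries O} {δ : ℝ} (hδ : 0 ≤ δ) {x : O} (hx : ‖x‖ < 1)
    (h : ∀ d, ‖PowerSeries.coeff d f - PowerSeries.coeff d g‖ ≤ δ) :
    ‖evalP f x - evalP g x‖ ≤ δ := by
  rw [evalP, evalP, ← evalMv_sub (fun _ => hx)]
  refine norm_evalMv_le_of_coeff (fun _ => hx) _ hδ fun d => ?_
  have hd : d = Finsupp.single () (d ()) := by ext; simp
  rw [hd, map_sub]
  exact h (d ())

end Vale.P217

end
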