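import Vale.Agent.P217.CharZeroCocycle
import Vale.Agent.P217.CoverCongr
import Mathlib.RingTheory.MvPowerSeries.Derivative

/-!
Estimates for the limits and their derivatives, and Taylor's formula for values of series.
-/

noncomputable section

set_option linter.unusedSectionVars false

namespace Vale.P217

open Filter Topology

section Taylor

variable {O : Type*} [NormedCommRing O] [IsUltrametricDist O] [UnitNormed O] {σ : Type*}
  [Fintype σ]

/-- First order expansion of a polynomial at a small displacement. -/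
theorem norm_aeval_taylor_add (P : MvPolynomial σ ℤ) (u h : σ → O) {δ : ℝ} (hδ : 0 ≤ δ)
    (hh : ∀ i, ‖h i‖ ≤ δ) :
    ‖MvPolynomial.aeval (fun i => u i + h i) P - MvPolynomial.aeval u P - dirDeriv u h P‖
      ≤ δ ^ 2 := by
  classical
  induction P using MvPolynomial.induction_on with
  | C a => simp [dirDeriv, sq_nonneg]
  | add P Q hP hQ =>
    have hd : dirDeriv u h (P + Q) = dirDeriv u h P + dirDeriv u h Q := by
      simp only [dirDeriv, map_add, mul_add, Finset.sum_add_distrib]
    rw [map_add, map_add, hd, show ∀ a b c d e f : O,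
      a + b - (c + d) - (e + f) = (a - c - e) + (b - d - f) by intros; ring]
    exact (IsUltrametricDist.norm_add_le_max _ _).trans (max_le hP hQ)
  | mul_X P j hP =>
    have hd : dirDeriv u h (P * MvPolynomial.X j) =
        dirDeriv u h P * u j + MvPolynomial.aeval u P * h j := by
      simp only [dirDeriv, MvPolynomial.pderiv_mul, MvPolynomial.pderiv_X, map_add, map_mul,
        MvPolynomial.aeval_X, mul_add, Finset.sum_add_distrib]
      congr 1
      · rw [Finset.sum_mul]; exact Finset.sum_congr rfl fun i _ => by ring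
      · rw [Finset.sum_eq_single j]
        · simp [mul_comm]
        · intro i _ hij
          simp [Pi.single_eq_of_ne (Ne.symm hij)]
        · simp
    rw [map_mul, map_mul, MvPolynomial.aeval_X, MvPolynomial.aeval_X, hd]
    set A := MvPolynomial.aeval (fun i => u i + h i) P
    set B := MvPolynomial.aeval u P
    rw [show A * (u j + h j) - B * u j - (dirDeriv u h P * u j + B * h j) =
      (A - B - dirDeriv u h P) * (u j + h j) + dirDeriv u h P * h j by ring]
    refine (IsUltrametricDist.norm_add_le_max _ _).trans (max_le ?_ ?_)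
    · exact (norm_mul_le_left _ _).trans hP
    · refine (norm_mul_le _ _).trans ?_
      rw [sq]
      refine mul_le_mul ?_ (hh j) (norm_nonneg _) hδ
      exact IsUltrametricDist.norm_sum_le_of_forall_le_of_nonneg hδ fun i _ =>
        (norm_mul_le_left _ _).trans (hh i)

variable [CompleteSpace O]

/-- The value of a derivative, indexed by the monomials of the series. -/
theorem hasSum_pderiv_monomial {u : σ → O} (hu : ∀ i, ‖u i‖ < 1) (f : MvPowerSeries σ O) (i : σ) :
    HasSum (fun d => MvPowerSeries.coeff d f *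
        MvPolynomial.aeval u (MvPolynomial.pderiv i (MvPolynomial.monomial d (1 : ℤ))))
      (evalMv (MvPowerSeries.pderiv O i f) u) := by
  classical
  refine (Function.Injective.hasSum_iff (g := fun e => e + Finsupp.single i 1)
    (fun a b h => add_right_cancel h) ?_).1 ?_
  · intro d hd
    have h0 : d i = 0 := by
      by_contra hne
      exact hd ⟨d - Finsupp.single i 1,
        tsub_add_cancel_of_le (Finsupp.single_le_iff.2 (Nat.one_le_iff_ne_zero.2 hne))⟩
    rw [MvPolynomial.pderiv_monomial, h0]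
    simp
  · refine (hasSum_evalMv hu (MvPowerSeries.pderiv O i f)).congr_fun fun e => ?_
    rw [MvPowerSeries.coeff_pderiv, Function.comp_apply, MvPolynomial.pderiv_monomial,
      MvPolynomial.aeval_monomial, add_tsub_cancel_right, one_mul]
    simp
    ring

/-- Taylor's formula to first order for the values of a series. -/
theorem norm_evalMv_taylor_add {u v : σ → O} (hu : ∀ i, ‖u i‖ < 1) (hv : ∀ i, ‖v i‖ < 1)
    (f : MvPowerSeries σ O) {δ : ℝ} (hδ : 0 ≤ δ) (h : ∀ i, ‖v i - u i‖ ≤ δ) :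
    ‖evalMv f v - evalMv f u -
        ∑ i, (v i - u i) * evalMv (MvPowerSeries.pderiv O i f) u‖ ≤ δ ^ 2 := by
  classical
  have hmon : ∀ (x : σ → O) (d : σ →₀ ℕ),
      MvPolynomial.aeval x (MvPolynomial.monomial d (1 : ℤ)) = d.prod fun i e => x i ^ e :=
    fun x d => by rw [MvPolynomial.aeval_monomial, map_one, one_mul]
  have hsum := ((hasSum_evalMv hv f).sub (hasSum_evalMv hu f)).sub
    (hasSum_sum (s := Finset.univ) fun i _ => (hasSum_pderiv_monomial hu f i).mul_left (v i - u i))
  refine le_of_tendsto hsum.norm (Filter.Eventually.of_forall fun s => ?_)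
  refine IsUltrametricDist.norm_sum_le_of_forall_le_of_nonneg (sq_nonneg δ) fun d _ => ?_
  have ht := norm_aeval_taylor_add (MvPolynomial.monomial d (1 : ℤ)) u (fun i => v i - u i) hδ h
  simp only [add_sub_cancel, hmon] at ht
  refine le_trans (le_of_eq ?_) ((norm_mul_le_right (MvPowerSeries.coeff d f) _).trans ht)
  congr 1
  simp only [dirDeriv, mul_sub, Finset.mul_sum]
  congr 1
  exact Finset.sum_congr rfl fun i _ => by ring

end Taylor

section Wvec

variable {p : ℕ} [Fact p.Prime] {n : ℕ} {K : Type} [NontriviallyNormedField K]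
  [IsUltrametricDist K] [CompleteSpace K] [CharZero K]

/-- The derivative of `wvec`. -/
def dwvec (U e : Fin (n - 1) → K) (i : ℕ) : K := wlim p n (dLog p n U e) i

variable {ε : ℝ}

theorem tendsto_dwvec (hn : 1 ≤ n) (hε1 : ε < 1) (hp : ‖((p : ℕ) : K)‖ ≤ ε)
    {U : Fin (n - 1) → K} (hU : ∀ j, ‖U j‖ ≤ ε) (e : Fin (n - 1) → K) (i : ℕ) :
    Tendsto (fun r => (p : K) ^ r * dLog p n U e (n * r + i)) atTop
      (𝓝 (dwvec (p := p) U e i)) := by
  have hε : 0 < ε := norm_p_pos.trans_le hp
  obtain ⟨H, hH1, hH, -⟩ := exists_defect_bound (p := p) (K := K) hn hε1 hp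
  exact tendsto_wlim (C := H * ‖e‖) (fun L => norm_dDefect_le hn hε.le hε1.le (norm_nonneg e) hU
    (norm_le_pi_norm e) (zero_le_one.trans hH1) fun M _ => hH M) (hp.trans_lt hε1) i

theorem dwvec_add (hn : 1 ≤ n) (hε1 : ε < 1) (hp : ‖((p : ℕ) : K)‖ ≤ ε)
    {U : Fin (n - 1) → K} (hU : ∀ j, ‖U j‖ ≤ ε) (e e' : Fin (n - 1) → K) (i : ℕ) :
    dwvec (p := p) U (e + e') i = dwvec (p := p) U e i + dwvec (p := p) U e' i := by
  refine tendsto_nhds_unique (tendsto_dwvec hn hε1 hp hU (e + e') i) ?_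
  refine ((tendsto_dwvec hn hε1 hp hU e i).add (tendsto_dwvec hn hε1 hp hU e' i)).congr fun r => ?_
  rw [dLog_add, mul_add]

theorem dwvec_smul (hn : 1 ≤ n) (hε1 : ε < 1) (hp : ‖((p : ℕ) : K)‖ ≤ ε)
    {U : Fin (n - 1) → K} (hU : ∀ j, ‖U j‖ ≤ ε) (c : K) (e : Fin (n - 1) → K) (i : ℕ) :
    dwvec (p := p) U (c • e) i = c * dwvec (p := p) U e i := by
  refine tendsto_nhds_unique (tendsto_dwvec hn hε1 hp hU (c • e) i) ?_
  refine ((tendsto_dwvec hn hε1 hp hU e i).const_mul c).congr fun r => ?_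
  rw [dLog_smul]; ring

/-- Bounds for the limits and the remainders, uniform in the point. -/
theorem exists_wvec_bounds (hn : 1 ≤ n) (hε1 : ε < 1) (hp : ‖((p : ℕ) : K)‖ ≤ ε) (B : ℕ) :
    ∃ C : ℝ, 1 ≤ C ∧ ∀ U V : Fin (n - 1) → K, (∀ j, ‖U j‖ ≤ ε) → (∀ j, ‖V j‖ ≤ ε) →
      ∀ i ≤ B, ‖wvec p n V i - wvec p n U i - dwvec (p := p) U (V - U) i‖ ≤ C * ‖V - U‖ ^ 2 ∧
        ‖wvec p n V i - wvec p n U i‖ ≤ C * ‖V - U‖ := by
  have hε : 0 < ε := norm_p_pos.trans_le hp
  have hp1 : ‖((p : ℕ) : K)‖ < 1 := hp.trans_lt hε1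
  obtain ⟨H, hH1, hH, hcH⟩ := exists_defect_bound (p := p) (K := K) hn hε1 hp
  set P := ‖((p : ℕ) : K)‖
  have hP : 0 < P := norm_p_pos
  set C := max H (P ^ B)⁻¹
  have hC1 : 1 ≤ C := hH1.trans (le_max_left _ _)
  have hH0 : 0 ≤ H := zero_le_one.trans hH1
  refine ⟨C, hC1, fun U V hU hV i hi => ?_⟩
  set δ := ‖V - U‖ with hδdef
  have hδ : 0 ≤ δ := norm_nonneg _
  have hxy : ∀ j, ‖V j - U j‖ ≤ δ := norm_le_pi_norm (V - U)
  have hU1 : ∀ j, ‖U j‖ ≤ 1 := fun j => (hU j).trans hε1.le
  have hV1 : ∀ j, ‖V j‖ ≤ 1 := fun j => (hV j).trans hε1.le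
  have hPi : (P ^ i)⁻¹ ≤ C := le_trans
    (inv_anti₀ (pow_pos hP B) (pow_le_pow_of_le_one hP.le hp1.le hi)) (le_max_right _ _)
  have hval : ∀ x : K, ∀ b : ℝ, 0 ≤ b → P ^ i * ‖x‖ ≤ b → ‖x‖ ≤ C * b := fun x b hb hx => by
    calc ‖x‖ = (P ^ i)⁻¹ * (P ^ i * ‖x‖) := by
          rw [← mul_assoc, inv_mul_cancel₀ (pow_pos hP i).ne', one_mul]
      _ ≤ C * b := mul_le_mul hPi hx (by positivity) (zero_le_one.trans hC1)
  constructor
  · set a : ℕ → K := fun L => cLog p n V L - cLog p n U L - dLog p n U (V - U) L with ha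
    have hdef : ∀ L, ‖(p : K) * a (L + n) - a L‖ ≤ H * δ ^ 2 := fun L =>
      norm_taylor_defect_le hn hε.le hε1.le hδ hU hV hxy hH0 fun M _ => hH M
    have hw : wlim p n a i = wvec p n V i - wvec p n U i - dwvec (p := p) U (V - U) i := by
      refine tendsto_nhds_unique (tendsto_wlim hdef hp1 i) ?_
      refine (((tendsto_wlim (hcH V hV) hp1 i).sub (tendsto_wlim (hcH U hU) hp1 i)).sub
        (tendsto_dwvec hn hε1 hp hU (V - U) i)).congr fun r => ?_
      simp only [ha]; ring
    rw [← hw]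
    refine (norm_wlim_le hdef hp1 i).trans (max_le ?_ ?_)
    · exact hval _ _ (sq_nonneg δ) (norm_cLog_taylor_le hδ hU1 hV1 hxy i)
    · exact mul_le_mul_of_nonneg_right (le_max_left _ _) (sq_nonneg δ)
  · set a : ℕ → K := fun L => cLog p n V L - cLog p n U L with ha
    have hdef : ∀ L, ‖(p : K) * a (L + n) - a L‖ ≤ H * δ := by
      intro L
      have hδ1 : δ ≤ 1 := (pi_norm_le_iff_of_nonneg zero_le_one).2 fun j => by
        rw [Pi.sub_apply, sub_eq_add_neg]
        exact (IsUltrametricDist.norm_add_le_max _ _).trans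
          (max_le (hV1 j) (by rw [norm_neg]; exact hU1 j))
      have h1 := norm_taylor_defect_le (L := L) hn hε.le hε1.le hδ hU hV hxy hH0 fun M _ => hH M
      have h2 := norm_dDefect_le (L := L) hn hε.le hε1.le hδ hU hxy hH0 fun M _ => hH M
      rw [show (p : K) * a (L + n) - a L =
        ((p : K) * (cLog p n V (L + n) - cLog p n U (L + n) - dLog p n U (V - U) (L + n)) -
          (cLog p n V L - cLog p n U L - dLog p n U (V - U) L)) +
        ((p : K) * dLog p n U (V - U) (L + n) - dLog p n U (V - U) L) by simp only [ha]; ring]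
      refine (IsUltrametricDist.norm_add_le_max _ _).trans (max_le (h1.trans ?_) h2)
      exact mul_le_mul_of_nonneg_left (by nlinarith) hH0
    have hw : wlim p n a i = wvec p n V i - wvec p n U i := by
      refine tendsto_nhds_unique (tendsto_wlim hdef hp1 i) ?_
      refine ((tendsto_wlim (hcH V hV) hp1 i).sub (tendsto_wlim (hcH U hU) hp1 i)).congr
        fun r => ?_
      simp only [ha]; ring
    rw [← hw]
    refine (norm_wlim_le hdef hp1 i).trans (max_le ?_ ?_)
    · exact hval _ _ hδ (norm_cLog_sub_le hδ hU1 hV1 hxy i)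
    · exact mul_le_mul_of_nonneg_right (le_max_left _ _) hδ

end Wvec

end Vale.P217

end
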