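import Vale.Agent.P217.CocycleBasic
import Mathlib.FieldTheory.IsAlgClosed.Basic
import Mathlib.FieldTheory.Finite.Basic

/-!
Isomorphisms of formal group laws in characteristic `p`, degree by degree.
-/

noncomputable section

namespace Vale.P217

open MvPowerSeries Finsupp

section General

variable {k : Type*} [CommRing k]

theorem subst_pair_comp {σ τ : Type*} [Finite σ] {u v : MvPowerSeries σ k} (hu : u ∈ below 1)
    (hv : v ∈ below 1) {b : σ → MvPowerSeries τ k} (hb : ∀ s, b s ∈ below 1)
    (Φ : MvPowerSeries (Fin 2) k) :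
    subst b (subst ![u, v] Φ) = subst ![subst b u, subst b v] Φ := by
  rw [subst_comp_subst_apply (hasSubst_pair_below hu hv) (hasSubst_of_below hb)]
  congr 1
  ext i : 1
  fin_cases i <;> rfl

/-- The additivity of substitution in a law, to first order. -/
theorem subst_fg_linear (G : FormalGroup k) {τ : Type*} {u v u' v' : MvPowerSeries τ k}
    (hu : u ∈ below 1) (hv : v ∈ below 1) (hu' : u' ∈ below 1) (hv' : v' ∈ below 1) {e : ℕ}
    (h1 : u - u' ∈ below e) (h2 : v - v' ∈ below e) :
    subst ![u, v] G.toPowerSeries - subst ![u', v'] G.toPowerSeries - ((u - u') + (v - v')) ∈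
      below (e + 1) := by
  have h := subst_sub_subst_linear (σ := Fin 2) (a := ![u, v]) (b := ![u', v'])
    (fun s => by fin_cases s <;> assumption) (fun s => by fin_cases s <;> assumption) (e := e)
    (fun s => by fin_cases s <;> assumption) G.zero_constantCoeff
  rw [Fin.sum_univ_two, G.lin_coeff_X, G.lin_coeff_Y, map_one] at h
  simpa using h

theorem subst_fg_four (G : FormalGroup k) [G.IsComm] {τ : Type*} [Finite τ]
    {a b c d : MvPowerSeries τ k} (ha : a ∈ below 1) (hb : b ∈ below 1) (hc : c ∈ below 1)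
    (hd : d ∈ below 1) :
    subst ![subst ![a, b] G.toPowerSeries, subst ![c, d] G.toPowerSeries] G.toPowerSeries =
      subst ![subst ![a, c] G.toPowerSeries, subst ![b, d] G.toPowerSeries] G.toPowerSeries := by
  have h1 : ∀ {x : MvPowerSeries τ k}, x ∈ below 1 → PowerSeries.HasSubst x :=
    fun hx => hasSubst_single_of_below hx
  have hcd := subst_pair_mem_below hc hd G
  have hbd := subst_pair_mem_below hb hd G
  rw [G.assoc' (h1 ha) (h1 hb) (h1 hcd), ← G.assoc' (h1 hb) (h1 hc) (h1 hd),
    G.comm' (h1 hb) (h1 hc), G.assoc' (h1 hc) (h1 hb) (h1 hd),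
    G.assoc' (h1 ha) (h1 hc) (h1 hbd)]

theorem subst_fg_zero (G : FormalGroup k) {f : PowerSeries k}
    (h0 : PowerSeries.constantCoeff f = 0) :
    subst ![f, (0 : PowerSeries k)] G.toPowerSeries = f := by
  have hb : ∀ _ : Unit, f ∈ below (σ := Unit) 1 := fun _ => mem_below_one_iff'.2 h0
  have h := congrArg (subst fun _ : Unit => f) G.Xzero_eq_X
  rw [FormalGroup.Xzero, subst_pair_comp (u := (PowerSeries.X : PowerSeries k)) (X_mem_below _)
    (Ideal.zero_mem _) hb] at h
  rw [show subst (fun _ : Unit => f) (PowerSeries.X : PowerSeries k) = f from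
    PowerSeries.subst_X (hasSubst_single_of_below (hb ()))] at h
  rw [← coe_substAlgHom (hasSubst_of_below hb), map_zero] at h
  exact h

/-- The failure of `f` to be a homomorphism. -/
def homDefect (F G : FormalGroup k) (f : PowerSeries k) : MvPowerSeries (Fin 2) k :=
  PowerSeries.subst F.toPowerSeries f -
    subst ![PowerSeries.subst (X (0 : Fin 2)) f, PowerSeries.subst (X (1 : Fin 2)) f]
      G.toPowerSeries

variable {F G : FormalGroup k} {f : PowerSeries k}

theorem subst_f_mem (h0 : PowerSeries.constantCoeff f = 0) {τ : Type*} {a : MvPowerSeries τ k}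
    (ha : a ∈ below 1) : PowerSeries.subst a f ∈ below 1 :=
  subst_single_mem_below ha (mem_below_one_iff'.2 h0)

theorem subst_f_sub_linear (h0 : PowerSeries.constantCoeff f = 0) {τ : Type*}
    {a : MvPowerSeries τ k} (ha : a ∈ below 1) :
    PowerSeries.subst a f - C (PowerSeries.coeff 1 f) * a ∈ below 2 := by
  simpa [PowerSeries.subst_zero_of_constantCoeff_zero h0] using
    subst_single_sub_linear ha (Ideal.zero_mem _) (e := 1) (by simpa using ha) h0

theorem subst_homDefect (h0 : PowerSeries.constantCoeff f = 0) {τ : Type*}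
    {u v : MvPowerSeries τ k} (hu : u ∈ below 1) (hv : v ∈ below 1) :
    subst ![u, v] (homDefect F G f) =
      PowerSeries.subst (subst ![u, v] F.toPowerSeries) f -
        subst ![PowerSeries.subst u f, PowerSeries.subst v f] G.toPowerSeries := by
  have hs : ∀ i, (![u, v] : Fin 2 → MvPowerSeries τ k) i ∈ below 1 := fun i => by
    fin_cases i <;> assumption
  rw [homDefect, subst_sub (hasSubst_of_below hs), subst_subst_single (fg_mem_below_one F) hs,
    subst_pair_comp (subst_f_mem h0 (X_mem_below _)) (subst_f_mem h0 (X_mem_below _)) hs,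
    subst_subst_single (X_mem_below _) hs, subst_subst_single (X_mem_below _) hs,
    subst_X (hasSubst_of_below hs), subst_X (hasSubst_of_below hs)]
  rfl

theorem homDefect_mem_two (h0 : PowerSeries.constantCoeff f = 0) :
    homDefect F G f ∈ below 2 := by
  have hX := subst_f_sub_linear h0 (X_mem_below (R := k) (0 : Fin 2))
  have hY := subst_f_sub_linear h0 (X_mem_below (R := k) (1 : Fin 2))
  have hFl := subst_f_sub_linear h0 (fg_mem_below_one F)
  have hs : ∀ i, (![PowerSeries.subst (X (0 : Fin 2)) f, PowerSeries.subst (X (1 : Fin 2)) f] :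
      Fin 2 → MvPowerSeries (Fin 2) k) i ∈ below 1 := fun i => by
    fin_cases i <;> exact subst_f_mem h0 (X_mem_below _)
  have hG := subst_mem_below_one hs (fg_sub_linear_mem_below G)
  rw [subst_sub (hasSubst_of_below hs), subst_add (hasSubst_of_below hs),
    subst_X (hasSubst_of_below hs), subst_X (hasSubst_of_below hs)] at hG
  have h2 := Ideal.mul_mem_left _ (C (PowerSeries.coeff 1 f)) (fg_sub_linear_mem_below F)
  have := Ideal.sub_mem _ (Ideal.sub_mem _ (Ideal.sub_mem _ (Ideal.add_mem _ hFl h2) hX) hY) hG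
  convert this using 1
  rw [homDefect]
  simp
  ring

theorem homDefect_symm [F.IsComm] [G.IsComm] (h0 : PowerSeries.constantCoeff f = 0) :
    subst ![(X 1 : MvPowerSeries (Fin 2) k), X 0] (homDefect F G f) = homDefect F G f := by
  rw [subst_homDefect h0 (X_mem_below _) (X_mem_below _), ← FormalGroup.IsComm.comm,
    G.comm' (hasSubst_single_of_below (subst_f_mem h0 (X_mem_below _)))
      (hasSubst_single_of_below (subst_f_mem h0 (X_mem_below _)))]
  rfl

theorem homDefect_cocycle (h0 : PowerSeries.constantCoeff f = 0) {D : ℕ}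
    (hE : homDefect F G f ∈ below D) :
    cocycleDefect F (homDefect F G f) ∈ below (D + 1) := by
  set E := homDefect F G f with hEdef
  have hX : ∀ i : Fin 3, (X i : MvPowerSeries (Fin 3) k) ∈ below 1 := X_mem_below
  set A : MvPowerSeries (Fin 3) k := subst ![X 0, X 1] F.toPowerSeries with hAdef
  set B : MvPowerSeries (Fin 3) k := subst ![X 1, X 2] F.toPowerSeries with hBdef
  have hA : A ∈ below 1 := subst_pair_mem_below (hX 0) (hX 1) F
  have hB : B ∈ below 1 := subst_pair_mem_below (hX 1) (hX 2) F
  have hfX : ∀ i : Fin 3, PowerSeries.subst (X i) f ∈ below (σ := Fin 3) 1 :=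
    fun i => subst_f_mem h0 (hX i)
  have hGpair : ∀ i j : Fin 3, subst ![PowerSeries.subst (X i) f, PowerSeries.subst (X j) f]
      G.toPowerSeries ∈ below (σ := Fin 3) 1 :=
    fun i j => subst_pair_mem_below (hfX i) (hfX j) G
  have e1 := subst_homDefect (F := F) (G := G) h0 (hX 0) (hX 1)
  have e2 := subst_homDefect (F := F) (G := G) h0 hA (hX 2)
  have e3 := subst_homDefect (F := F) (G := G) h0 (hX 1) (hX 2)
  have e4 := subst_homDefect (F := F) (G := G) h0 (hX 0) hB
  rw [← hEdef, ← hAdef] at e1
  rw [← hEdef, ← hBdef] at e3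
  rw [← hEdef] at e2 e4
  have hd1 : PowerSeries.subst A f -
      subst ![PowerSeries.subst (X 0) f, PowerSeries.subst (X 1) f] G.toPowerSeries ∈
        below (σ := Fin 3) D := by
    rw [← e1]
    exact subst_mem_below_one (fun i => by fin_cases i <;> exact hX _) hE
  have hd3 : PowerSeries.subst B f -
      subst ![PowerSeries.subst (X 1) f, PowerSeries.subst (X 2) f] G.toPowerSeries ∈
        below (σ := Fin 3) D := by
    rw [← e3]
    exact subst_mem_below_one (fun i => by fin_cases i <;> exact hX _) hE
  have l1 := subst_fg_linear G (subst_f_mem h0 hA) (hfX 2) (hGpair 0 1) (hfX 2) hd1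
    (by rw [sub_self]; exact Ideal.zero_mem _)
  have l2 := subst_fg_linear G (hfX 0) (subst_f_mem h0 hB) (hfX 0) (hGpair 1 2)
    (by rw [sub_self]; exact Ideal.zero_mem _) hd3
  have hassoc := G.assoc' (hasSubst_single_of_below (hfX 0)) (hasSubst_single_of_below (hfX 1))
    (hasSubst_single_of_below (hfX 2))
  have hFassoc : subst ![A, X 2] F.toPowerSeries = subst ![X 0, B] F.toPowerSeries := F.assoc
  have h := Ideal.sub_mem _ l1 l2
  convert h using 1
  rw [cocycleDefect, ← hAdef, ← hBdef, e1, e2, e3, e4, hFassoc, hassoc]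
  ring

theorem mulSeries_sub_linear_mem (F : FormalGroup k) (m : ℕ) :
    mulSeries F m - PowerSeries.C (m : k) * PowerSeries.X ∈ below (σ := Unit) 2 := by
  induction m with
  | zero => simp [mulSeries]
  | succ m ih =>
    have hm : mulSeries F m ∈ below (σ := Unit) 1 :=
      mem_below_one_iff'.2 (constantCoeff_mulSeries F m)
    have hX : (PowerSeries.X : PowerSeries k) ∈ below (σ := Unit) 1 := X_mem_below _
    have hs : ∀ i, (![mulSeries F m, PowerSeries.X] : Fin 2 → PowerSeries k) i ∈
        below (σ := Unit) 1 := fun i => by fin_cases i <;> assumption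
    have h := subst_mem_below_one hs (fg_sub_linear_mem_below F)
    rw [subst_sub (hasSubst_of_below hs), subst_add (hasSubst_of_below hs),
      subst_X (hasSubst_of_below hs), subst_X (hasSubst_of_below hs)] at h
    have := Ideal.add_mem _ h ih
    convert this using 1
    rw [mulSeries, Nat.cast_succ, map_add, map_one]
    simp
    ring

theorem mulSeries_defect (h0 : PowerSeries.constantCoeff f = 0) {D : ℕ} (hD : 1 ≤ D)
    (hE : homDefect F G f ∈ below D) (m : ℕ) :
    PowerSeries.subst (mulSeries F m) f - PowerSeries.subst f (mulSeries G m) -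
        ∑ i ∈ Finset.range m,
          subst ![PowerSeries.C (i : k) * PowerSeries.X, PowerSeries.X] (homDefect F G f) ∈
      below (σ := Unit) (D + 1) := by
  have hf : f ∈ below (σ := Unit) 1 := mem_below_one_iff'.2 h0
  have hX : (PowerSeries.X : PowerSeries k) ∈ below (σ := Unit) 1 := X_mem_below _
  induction m with
  | zero =>
    have z1 : PowerSeries.subst (0 : PowerSeries k) f = 0 :=
      PowerSeries.subst_zero_of_constantCoeff_zero h0
    have z2 : PowerSeries.subst f (0 : PowerSeries k) = 0 := by
      rw [← PowerSeries.coe_substAlgHom (hasSubst_single_of_below hf), map_zero]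
    rw [mulSeries, mulSeries, z1, z2]
    simp
  | succ m ih =>
    set P := mulSeries F m with hP
    set Q := mulSeries G m with hQ
    have hP1 : P ∈ below (σ := Unit) 1 := mem_below_one_iff'.2 (constantCoeff_mulSeries F m)
    have hQ1 : Q ∈ below (σ := Unit) 1 := mem_below_one_iff'.2 (constantCoeff_mulSeries G m)
    have hC : ∀ i : ℕ, PowerSeries.C (i : k) * PowerSeries.X ∈ below (σ := Unit) 1 :=
      fun i => Ideal.mul_mem_left _ _ hX
    have hsum : ∑ i ∈ Finset.range m,
        subst ![PowerSeries.C (i : k) * PowerSeries.X, PowerSeries.X] (homDefect F G f) ∈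
          below (σ := Unit) D :=
      Ideal.sum_mem _ fun i _ =>
        subst_mem_below_one (fun s => by fin_cases s <;> [exact hC i; exact hX]) hE
    have hδ : PowerSeries.subst P f - PowerSeries.subst f Q ∈ below (σ := Unit) D := by
      simpa using Ideal.add_mem _ (below_antitone (D := D) (by omega) ih) hsum
    have hfQ : PowerSeries.subst f Q ∈ below (σ := Unit) 1 := subst_single_mem_below hf hQ1
    have e1 : PowerSeries.subst (mulSeries F (m + 1)) f = subst ![P, PowerSeries.X]
        (homDefect F G f) + subst ![PowerSeries.subst P f, f] G.toPowerSeries := by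
      rw [subst_homDefect h0 hP1 hX, mulSeries, PowerSeries.X_subst, sub_add_cancel, hP]
    have e2 : PowerSeries.subst f (mulSeries G (m + 1)) =
        subst ![PowerSeries.subst f Q, f] G.toPowerSeries := by
      rw [mulSeries, ← hQ]
      refine (subst_pair_comp hQ1 hX (b := fun _ : Unit => f) (fun _ => hf) _).trans ?_
      congr 1
      ext i : 1
      fin_cases i
      · rfl
      · exact PowerSeries.subst_X (hasSubst_single_of_below hf)
    have hlin := subst_fg_linear G (subst_f_mem h0 hP1) hf hfQ hf hδ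
      (by rw [sub_self]; exact Ideal.zero_mem _)
    have hrep : subst ![P, PowerSeries.X] (homDefect F G f) -
        subst ![PowerSeries.C (m : k) * PowerSeries.X, PowerSeries.X] (homDefect F G f) ∈
          below (σ := Unit) (D + 1) := by
      refine below_antitone (by omega) (subst_sub_subst_mem_below (e := 2) ?_ ?_ ?_ hE) <;>
        intro s <;> fin_cases s
      · exact hP1
      · exact hX
      · exact hC m
      · exact hX
      · exact mulSeries_sub_linear_mem F m
      · simp
    have := Ideal.add_mem _ (Ideal.add_mem _ hrep ih) hlin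
    convert this using 1
    rw [e1, e2, Finset.sum_range_succ]
    ring

/-- Changing `f` to `f +_G u`. -/
theorem homDefect_perturb [G.IsComm] (h0 : PowerSeries.constantCoeff f = 0) {u : PowerSeries k}
    (u0 : PowerSeries.constantCoeff u = 0) {D : ℕ} (hE : homDefect F G f ∈ below D)
    (hu : homDefect F G u ∈ below D) :
    homDefect F G (subst ![f, u] G.toPowerSeries) - (homDefect F G f + homDefect F G u) ∈
      below (D + 1) := by
  have hf : f ∈ below (σ := Unit) 1 := mem_below_one_iff'.2 h0
  have hu1 : u ∈ below (σ := Unit) 1 := mem_below_one_iff'.2 u0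
  have hsub : ∀ {a : MvPowerSeries (Fin 2) k}, a ∈ below 1 →
      PowerSeries.subst a (subst ![f, u] G.toPowerSeries) =
        subst ![PowerSeries.subst a f, PowerSeries.subst a u] G.toPowerSeries := fun ha =>
    subst_pair_comp hf hu1 (fun _ => ha) _
  have hX : ∀ i : Fin 2, (X i : MvPowerSeries (Fin 2) k) ∈ below 1 := X_mem_below
  set fF := PowerSeries.subst F.toPowerSeries f
  set uF := PowerSeries.subst F.toPowerSeries u
  have hlin := subst_fg_linear G (subst_f_mem h0 (fg_mem_below_one F))
    (subst_f_mem u0 (fg_mem_below_one F))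
    (subst_pair_mem_below (subst_f_mem h0 (hX 0)) (subst_f_mem h0 (hX 1)) G)
    (subst_pair_mem_below (subst_f_mem u0 (hX 0)) (subst_f_mem u0 (hX 1)) G) hE hu
  convert hlin using 1
  rw [homDefect, hsub (fg_mem_below_one F), hsub (hX 0), hsub (hX 1),
    subst_fg_four G (subst_f_mem h0 (hX 0)) (subst_f_mem u0 (hX 0)) (subst_f_mem h0 (hX 1))
      (subst_f_mem u0 (hX 1))]
  rfl

theorem subst_pair_sub_mem {u : PowerSeries k} (h0 : PowerSeries.constantCoeff f = 0) {M : ℕ}
    (hM : 1 ≤ M) (hu : u ∈ below (σ := Unit) M) :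
    subst ![f, u] G.toPowerSeries - f ∈ below (σ := Unit) M := by
  have hf : f ∈ below (σ := Unit) 1 := mem_below_one_iff'.2 h0
  have h := subst_fg_linear G hf (below_antitone hM hu) hf (Ideal.zero_mem _)
    (e := M) (by rw [sub_self]; exact Ideal.zero_mem _) (by rwa [sub_zero])
  rw [sub_self, zero_add, sub_zero, subst_fg_zero G h0] at h
  simpa using Ideal.add_mem _ (below_antitone (D := M) (by omega) h) hu

/-- Successive approximation of a homomorphism. -/
theorem exists_hom_of_step {q : ℕ} (hq : 1 ≤ q) {c : k}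
    (hstep : ∀ D, 2 ≤ D → ∀ f : PowerSeries k, PowerSeries.constantCoeff f = 0 →
      PowerSeries.coeff 1 f = c → homDefect F G f ∈ below D →
      ∃ f', f' - f ∈ below (σ := Unit) (max 2 (D / q)) ∧ homDefect F G f' ∈ below (D + 1)) :
    ∃ f : PowerSeries k, IsHomSeries F G f ∧ PowerSeries.coeff 1 f = c := by
  let Good : ℕ → Type _ := fun t => {f : PowerSeries k // PowerSeries.constantCoeff f = 0 ∧
    PowerSeries.coeff 1 f = c ∧ homDefect F G f ∈ below (t + 2)}
  have hc0 : PowerSeries.constantCoeff (PowerSeries.C c * PowerSeries.X) = 0 := by simp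
  choose f' hf' hfE' using fun t (x : Good t) =>
    hstep (t + 2) (by omega) x.1 x.2.1 x.2.2.1 x.2.2.2
  have hlow : ∀ t (x : Good t) M, M < max 2 ((t + 2) / q) →
      PowerSeries.coeff M (f' t x) = PowerSeries.coeff M x.1 := fun t x M hM =>
    coeff_eq_of_below (hf' t x) (d := single () M) (by rwa [Finsupp.degree_single])
  have hmk : ∀ t (x : Good t), PowerSeries.constantCoeff (f' t x) = 0 ∧
      PowerSeries.coeff 1 (f' t x) = c ∧ homDefect F G (f' t x) ∈ below (t + 1 + 2) := by
    intro t x
    refine ⟨?_, ?_, hfE' t x⟩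
    · rw [← PowerSeries.coeff_zero_eq_constantCoeff, hlow t x 0 (by omega),
        PowerSeries.coeff_zero_eq_constantCoeff, x.2.1]
    · rw [hlow t x 1 (by omega), x.2.2.1]
  let S : (t : ℕ) → Good t := fun t =>
    Nat.rec ⟨PowerSeries.C c * PowerSeries.X, hc0, by simp, homDefect_mem_two hc0⟩
      (fun t x => ⟨f' t x, hmk t x⟩) t
  have hstab : ∀ M t, (M + 1) * q ≤ t →
      PowerSeries.coeff M (S t).1 = PowerSeries.coeff M (S ((M + 1) * q)).1 := by
    intro M t ht
    induction t, ht using Nat.le_induction with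
    | base => rfl
    | succ t ht ih =>
      refine (hlow t (S t) M (lt_max_of_lt_right ?_)).trans ih
      exact Nat.lt_of_succ_le ((Nat.le_div_iff_mul_le hq).2 (le_trans ht (by omega)))
  set F' : PowerSeries k := PowerSeries.mk fun M => PowerSeries.coeff M (S ((M + 1) * q)).1
    with hF'
  have h0' : PowerSeries.constantCoeff F' = 0 := by
    rw [← PowerSeries.coeff_zero_eq_constantCoeff, hF', PowerSeries.coeff_mk,
      PowerSeries.coeff_zero_eq_constantCoeff, (S _).2.1]
  refine ⟨F', ⟨h0', ?_⟩, by rw [hF', PowerSeries.coeff_mk, (S _).2.2.1]⟩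
  rw [← sub_eq_zero]
  refine eq_of_below fun D => ?_
  rw [sub_zero]
  set t := (D + 1) * q with ht
  have hd : F' - (S t).1 ∈ below (σ := Unit) D := mem_below_of_coeff fun E hE => by
    rw [map_sub, sub_eq_zero, hF', PowerSeries.coeff_mk]
    exact (hstab E t (by rw [ht]; exact Nat.mul_le_mul_right q (by omega))).symm
  have hdiff : ∀ {a : MvPowerSeries (Fin 2) k}, a ∈ below 1 →
      PowerSeries.subst a F' - PowerSeries.subst a (S t).1 ∈ below D := fun ha => by
    rw [← PowerSeries.subst_sub (hasSubst_single_of_below ha)]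
    exact subst_single_mem_below ha hd
  have hG : subst ![PowerSeries.subst (X (0 : Fin 2) : MvPowerSeries (Fin 2) k) F',
          PowerSeries.subst (X (1 : Fin 2) : MvPowerSeries (Fin 2) k) F'] G.toPowerSeries -
      subst ![PowerSeries.subst (X (0 : Fin 2) : MvPowerSeries (Fin 2) k) (S t).1,
          PowerSeries.subst (X (1 : Fin 2) : MvPowerSeries (Fin 2) k) (S t).1] G.toPowerSeries ∈
        below D := by
    refine below_antitone (by omega) (subst_sub_subst_mem_below (e := D) ?_ ?_ ?_
      (fg_mem_below_one G)) <;> intro s <;> fin_cases s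
    · exact subst_f_mem h0' (X_mem_below _)
    · exact subst_f_mem h0' (X_mem_below _)
    · exact subst_f_mem (S t).2.1 (X_mem_below _)
    · exact subst_f_mem (S t).2.1 (X_mem_below _)
    · exact hdiff (X_mem_below _)
    · exact hdiff (X_mem_below _)
  have hDt : D ≤ t + 2 := by rw [ht]; nlinarith
  have := Ideal.add_mem _ (below_antitone hDt (S t).2.2.2)
    (Ideal.sub_mem _ (hdiff (fg_mem_below_one F)) hG)
  convert this using 1
  rw [homDefect]
  ring

end General

section CharP

variable (p : ℕ) [hp : Fact p.Prime] {k : Type*} [Field k] [CharP k p] {F G : FormalGroup k}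

theorem subst_pow_of_fixed [ExpChar k p] {Φ : MvPowerSeries (Fin 2) k}
    (hΦ : MvPowerSeries.map (frobenius k p) Φ = Φ) {τ : Type*} {u v : MvPowerSeries τ k}
    (hu : u ∈ below 1) (hv : v ∈ below 1) (m : ℕ) :
    subst ![u, v] Φ ^ p ^ m = subst ![u ^ p ^ m, v ^ p ^ m] Φ := by
  induction m with
  | zero => simp
  | succ m ih =>
    have hM : 1 ≤ p ^ m := Nat.one_le_pow _ _ hp.1.pos
    have hpow : ∀ {x : MvPowerSeries τ k}, x ∈ below 1 → x ^ p ^ m ∈ below 1 := fun hx =>
      below_antitone (by simpa using hM) (pow_mem_below hx (p ^ m))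
    have hs := hasSubst_pair_below (hpow hu) (hpow hv)
    rw [pow_succ, pow_mul, ih, pow_mul, pow_mul, ← subst_pow hs,
      ← map_frobenius_expand p hp.1.ne_zero, map_expand, hΦ, map_expand_eq_subst hp.1.ne_zero]
    have hX : ∀ s : Fin 2, (X s : MvPowerSeries (Fin 2) k) ^ p ∈ below 1 := fun s =>
      below_antitone (by simpa using hp.1.one_lt.le) (pow_mem_below (X_mem_below s) p)
    have hb : ∀ i, (![u ^ p ^ m, v ^ p ^ m] : Fin 2 → MvPowerSeries τ k) i ∈ below 1 := fun i => by
      fin_cases i <;> [exact hpow hu; exact hpow hv]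
    rw [subst_pair_comp (hX 0) (hX 1) hb, subst_pow (hasSubst_of_below hb),
      subst_pow (hasSubst_of_below hb), subst_X (hasSubst_of_below hb),
      subst_X (hasSubst_of_below hb)]
    rfl

omit hp [CharP k p] in
theorem subst_C_mul_Cpow {τ : Type*} {u v : MvPowerSeries τ k} (hu : u ∈ below 1)
    (hv : v ∈ below 1) (a : k) (h : ℕ) :
    subst ![C a * u, C a * v] (Cpow p h : MvPowerSeries (Fin 2) k) =
      C (a ^ p ^ h) * subst ![u, v] (Cpow p h : MvPowerSeries (Fin 2) k) := by
  have hb : ∀ i, (![u, v] : Fin 2 → MvPowerSeries τ k) i ∈ below 1 := fun i => by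
    fin_cases i <;> assumption
  have e : subst ![C a * X 0, C a * X 1] (Cpow p h : MvPowerSeries (Fin 2) k) =
      C (a ^ p ^ h) * Cpow p h := by
    have hres : rescale (fun _ => a) (Cpow p h : MvPowerSeries (Fin 2) k) =
        subst ![C a * X 0, C a * X 1] (Cpow p h : MvPowerSeries (Fin 2) k) := by
      rw [rescale_eq_subst]
      congr 1
      ext i : 1
      fin_cases i <;> simp [smul_eq_C_mul]
    rw [← hres]
    ext d : 1
    rw [coeff_rescale, coeff_C_mul, coeff_Cpow]
    split_ifs with hd
    · rw [Finsupp.prod, Finset.prod_pow_eq_pow_sum, ← Finsupp.degree_apply, degree_fin_two, hd.1]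
    · rw [mul_zero, mul_zero]
  have h2 := congrArg (subst ![u, v]) e
  rw [subst_mul (hasSubst_of_below hb), subst_C,
    subst_pair_comp (Ideal.mul_mem_left _ _ (X_mem_below _))
      (Ideal.mul_mem_left _ _ (X_mem_below _)) hb,
    subst_mul (hasSubst_of_below hb), subst_mul (hasSubst_of_below hb), subst_C,
    subst_X (hasSubst_of_below hb), subst_X (hasSubst_of_below hb)] at h2
  exact h2

omit hp [CharP k p] in
theorem coeff_subst_line (m : k) (lam : k) (j : ℕ) :
    PowerSeries.coeff (p ^ j) (subst ![PowerSeries.C m * PowerSeries.X, PowerSeries.X]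
        (C lam * Cpow p j)) =
      lam * ∑ i ∈ Finset.Ioo 0 (p ^ j), cpowVal p j i * m ^ i := by
  classical
  have hX : (PowerSeries.X : PowerSeries k) ∈ below (σ := Unit) 1 := X_mem_below _
  have hm : PowerSeries.C m * PowerSeries.X ∈ below (σ := Unit) 1 := Ideal.mul_mem_left _ _ hX
  set D := p ^ j
  have hterm : ∀ a b : ℕ, coeff (single () D)
      ((PowerSeries.C m * PowerSeries.X) ^ a * (PowerSeries.X : PowerSeries k) ^ b) =
      if a + b = D then m ^ a else 0 := fun a b => by
    change PowerSeries.coeff D _ = _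
    rw [mul_pow, mul_assoc, ← pow_add, ← map_pow, PowerSeries.coeff_C_mul, PowerSeries.coeff_X_pow]
    split_ifs <;> first | (exfalso; omega) | simp
  rw [PowerSeries.coeff, coeff_subst_pair hm hX,
    finsum_eq_sum_of_support_subset _
      (s := (Finset.Ioo 0 D).image fun i => pairIdx i (D - i)) (fun e he => ?_)]
  · rw [Finset.sum_image fun x _ y _ h => by
      simpa [pairIdx] using congrArg (fun e : Fin 2 →₀ ℕ => e 0) h, Finset.mul_sum]
    refine Finset.sum_congr rfl fun i hi => ?_
    simp only [Finset.mem_Ioo] at hi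
    rw [coeff_C_mul, coeff_Cpow, pairIdx_apply_zero, pairIdx_apply_one, if_pos (by omega), hterm,
      if_pos (by omega), mul_assoc]
    rfl
  · simp only [Function.mem_support] at he
    rw [coeff_C_mul, coeff_Cpow] at he
    by_cases h : e 0 + e 1 = D ∧ e 0 ≠ 0 ∧ e 1 ≠ 0
    · simp only [Finset.coe_image, Set.mem_image, Finset.coe_Ioo, Set.mem_Ioo]
      refine ⟨e 0, by omega, ?_⟩
      conv_rhs => rw [eq_pairIdx e]
      congr 1
      rw [show D - e 0 = e 1 by omega]
    · rw [if_neg h, mul_zero, zero_mul] at he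
      exact absurd rfl he

/-- In degree `p ^ j`, the defect is seen by `[p]`. -/
theorem coeff_mulSeries_defect {f : PowerSeries k} (h0 : PowerSeries.constantCoeff f = 0) {j : ℕ}
    (hj : 1 ≤ j) {lam : k}
    (hE : homDefect F G f - C lam * Cpow p j ∈ below (p ^ j + 1)) :
    PowerSeries.coeff (p ^ j)
      (PowerSeries.subst (mulSeries F p) f - PowerSeries.subst f (mulSeries G p)) = -lam := by
  have hX : (PowerSeries.X : PowerSeries k) ∈ below (σ := Unit) 1 := X_mem_below _
  have hE' : homDefect F G f ∈ below (p ^ j) := by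
    simpa using Ideal.add_mem _ (below_antitone (D := p ^ j) (by omega) hE)
      (Ideal.mul_mem_left _ (C lam) (Cpow_mem_below p j))
  have h := mulSeries_defect h0 (Nat.one_le_pow _ _ hp.1.pos) hE' p
  have hd : (single () (p ^ j)).degree < p ^ j + 1 := by
    rw [Finsupp.degree_single]; omega
  rw [PowerSeries.coeff, coeff_eq_of_below h hd, map_sum]
  have hi : ∀ i ∈ Finset.range p, coeff (single () (p ^ j))
      (subst ![PowerSeries.C (i : k) * PowerSeries.X, PowerSeries.X] (homDefect F G f)) =
      lam * ∑ t ∈ Finset.Ioo 0 (p ^ j), cpowVal p j t * (i : k) ^ t := fun i _ => by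
    have hs : ∀ s, (![PowerSeries.C (i : k) * PowerSeries.X, PowerSeries.X] :
        Fin 2 → PowerSeries k) s ∈ below (σ := Unit) 1 := fun s => by
      fin_cases s <;> [exact Ideal.mul_mem_left _ _ hX; exact hX]
    have h1 := subst_mem_below_one hs hE
    rw [subst_sub (hasSubst_of_below hs)] at h1
    rw [coeff_eq_of_below h1 hd]
    exact coeff_subst_line p (i : k) lam j
  rw [Finset.sum_congr rfl hi, ← Finset.mul_sum, sum_cpowVal p hj, mul_neg, mul_one]

/-- Non-`p`-power degrees can always be killed. -/
theorem step_nonpow [G.IsComm] {f : PowerSeries k} (h0 : PowerSeries.constantCoeff f = 0) {D : ℕ}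
    (hD : 2 ≤ D) {lam : k} (hE : homDefect F G f - C lam * binForm D ∈ below (D + 1)) :
    ∃ f', f' - f ∈ below (σ := Unit) D ∧ homDefect F G f' ∈ below (D + 1) := by
  set u : PowerSeries k := PowerSeries.C (-lam) * PowerSeries.X ^ D with hu
  have u0 : PowerSeries.constantCoeff u = 0 := by simp [u, show D ≠ 0 by omega]
  have huD : u ∈ below (σ := Unit) D := mem_below_of_coeff fun E hE => by
    rw [hu, PowerSeries.coeff_C_mul, PowerSeries.coeff_X_pow, if_neg (by omega), mul_zero]
  have e : ∀ {a : MvPowerSeries (Fin 2) k}, a ∈ below 1 →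
      PowerSeries.subst a u = C (-lam) * a ^ D := fun ha => by
    rw [hu, PowerSeries.subst_mul (hasSubst_single_of_below ha), PowerSeries.subst_C,
      PowerSeries.subst_pow (hasSubst_single_of_below ha),
      PowerSeries.subst_X (hasSubst_single_of_below ha)]
  have hXD : ∀ s : Fin 2, C (-lam) * X s ^ D ∈ below (R := k) D := fun s =>
    Ideal.mul_mem_left _ _ (by simpa using pow_mem_below (X_mem_below s) D)
  have hs1 : ∀ s : Fin 2, (![C (-lam) * X 0 ^ D, C (-lam) * X 1 ^ D] :
      Fin 2 → MvPowerSeries (Fin 2) k) s ∈ below 1 := fun s => by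
    fin_cases s <;> exact below_antitone (by omega) (hXD _)
  have hsD : ∀ s : Fin 2, (![C (-lam) * X 0 ^ D, C (-lam) * X 1 ^ D] :
      Fin 2 → MvPowerSeries (Fin 2) k) s ∈ below D := fun s => by fin_cases s <;> exact hXD _
  have hG := subst_mem_below hs1 hsD (fg_sub_linear_mem_below G)
  rw [subst_sub (hasSubst_of_below hs1), subst_add (hasSubst_of_below hs1),
    subst_X (hasSubst_of_below hs1), subst_X (hasSubst_of_below hs1)] at hG
  have hF := pow_sub_pow_mem_below (fg_mem_below_one F) X_add_X_mem_below
    (fg_sub_linear_mem_below F) D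
  have hphi : homDefect F G u - C (-lam) * binForm D ∈ below (D + 1) := by
    have := Ideal.sub_mem _ (Ideal.mul_mem_left _ (C (-lam))
      (below_antitone (D := D + 1) (by omega) hF)) (below_antitone (D := D + 1) (by omega) hG)
    convert this using 1
    rw [homDefect, e (fg_mem_below_one F), e (X_mem_below _), e (X_mem_below _), binForm]
    simp
    ring
  have hb : ∀ x : k, C x * binForm D ∈ below (R := k) D := fun x =>
    Ideal.mul_mem_left _ _ (binForm_mem_below (by omega))
  have hE' : homDefect F G f ∈ below D := by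
    simpa using Ideal.add_mem _ (below_antitone (D := D) (by omega) hE) (hb lam)
  have hu' : homDefect F G u ∈ below D := by
    simpa using Ideal.add_mem _ (below_antitone (D := D) (by omega) hphi) (hb (-lam))
  refine ⟨subst ![f, u] G.toPowerSeries, subst_pair_sub_mem h0 (by omega) huD, ?_⟩
  have := Ideal.add_mem _ (homDefect_perturb h0 u0 hE' hu') (Ideal.add_mem _ hE hphi)
  convert this using 1
  rw [map_neg]
  ring

variable {h : ℕ}

/-- Degrees `p ^ (h + m)`, `m ≥ 1`, can be killed over an algebraically closed field. -/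
theorem step_pow [G.IsComm] [IsAlgClosed k] (hh : 1 ≤ h)
    (hGfix : MvPowerSeries.map (frobenius k p) G.toPowerSeries = G.toPowerSeries)
    (hGlow : G.toPowerSeries - (X 0 + X 1 - Cpow p h) ∈ below (p ^ h + 1))
    {f : PowerSeries k} (h0 : PowerSeries.constantCoeff f = 0)
    (hc : PowerSeries.coeff 1 f ≠ 0) {m : ℕ} (hm : 1 ≤ m) {lam : k}
    (hE : homDefect F G f - C lam * Cpow p (h + m) ∈ below (p ^ (h + m) + 1)) :
    ∃ f', f' - f ∈ below (σ := Unit) (p ^ m) ∧
      homDefect F G f' ∈ below (p ^ (h + m) + 1) := by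
  have : ExpChar k p := ExpChar.prime hp.1
  have : ExpChar (MvPowerSeries (Fin 2) k) p :=
    expChar_of_injective_ringHom (f := C) (fun x y h => by
      simpa using congrArg constantCoeff h) p
  set c := PowerSeries.coeff 1 f with hcdef
  set q := p ^ h with hq
  set M := p ^ m with hMdef
  set D := p ^ (h + m) with hDdef
  have hDqM : D = q * M := pow_add p h m
  have hq2 : 2 ≤ q := le_trans hp.1.two_le (Nat.le_self_pow (by omega) p)
  have hM2 : 2 ≤ M := le_trans hp.1.two_le (Nat.le_self_pow (by omega) p)
  have hD1 : 1 ≤ D := Nat.one_le_pow _ _ hp.1.pos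
  obtain ⟨a, ha⟩ : ∃ a : k, lam + (a ^ q - a) * c ^ D = 0 := by
    obtain ⟨a, ha⟩ := IsAlgClosed.exists_root
      (Polynomial.X ^ q - Polynomial.X + Polynomial.C (lam / c ^ D)) (by
        rw [Polynomial.degree_add_C, Polynomial.degree_sub_eq_left_of_degree_lt,
          Polynomial.degree_X_pow]
        · simp; omega
        · rw [Polynomial.degree_X_pow, Polynomial.degree_X]; exact_mod_cast hq2
        · rw [Polynomial.degree_sub_eq_left_of_degree_lt, Polynomial.degree_X_pow]
          · exact_mod_cast Nat.lt_of_lt_of_le Nat.zero_lt_two hq2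
          · rw [Polynomial.degree_X_pow, Polynomial.degree_X]; exact_mod_cast hq2)
    refine ⟨a, ?_⟩
    simp only [Polynomial.IsRoot.def, Polynomial.eval_add, Polynomial.eval_sub,
      Polynomial.eval_pow, Polynomial.eval_X, Polynomial.eval_C] at ha
    have hcD : c ^ D ≠ 0 := pow_ne_zero _ hc
    field_simp at ha
    linear_combination ha
  have hf : f ∈ below (σ := Unit) 1 := mem_below_one_iff'.2 h0
  set u : PowerSeries k := PowerSeries.C a * f ^ M with hu
  have u0 : PowerSeries.constantCoeff u = 0 := by simp [u, h0, show M ≠ 0 by omega]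
  have huM : u ∈ below (σ := Unit) M :=
    Ideal.mul_mem_left _ _ (by simpa using pow_mem_below hf M)
  have hX : ∀ s : Fin 2, (X s : MvPowerSeries (Fin 2) k) ∈ below 1 := X_mem_below
  have e : ∀ {x : MvPowerSeries (Fin 2) k}, x ∈ below 1 →
      PowerSeries.subst x u = C a * PowerSeries.subst x f ^ M := fun hx => by
    rw [hu, PowerSeries.subst_mul (hasSubst_single_of_below hx), PowerSeries.subst_C,
      PowerSeries.subst_pow (hasSubst_single_of_below hx)]
  have hb : ∀ x : k, C x * Cpow p (h + m) ∈ below (R := k) D := fun x =>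
    Ideal.mul_mem_left _ _ (Cpow_mem_below p (h + m))
  have hE' : homDefect F G f ∈ below D := by
    simpa using Ideal.add_mem _ (below_antitone (D := D) (by omega) hE) (hb lam)
  set P0 := PowerSeries.subst (X (0 : Fin 2) : MvPowerSeries (Fin 2) k) f with hP0
  set P1 := PowerSeries.subst (X (1 : Fin 2) : MvPowerSeries (Fin 2) k) f with hP1
  have hP01 : P0 ∈ below 1 := subst_f_mem h0 (hX 0)
  have hP11 : P1 ∈ below 1 := subst_f_mem h0 (hX 1)
  set U := P0 ^ M with hU
  set V := P1 ^ M with hV
  have hUM : U ∈ below M := by simpa using pow_mem_below hP01 M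
  have hVM : V ∈ below M := by simpa using pow_mem_below hP11 M
  have hU1 : U ∈ below 1 := below_antitone (by omega) hUM
  have hV1 : V ∈ below 1 := below_antitone (by omega) hVM
  have hlo : ∀ x y : MvPowerSeries (Fin 2) k, x ∈ below M → y ∈ below M →
      subst ![x, y] G.toPowerSeries - (x + y - subst ![x, y] (Cpow p h : MvPowerSeries (Fin 2) k)) ∈ below (D + 1) := by
    intro x y hx hy
    have hs1 : ∀ s, (![x, y] : Fin 2 → MvPowerSeries (Fin 2) k) s ∈ below 1 := fun s => by
      fin_cases s <;> [exact below_antitone (by omega) hx; exact below_antitone (by omega) hy]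
    have h := subst_mem_below hs1 (k := M) (fun s => by fin_cases s <;> assumption) hGlow
    rw [subst_sub (hasSubst_of_below hs1), subst_sub (hasSubst_of_below hs1),
      subst_add (hasSubst_of_below hs1), subst_X (hasSubst_of_below hs1),
      subst_X (hasSubst_of_below hs1)] at h
    refine below_antitone ?_ (by simpa using h)
    rw [hDqM, mul_comm M]
    nlinarith
  have hUV : subst ![U, V] (Cpow p h : MvPowerSeries (Fin 2) k) - C (c ^ D) * Cpow p (h + m) ∈ below (D + 1) := by
    have hs : ∀ s, (![P0, P1] : Fin 2 → MvPowerSeries (Fin 2) k) s ∈ below 1 := fun s => by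
      fin_cases s <;> assumption
    have hs' : ∀ s, (![C c * X 0, C c * X 1] : Fin 2 → MvPowerSeries (Fin 2) k) s ∈ below 1 :=
      fun s => by fin_cases s <;> exact Ideal.mul_mem_left _ _ (hX _)
    have h1 := subst_sub_subst_mem_below hs hs' (e := 2) (fun s => by
      fin_cases s <;> exact subst_f_sub_linear h0 (hX _)) (Cpow_mem_below (k := k) p h)
    rw [subst_C_mul_Cpow p (hX 0) (hX 1) c h,
      show subst ![(X 0 : MvPowerSeries (Fin 2) k), X 1] (Cpow p h) = Cpow p h by
        rw [show (![(X 0 : MvPowerSeries (Fin 2) k), X 1]) = X by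
          ext i : 1; fin_cases i <;> rfl, subst_self, id]] at h1
    have h2 := pow_mem_below h1 M
    rw [hMdef, sub_pow_expChar_pow, mul_pow, ← map_pow, ← pow_mul, Cpow_pow p hh,
      subst_pow_of_fixed p (map_Cpow p _ _) hP01 hP11, ← hMdef, ← hU, ← hV, ← hq, ← hDqM] at h2
    refine below_antitone ?_ h2
    rw [hDqM, show 2 + q - 1 = q + 1 by omega, Nat.add_one_mul]
    omega
  have hphi : homDefect F G u - C ((a ^ q - a) * c ^ D) * Cpow p (h + m) ∈ below (D + 1) := by
    have hG1 := hlo U V hUM hVM
    have hG2 := hlo (C a * U) (C a * V) (Ideal.mul_mem_left _ _ hUM) (Ideal.mul_mem_left _ _ hVM)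
    have hEM : homDefect F G f ^ M ∈ below (D + 1) := by
      refine below_antitone ?_ (pow_mem_below hE' M)
      nlinarith
    rw [subst_C_mul_Cpow p hU1 hV1 a h, ← hq] at hG2
    have hfF : PowerSeries.subst F.toPowerSeries f ^ M =
        subst ![U, V] G.toPowerSeries + homDefect F G f ^ M := by
      rw [hU, hV, hMdef, ← subst_pow_of_fixed p hGfix hP01 hP11, ← add_pow_expChar_pow,
        homDefect, add_sub_cancel]
    have := Ideal.add_mem _ (Ideal.add_mem _
      (Ideal.sub_mem _ (Ideal.mul_mem_left _ (C a) hG1) hG2) (Ideal.mul_mem_left _ (C a) hEM))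
      (Ideal.mul_mem_left _ (C (a ^ q - a)) hUV)
    convert this using 1
    rw [homDefect, e (fg_mem_below_one F), e (hX 0), e (hX 1), hfF, map_mul, map_sub]
    ring
  have hu' : homDefect F G u ∈ below D := by
    have := Ideal.add_mem _ (below_antitone (D := D) (by omega) hphi)
      (hb ((a ^ q - a) * c ^ D))
    rwa [sub_add_cancel] at this
  refine ⟨subst ![f, u] G.toPowerSeries, subst_pair_sub_mem h0 (by omega) huM, ?_⟩
  have := Ideal.add_mem _ (homDefect_perturb h0 u0 hE' hu') (Ideal.add_mem _ hE hphi)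
  convert this using 1
  rw [show (a ^ q - a) * c ^ D = -lam by linear_combination ha, map_neg]
  ring

theorem iso_primeField_aux (n : ℕ) (F G : FormalGroup (ZMod p)) (hF : F.IsComm) (hG : G.IsComm)
    (h1 : mulSeries F p = PowerSeries.X ^ p ^ n) (h2 : mulSeries G p = PowerSeries.X ^ p ^ n) :
    ∃ f : PowerSeries (ZMod p), IsHomSeries F G f ∧ PowerSeries.coeff 1 f = 1 := by
  haveI := hF
  haveI := hG
  refine exists_hom_of_step (q := 1) le_rfl fun D hD f h0 _ hE => ?_
  rw [Nat.div_one, max_eq_right hD]
  rcases exists_lead p F hD hE (by rw [homDefect_symm h0, sub_self]; exact Ideal.zero_mem _)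
    (homDefect_cocycle h0 hE) with ⟨j, hj, hDj, lam, hlam⟩ | ⟨_, lam, hlam⟩
  · refine ⟨f, by rw [sub_self]; exact Ideal.zero_mem _, ?_⟩
    rw [hDj] at hlam ⊢
    have h := coeff_mulSeries_defect p h0 hj hlam
    have hfix : PowerSeries.subst (mulSeries F p) f = PowerSeries.subst f (mulSeries G p) := by
      have hf : f ∈ below (σ := Unit) 1 := mem_below_one_iff'.2 h0
      have hid : iterateFrobenius (ZMod p) p n = RingHom.id (ZMod p) :=
        RingHom.ext fun x => by
          rw [RingHom.id_apply, iterateFrobenius_def]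
          exact ZMod.pow_card_pow (n := n) x
      rw [h1, h2, PowerSeries.subst_pow (hasSubst_single_of_below hf),
        PowerSeries.subst_X (hasSubst_single_of_below hf),
        ← PowerSeries.expand_apply (p ^ n) (pow_ne_zero n hp.1.ne_zero)]
      have e := map_iterateFrobenius_expand (σ := Unit) (R := ZMod p) p hp.1.ne_zero f n
      rw [hid, MvPowerSeries.map_id] at e
      exact e
    rw [hfix, sub_self, map_zero, eq_comm, neg_eq_zero] at h
    rw [h, map_zero, zero_mul, sub_zero] at hlam
    exact hlam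
  · exact step_nonpow h0 hD hlam

theorem iso_honda_aux [IsAlgClosed k] (hh : 1 ≤ h) (F : FormalGroup k) (hF : F.IsComm)
    (g : PowerSeries k) (hg0 : PowerSeries.constantCoeff g = 0)
    (hg1 : PowerSeries.coeff 1 g ≠ 0)
    (hg : mulSeries F p = PowerSeries.subst (PowerSeries.X ^ p ^ h) g) :
    ∃ f : PowerSeries k, IsHomSeries F (fg p h (0 : Fin (h - 1) → k)) f ∧
      PowerSeries.coeff 1 f ≠ 0 := by
  haveI := hF
  set G := fg p h (0 : Fin (h - 1) → k) with hGdef
  have hq2 : 2 ≤ p ^ h := le_trans hp.1.two_le (Nat.le_self_pow (by omega) p)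
  obtain ⟨c, hc⟩ := IsAlgClosed.exists_pow_nat_eq (PowerSeries.coeff 1 g)
    (n := p ^ h - 1) (by omega)
  have hc0 : c ≠ 0 := fun e => hg1 (by rw [← hc, e, zero_pow (by omega)])
  have hGfix : MvPowerSeries.map (frobenius k p) G.toPowerSeries = G.toPowerSeries := by
    rw [← FormalGroup.map_toPowerSeries, hGdef, fg_map]
    congr 2
    funext i
    simp [frobenius_def, hp.1.ne_zero]
  have hGlow : G.toPowerSeries - (X 0 + X 1 - Cpow p h) ∈ below (p ^ h + 1) := fun d hd => by
    rw [map_sub, hGdef, coeff_fg_of_le p h (0 : Fin (h - 1) → k) hh le_rfl (fun _ _ => rfl) d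
      (by omega),
      uvar_zero_vec, if_pos rfl, map_one, one_mul, sub_self]
  suffices H : ∃ f : PowerSeries k, IsHomSeries F G f ∧ PowerSeries.coeff 1 f = c by
    obtain ⟨f, hf, hf1⟩ := H
    exact ⟨f, hf, by rw [hf1]; exact hc0⟩
  refine exists_hom_of_step (q := p ^ h) (by omega) fun D hD f h0 h1 hE => ?_
  rcases exists_lead p F hD hE (by rw [homDefect_symm h0, sub_self]; exact Ideal.zero_mem _)
    (homDefect_cocycle h0 hE) with ⟨j, hj, hDj, lam, hlam⟩ | ⟨_, lam, hlam⟩
  swap
  · obtain ⟨f', h2, h3⟩ := step_nonpow h0 hD hlam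
    exact ⟨f', below_antitone (max_le hD (Nat.div_le_self _ _)) h2, h3⟩
  rw [hDj] at hlam ⊢
  rcases le_or_gt j h with hjh | hjh
  · -- the degree is at most `p ^ h`: the defect vanishes
    refine ⟨f, by rw [sub_self]; exact Ideal.zero_mem _, ?_⟩
    have hdef := coeff_mulSeries_defect p h0 hj hlam
    have hf : f ∈ below (σ := Unit) 1 := mem_below_one_iff'.2 h0
    have hle : p ^ j ≤ p ^ h := Nat.pow_le_pow_right hp.1.pos hjh
    have hpq : p ^ h ≠ 0 := by omega
    rw [hg, ← PowerSeries.expand_apply (p ^ h) hpq, hGdef, mulSeries_fg_zero p h hh,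
      PowerSeries.subst_pow (hasSubst_single_of_below hf),
      PowerSeries.subst_X (hasSubst_single_of_below hf), map_sub] at hdef
    have hPq : PowerSeries.expand (p ^ h) hpq g ∈ below (σ := Unit) (p ^ h) :=
      mem_below_of_coeff fun E hE => by
        rw [PowerSeries.coeff_expand]
        split_ifs with hdvd
        · rw [Nat.div_eq_of_lt hE, PowerSeries.coeff_zero_eq_constantCoeff, hg0]
        · rfl
    have hlin := subst_single_sub_linear (below_antitone (D := 1) (by omega) hPq)
      (Ideal.zero_mem _) (e := p ^ h) (by rwa [sub_zero]) h0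
    rw [PowerSeries.subst_zero_of_constantCoeff_zero h0, sub_zero, sub_zero] at hlin
    have hA : PowerSeries.coeff (p ^ j)
        (PowerSeries.subst (PowerSeries.expand (p ^ h) hpq g) f) =
        c * PowerSeries.coeff (p ^ j) (PowerSeries.expand (p ^ h) hpq g) := by
      rw [PowerSeries.coeff, coeff_eq_of_below hlin (by rw [Finsupp.degree_single]; omega),
        h1]
      exact coeff_C_mul _ _ _
    have hlin' : f - PowerSeries.C c * PowerSeries.X ∈ below (σ := Unit) 2 := by
      rw [← h1]
      refine mem_below_of_coeff fun E hE => ?_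
      rcases Nat.eq_zero_or_pos E with rfl | hE0
      · simp [h0]
      · rw [show E = 1 by omega]
        simp
    have hcX : PowerSeries.C c * PowerSeries.X ∈ below (σ := Unit) 1 :=
      Ideal.mul_mem_left _ _ (X_mem_below _)
    have hB : PowerSeries.coeff (p ^ j) (f ^ p ^ h) =
        if p ^ j = p ^ h then c ^ p ^ h else 0 := by
      rw [PowerSeries.coeff, coeff_eq_of_below (pow_sub_pow_mem_below hf hcX hlin' (p ^ h))
        (by rw [Finsupp.degree_single]; omega)]
      change PowerSeries.coeff (p ^ j) _ = _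
      rw [mul_pow, ← map_pow, PowerSeries.coeff_C_mul, PowerSeries.coeff_X_pow]
      split_ifs <;> simp
    rw [hA, hB] at hdef
    have hlam0 : lam = 0 := by
      rcases eq_or_lt_of_le hle with he | hlt
      · rw [if_pos he, he] at hdef
        have hq1 : PowerSeries.coeff (p ^ h) (PowerSeries.expand (p ^ h) hpq g) =
            PowerSeries.coeff 1 g := by
          have := PowerSeries.coeff_expand_mul (p ^ h) hpq g 1
          rwa [mul_one] at this
        rw [hq1, ← hc, ← pow_succ', show p ^ h - 1 + 1 = p ^ h by omega, sub_self] at hdef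
        exact neg_eq_zero.1 hdef.symm
      · rw [if_neg (by omega), PowerSeries.coeff_expand_of_not_dvd _ _ _ (fun hd => by
          have := Nat.le_of_dvd (Nat.one_le_pow _ _ hp.1.pos) hd
          omega), mul_zero, sub_zero] at hdef
        exact neg_eq_zero.1 hdef.symm
    rw [hlam0, map_zero, zero_mul, sub_zero] at hlam
    exact hlam
  · obtain ⟨m, rfl⟩ := Nat.exists_eq_add_of_le hjh.le
    have hm : 1 ≤ m := by omega
    obtain ⟨f', h2, h3⟩ := step_pow p hh hGfix hGlow h0 (by rw [h1]; exact hc0) hm hlam
    refine ⟨f', below_antitone (max_le ?_ ?_) h2, h3⟩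
    · exact le_trans hp.1.two_le (Nat.le_self_pow (by omega) p)
    · rw [pow_add, Nat.mul_div_cancel_left _ (by omega : 0 < p ^ h)]

end CharP

end Vale.P217

end
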