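import Vale.Agent.P217.CocycleDecomp
import Vale.Agent.P217.CocycleIso
import Mathlib.FieldTheory.Perfect

/-!
Symmetric cocycles of a formal group law of height `n` over a field of characteristic `p`, and
normalisation of formal group laws by isomorphisms.
-/

noncomputable section

namespace Vale.P217

open MvPowerSeries Finsupp

variable (p : ℕ) [Fact p.Prime]

/-- Lazard's lemma: a homogeneous symmetric additive cocycle of degree `D ≥ 2` in
characteristic `p`. -/
theorem additive_cocycle_homogeneous {k : Type*} [Field k] [CharP k p] (D : ℕ) (hD : 2 ≤ D)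
    (C : MvPowerSeries (Fin 2) k) (hC : IsCocycle FormalGroup.𝔾ₐ C)
    (hhom : ∀ d : Fin 2 →₀ ℕ, d.degree ≠ D → MvPowerSeries.coeff d C = 0) :
    (∃ j, 1 ≤ j ∧ D = p ^ j ∧ ∃ c : k, C = MvPowerSeries.C c * Cpow p j) ∨
      ((∀ j, D ≠ p ^ j) ∧ ∃ c : k, C = MvPowerSeries.C c *
        ((MvPowerSeries.X 0 + MvPowerSeries.X 1) ^ D - MvPowerSeries.X 0 ^ D
          - MvPowerSeries.X 1 ^ D)) := by
  have hlow : C ∈ below D := fun d hd => hhom d (by omega)
  have hhigh : ∀ {L : MvPowerSeries (Fin 2) k}, C - L ∈ below (D + 1) →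
      (∀ d : Fin 2 →₀ ℕ, d.degree ≠ D → coeff d L = 0) → C = L := by
    intro L hL hL0
    ext d : 1
    by_cases hd : d.degree = D
    · exact coeff_eq_of_below hL (by omega)
    · rw [hhom d hd, hL0 d hd]
  rcases exists_lead p FormalGroup.𝔾ₐ hD hlow (by rw [hC.symm, sub_self]; exact Ideal.zero_mem _)
    (by rw [hC.defect]; exact Ideal.zero_mem _) with ⟨j, hj, hDj, c, hc⟩ | ⟨hpow, c, hc⟩
  · refine Or.inl ⟨j, hj, hDj, c, hhigh hc fun d hd => ?_⟩
    rw [degree_fin_two] at hd
    rw [coeff_C_mul, coeff_Cpow, if_neg (by omega), mul_zero]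
  · refine Or.inr ⟨hpow, c, hhigh hc fun d hd => ?_⟩
    rw [degree_fin_two] at hd
    rw [coeff_C_mul, show ((X 0 + X 1) ^ D - X 0 ^ D - X 1 ^ D : MvPowerSeries (Fin 2) k) =
      binForm D from rfl, coeff_binForm, if_neg (by omega), if_neg (by omega), mul_zero]

/-- The second cohomology of a height `n` formal group law is spanned freely by any cocycles
with leading terms `Cpow p (i + 1)`, `i + 1 < n`; the coboundary map is injective. -/
theorem cocycle_decomp {k : Type*} [Field k] [CharP k p] (n : ℕ) (hn : 1 ≤ n)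
    (F : FormalGroup k) [F.IsComm] (a : k) (ha : a ≠ 0)
    (hF : ∀ d : Fin 2 →₀ ℕ, d.degree ≤ p ^ n → MvPowerSeries.coeff d F.toPowerSeries =
      MvPowerSeries.coeff d (MvPowerSeries.X 0 + MvPowerSeries.X 1
        + MvPowerSeries.C a * Cpow p n))
    (B : Fin (n - 1) → MvPowerSeries (Fin 2) k) (hB : ∀ i, IsCocycle F (B i))
    (b : Fin (n - 1) → k) (hb : ∀ i, b i ≠ 0)
    (hlead : ∀ (i : Fin (n - 1)) (d : Fin 2 →₀ ℕ), d.degree ≤ p ^ ((i : ℕ) + 1) →
      MvPowerSeries.coeff d (B i) =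
        MvPowerSeries.coeff d (MvPowerSeries.C (b i) * Cpow p ((i : ℕ) + 1))) :
    (∀ C, IsCocycle F C → ∃ (c : Fin (n - 1) → k) (h : PowerSeries k),
      PowerSeries.constantCoeff h = 0 ∧ C = (∑ i, MvPowerSeries.C (c i) * B i) + cob F h) ∧
    (∀ (c : Fin (n - 1) → k) (h : PowerSeries k), PowerSeries.constantCoeff h = 0 →
      (∑ i, MvPowerSeries.C (c i) * B i) + cob F h = 0 → c = 0 ∧ h = 0) := by
  have hF' : F.toPowerSeries - (X 0 + X 1 + MvPowerSeries.C a * Cpow p n) ∈ below (p ^ n + 1) :=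
    fun d hd => by rw [map_sub, hF d (by omega), sub_self]
  have hlead' : ∀ i : Fin (n - 1),
      B i - MvPowerSeries.C (b i) * Cpow p ((i : ℕ) + 1) ∈ below (p ^ ((i : ℕ) + 1) + 1) :=
    fun i d hd => by rw [map_sub, hlead i d (by omega), sub_self]
  exact ⟨fun C hC => decomp_exists p hn ha hF' B hB b hb hlead' hC,
    fun c h h0 he => decomp_unique p hn ha hF' B b hb hlead' c h h0 he⟩

/-- Two commutative laws over a perfect field with `[p] = X ^ (p ^ n)` and coefficients in the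
prime field are isomorphic over the prime field. -/
theorem exists_iso_primeField (n : ℕ) (hn : 1 ≤ n) (F G : FormalGroup (ZMod p)) (hF : F.IsComm)
    (hG : G.IsComm) (h1 : mulSeries F p = PowerSeries.X ^ p ^ n)
    (h2 : mulSeries G p = PowerSeries.X ^ p ^ n) :
    ∃ f : PowerSeries (ZMod p), IsIsoSeries F G f := by
  obtain ⟨f, hf, hf1⟩ := iso_primeField_aux p n F G hF hG h1 h2
  exact ⟨f, hf, by rw [hf1]; exact isUnit_one⟩

/-- Over an algebraically closed field, a law of height `h` is isomorphic to the Honda law. -/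
theorem exists_iso_honda {k : Type*} [Field k] [CharP k p] [IsAlgClosed k] (h : ℕ) (hh : 1 ≤ h)
    (F : FormalGroup k) (hF : F.IsComm) (g : PowerSeries k)
    (hg0 : PowerSeries.constantCoeff g = 0) (hg1 : PowerSeries.coeff 1 g ≠ 0)
    (hg : mulSeries F p = PowerSeries.subst (PowerSeries.X ^ p ^ h) g) :
    ∃ f : PowerSeries k, IsIsoSeries F (fg p h (0 : Fin (h - 1) → k)) f := by
  obtain ⟨f, hf, hf1⟩ := iso_honda_aux p hh F hF g hg0 hg1 hg
  exact ⟨f, hf, isUnit_iff_ne_zero.2 hf1⟩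

end Vale.P217

end
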