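import Vale.Agent.P217.Universal
import Vale.Agent.P217.Cocycle
import Vale.Agent.P217.Ball
import Vale.Agent.P217.CharZeroLimit
import Mathlib.RingTheory.MvPowerSeries.Derivative
import Mathlib.Analysis.Normed.Module.FiniteDimension
import Mathlib.FieldTheory.IsAlgClosed.Basic
import Mathlib.RingTheory.RootsOfUnity.PrimitiveRoots
import Mathlib.RingTheory.RootsOfUnity.AlgebraicallyClosed
import Mathlib.Algebra.Polynomial.Roots

/-!
Characteristic zero: vanishing on an orbit forces the differential to vanish.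
-/

noncomputable section

set_option linter.unusedSectionVars false

namespace Vale.P217

variable (p : ℕ) [Fact p.Prime] (n : ℕ) {K : Type} [NontriviallyNormedField K]
  [IsUltrametricDist K] [CompleteSpace K] [CharZero K] [IsAlgClosed K]

/-- The series `X +_F ζ X ^ (p ^ (m + n N))`, a lift of `1 + p ^ N ζ Π ^ m`. -/
def liftMonomial (v : Fin (n - 1) → Ball K) (ζ : Ball K) (m N : ℕ) : PowerSeries (Ball K) :=
  MvPowerSeries.subst ![PowerSeries.X, PowerSeries.C ζ * PowerSeries.X ^ p ^ (m + n * N)]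
    (fg p n v).toPowerSeries

variable {p n}

variable (p n) in
/-- The direction in which the point moves, in the coordinates `w`. -/
def moveVec (w : ℕ → K) (ζ : Ball K) (m : ℕ) (i : Fin n) : K :=
  (ζ : K) ^ p ^ (n + (i : ℕ) - m) * ((p : K) * w (n + (i : ℕ) - m))

/-- There are `p ^ n` solutions of `ζ ^ (p ^ n) = ζ`. -/
theorem exists_teich_finset (hn : 1 ≤ n) : ∃ S : Finset (Ball K), p ^ n ≤ S.card ∧
    ∀ ζ ∈ S, ζ ^ p ^ n = ζ := by
  classical
  have hQ : 2 ≤ p ^ n := (Fact.out : p.Prime).two_le.trans (Nat.le_self_pow (by omega) p)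
  obtain ⟨q, hq⟩ : ∃ q, p ^ n = q + 1 := ⟨p ^ n - 1, by omega⟩
  have hq0 : q ≠ 0 := by omega
  have : NeZero (q : K) := ⟨Nat.cast_ne_zero.2 hq0⟩
  obtain ⟨ω, hω⟩ := HasEnoughRootsOfUnity.exists_primitiveRoot K q
  have hω1 : ω ∈ Ball K := by
    rw [mem_Ball]
    have h : ‖ω‖ ^ q = 1 := by rw [← norm_pow, hω.pow_eq_one, norm_one]
    exact ((pow_eq_one_iff_of_nonneg (norm_nonneg _) hq0).1 h).le
  set z : Ball K := ⟨ω, hω1⟩
  have hz : z ^ q = 1 := Subtype.ext hω.pow_eq_one
  refine ⟨insert 0 ((Finset.range q).image fun k => z ^ k), ?_, ?_⟩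
  · rw [Finset.card_insert_of_notMem, Finset.card_image_of_injOn, Finset.card_range, hq]
    · intro a ha b hb hab
      simp only [Finset.coe_range, Set.mem_Iio] at ha hb
      exact hω.pow_inj ha hb (congrArg Subtype.val hab)
    · simp only [Finset.mem_image, not_exists, not_and]
      intro k _ hk
      exact pow_ne_zero k (hω.ne_zero hq0) (congrArg Subtype.val hk)
  · intro ζ hζ
    simp only [Finset.mem_insert, Finset.mem_image] at hζ
    rcases hζ with rfl | ⟨k, -, rfl⟩
    · exact zero_pow (by omega)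
    · rw [← pow_mul, hq, mul_comm, pow_mul, pow_succ z q, hz, one_mul]

/-- A linear form killing all `moveVec`s vanishes. -/
theorem eq_zero_of_moveVec (hn : 1 ≤ n) {ε : ℝ} (hε1 : ε < 1) (hp : ‖((p : ℕ) : K)‖ ≤ ε)
    {U : Fin (n - 1) → K} (hU : ∀ j, ‖U j‖ ≤ ε) (φ : (Fin n → K) →ₗ[K] K)
    (hφ : ∀ ζ : Ball K, ζ ^ p ^ n = ζ → ∀ m, m < n →
      φ (moveVec p n (wvec p n U) ζ m) = 0) : φ = 0 := by
  classical
  have hpp := (Fact.out : p.Prime)
  have hp0 : (p : K) ≠ 0 := Nat.cast_ne_zero.2 hpp.ne_zero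
  set w := wvec p n U with hw
  obtain ⟨H, -, -, hcH⟩ := exists_defect_bound (p := p) (K := K) hn hε1 hp
  have hshift : ∀ i, (p : K) * w (i + n) = w i := fun i =>
    wlim_add_self (hcH U hU) (hp.trans_lt hε1) i
  set c : Fin n → K := fun i => φ (Pi.single i 1) with hc
  obtain ⟨S, hS, hSζ⟩ := exists_teich_finset (p := p) (n := n) (K := K) hn
  have hzero : ∀ (i : Fin n) (m : ℕ), m < n → c i * ((p : K) * w (n + (i : ℕ) - m)) = 0 := by
    intro i m hm
    set d : Fin n → ℕ := fun i => (n + (i : ℕ) - m) % n with hd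
    have hdinj : ∀ a b, d a = d b → a = b := by
      intro a b hab
      refine Fin.ext ?_
      have ha := a.isLt
      have hb := b.isLt
      have hab' : (n + (a : ℕ) - m) % n = (n + (b : ℕ) - m) % n := hab
      have h' := Nat.ModEq.add_right m hab'
      rw [Nat.sub_add_cancel (by omega), Nat.sub_add_cancel (by omega)] at h'
      exact Nat.ModEq.eq_of_lt_of_lt (Nat.ModEq.add_left_cancel' n h') ha hb
    set P : Polynomial K := ∑ i : Fin n,
      Polynomial.C (c i * ((p : K) * w (n + (i : ℕ) - m))) * Polynomial.X ^ p ^ d i with hP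
    have hdeg : P.natDegree < p ^ n := by
      refine lt_of_le_of_lt (Polynomial.natDegree_sum_le_of_forall_le (n := p ^ (n - 1)) _ _
        fun i _ => (Polynomial.natDegree_C_mul_X_pow_le _ _).trans
          (Nat.pow_le_pow_right hpp.pos ?_))
        (Nat.pow_lt_pow_right hpp.one_lt (by omega))
      have := Nat.mod_lt (n + (i : ℕ) - m) (show n > 0 by omega)
      simp only [hd]; omega
    have hP0 : P = 0 := by
      refine Polynomial.eq_zero_of_natDegree_lt_card_of_eval_eq_zero' P
        (S.image Subtype.val) ?_ ?_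
      · intro z hz
        obtain ⟨ζ, hζS, rfl⟩ := Finset.mem_image.1 hz
        have hζ : (ζ : K) ^ p ^ n = (ζ : K) := by rw [← SubmonoidClass.coe_pow, hSζ ζ hζS]
        have h := hφ ζ (hSζ ζ hζS) m hm
        rw [LinearMap.pi_apply_eq_sum_univ] at h
        rw [hP, Polynomial.eval_finsetSum, ← h]
        refine Finset.sum_congr rfl fun i _ => ?_
        rw [Polynomial.eval_mul, Polynomial.eval_C, Polynomial.eval_pow, Polynomial.eval_X,
          smul_eq_mul, moveVec]
        have hper : (ζ : K) ^ p ^ (n + (i : ℕ) - m) = (ζ : K) ^ p ^ d i := by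
          conv_lhs => rw [← Nat.div_add_mod (n + (i : ℕ) - m) n, pow_p_pow_mul_add hζ]
        rw [hper, show c i = φ (fun j => if i = j then 1 else 0) from
          congrArg φ (funext fun j => by simp [Pi.single_apply, eq_comm])]
        ring
      · rw [Finset.card_image_of_injective _ Subtype.val_injective]
        omega
    have := congrArg (fun Q => Polynomial.coeff Q (p ^ d i)) hP0
    simp only [hP, Polynomial.finsetSum_coeff, Polynomial.coeff_C_mul_X_pow,
      Polynomial.coeff_zero] at this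
    rw [Finset.sum_eq_single i (fun b _ hb => if_neg fun h =>
      hb (hdinj b i (Nat.pow_right_injective hpp.two_le h).symm)) (by simp), if_pos rfl] at this
    exact this
  have hw0 : ∃ j < n, w j ≠ 0 := by
    by_contra hcon
    push Not at hcon
    have h0 : ∀ i < n, wlim p n (dLog p n U 0) i - 1 * wvec p n U i = 0 := by
      intro i hi
      have := dwvec_smul hn hε1 hp hU (0 : K) (0 : Fin (n - 1) → K) i
      rw [smul_zero, zero_mul] at this
      rw [← hw, hcon i hi, mul_zero, sub_zero]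
      exact this
    exact one_ne_zero (lam_injective hn hε1 hp hU 0 1 h0).2
  obtain ⟨j, hj, hwj⟩ := hw0
  refine LinearMap.pi_ext' fun i => LinearMap.ext_ring ?_
  show c i = 0
  have hi := i.isLt
  rcases le_or_gt j i with hle | hlt
  · have h := hzero i ((i : ℕ) - j) (by omega)
    rw [show n + (i : ℕ) - ((i : ℕ) - j) = j + n by omega, hshift] at h
    exact (mul_eq_zero.1 h).resolve_right hwj
  · have h := hzero i (n + (i : ℕ) - j) (by omega)
    rw [show n + (i : ℕ) - (n + (i : ℕ) - j) = j by omega] at h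
    exact (mul_eq_zero.1 h).resolve_right (mul_ne_zero hp0 hwj)

variable (p n)

/-- If a series vanishes on the moved points of a point in characteristic zero, then its
derivatives vanish there. -/
theorem pderiv_eq_zero_of_orbit_charZero (hn : 1 ≤ n) (u : Fin (n - 1) → Ball K) {ε : ℝ}
    (hε0 : 0 ≤ ε) (hε1 : ε < 1) (hu : ∀ i, ‖u i‖ ≤ ε) (hp : ‖((p : ℕ) : K)‖ ≤ ε)
    (v : Ball K → ℕ → ℕ → Fin (n - 1) → Ball K) (N₀ : ℕ) (_hN₀ : 1 ≤ N₀)
    (hv : ∀ ζ : Ball K, ζ ^ p ^ n = ζ → ∀ m, m < n → ∀ N, N₀ ≤ N →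
      (∀ i, ‖v ζ m N i‖ ≤ ε) ∧ (∀ i, ‖v ζ m N i - u i‖ ≤ ε ^ N) ∧
      ∃ f, IsHomSeries (fg p n u) (fg p n (v ζ m N)) f ∧
        ∀ d, ‖PowerSeries.coeff d f -
          PowerSeries.coeff d (liftMonomial p n (v ζ m N) ζ m N)‖ ≤ ε)
    (f : MvPowerSeries (Fin (n - 1)) (Ball K)) (hfu : evalMv f u = 0)
    (hfv : ∀ ζ : Ball K, ζ ^ p ^ n = ζ → ∀ m, m < n → ∀ N, N₀ ≤ N → evalMv f (v ζ m N) = 0)
    (i : Fin (n - 1)) : evalMv (MvPowerSeries.pderiv (Ball K) i f) u = 0 := by
  classical
  have hpp := (Fact.out : p.Prime)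
  set U : Fin (n - 1) → K := fun j => (u j : K) with hUdef
  have hU : ∀ j, ‖U j‖ ≤ ε := hu
  set w := wvec p n U with hw
  let Λ : ((Fin (n - 1) → K) × K) →ₗ[K] (Fin n → K) :=
    { toFun := fun x i => dwvec (p := p) U x.1 i - x.2 * w i
      map_add' := fun x y => funext fun i => by
        simp only [Prod.fst_add, Prod.snd_add, Pi.add_apply, dwvec_add hn hε1 hp hU]
        ring
      map_smul' := fun r x => funext fun i => by
        simp only [Prod.smul_fst, Prod.smul_snd, Pi.smul_apply, smul_eq_mul, RingHom.id_apply,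
          dwvec_smul hn hε1 hp hU]
        ring }
  have hinj : Function.Injective Λ := by
    rw [← LinearMap.ker_eq_bot, LinearMap.ker_eq_bot']
    intro x hx
    obtain ⟨h1, h2⟩ := lam_injective hn hε1 hp hU x.1 x.2 fun i hi => congrFun hx ⟨i, hi⟩
    exact Prod.ext h1 h2
  have hfr : Module.finrank K ((Fin (n - 1) → K) × K) = Module.finrank K (Fin n → K) := by
    rw [Module.finrank_prod, Module.finrank_fin_fun, Module.finrank_fin_fun, Module.finrank_self]
    omega
  let e := LinearEquiv.ofBijective Λ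
    ⟨hinj, (LinearMap.injective_iff_surjective_of_finrank_eq_finrank hfr).1 hinj⟩
  set c : Fin (n - 1) → K := fun j => ((evalMv (MvPowerSeries.pderiv (Ball K) j f) u : Ball K) : K) with hc
  let df : (Fin (n - 1) → K) →ₗ[K] K := ∑ j, c j • LinearMap.proj j
  have hdf : ∀ h, df h = ∑ j, c j * h j := fun h => by simp [df]
  let φ : (Fin n → K) →ₗ[K] K := df ∘ₗ LinearMap.fst K _ K ∘ₗ e.symm.toLinearMap
  set Φ := ‖φ.toContinuousLinearMap‖
  have hΦ : ∀ x, ‖φ x‖ ≤ Φ * ‖x‖ := fun x => φ.toContinuousLinearMap.le_opNorm x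
  set S := ‖(e.symm.toLinearMap).toContinuousLinearMap‖
  have hS : ∀ x, ‖e.symm x‖ ≤ S * ‖x‖ := fun x =>
    (e.symm.toLinearMap).toContinuousLinearMap.le_opNorm x
  have hS0 : 0 ≤ S := norm_nonneg _
  have hΦ0 : 0 ≤ Φ := norm_nonneg _
  obtain ⟨C, hC1, hC⟩ := exists_wvec_bounds (p := p) (K := K) hn hε1 hp (2 * n)
  have hC0 : 0 ≤ C := zero_le_one.trans hC1
  have hP : 0 < ‖((p : ℕ) : K)‖ := norm_p_pos
  set P := ‖((p : ℕ) : K)‖
  have hkey : ∀ ζ : Ball K, ζ ^ p ^ n = ζ → ∀ m, m < n → φ (moveVec p n w ζ m) = 0 := by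
    intro ζ hζ m hm
    set T := moveVec p n w ζ m with hT
    set A := 2 * (S * (‖T‖ + C)) with hA
    set B := Φ * C + A + Φ * C * A with hB
    have hA0 : 0 ≤ A := by positivity
    have hB0 : 0 ≤ B := by positivity
    obtain ⟨N1, hN1⟩ := exists_pow_lt_of_lt_one (show 0 < 1 / (2 * (S * C + 1)) by positivity) hε1
    have hbound : ∀ N, max N₀ N1 ≤ N → ‖φ T‖ ≤ B * ε ^ N := by
      intro N hN
      obtain ⟨hv1, hv2, g, hg, hclose⟩ := hv ζ hζ m hm N (le_of_max_le_left hN)
      set V : Fin (n - 1) → K := fun j => (v ζ m N j : K) with hVdef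
      have hV : ∀ j, ‖V j‖ ≤ ε := hv1
      set h := V - U with hh
      set δ := ‖h‖ with hδ
      have hδ0 : 0 ≤ δ := norm_nonneg _
      have hδN : δ ≤ ε ^ N := (pi_norm_le_iff_of_nonneg (pow_nonneg hε0 N)).2 fun j => hv2 j
      have hδ1 : δ ≤ 1 := hδN.trans (pow_le_one₀ hε0 hε1.le)
      have hrel := hom_relation hn hε1 hp u (v ζ m N) hu hv1 hζ hm hg hclose
      set a : K := ((PowerSeries.coeff 1 g : Ball K) : K)
      set TN := moveVec p n (wvec p n V) ζ m with hTN
      set R : Fin n → K := fun i => wvec p n V i - w i - dwvec (p := p) U h i with hR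
      set x : Fin n → K := -((p : K) ^ N • TN) - R with hx
      have hΛ : e (h, a - 1) = x := funext fun i => by
        show dwvec (p := p) U h i - (a - 1) * w i = x i
        simp only [hx, hTN, hR, moveVec, Pi.sub_apply, Pi.neg_apply, Pi.smul_apply, smul_eq_mul]
        rw [← hrel i i.isLt]
        ring
      have hTd : ‖TN - T‖ ≤ C * δ := by
        refine (pi_norm_le_iff_of_nonneg (by positivity)).2 fun i => ?_
        rw [Pi.sub_apply, hTN, hT, moveVec, moveVec, ← mul_sub, ← mul_sub, norm_mul, norm_mul,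
          norm_pow]
        refine (mul_le_of_le_one_left (by positivity) (pow_le_one₀ (norm_nonneg _) ζ.2)).trans ?_
        refine (mul_le_of_le_one_left (norm_nonneg _) (hp.trans hε1.le)).trans ?_
        exact (hC U V hU hV _ (by omega)).2
      have hTN' : ‖TN‖ ≤ ‖T‖ + C := by
        refine (norm_le_insert' TN T).trans (add_le_add le_rfl (hTd.trans ?_))
        exact mul_le_of_le_one_right hC0 hδ1
      have hRb : ‖R‖ ≤ C * δ ^ 2 :=
        (pi_norm_le_iff_of_nonneg (by positivity)).2 fun i =>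
          (hC U V hU hV i (by have := i.isLt; omega)).1
      have hxb : ‖x‖ ≤ P ^ N * (‖T‖ + C) + C * δ ^ 2 := by
        refine (norm_sub_le _ _).trans (add_le_add ?_ hRb)
        rw [norm_neg, norm_smul, norm_pow]
        exact mul_le_mul_of_nonneg_left hTN' (by positivity)
      have hδP : δ ≤ A * P ^ N := by
        have h1 : δ ≤ S * (P ^ N * (‖T‖ + C) + C * δ ^ 2) := by
          refine le_trans ?_ ((hS x).trans (mul_le_mul_of_nonneg_left hxb hS0))
          rw [← hΛ, LinearEquiv.symm_apply_apply]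
          exact norm_fst_le (h, a - 1)
        have h2 : ε ^ N ≤ 1 / (2 * (S * C + 1)) :=
          (pow_le_pow_of_le_one hε0 hε1.le (le_of_max_le_right hN)).trans hN1.le
        have h3 : (S * C + 1) * δ ≤ 1 / 2 := by
          calc (S * C + 1) * δ ≤ (S * C + 1) * (1 / (2 * (S * C + 1))) :=
                mul_le_mul_of_nonneg_left (hδN.trans h2) (by positivity)
            _ = 1 / 2 := by field_simp
        have h4 : S * (C * δ ^ 2) ≤ δ / 2 := by nlinarith
        rw [hA]
        linarith
      have hdfh : ‖df h‖ ≤ δ ^ 2 := by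
        have ht := norm_evalMv_taylor_add (fun j => (hu j).trans_lt hε1)
          (fun j => (hv1 j).trans_lt hε1) f hδ0 fun j => norm_le_pi_norm h j
        rw [hfu, hfv ζ hζ m hm N (le_of_max_le_left hN), sub_zero, zero_sub, norm_neg,
          ← norm_coe] at ht
        refine le_trans (le_of_eq ?_) ht
        rw [hdf, AddSubmonoidClass.coe_finsetSum]
        exact congrArg norm (Finset.sum_congr rfl fun j _ => mul_comm _ _)
      have hφx : φ x = df h := by
        show df (e.symm x).1 = df h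
        rw [← hΛ, LinearEquiv.symm_apply_apply]
      have hid : (p : K) ^ N * φ T = (p : K) ^ N * φ (T - TN) - df h - φ R := by
        rw [← hφx, hx, map_sub, map_sub, map_neg, map_smul, smul_eq_mul]
        ring
      have hfin : P ^ N * ‖φ T‖ ≤ P ^ N * (B * ε ^ N) := by
        rw [← norm_pow, ← norm_mul, hid]
        refine (norm_sub_le _ _).trans ((add_le_add (norm_sub_le _ _) le_rfl).trans ?_)
        rw [norm_mul, norm_pow]
        have e1 : ‖φ (T - TN)‖ ≤ Φ * (C * δ) := by
          refine (hΦ _).trans (mul_le_mul_of_nonneg_left ?_ hΦ0)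
          rwa [norm_sub_rev]
        have e2 : ‖φ R‖ ≤ Φ * (C * δ ^ 2) :=
          (hΦ R).trans (mul_le_mul_of_nonneg_left hRb hΦ0)
        have e3 : δ ^ 2 ≤ A * P ^ N * δ := by
          rw [sq]; exact mul_le_mul_of_nonneg_right hδP hδ0
        calc P ^ N * ‖φ (T - TN)‖ + ‖df h‖ + ‖φ R‖
            ≤ P ^ N * (Φ * (C * δ)) + A * P ^ N * δ + Φ * (C * (A * P ^ N * δ)) :=
              add_le_add (add_le_add (mul_le_mul_of_nonneg_left e1 (by positivity))
                (hdfh.trans e3)) (e2.trans (by gcongr))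
          _ = P ^ N * (B * δ) := by rw [hB]; ring
          _ ≤ P ^ N * (B * ε ^ N) := by gcongr
      exact le_of_mul_le_mul_left hfin (pow_pos hP N)
    refine norm_le_zero_iff.1 (le_of_tendsto_of_tendsto tendsto_const_nhds ?_
      (Filter.eventually_atTop.2 ⟨max N₀ N1, hbound⟩))
    simpa using (tendsto_pow_atTop_nhds_zero_of_lt_one hε0 hε1).const_mul B
  have hφ0 : φ = 0 := eq_zero_of_moveVec hn hε1 hp hU φ hkey
  refine Subtype.ext ?_
  have h := LinearMap.congr_fun hφ0 (e (Pi.single i 1, 0))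
  simp only [φ, LinearMap.coe_comp, Function.comp_apply, LinearEquiv.coe_coe,
    LinearEquiv.symm_apply_apply, LinearMap.fst_apply, LinearMap.zero_apply, hdf] at h
  rw [Finset.sum_eq_single i (fun j _ hj => by rw [Pi.single_eq_of_ne hj, mul_zero]) (by simp),
    Pi.single_eq_same, mul_one] at h
  exact h

end Vale.P217

end
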