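import Vale.Agent.P217.CharZeroDual
import Mathlib.RingTheory.Ideal.Quotient.Basic

/-!
The derivative of the limits in the parameters, together with the limits themselves, is
injective: reduction to the cocycles of the Honda law over the residue field.
-/

noncomputable section

set_option linter.unusedSectionVars false

namespace Vale.P217

open MvPowerSeries TrivSqZeroExt Filter Topology

section CocEq

variable {R : Type*} [CommRing R]

/-- The symmetry and cocycle equations. -/
def CocEq (F : FormalGroup R) (C : MvPowerSeries (Fin 2) R) : Prop :=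
  MvPowerSeries.subst ![(X 1 : MvPowerSeries (Fin 2) R), X 0] C = C ∧
    MvPowerSeries.subst ![(X 1 : MvPowerSeries (Fin 3) R), X 2] C +
        MvPowerSeries.subst ![(X 0 : MvPowerSeries (Fin 3) R),
          MvPowerSeries.subst ![X 1, X 2] F.toPowerSeries] C =
      MvPowerSeries.subst ![MvPowerSeries.subst ![(X 0 : MvPowerSeries (Fin 3) R),
          X 1] F.toPowerSeries, X 2] C +
        MvPowerSeries.subst ![(X 0 : MvPowerSeries (Fin 3) R), X 1] C

theorem cz_subst_cob {σ : Type*} (F : FormalGroup R) (h : PowerSeries R) {a b : MvPowerSeries σ R}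
    (ha : a ∈ below 1) (hb : b ∈ below 1) :
    MvPowerSeries.subst ![a, b] (cob F h) =
      PowerSeries.subst (MvPowerSeries.subst ![a, b] F.toPowerSeries) h -
        PowerSeries.subst a h - PowerSeries.subst b h := by
  have hv := below_one_vecCons ha hb
  rw [cob, subst_sub (hasSubst_of_below hv), subst_sub (hasSubst_of_below hv),
    cz_subst_psubst hv (fg_mem_below F), cz_subst_psubst hv (X_mem_below _),
    cz_subst_psubst hv (X_mem_below _), subst_X (hasSubst_of_below hv),
    subst_X (hasSubst_of_below hv)]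
  rfl

theorem cocEq_cob (F : FormalGroup R) [F.IsComm] (h : PowerSeries R) : CocEq F (cob F h) := by
  have hX : ∀ (σ : Type) (t : σ), (X t : MvPowerSeries σ R) ∈ below 1 := fun _ t => X_mem_below t
  have hs : ∀ {σ : Type} {a b : MvPowerSeries σ R}, a ∈ below 1 → b ∈ below 1 →
      MvPowerSeries.subst ![a, b] F.toPowerSeries ∈ below 1 := fun ha hb =>
    subst_mem_below_one (below_one_vecCons ha hb) (fg_mem_below F)
  have hh : ∀ {σ : Type} (t : σ), PowerSeries.HasSubst (X t : MvPowerSeries σ R) := fun t =>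
    hasSubst_single_of_below (X_mem_below t)
  constructor
  · rw [cz_subst_cob F h (hX _ _) (hX _ _), F.comm' (hh 1) (hh 0),
      show (![X 0, X 1] : Fin 2 → MvPowerSeries (Fin 2) R) = X from funext fun t => by
        fin_cases t <;> rfl, MvPowerSeries.subst_self, id, cob]
    ring
  · rw [cz_subst_cob F h (hX _ _) (hX _ _), cz_subst_cob F h (hX _ _) (hs (hX _ _) (hX _ _)),
      cz_subst_cob F h (hs (hX _ _) (hX _ _)) (hX _ _), cz_subst_cob F h (hX _ _) (hX _ _),
      F.assoc' (hh 0) (hh 1) (hh 2)]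
    ring

theorem CocEq.map {S : Type*} [CommRing S] {F : FormalGroup R} {C : MvPowerSeries (Fin 2) R}
    (hC : CocEq F C) (φ : R →+* S) : CocEq (F.map φ) (MvPowerSeries.map φ C) := by
  have key : ∀ {σ : Type} (a b : MvPowerSeries σ R), a ∈ below 1 → b ∈ below 1 →
      ∀ D : MvPowerSeries (Fin 2) R, MvPowerSeries.subst
        ![MvPowerSeries.map φ a, MvPowerSeries.map φ b] (MvPowerSeries.map φ D) =
        MvPowerSeries.map φ (MvPowerSeries.subst ![a, b] D) := by
    intro σ a b ha hb D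
    rw [MvPowerSeries.map_subst (hasSubst_of_below (below_one_vecCons ha hb))]
    congr 1
    funext t
    fin_cases t <;> rfl
  have hX : ∀ (σ : Type) (t : σ), (X t : MvPowerSeries σ R) ∈ below 1 := fun _ t => X_mem_below t
  have hs : ∀ {σ : Type} {a b : MvPowerSeries σ R}, a ∈ below 1 → b ∈ below 1 →
      MvPowerSeries.subst ![a, b] F.toPowerSeries ∈ below 1 := fun ha hb =>
    subst_mem_below_one (below_one_vecCons ha hb) (fg_mem_below F)
  constructor
  · simp only [← MvPowerSeries.map_X φ]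
    rw [key _ _ (hX _ _) (hX _ _), hC.1]
  · simp only [← MvPowerSeries.map_X φ]
    show MvPowerSeries.subst _ _ + MvPowerSeries.subst
        ![_, MvPowerSeries.subst _ (MvPowerSeries.map φ F.toPowerSeries)] _ =
      MvPowerSeries.subst ![MvPowerSeries.subst _ (MvPowerSeries.map φ F.toPowerSeries), _] _ +
        MvPowerSeries.subst _ _
    rw [key _ _ (hX _ _) (hX _ _) C, key _ _ (hX _ _) (hX _ _) F.toPowerSeries,
      key _ _ (hX _ _) (hs (hX _ _) (hX _ _)) C, key _ _ (hX _ _) (hX _ _) F.toPowerSeries,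
      key _ _ (hs (hX _ _) (hX _ _)) (hX _ _) C, key _ _ (hX _ _) (hX _ _) C, ← map_add, ← map_add,
      hC.2]

theorem map_injective_mv {S σ : Type*} [CommRing S] {φ : R →+* S} (hφ : Function.Injective φ) :
    Function.Injective (MvPowerSeries.map (σ := σ) φ) := fun a b h =>
  MvPowerSeries.ext fun d => hφ (by rw [← coeff_map, h, coeff_map])

theorem CocEq.of_map {S : Type*} [CommRing S] {F : FormalGroup R} {C : MvPowerSeries (Fin 2) R}
    {φ : R →+* S} (hφ : Function.Injective φ) (hC : CocEq (F.map φ) (MvPowerSeries.map φ C)) :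
    CocEq F C := by
  have key : ∀ {σ : Type} (a b : MvPowerSeries σ R), a ∈ below 1 → b ∈ below 1 →
      ∀ D : MvPowerSeries (Fin 2) R, MvPowerSeries.subst
        ![MvPowerSeries.map φ a, MvPowerSeries.map φ b] (MvPowerSeries.map φ D) =
        MvPowerSeries.map φ (MvPowerSeries.subst ![a, b] D) := by
    intro σ a b ha hb D
    rw [MvPowerSeries.map_subst (hasSubst_of_below (below_one_vecCons ha hb))]
    congr 1
    funext t
    fin_cases t <;> rfl
  have hX : ∀ (σ : Type) (t : σ), (X t : MvPowerSeries σ R) ∈ below 1 := fun _ t => X_mem_below t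
  have hs : ∀ {σ : Type} {a b : MvPowerSeries σ R}, a ∈ below 1 → b ∈ below 1 →
      MvPowerSeries.subst ![a, b] F.toPowerSeries ∈ below 1 := fun ha hb =>
    subst_mem_below_one (below_one_vecCons ha hb) (fg_mem_below F)
  obtain ⟨h1, h2⟩ := hC
  constructor
  · refine map_injective_mv hφ ?_
    rw [← key _ _ (hX _ _) (hX _ _)]
    simp only [MvPowerSeries.map_X]
    exact h1
  · refine map_injective_mv hφ ?_
    rw [map_add, map_add, ← key _ _ (hX _ _) (hX _ _) C, ← key _ _ (hX _ _) (hs (hX _ _) (hX _ _)),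
      ← key _ _ (hs (hX _ _) (hX _ _)) (hX _ _), ← key _ _ (hX _ _) (hX _ _) C,
      ← key _ _ (hX _ _) (hX _ _) F.toPowerSeries, ← key _ _ (hX _ _) (hX _ _) F.toPowerSeries]
    simp only [MvPowerSeries.map_X]
    exact h2

theorem cob_map {S : Type*} [CommRing S] (φ : R →+* S) (F : FormalGroup R) (h : PowerSeries R) :
    MvPowerSeries.map φ (cob F h) = cob (F.map φ) (PowerSeries.map φ h) := by
  rw [cob, cob, map_sub, map_sub,
    PowerSeries.map_subst (hasSubst_single_of_below (fg_mem_below F)),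
    PowerSeries.map_subst (hasSubst_single_of_below (X_mem_below _)),
    PowerSeries.map_subst (hasSubst_single_of_below (X_mem_below _)), MvPowerSeries.map_X,
    MvPowerSeries.map_X]
  rfl

theorem cob_neg (F : FormalGroup R) (h : PowerSeries R) : cob F (-h) = -cob F h := by
  have e : -h = PowerSeries.C (-1 : R) * h := by simp
  rw [e, cob, cob, psubst_C_mul (fg_mem_below F), psubst_C_mul (X_mem_below _),
    psubst_C_mul (X_mem_below _)]
  simp
  ring

theorem psubst_one {σ : Type*} (a : MvPowerSeries σ R) :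
    PowerSeries.subst a (1 : PowerSeries R) = 1 := by
  rw [← map_one (PowerSeries.C (R := R)), PowerSeries.subst_C, map_one]

end CocEq

section Residue

variable (K : Type) [NormedField K] [IsUltrametricDist K]

/-- The maximal ideal of the unit ball. -/
def maxBall : Ideal (Ball K) where
  carrier := {x | ‖x‖ < 1}
  add_mem' := fun ha hb => (IsUltrametricDist.norm_add_le_max _ _).trans_lt (max_lt ha hb)
  zero_mem' := by simp
  smul_mem' := fun c x hx => by
    show ‖c * x‖ < 1
    rw [norm_mul_Ball]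
    exact (mul_le_of_le_one_left (norm_nonneg _) c.2).trans_lt hx

variable {K}

theorem mem_maxBall {x : Ball K} : x ∈ maxBall K ↔ ‖x‖ < 1 := Iff.rfl

instance : (maxBall K).IsMaximal := by
  refine Ideal.isMaximal_iff.2 ⟨?_, fun J x _ hx hxJ => ?_⟩
  · rw [mem_maxBall, ← norm_coe]; simp
  have h1 : ‖(x : K)‖ = 1 := le_antisymm x.2 (not_lt.1 fun h => hx (mem_maxBall.2 h))
  have h2 : ((x : K))⁻¹ ∈ Ball K := by rw [mem_Ball, norm_inv, h1, inv_one]
  have hne : (x : K) ≠ 0 := norm_ne_zero_iff.1 (by rw [h1]; exact one_ne_zero)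
  have : (⟨(x : K)⁻¹, h2⟩ : Ball K) * x = 1 := Subtype.ext (inv_mul_cancel₀ hne)
  exact this ▸ J.mul_mem_left _ hxJ

/-- The residue field. -/
abbrev Res (K : Type) [NormedField K] [IsUltrametricDist K] : Type := Ball K ⧸ maxBall K

instance : Field (Res K) := Ideal.Quotient.field _

/-- Reduction. -/
abbrev res : Ball K →+* Res K := Ideal.Quotient.mk _

theorem res_eq_zero {x : Ball K} : res x = 0 ↔ ‖x‖ < 1 := Ideal.Quotient.eq_zero_iff_mem

theorem charP_res {p : ℕ} [Fact p.Prime] (hp : ‖((p : ℕ) : K)‖ < 1) : CharP (Res K) p := by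
  refine (CharP.charP_iff_prime_eq_zero Fact.out).2 ?_
  rw [← map_natCast (res (K := K))]
  exact res_eq_zero.2 hp

theorem exists_lift {σ : Type*} (f : MvPowerSeries σ K) (hf : ∀ d, ‖coeff d f‖ ≤ 1) :
    ∃ g : MvPowerSeries σ (Ball K), MvPowerSeries.map (Ball K).subtype g = f :=
  ⟨fun d => ⟨coeff d f, hf d⟩, by ext d; rfl⟩

theorem exists_lift' (f : PowerSeries K) (hf : ∀ d, ‖PowerSeries.coeff d f‖ ≤ 1) :
    ∃ g : PowerSeries (Ball K), PowerSeries.map (Ball K).subtype g = f :=
  ⟨PowerSeries.mk fun d => ⟨PowerSeries.coeff d f, hf d⟩, by ext d; simp⟩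

end Residue

section Lead

variable (p : ℕ) [Fact p.Prime] (n : ℕ) {k : Type*} [CommRing k]

theorem map_Cpow' {R S : Type*} [CommRing R] [CommRing S] (φ : R →+* S) (j : ℕ) :
    MvPowerSeries.map φ (Cpow p j) = Cpow p j := by
  ext d
  rw [coeff_map]
  simp only [Cpow, coeff_apply]
  split <;> simp

theorem coeff_Gser_single (j : Fin (n - 1)) {d : Fin 2 →₀ ℕ} (hd : d.degree ≤ p ^ ((j : ℕ) + 1)) :
    coeff d (Gser p n (0 : Fin (n - 1) → k) (Pi.single j 1)) =
      coeff d (MvPowerSeries.C (-1 : k) * Cpow p ((j : ℕ) + 1)) := by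
  have hj := j.isLt
  set u' := epsShift n (0 : Fin (n - 1) → k) (Pi.single j 1)
  have hu : ∀ i : Fin (n - 1), (i : ℕ) + 1 < (j : ℕ) + 1 → u' i = 0 := fun i hi => by
    have : i ≠ j := fun h => by omega
    simp [u', epsShift, this]
  have h := coeff_fg_of_le p n u' (h := (j : ℕ) + 1) (by omega) (by omega) hu d hd
  rw [fg_epsShift, coeff_incl_add, uvar_succ_of_lt, ← map_Cpow' p (inlHom k k),
    ← MvPowerSeries.map_X (inlHom k k), ← MvPowerSeries.map_X (inlHom k k)] at h
  have h' := congrArg snd h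
  rw [map_sub, map_add, coeff_C_mul, coeff_map, coeff_map, coeff_map] at h'
  simpa [u', epsShift, coeff_C_mul] using h'

end Lead

section Est

variable {p : ℕ} [Fact p.Prime] {n : ℕ} {K : Type} [NontriviallyNormedField K]
  [IsUltrametricDist K] [CharZero K]

theorem norm_cLog_lt (hn : 2 ≤ n) {U : Fin (n - 1) → K} {ε : ℝ} (hε : ε < 1)
    (hp : ‖((p : ℕ) : K)‖ ≤ ε) (hU : ∀ j, ‖U j‖ ≤ ε) (L : ℕ) :
    ‖((p : ℕ) : K)‖ ^ (L + 1) * ‖cLog p n U (L + 1)‖ ≤ ε := by
  have hU1 : ∀ j, ‖U j‖ ≤ 1 := fun j => (hU j).trans hε.le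
  rw [pow_succ, mul_assoc, ← norm_mul, cz_p_mul_cLog_succ]
  obtain ⟨i, hi, hle⟩ := IsUltrametricDist.exists_norm_finsetSum_le
    (Finset.range (L + 1)) fun i => cLog p n U (L - i) * uvar n U (i + 1) ^ p ^ (L - i)
  refine le_trans (mul_le_mul_of_nonneg_left hle (by positivity)) ?_
  rw [norm_mul, norm_pow, ← mul_assoc]
  rcases Nat.eq_zero_or_pos i with rfl | hi0
  · rw [Nat.sub_zero]
    refine (mul_le_of_le_one_left (by positivity) (cz_norm_cLog_le hU1 L)).trans ?_
    refine (pow_le_of_le_one (norm_nonneg _) (cz_norm_uvar_le hU1 _)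
      (pow_pos (Fact.out : p.Prime).pos L).ne').trans ?_
    rw [uvar, dif_pos ⟨le_rfl, by omega⟩]
    exact hU _
  · refine (mul_le_of_le_one_right (by positivity)
      (pow_le_one₀ (norm_nonneg _) (cz_norm_uvar_le hU1 _))).trans ?_
    have hpl : ‖((p : ℕ) : K)‖ ^ L ≤ ‖((p : ℕ) : K)‖ * ‖((p : ℕ) : K)‖ ^ (L - i) := by
      rw [← pow_succ']
      have := Finset.mem_range.1 (hi ⟨0, by simp⟩)
      exact pow_le_pow_of_le_one (norm_nonneg _) (IsUltrametricDist.norm_natCast_le_one K p)
        (by omega)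
    refine (mul_le_mul_of_nonneg_right hpl (norm_nonneg _)).trans ?_
    rw [mul_assoc]
    exact (mul_le_of_le_one_right (norm_nonneg _) (cz_norm_cLog_le hU1 _)).trans hp

theorem norm_coeff_derivative_logSeries_le {U : Fin (n - 1) → K} (hU : ∀ j, ‖U j‖ ≤ 1) (d : ℕ) :
    ‖PowerSeries.coeff d (PowerSeries.derivative K (logSeries p n U))‖ ≤ 1 := by
  rw [PowerSeries.coeff_derivative]
  by_cases hd : ∃ L, d + 1 = p ^ L
  · obtain ⟨L, hL⟩ := hd
    rw [hL, coeff_logSeries_pow, show ((d : K) + 1) = (p : K) ^ L by rw [← Nat.cast_add_one, hL, Nat.cast_pow],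
      norm_mul, norm_pow, mul_comm]
    exact cz_norm_cLog_le hU L
  · rw [coeff_logSeries_eq_zero p n U fun L h => hd ⟨L, h⟩, zero_mul, norm_zero]
    exact zero_le_one

theorem derivative_logSeries_reduced (hn : 2 ≤ n) {U : Fin (n - 1) → K} {ε : ℝ} (hε : ε < 1)
    (hp : ‖((p : ℕ) : K)‖ ≤ ε) (hU : ∀ j, ‖U j‖ ≤ ε) {g : PowerSeries (Ball K)}
    (hg : PowerSeries.map (Ball K).subtype g = PowerSeries.derivative K (logSeries p n U)) :
    PowerSeries.map res g = 1 := by
  ext d
  have hd' : ((PowerSeries.coeff d g : Ball K) : K) =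
      PowerSeries.coeff d (PowerSeries.derivative K (logSeries p n U)) := by
    rw [← hg, PowerSeries.coeff_map]; rfl
  rw [PowerSeries.coeff_map, PowerSeries.coeff_one]
  rw [PowerSeries.coeff_derivative] at hd'
  split_ifs with hd
  · subst hd
    rw [zero_add, coeff_one_logSeries', Nat.cast_zero, zero_add, mul_one] at hd'
    rw [show PowerSeries.coeff 0 g = 1 from Subtype.ext hd', map_one]
  · rw [res_eq_zero, ← norm_coe, hd']
    by_cases hL : ∃ L, d + 1 = p ^ L
    · obtain ⟨L, hL⟩ := hL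
      rw [hL, coeff_logSeries_pow, show ((d : K) + 1) = (p : K) ^ L by rw [← Nat.cast_add_one, hL, Nat.cast_pow],
        norm_mul, norm_pow, mul_comm]
      rcases L with _ | L
      · rw [pow_zero] at hL; omega
      exact (norm_cLog_lt hn hε hp hU L).trans_lt hε
    · rw [coeff_logSeries_eq_zero p n U fun L h => hL ⟨L, h⟩, zero_mul, norm_zero]
      exact zero_lt_one

end Est

section Injective

variable {p : ℕ} [Fact p.Prime] {n : ℕ} {K : Type} [NontriviallyNormedField K]
  [IsUltrametricDist K] [CharZero K]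

theorem isCocycle_reduced {ε : ℝ} (hε : ε < 1) (hp : ‖((p : ℕ) : K)‖ ≤ ε) (j : Fin (n - 1)) :
    IsCocycle (fg p n (0 : Fin (n - 1) → Res K)) (Gser p n 0 (Pi.single j 1)) := by
  have hn : 2 ≤ n := by have := j.isLt; omega
  set φ := (Ball K).subtype
  set U : Fin (n - 1) → K := 0
  have hU : ∀ i, ‖U i‖ ≤ ε := fun i => by
    simpa [U] using (norm_nonneg _).trans hp
  obtain ⟨g, hg⟩ := exists_lift' (PowerSeries.derivative K (logSeries p n U))
    (norm_coeff_derivative_logSeries_le fun i => (hU i).trans hε.le)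
  set F0 := fg p n (0 : Fin (n - 1) → Ball K)
  set C0 := PowerSeries.subst F0.toPowerSeries g * Gser p n 0 (Pi.single j 1)
  have hφ : F0.map φ = fg p n U := by
    rw [fg_map]; rfl
  have hC : MvPowerSeries.map φ C0 = cob (fg p n U) (-dlSeries p n U (Pi.single j 1)) := by
    rw [cob_neg, map_mul, Gser_map,
      PowerSeries.map_subst (hasSubst_single_of_below (fg_mem_below F0)), hg,
      show MvPowerSeries.map φ F0.toPowerSeries = (fg p n U).toPowerSeries from
        congrArg FormalGroup.toPowerSeries hφ,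
      show φ ∘ (0 : Fin (n - 1) → Ball K) = U from rfl,
      show φ ∘ (Pi.single j 1 : Fin (n - 1) → Ball K) = Pi.single j 1 from
        funext fun i => by by_cases h : i = j <;> simp [h, φ]]
    linear_combination cob_dlSeries p n U (Pi.single j 1)
  have h0 : CocEq F0 C0 := by
    refine CocEq.of_map Subtype.val_injective (φ := φ) ?_
    rw [hC, hφ]
    exact cocEq_cob _ _
  have hres : MvPowerSeries.map res C0 = Gser p n (0 : Fin (n - 1) → Res K) (Pi.single j 1) := by
    rw [map_mul, Gser_map, PowerSeries.map_subst (hasSubst_single_of_below (fg_mem_below F0)),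
      derivative_logSeries_reduced hn hε hp hU hg, psubst_one, one_mul]
    congr 1
    funext i
    by_cases h : i = j <;> simp [h]
  have hF : F0.map res = fg p n (0 : Fin (n - 1) → Res K) := by
    rw [fg_map]
    congr 1
  have h1 := h0.map res
  rw [hres, hF] at h1
  refine ⟨fun d hd => ?_, h1.1, h1.2⟩
  have h2 : 2 ≤ p ^ ((j : ℕ) + 1) :=
    (Fact.out : p.Prime).two_le.trans (Nat.le_self_pow (by omega) p)
  rw [coeff_Gser_single p n j (by omega), coeff_C_mul, coeff_apply, Cpow, if_neg, mul_zero]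
  rintro ⟨h, -, -⟩
  rw [Finsupp.degree_eq_sum, Fin.sum_univ_two] at hd
  omega

/-- An integral solution of the derivative equation reduces to zero. -/
theorem reduced_trivial (hn : 1 ≤ n) {ε : ℝ} (hε : ε < 1) (hp : ‖((p : ℕ) : K)‖ ≤ ε)
    {U : Fin (n - 1) → K} (hU : ∀ j, ‖U j‖ ≤ ε) (e : Fin (n - 1) → K) (μ : K)
    (he : ∀ j, ‖e j‖ ≤ 1) (hQ : ∀ L, ‖dLog p n U e L - μ * cLog p n U L‖ ≤ 1) :
    (∀ j, ‖e j‖ < 1) ∧ ∀ L, ‖dLog p n U e L - μ * cLog p n U L‖ < 1 := by
  set φ := (Ball K).subtype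
  set u : Fin (n - 1) → Ball K := fun j => ⟨U j, (hU j).trans hε.le⟩
  set e' : Fin (n - 1) → Ball K := fun j => ⟨e j, he j⟩
  set ψ := dlSeries p n U e - PowerSeries.C μ * logSeries p n U with hψ
  have hψL : ∀ L, PowerSeries.coeff (p ^ L) ψ = dLog p n U e L - μ * cLog p n U L := fun L => by
    rw [map_sub, PowerSeries.coeff_C_mul, coeff_dlSeries_pow, coeff_logSeries_pow]
  have hψb : ∀ d, ‖PowerSeries.coeff d ψ‖ ≤ 1 := fun d => by
    by_cases hd : ∃ L, d = p ^ L
    · obtain ⟨L, rfl⟩ := hd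
      rw [hψL]; exact hQ L
    · rw [map_sub, PowerSeries.coeff_C_mul, coeff_dlSeries_eq_zero p n _ _ fun L h => hd ⟨L, h⟩,
        coeff_logSeries_eq_zero p n _ fun L h => hd ⟨L, h⟩, mul_zero, sub_zero, norm_zero]
      exact zero_le_one
  obtain ⟨φs, hφs⟩ := exists_lift' ψ hψb
  obtain ⟨g, hg⟩ := exists_lift' (PowerSeries.derivative K (logSeries p n U))
    (norm_coeff_derivative_logSeries_le fun j => (hU j).trans hε.le)
  set F := fg p n u
  have hFU : F.map φ = fg p n U := fg_map p n φ u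
  have heq : cob F φs + PowerSeries.subst F.toPowerSeries g * Gser p n u e' = 0 := by
    refine map_injective_mv (φ := φ) Subtype.val_injective ?_
    rw [map_add, map_mul, map_zero, cob_map, hFU, hφs, Gser_map,
      PowerSeries.map_subst (hasSubst_single_of_below (fg_mem_below F)), hg,
      show MvPowerSeries.map φ F.toPowerSeries = (fg p n U).toPowerSeries from
        congrArg FormalGroup.toPowerSeries hFU,
      show φ ∘ u = U from rfl, show φ ∘ e' = e from rfl, hψ]
    have hl : cob (fg p n U) (dlSeries p n U e - PowerSeries.C μ * logSeries p n U) =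
        cob (fg p n U) (dlSeries p n U e) := by
      simp only [cob]
      rw [PowerSeries.subst_sub (hasSubst_single_of_below (fg_mem_below _)),
        PowerSeries.subst_sub (hasSubst_single_of_below (X_mem_below _)),
        PowerSeries.subst_sub (hasSubst_single_of_below (X_mem_below _)),
        psubst_C_mul (fg_mem_below _), psubst_C_mul (X_mem_below _),
        psubst_C_mul (X_mem_below _), log_fg]
      ring
    rw [hl]
    exact cob_dlSeries p n U e
  have hp1 : ‖((p : ℕ) : K)‖ < 1 := hp.trans_lt hε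
  have : CharP (Res K) p := charP_res hp1
  have hu0 : (res ∘ u) = 0 := funext fun j => res_eq_zero.2 ((hU j).trans_lt hε)
  set eb : Fin (n - 1) → Res K := res ∘ e' with heb
  set hb : PowerSeries (Res K) := PowerSeries.map res φs with hhb
  have hF : F.map res = fg p n (0 : Fin (n - 1) → Res K) := by rw [fg_map, hu0]
  have h := congrArg (MvPowerSeries.map res) heq
  rw [map_add, map_mul, map_zero, cob_map, hF, Gser_map, hu0,
    PowerSeries.map_subst (hasSubst_single_of_below (fg_mem_below F))] at h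
  have hT : PowerSeries.subst (MvPowerSeries.map res F.toPowerSeries) (PowerSeries.map res g) *
      Gser p n (0 : Fin (n - 1) → Res K) eb = Gser p n 0 eb := by
    rcases Nat.lt_or_ge n 2 with hn2 | hn2
    · have : IsEmpty (Fin (n - 1)) := ⟨fun j => by have := j.isLt; omega⟩
      have h0 : Gser p n (0 : Fin (n - 1) → Res K) eb = 0 := by
        ext d; simp [coeff_Gser]
      rw [h0, mul_zero]
    · rw [derivative_logSeries_reduced hn2 hε hp hU hg, psubst_one, one_mul]
  rw [hT, Gser_eq_sum, add_comm] at h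
  have hdec := (cocycle_decomp p n hn (fg p n (0 : Fin (n - 1) → Res K)) (-1)
    (neg_ne_zero.2 one_ne_zero) (fun d hd => by
      rw [coeff_fg_of_le p n (0 : Fin (n - 1) → Res K) hn le_rfl (fun _ _ => rfl) d hd, uvar_self]
      simp [sub_eq_add_neg])
    (fun j => Gser p n 0 (Pi.single j 1)) (isCocycle_reduced hε hp) (fun _ => -1)
    (fun _ => neg_ne_zero.2 one_ne_zero) (fun j d hd => coeff_Gser_single p n j hd)).2 eb hb ?_ h
  · refine ⟨fun j => ?_, fun L => ?_⟩
    · exact res_eq_zero.1 (congrFun hdec.1 j)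
    · have h2 := congrArg (PowerSeries.coeff (p ^ L)) hdec.2
      rw [hhb, PowerSeries.coeff_map, map_zero, res_eq_zero, ← norm_coe] at h2
      rwa [← hψL, ← hφs, PowerSeries.coeff_map]
  · rw [hhb, ← PowerSeries.coeff_zero_eq_constantCoeff_apply, PowerSeries.coeff_map]
    have h0 : ((PowerSeries.coeff 0 φs : Ball K) : K) = 0 := by
      have := congrArg (PowerSeries.coeff 0) hφs
      rw [PowerSeries.coeff_map] at this
      refine this.trans ?_
      simp [hψ, constantCoeff_dlSeries, constantCoeff_logSeries']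
    rw [show PowerSeries.coeff 0 φs = 0 from Subtype.ext h0, map_zero]

variable [CompleteSpace K]

/-- The derivatives of the limits and the limits themselves are independent. -/
theorem lam_injective (hn : 1 ≤ n) {ε : ℝ} (hε1 : ε < 1) (hp : ‖((p : ℕ) : K)‖ ≤ ε)
    {U : Fin (n - 1) → K} (hU : ∀ j, ‖U j‖ ≤ ε) (e : Fin (n - 1) → K) (μ : K)
    (h : ∀ i < n, wlim p n (dLog p n U e) i - μ * wvec p n U i = 0) : e = 0 ∧ μ = 0 := by
  have hε : 0 < ε := norm_p_pos.trans_le hp
  have hp1 : ‖((p : ℕ) : K)‖ < 1 := hp.trans_lt hε1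
  set Q : ℕ → K := fun L => dLog p n U e L - μ * cLog p n U L with hQdef
  set D := max ‖e‖ ‖μ‖ with hD
  have hD0 : 0 ≤ D := (norm_nonneg e).trans (le_max_left _ _)
  have hdef : ∀ L (η : ℝ), 0 ≤ η → (∀ M, L < M → eta p K ε M ≤ η) →
      ‖(p : K) * Q (L + n) - Q L‖ ≤ η * D := by
    intro L η hη0 hη
    rw [show (p : K) * Q (L + n) - Q L = ((p : K) * dLog p n U e (L + n) - dLog p n U e L) +
      -(μ * ((p : K) * cLog p n U (L + n) - cLog p n U L)) by simp only [hQdef]; ring]
    refine (IsUltrametricDist.norm_add_le_max _ _).trans (max_le ?_ ?_)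
    · exact (norm_dDefect_le hn hε.le hε1.le (norm_nonneg e) hU (norm_le_pi_norm e) hη0 hη).trans
        (mul_le_mul_of_nonneg_left (le_max_left _ _) hη0)
    · rw [norm_neg, norm_mul, mul_comm]
      exact mul_le_mul (norm_defect_le hn hε.le hε1.le hU hη0 hη) (le_max_right _ _)
        (norm_nonneg _) hη0
  obtain ⟨H, hH1, hH, hcH⟩ := exists_defect_bound (p := p) (K := K) hn hε1 hp
  have hQb : ∀ L, ‖(p : K) * Q (L + n) - Q L‖ ≤ H * D := fun L =>
    hdef L H (zero_le_one.trans hH1) fun M _ => hH M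
  have hdb : ∀ L, ‖(p : K) * dLog p n U e (L + n) - dLog p n U e L‖ ≤ H * ‖e‖ := fun L =>
    norm_dDefect_le hn hε.le hε1.le (norm_nonneg e) hU (norm_le_pi_norm e)
      (zero_le_one.trans hH1) fun M _ => hH M
  have hQ0 : ∀ i < n, wlim p n Q i = 0 := by
    intro i hi
    refine tendsto_nhds_unique (tendsto_wlim hQb hp1 i) ?_
    rw [← h i hi]
    refine ((tendsto_wlim hdb hp1 i).sub ((tendsto_wlim (hcH U hU) hp1 i).const_mul μ)).congr
      fun r => ?_
    simp only [hQdef]; ring
  have hQlim : Tendsto (fun L => ‖Q L‖) atTop (𝓝 0) := by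
    rw [Metric.tendsto_atTop]
    intro δ hδ
    obtain ⟨M0, hM0⟩ := Metric.tendsto_atTop.1 (tendsto_eta (p := p) (K := K) hε hε1)
      (δ / (D + 1)) (by positivity)
    refine ⟨M0, fun L hL => ?_⟩
    have hb : ‖Q L‖ ≤ δ / (D + 1) * D := by
      refine norm_le_of_wlim_eq_zero hQb hp1 hn hQ0 fun L' hL' =>
        hdef L' _ (by positivity) fun M hM => ?_
      have := (hM0 M (by omega)).le
      rwa [Real.dist_eq, sub_zero, abs_of_nonneg (eta_nonneg hε.le M)] at this
    rw [Real.dist_eq, sub_zero, abs_of_nonneg (norm_nonneg _)]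
    refine hb.trans_lt ?_
    rw [div_mul_eq_mul_div, div_lt_iff₀ (by positivity)]
    nlinarith
  by_cases hall : (∀ L, Q L = 0) ∧ e = 0
  · refine ⟨hall.2, ?_⟩
    have := hall.1 0
    simpa [hQdef, cLog, dLog] using this
  exfalso
  obtain ⟨c, hc, hce, hcQ, hc'⟩ : ∃ c : K, c ≠ 0 ∧ (∀ j, ‖e j‖ ≤ ‖c‖) ∧ (∀ L, ‖Q L‖ ≤ ‖c‖) ∧
      ((∃ j, ‖e j‖ = ‖c‖) ∨ ∃ L, ‖Q L‖ = ‖c‖) := by
    have hex : ∃ x : K, x ≠ 0 ∧ ((∃ j, e j = x) ∨ ∃ L, Q L = x) := by
      rcases not_and_or.1 hall with h' | h'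
      · obtain ⟨L, hL⟩ := not_forall.1 h'
        exact ⟨_, hL, Or.inr ⟨L, rfl⟩⟩
      · obtain ⟨j, hj⟩ := Function.ne_iff.1 h'
        exact ⟨_, hj, Or.inl ⟨j, rfl⟩⟩
    obtain ⟨x, hx, hxmem⟩ := hex
    obtain ⟨M0, hM0⟩ := Metric.tendsto_atTop.1 hQlim ‖x‖ (norm_pos_iff.2 hx)
    classical
    set S : Finset K := Finset.univ.image e ∪ (Finset.range M0).image Q ∪ {x} with hS
    obtain ⟨c, hcS, hmax⟩ := S.exists_max_image (fun y => ‖y‖) ⟨x, by simp [hS]⟩
    have hxc : ‖x‖ ≤ ‖c‖ := hmax x (by simp [hS])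
    refine ⟨c, norm_pos_iff.1 ((norm_pos_iff.2 hx).trans_le hxc),
      fun j => hmax _ (by simp [hS]), fun L => ?_, ?_⟩
    · rcases lt_or_ge L M0 with hL | hL
      · refine hmax _ ?_
        simp only [hS, Finset.mem_union, Finset.mem_image, Finset.mem_range]
        exact Or.inl (Or.inr ⟨L, hL, rfl⟩)
      · have := hM0 L hL
        rw [Real.dist_eq, sub_zero, abs_of_nonneg (norm_nonneg _)] at this
        exact this.le.trans hxc
    · simp only [hS, Finset.mem_union, Finset.mem_image, Finset.mem_range, Finset.mem_singleton,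
        Finset.mem_univ, true_and] at hcS
      rcases hcS with (⟨j, rfl⟩ | ⟨L, -, rfl⟩) | rfl
      · exact Or.inl ⟨j, rfl⟩
      · exact Or.inr ⟨L, rfl⟩
      · rcases hxmem with ⟨j, rfl⟩ | ⟨L, rfl⟩
        · exact Or.inl ⟨j, rfl⟩
        · exact Or.inr ⟨L, rfl⟩
  have hQ' : ∀ L, dLog p n U (c⁻¹ • e) L - c⁻¹ * μ * cLog p n U L = c⁻¹ * Q L := fun L => by
    rw [dLog_smul]; simp only [hQdef]; ring
  have hc0 : 0 < ‖c‖ := norm_pos_iff.2 hc
  have hr := reduced_trivial hn hε1 hp hU (c⁻¹ • e) (c⁻¹ * μ)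
    (fun j => by
      rw [Pi.smul_apply, smul_eq_mul, norm_mul, norm_inv, inv_mul_le_one₀ hc0]; exact hce j)
    (fun L => by rw [hQ', norm_mul, norm_inv, inv_mul_le_one₀ hc0]; exact hcQ L)
  rcases hc' with ⟨j, hj⟩ | ⟨L, hL⟩
  · have := hr.1 j
    rw [Pi.smul_apply, smul_eq_mul, norm_mul, norm_inv, hj, inv_mul_cancel₀ hc0.ne'] at this
    exact lt_irrefl _ this
  · have := hr.2 L
    rw [hQ', norm_mul, norm_inv, hL, inv_mul_cancel₀ hc0.ne'] at this
    exact lt_irrefl _ this

end Injective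

end Vale.P217

end
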