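import Vale.Agent.P217.CharZeroHom
import Mathlib.Algebra.DualNumber
import Mathlib.RingTheory.PowerSeries.Derivative

/-!
The derivative of the universal law in the parameters, through dual numbers.
-/

noncomputable section

set_option linter.unusedSectionVars false

namespace Vale.P217

open MvPowerSeries DualNumber TrivSqZeroExt

variable (p : ℕ) [Fact p.Prime] (n : ℕ)

section Gser

variable {R : Type*} [CommRing R]

/-- The directional derivative of the universal law at `u` along `e`. -/
def Gser (u e : Fin (n - 1) → R) : MvPowerSeries (Fin 2) R :=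
  fun d => ∑ j, e j *
    MvPolynomial.aeval u (MvPolynomial.pderiv j (MvPowerSeries.coeff d (univFG p n).toPowerSeries))

theorem coeff_Gser (u e : Fin (n - 1) → R) (d : Fin 2 →₀ ℕ) :
    coeff d (Gser p n u e) = ∑ j, e j *
      MvPolynomial.aeval u
        (MvPolynomial.pderiv j (MvPowerSeries.coeff d (univFG p n).toPowerSeries)) := rfl

theorem ringHom_aeval {S σ : Type*} [CommRing S] (φ : R →+* S) (u : σ → R)
    (P : MvPolynomial σ ℤ) : φ (MvPolynomial.aeval u P) = MvPolynomial.aeval (φ ∘ u) P := by
  rw [← RingHom.toIntAlgHom_apply φ, ← AlgHom.comp_apply, MvPolynomial.comp_aeval]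
  rfl

theorem Gser_map {S : Type*} [CommRing S] (φ : R →+* S) (u e : Fin (n - 1) → R) :
    MvPowerSeries.map φ (Gser p n u e) = Gser p n (φ ∘ u) (φ ∘ e) := by
  ext d
  simp only [coeff_map, coeff_Gser, map_sum, map_mul, ringHom_aeval, Function.comp_apply]

theorem Gser_eq_sum (u e : Fin (n - 1) → R) :
    Gser p n u e = ∑ j, C (e j) * Gser p n u (Pi.single j 1) := by
  ext d
  simp only [map_sum, coeff_C_mul, coeff_Gser]
  refine Finset.sum_congr rfl fun j _ => ?_
  congr 1
  simp [Pi.single_apply, ite_mul]

theorem Gser_mem_below_one (u e : Fin (n - 1) → R) : Gser p n u e ∈ below 1 := by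
  rw [mem_below_one_iff, ← coeff_zero_eq_constantCoeff_apply, coeff_Gser,
    coeff_zero_eq_constantCoeff_apply, (univFG p n).zero_constantCoeff]
  simp

/-- The point `u + ε e` over the dual numbers. -/
def epsShift (u e : Fin (n - 1) → R) : Fin (n - 1) → DualNumber R :=
  fun j => inl (u j) + inr (e j)

theorem aeval_epsShift {σ : Type*} [Fintype σ] [DecidableEq σ] (u e : σ → R)
    (P : MvPolynomial σ ℤ) :
    MvPolynomial.aeval (fun j => (inl (u j) + inr (e j) : DualNumber R)) P =
      inl (MvPolynomial.aeval u P) +
        inr (∑ j, e j * MvPolynomial.aeval u (MvPolynomial.pderiv j P)) := by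
  induction P using MvPolynomial.induction_on with
  | C a => simp
  | add P Q hP hQ =>
    simp only [map_add, hP, hQ, mul_add, Finset.sum_add_distrib, inl_add, inr_add]
    abel
  | mul_X P i hP =>
    rw [map_mul, hP, MvPolynomial.aeval_X]
    simp only [MvPolynomial.pderiv_mul, MvPolynomial.pderiv_X, map_add, map_mul,
      MvPolynomial.aeval_X, mul_add, Finset.sum_add_distrib]
    ext
    · simp
    · simp [Pi.single_apply, apply_ite (MvPolynomial.aeval u), Finset.mul_sum,
        mul_comm, mul_left_comm]

theorem epsShift_fst (u e : Fin (n - 1) → R) : (fun j => fst (epsShift n u e j)) = u := by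
  funext j
  simp [epsShift]

/-- The inclusion of series into series over the dual numbers. -/
abbrev incl {σ : Type*} : MvPowerSeries σ R →+* MvPowerSeries σ (DualNumber R) :=
  MvPowerSeries.map (inlHom R R)

theorem coeff_incl_add {σ : Type*} (P Q : MvPowerSeries σ R) (d : σ →₀ ℕ) :
    coeff d (incl P + C (ε : DualNumber R) * incl Q) = inl (coeff d P) + inr (coeff d Q) := by
  rw [map_add, coeff_C_mul, coeff_map, coeff_map]
  ext <;> simp

theorem incl_add_inj {σ : Type*} {P Q P' Q' : MvPowerSeries σ R}
    (h : incl P + C (ε : DualNumber R) * incl Q = incl P' + C (ε : DualNumber R) * incl Q') :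
    Q = Q' := by
  ext d
  have := congrArg (fun x => snd (coeff d x)) h
  simpa [coeff_incl_add] using this

/-- The universal law at `u + ε e`. -/
theorem fg_epsShift (u e : Fin (n - 1) → R) :
    (fg p n (epsShift n u e)).toPowerSeries =
      incl (fg p n u).toPowerSeries + C (ε : DualNumber R) * incl (Gser p n u e) := by
  ext1 d
  rw [coeff_incl_add, coeff_Gser]
  exact aeval_epsShift u e _

end Gser

section Log

variable {B : Type} [CommRing B] [Algebra ℚ B]

theorem fst_uvar (u e : Fin (n - 1) → B) (i : ℕ) :
    fst (uvar n (epsShift n u e) i) = uvar n u i := by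
  unfold uvar
  split_ifs <;> simp [epsShift]

theorem snd_uvar_succ (u e : Fin (n - 1) → B) (i : ℕ) :
    snd (uvar n (epsShift n u e) (i + 1)) = if h : i + 1 < n then e ⟨i, by omega⟩ else 0 := by
  unfold uvar
  by_cases h : i + 1 < n
  · rw [dif_pos ⟨by omega, h⟩, dif_pos h]
    simp [epsShift]
  · rw [dif_neg (by omega), dif_neg h]
    split_ifs <;> simp

theorem fst_cLog_eps (u e : Fin (n - 1) → B) (L : ℕ) :
    fst (cLog p n (epsShift n u e) L) = cLog p n u L := by
  have h := cLog_map p n (fstHom B B B).toRingHom (epsShift n u e) L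
  refine h.trans ?_
  congr 1
  exact epsShift_fst n u e

theorem snd_cLog_eps (u e : Fin (n - 1) → B) (L : ℕ) :
    snd (cLog p n (epsShift n u e) L) = dLog p n u e L := by
  induction L using Nat.strong_induction_on with
  | _ L ih =>
    rcases L with _ | L
    · rw [cLog, dLog, snd_one]
    rw [cLog, dLog, DualNumber.snd_mul, TrivSqZeroExt.algebraMap_eq_inl' ℚ B B, fst_inl, snd_inl,
      zero_mul, add_zero, snd_sum]
    refine congrArg _ (Finset.sum_congr rfl fun i _ => ?_)
    rw [DualNumber.snd_mul, TrivSqZeroExt.fst_pow, TrivSqZeroExt.snd_pow, fst_uvar,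
      snd_uvar_succ, fst_cLog_eps, ih _ (by omega), Nat.pred_eq_sub_one]
    simp only [smul_eq_mul, nsmul_eq_mul]
    ring

/-- The derivative of the logarithm in the parameters. -/
def dlSeries (u e : Fin (n - 1) → B) : PowerSeries B :=
  PowerSeries.mk fun d => if d = p ^ Nat.log p d then dLog p n u e (Nat.log p d) else 0

theorem coeff_dlSeries_pow (u e : Fin (n - 1) → B) (L : ℕ) :
    PowerSeries.coeff (p ^ L) (dlSeries p n u e) = dLog p n u e L := by
  rw [dlSeries, PowerSeries.coeff_mk, Nat.log_pow (Fact.out : p.Prime).one_lt, if_pos rfl]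

theorem coeff_dlSeries_eq_zero (u e : Fin (n - 1) → B) {d : ℕ} (hd : ∀ L, d ≠ p ^ L) :
    PowerSeries.coeff d (dlSeries p n u e) = 0 := by
  rw [dlSeries, PowerSeries.coeff_mk, if_neg (hd _)]

theorem constantCoeff_dlSeries (u e : Fin (n - 1) → B) :
    PowerSeries.constantCoeff (dlSeries p n u e) = 0 := by
  rw [← PowerSeries.coeff_zero_eq_constantCoeff_apply]
  exact coeff_dlSeries_eq_zero p n u e fun L => (pow_pos (Fact.out : p.Prime).pos L).ne

theorem logSeries_epsShift (u e : Fin (n - 1) → B) :
    (logSeries p n (epsShift n u e) : PowerSeries (DualNumber B)) =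
      PowerSeries.map (inlHom B B) (logSeries p n u) +
        PowerSeries.C ε * PowerSeries.map (inlHom B B) (dlSeries p n u e) := by
  ext1 d
  rw [map_add, PowerSeries.coeff_C_mul, PowerSeries.coeff_map, PowerSeries.coeff_map]
  by_cases hd : ∃ L, d = p ^ L
  · obtain ⟨L, rfl⟩ := hd
    rw [coeff_logSeries_pow, coeff_logSeries_pow, coeff_dlSeries_pow]
    ext
    · simp [fst_cLog_eps]
    · simp [snd_cLog_eps]
  · rw [coeff_logSeries_eq_zero p n _ fun L h => hd ⟨L, h⟩,
      coeff_logSeries_eq_zero p n _ fun L h => hd ⟨L, h⟩,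
      coeff_dlSeries_eq_zero p n _ _ fun L h => hd ⟨L, h⟩, map_zero, mul_zero, add_zero]

end Log

section Taylor

variable {R : Type*} [CommRing R] {τ : Type*}

theorem subst_sub_trunc_mem_below {a : MvPowerSeries τ R} (ha : a ∈ below 1) (f : PowerSeries R)
    (M : ℕ) : PowerSeries.subst a f -
      ∑ j ∈ Finset.range M, C (PowerSeries.coeff j f) * a ^ j ∈ below M := by
  intro d hd
  rw [map_sub, map_sum, coeff_subst_range ha f d (N := M - 1) (by omega),
    show M - 1 + 1 = M by omega]
  simp [coeff_C_mul]

theorem add_pow_sq_zero (A E : R) (hE : E * E = 0) :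
    ∀ m : ℕ, (A + E) ^ (m + 1) = A ^ (m + 1) + (m + 1 : ℕ) * A ^ m * E
  | 0 => by simp
  | m + 1 => by
    rw [pow_succ, add_pow_sq_zero A E hE m]
    push_cast
    linear_combination ((m : R) + 1) * A ^ m * hE

/-- Taylor expansion for a perturbation of square zero. -/
theorem psubst_add_sq_zero {A E : MvPowerSeries τ R} (hA : A ∈ below 1) (hE : E ∈ below 1)
    (hE2 : E * E = 0) (f : PowerSeries R) :
    PowerSeries.subst (A + E) f =
      PowerSeries.subst A f + PowerSeries.subst A (PowerSeries.derivative R f) * E := by
  refine eq_of_below fun M => ?_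
  have h1 := below_antitone (Nat.le_succ M)
    (subst_sub_trunc_mem_below (Ideal.add_mem _ hA hE) f (M + 1))
  have h2 := below_antitone (Nat.le_succ M) (subst_sub_trunc_mem_below hA f (M + 1))
  have h3 := Ideal.mul_mem_right E (below M)
    (subst_sub_trunc_mem_below hA (PowerSeries.derivative R f) M)
  have hsum : ∑ j ∈ Finset.range (M + 1), C (PowerSeries.coeff j f) * (A + E) ^ j =
      (∑ j ∈ Finset.range (M + 1), C (PowerSeries.coeff j f) * A ^ j) +
        (∑ j ∈ Finset.range M, C (PowerSeries.coeff j (PowerSeries.derivative R f)) * A ^ j) *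
          E := by
    rw [Finset.sum_range_succ', Finset.sum_range_succ' _ M, Finset.sum_mul,
      add_right_comm, ← Finset.sum_add_distrib]
    refine congrArg₂ _ (Finset.sum_congr rfl fun j _ => ?_) (by simp)
    rw [add_pow_sq_zero A E hE2 j, PowerSeries.coeff_derivative]
    push_cast [map_mul, map_add, map_one, map_natCast]
    ring
  have := Ideal.sub_mem _ (Ideal.sub_mem _ h1 h2) h3
  convert this using 1
  rw [hsum]
  ring

theorem derivative_map {S : Type*} [CommRing S] (φ : R →+* S) (f : PowerSeries R) :
    PowerSeries.derivative S (PowerSeries.map φ f) =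
      PowerSeries.map φ (PowerSeries.derivative R f) := by
  ext d
  simp [PowerSeries.coeff_derivative, PowerSeries.coeff_map]

end Taylor

/-- The derivative in the parameters of the logarithm identity. -/
theorem cob_dlSeries {B : Type} [CommRing B] [Algebra ℚ B] (u e : Fin (n - 1) → B) :
    cob (fg p n u) (dlSeries p n u e) +
      PowerSeries.subst (fg p n u).toPowerSeries
        (PowerSeries.derivative B (logSeries p n u)) * Gser p n u e = 0 := by
  set ι : B →+* DualNumber B := inlHom B B
  set F := (fg p n u).toPowerSeries with hFdef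
  set G := Gser p n u e
  set l := logSeries p n u
  set dl := dlSeries p n u e
  set A := MvPowerSeries.map ι F with hA
  set E := C (ε : DualNumber B) * MvPowerSeries.map ι G with hE
  have hF : F ∈ below 1 := fg_mem_below _
  have hA1 : A ∈ below 1 := by
    rw [mem_below_one_iff, hA, constantCoeff_map, (fg p n u).zero_constantCoeff, map_zero]
  have hG1 : MvPowerSeries.map ι G ∈ below 1 := by
    rw [mem_below_one_iff, constantCoeff_map, mem_below_one_iff.1 (Gser_mem_below_one p n u e),
      map_zero]
  have hE1 : E ∈ below 1 := Ideal.mul_mem_left _ _ hG1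
  have heps : C (ε : DualNumber B) * C ε = (0 : MvPowerSeries (Fin 2) (DualNumber B)) := by
    rw [← map_mul, eps_mul_eps, map_zero]
  have hE2 : E * E = 0 := by
    rw [hE, mul_mul_mul_comm, heps, zero_mul]
  have hmap : ∀ f : PowerSeries B, PowerSeries.subst (A + E) (PowerSeries.map ι f) =
      MvPowerSeries.map ι (PowerSeries.subst F f) + C ε *
        MvPowerSeries.map ι (PowerSeries.subst F (PowerSeries.derivative B f) * G) := by
    intro f
    rw [psubst_add_sq_zero hA1 hE1 hE2, derivative_map, map_mul, hA,
      ← PowerSeries.map_subst (hasSubst_single_of_below hF),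
      ← PowerSeries.map_subst (hasSubst_single_of_below hF), hE]
    ring
  have hX : ∀ (t : Fin 2) (f : PowerSeries B),
      PowerSeries.subst (X t : MvPowerSeries (Fin 2) (DualNumber B)) (PowerSeries.map ι f) =
        MvPowerSeries.map ι (PowerSeries.subst (X t) f) := fun t f => by
    rw [PowerSeries.map_subst (hasSubst_single_of_below (X_mem_below t)), MvPowerSeries.map_X]
  have hAE : A + E ∈ below 1 := Ideal.add_mem _ hA1 hE1
  have h := log_fg p n (epsShift n u e)
  rw [fg_epsShift, logSeries_epsShift,
    show incl F + C ε * incl G = A + E from rfl,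
    PowerSeries.subst_add (hasSubst_single_of_below hAE),
    PowerSeries.subst_add (hasSubst_single_of_below (X_mem_below _)),
    PowerSeries.subst_add (hasSubst_single_of_below (X_mem_below _)),
    psubst_C_mul hAE, psubst_C_mul (X_mem_below _), psubst_C_mul (X_mem_below _), hmap, hmap, hX,
    hX, hX, hX] at h
  have h' : incl (PowerSeries.subst F l) + C ε * incl
        (PowerSeries.subst F (PowerSeries.derivative B l) * G + PowerSeries.subst F dl) =
      incl (PowerSeries.subst (X (0 : Fin 2)) l + PowerSeries.subst (X (1 : Fin 2)) l) + C ε * incl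
        (PowerSeries.subst (X (0 : Fin 2)) dl + PowerSeries.subst (X (1 : Fin 2)) dl) := by
    simp only [map_add, mul_add]
    linear_combination h - heps * MvPowerSeries.map ι
      (PowerSeries.subst F (PowerSeries.derivative B dl) * G)
  have := incl_add_inj h'
  rw [cob, ← hFdef]
  linear_combination this

end Vale.P217

end
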