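import Mathlib.RingTheory.MvPowerSeries.Substitution
import Mathlib.RingTheory.MvPowerSeries.Order
import Mathlib.RingTheory.PowerSeries.Substitution

/-!
The ideals of series vanishing below a degree, and how substitution behaves with respect to them.
-/

noncomputable section

namespace Vale.P217

open MvPowerSeries Finsupp

variable {σ τ R : Type*} [CommRing R]

/-- Series whose coefficients in total degree `< D` vanish. -/
def below (D : ℕ) : Ideal (MvPowerSeries σ R) where
  carrier := {f | ∀ d : σ →₀ ℕ, d.degree < D → coeff d f = 0}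
  add_mem' := fun hf hg d hd => by rw [map_add, hf d hd, hg d hd, add_zero]
  zero_mem' := fun d _ => map_zero _
  smul_mem' := fun c f hf d hd => by
    classical
    rw [smul_eq_mul, coeff_mul]
    refine Finset.sum_eq_zero fun x hx => ?_
    rw [Finset.mem_antidiagonal] at hx
    rw [hf x.2, mul_zero]
    rw [← hx, map_add] at hd
    omega

theorem mem_below {D : ℕ} {f : MvPowerSeries σ R} :
    f ∈ below D ↔ ∀ d : σ →₀ ℕ, d.degree < D → coeff d f = 0 := Iff.rfl

theorem below_antitone {D E : ℕ} (h : D ≤ E) {f : MvPowerSeries σ R} (hf : f ∈ below E) :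
    f ∈ below D := fun d hd => hf d (lt_of_lt_of_le hd h)

theorem mem_below_zero (f : MvPowerSeries σ R) : f ∈ below 0 := fun d hd => absurd hd (by omega)

theorem mem_below_one_iff {f : MvPowerSeries σ R} : f ∈ below 1 ↔ constantCoeff f = 0 := by
  constructor
  · intro h
    rw [← coeff_zero_eq_constantCoeff_apply]
    exact h 0 (by simp)
  · intro h d hd
    have : d = 0 := by rw [← Finsupp.degree_eq_zero_iff]; omega
    rw [this, coeff_zero_eq_constantCoeff_apply, h]

theorem X_mem_below (s : σ) : (X s : MvPowerSeries σ R) ∈ below 1 :=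
  mem_below_one_iff.2 (constantCoeff_X s)

theorem eq_of_below {f g : MvPowerSeries σ R} (h : ∀ D, f - g ∈ below D) : f = g :=
  MvPowerSeries.ext fun d => by
    have := h (d.degree + 1) d (Nat.lt_succ_self _)
    rwa [map_sub, sub_eq_zero] at this

theorem coeff_eq_of_below {D : ℕ} {f g : MvPowerSeries σ R} (h : f - g ∈ below D) {d : σ →₀ ℕ}
    (hd : d.degree < D) : coeff d f = coeff d g := by
  have := h d hd
  rwa [map_sub, sub_eq_zero] at this

theorem mul_mem_below {a b : ℕ} {f g : MvPowerSeries σ R} (hf : f ∈ below a) (hg : g ∈ below b) :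
    f * g ∈ below (a + b) := by
  classical
  intro d hd
  rw [coeff_mul]
  refine Finset.sum_eq_zero fun x hx => ?_
  rw [Finset.mem_antidiagonal] at hx
  rw [← hx, map_add] at hd
  rcases lt_or_ge x.1.degree a with h | h
  · rw [hf x.1 h, zero_mul]
  · rw [hg x.2 (by omega), mul_zero]

theorem pow_mem_below {a : ℕ} {f : MvPowerSeries σ R} (hf : f ∈ below a) (m : ℕ) :
    f ^ m ∈ below (a * m) := by
  induction m with
  | zero => simpa using mem_below_zero 1
  | succ m ih =>
    rw [pow_succ, Nat.mul_succ]
    exact mul_mem_below ih hf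

theorem pow_sub_pow_mem_below {e : ℕ} {a b : MvPowerSeries σ R} (ha : a ∈ below 1)
    (hb : b ∈ below 1) (hab : a - b ∈ below e) (m : ℕ) :
    a ^ m - b ^ m ∈ below (e + m - 1) := by
  induction m with
  | zero => simp
  | succ m ih =>
    have h1 : (a ^ m - b ^ m) * a ∈ below (e + m) := by
      refine below_antitone ?_ (mul_mem_below ih ha)
      omega
    have h2 : b ^ m * (a - b) ∈ below (e + m) := by
      refine below_antitone ?_ (mul_mem_below (pow_mem_below hb m) hab)
      omega
    have e1 : a ^ (m + 1) - b ^ (m + 1) = (a ^ m - b ^ m) * a + b ^ m * (a - b) := by ring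
    rw [e1]
    exact Ideal.add_mem _ h1 h2

theorem prod_mem_below {a : σ → MvPowerSeries τ R} {k : ℕ} (ha : ∀ s, a s ∈ below k)
    (d : σ →₀ ℕ) : (d.prod fun s e => a s ^ e) ∈ below (k * d.degree) := by
  classical
  induction d using Finsupp.induction with
  | zero => simp [mem_below_zero]
  | single_add s n f hs hn ih =>
    rw [Finsupp.prod_add_index' (by simp) (fun _ _ _ => pow_add _ _ _), map_add,
      Finsupp.degree_single, Finsupp.prod_single_index (by simp), mul_add]
    exact mul_mem_below (pow_mem_below (ha s) n) ih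

theorem prod_sub_prod_mem_below {a b : σ → MvPowerSeries τ R} {e : ℕ}
    (ha : ∀ s, a s ∈ below 1) (hb : ∀ s, b s ∈ below 1) (hab : ∀ s, a s - b s ∈ below e)
    (d : σ →₀ ℕ) :
    (d.prod fun s i => a s ^ i) - (d.prod fun s i => b s ^ i) ∈ below (e + d.degree - 1) := by
  classical
  induction d using Finsupp.induction with
  | zero => simp
  | single_add s n f hs hn ih =>
    simp only [Finsupp.prod_add_index' (h := fun s i => a s ^ i) (by simp) (fun _ _ _ => pow_add _ _ _),
      Finsupp.prod_add_index' (h := fun s i => b s ^ i) (by simp) (fun _ _ _ => pow_add _ _ _),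
      map_add, Finsupp.degree_single]
    rw [Finsupp.prod_single_index (by simp), Finsupp.prod_single_index (by simp)]
    set A := f.prod fun s i => a s ^ i
    set B := f.prod fun s i => b s ^ i
    have e1 : a s ^ n * A - b s ^ n * B = (a s ^ n - b s ^ n) * A + b s ^ n * (A - B) := by ring
    rw [e1]
    refine Ideal.add_mem _ ?_ ?_
    · refine below_antitone ?_
        (mul_mem_below (pow_sub_pow_mem_below (ha s) (hb s) (hab s) n) (prod_mem_below ha f))
      omega
    · refine below_antitone ?_ (mul_mem_below (pow_mem_below (hb s) n) ih)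
      omega

variable [Finite σ]

theorem hasSubst_of_below {a : σ → MvPowerSeries τ R} (ha : ∀ s, a s ∈ below 1) : HasSubst a :=
  hasSubst_of_constantCoeff_zero fun s => mem_below_one_iff.1 (ha s)

theorem subst_mem_below {a : σ → MvPowerSeries τ R} (ha : ∀ s, a s ∈ below 1) {k : ℕ}
    (hak : ∀ s, a s ∈ below k) {D : ℕ} {Φ : MvPowerSeries σ R} (hΦ : Φ ∈ below D) :
    subst a Φ ∈ below (k * D) := by
  intro e he
  rw [coeff_subst (hasSubst_of_below ha)]
  refine finsum_eq_zero_of_forall_eq_zero fun d => ?_
  rcases lt_or_ge d.degree D with h | h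
  · rw [hΦ d h, zero_smul]
  · rw [prod_mem_below hak d e (lt_of_lt_of_le he (Nat.mul_le_mul le_rfl h)), smul_zero]

theorem subst_mem_below_one {a : σ → MvPowerSeries τ R} (ha : ∀ s, a s ∈ below 1) {D : ℕ}
    {Φ : MvPowerSeries σ R} (hΦ : Φ ∈ below D) : subst a Φ ∈ below D := by
  simpa using subst_mem_below ha ha hΦ

/-- Substituting congruent families gives congruent series. -/
theorem subst_sub_subst_mem_below {a b : σ → MvPowerSeries τ R} (ha : ∀ s, a s ∈ below 1)
    (hb : ∀ s, b s ∈ below 1) {e : ℕ} (hab : ∀ s, a s - b s ∈ below e) {D : ℕ}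
    {Φ : MvPowerSeries σ R} (hΦ : Φ ∈ below D) :
    subst a Φ - subst b Φ ∈ below (e + D - 1) := by
  intro m hm
  rw [map_sub, coeff_subst (hasSubst_of_below ha), coeff_subst (hasSubst_of_below hb),
    ← finsum_sub_distrib (coeff_subst_finite (hasSubst_of_below ha) _ _)
      (coeff_subst_finite (hasSubst_of_below hb) _ _)]
  refine finsum_eq_zero_of_forall_eq_zero fun d => ?_
  rcases lt_or_ge d.degree D with h | h
  · rw [hΦ d h, zero_smul, zero_smul, sub_zero]
  · rw [← smul_sub, ← map_sub, prod_sub_prod_mem_below ha hb hab d m (by omega), smul_zero]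

omit [Finite σ] in
/-- The linear part of a series. -/
def linPart [Fintype σ] (Φ : MvPowerSeries σ R) : MvPowerSeries σ R :=
  ∑ s, C (coeff (single s 1) Φ) * X s

omit [Finite σ] in
theorem sub_linPart_mem_below [Fintype σ] {Φ : MvPowerSeries σ R} (h0 : constantCoeff Φ = 0) :
    Φ - linPart Φ ∈ below 2 := by
  classical
  intro d hd
  rw [map_sub, linPart, map_sum]
  rcases Nat.eq_zero_or_pos d.degree with h | h
  · rw [Finsupp.degree_eq_zero_iff] at h
    subst h
    simp [h0, coeff_zero_eq_constantCoeff_apply]
  · obtain ⟨s, hs⟩ : ∃ s, d = single s 1 := by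
      have hne : d.support.Nonempty := by
        rw [Finsupp.support_nonempty_iff]
        rintro rfl
        simp at h
      obtain ⟨s, hs⟩ := hne
      refine ⟨s, ?_⟩
      have h1 : single s 1 ≤ d := Finsupp.single_le_iff.2 (by simp at hs; omega)
      obtain ⟨r, rfl⟩ := le_iff_exists_add.1 h1
      have : r.degree = 0 := by rw [map_add, Finsupp.degree_single] at hd; omega
      rw [Finsupp.degree_eq_zero_iff] at this
      rw [this, add_zero]
    subst hs
    rw [Finset.sum_eq_single s]
    · simp
    · intro t _ ht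
      rw [coeff_C_mul, coeff_X, if_neg, mul_zero]
      intro he
      exact ht ((Finsupp.single_left_inj one_ne_zero).1 he).symm
    · simp

/-- Congruence of substitutions, with the linear term made explicit. -/
theorem subst_sub_subst_linear [Fintype σ] {a b : σ → MvPowerSeries τ R}
    (ha : ∀ s, a s ∈ below 1) (hb : ∀ s, b s ∈ below 1) {e : ℕ}
    (hab : ∀ s, a s - b s ∈ below e) {Φ : MvPowerSeries σ R} (h0 : constantCoeff Φ = 0) :
    subst a Φ - subst b Φ - ∑ s, C (coeff (single s 1) Φ) * (a s - b s) ∈ below (e + 1) := by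
  have hl : ∀ c : σ → MvPowerSeries τ R, (∀ s, c s ∈ below 1) →
      subst c (linPart Φ) = ∑ s, C (coeff (single s 1) Φ) * c s := by
    intro c hc
    have hs := hasSubst_of_below hc
    rw [linPart, ← coe_substAlgHom hs, map_sum]
    refine Finset.sum_congr rfl fun s _ => ?_
    rw [map_mul, coe_substAlgHom hs, subst_C, subst_X hs]
  have h := subst_sub_subst_mem_below ha hb hab (sub_linPart_mem_below h0)
  rw [subst_sub (hasSubst_of_below ha), subst_sub (hasSubst_of_below hb), hl a ha, hl b hb,
    show e + 2 - 1 = e + 1 by omega] at h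
  convert h using 1
  simp only [mul_sub, Finset.sum_sub_distrib]
  ring

section OneVariable

variable {S : Type*} [CommRing S]

omit [Finite σ] in
theorem hasSubst_single_of_below {a : MvPowerSeries τ R} (ha : a ∈ below 1) :
    PowerSeries.HasSubst a :=
  PowerSeries.HasSubst.of_constantCoeff_zero (mem_below_one_iff.1 ha)

omit [Finite σ] in
/-- A coefficient of a composition, as a finite sum. -/
theorem coeff_subst_range {a : MvPowerSeries τ R} (ha : a ∈ below 1) (f : PowerSeries R)
    (d : τ →₀ ℕ) {N : ℕ} (hN : d.degree ≤ N) :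
    coeff d (PowerSeries.subst a f) =
      ∑ j ∈ Finset.range (N + 1), PowerSeries.coeff j f * coeff d (a ^ j) := by
  rw [PowerSeries.coeff_subst (hasSubst_single_of_below ha)]
  rw [finsum_eq_sum_of_support_subset _ (s := Finset.range (N + 1))]
  · rfl
  · intro j hj
    simp only [Function.mem_support, smul_eq_mul] at hj
    rw [Finset.coe_range, Set.mem_Iio]
    by_contra hcon
    exact hj (by rw [pow_mem_below ha j d (by omega), mul_zero])

omit [Finite σ] in
theorem mem_below_one_iff' {f : PowerSeries R} :
    f ∈ below (σ := Unit) 1 ↔ PowerSeries.constantCoeff f = 0 :=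
  mem_below_one_iff

omit [Finite σ] in
theorem subst_single_mem_below {a : MvPowerSeries τ R} (ha : a ∈ below 1) {D : ℕ}
    {f : PowerSeries R} (hf : f ∈ below (σ := Unit) D) : PowerSeries.subst a f ∈ below D :=
  subst_mem_below_one (fun _ => ha) hf

omit [Finite σ] in
theorem subst_single_sub_linear {a b : MvPowerSeries τ R} (ha : a ∈ below 1) (hb : b ∈ below 1)
    {e : ℕ} (hab : a - b ∈ below e) {f : PowerSeries R} (h0 : PowerSeries.constantCoeff f = 0) :
    PowerSeries.subst a f - PowerSeries.subst b f - C (PowerSeries.coeff 1 f) * (a - b) ∈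
      below (e + 1) := by
  have h := subst_sub_subst_linear (σ := Unit) (a := fun _ => a) (b := fun _ => b) (fun _ => ha)
    (fun _ => hb) (fun _ => hab) (Φ := f) h0
  simpa [PowerSeries.subst, PowerSeries.coeff] using h

end OneVariable

end Vale.P217

end
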