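import Vale.Agent.P217.CharZeroLog
import Vale.Agent.P217.Order
import Vale.Agent.P217.Cocycle
import Mathlib.Algebra.CharP.Lemmas

/-!
Logarithms of homomorphisms in characteristic zero, insensitivity to small changes of the series,
and the resulting relation between the limits `w_i`.
-/

noncomputable section

set_option linter.unusedSectionVars false

namespace Vale.P217

open MvPowerSeries Filter Topology

section Series

variable {R : Type*} [CommRing R] {σ τ : Type*}

theorem below_one_vecCons {a b : MvPowerSeries τ R} (ha : a ∈ below 1) (hb : b ∈ below 1) :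
    ∀ t, (![a, b] : Fin 2 → MvPowerSeries τ R) t ∈ below 1 :=
  Fin.forall_fin_two.2 ⟨ha, hb⟩

theorem fg_mem_below (F : FormalGroup R) : F.toPowerSeries ∈ below 1 :=
  mem_below_one_iff.2 F.zero_constantCoeff

theorem psubst_mem_below_one {a : MvPowerSeries τ R} (ha : a ∈ below 1) {h : PowerSeries R}
    (h0 : PowerSeries.constantCoeff h = 0) : PowerSeries.subst a h ∈ below 1 :=
  subst_single_mem_below ha (mem_below_one_iff'.2 h0)

theorem cz_subst_psubst [Finite σ] {b : σ → MvPowerSeries τ R} (hb : ∀ s, b s ∈ below 1)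
    {a : MvPowerSeries σ R} (ha : a ∈ below 1) (h : PowerSeries R) :
    MvPowerSeries.subst b (PowerSeries.subst a h) =
      PowerSeries.subst (MvPowerSeries.subst b a) h :=
  subst_comp_subst_apply (hasSubst_single_of_below ha).const (hasSubst_of_below hb) h

theorem cz_psubst_psubst {b : MvPowerSeries τ R} (hb : b ∈ below 1) {a : PowerSeries R}
    (ha : PowerSeries.constantCoeff a = 0) (h : PowerSeries R) :
    PowerSeries.subst b (PowerSeries.subst a h) = PowerSeries.subst (PowerSeries.subst b a) h :=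
  PowerSeries.subst_comp_subst_apply (PowerSeries.HasSubst.of_constantCoeff_zero' ha)
    (hasSubst_single_of_below hb) h

theorem psubst_C_mul {a : MvPowerSeries τ R} (ha : a ∈ below 1) (c : R) (h : PowerSeries R) :
    PowerSeries.subst a (PowerSeries.C c * h) = C c * PowerSeries.subst a h := by
  rw [PowerSeries.subst_mul (hasSubst_single_of_below ha), PowerSeries.subst_C]

/-- A coefficient of a composition of one-variable series, as a finite sum. -/
theorem pcoeff_subst_range {a : PowerSeries R} (ha : PowerSeries.constantCoeff a = 0)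
    (h : PowerSeries R) {d N : ℕ} (hN : d ≤ N) :
    PowerSeries.coeff d (PowerSeries.subst a h) =
      ∑ j ∈ Finset.range (N + 1), PowerSeries.coeff j h * PowerSeries.coeff d (a ^ j) :=
  coeff_subst_range (τ := Unit) (mem_below_one_iff'.2 ha) h (Finsupp.single () d)
    (by rwa [Finsupp.degree_single])

theorem constantCoeff_C_mul_X_pow (a : R) {q : ℕ} (hq : 1 ≤ q) :
    PowerSeries.constantCoeff (PowerSeries.C a * PowerSeries.X ^ q) = 0 := by
  rw [map_mul, map_pow, PowerSeries.constantCoeff_X, zero_pow (by omega), mul_zero]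

theorem coeff_subst_C_mul_X_pow (a : R) (h : PowerSeries R) {q : ℕ} (hq : 1 ≤ q) (j : ℕ) :
    PowerSeries.coeff (q * j) (PowerSeries.subst (PowerSeries.C a * PowerSeries.X ^ q) h) =
      PowerSeries.coeff j h * a ^ j := by
  rw [pcoeff_subst_range (constantCoeff_C_mul_X_pow a hq) h le_rfl, Finset.sum_eq_single j]
  · rw [mul_pow, ← map_pow, ← pow_mul, PowerSeries.coeff_C_mul, PowerSeries.coeff_X_pow_self,
      mul_one]
  · intro i _ hi
    rw [mul_pow, ← map_pow, ← pow_mul, PowerSeries.coeff_C_mul, PowerSeries.coeff_X_pow,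
      if_neg (fun h => hi (Nat.eq_of_mul_eq_mul_left (by omega) h).symm), mul_zero, mul_zero]
  · intro hj
    exfalso
    simp only [Finset.mem_range, not_lt] at hj
    nlinarith

theorem coeff_subst_C_mul_X_pow_of_not_dvd (a : R) (h : PowerSeries R) {q d : ℕ} (hq : 1 ≤ q)
    (hd : ¬ q ∣ d) :
    PowerSeries.coeff d (PowerSeries.subst (PowerSeries.C a * PowerSeries.X ^ q) h) = 0 := by
  rw [pcoeff_subst_range (constantCoeff_C_mul_X_pow a hq) h le_rfl]
  refine Finset.sum_eq_zero fun i _ => ?_
  rw [mul_pow, ← map_pow, ← pow_mul, PowerSeries.coeff_C_mul, PowerSeries.coeff_X_pow,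
    if_neg (fun h => hd ⟨i, h⟩), mul_zero, mul_zero]

theorem fg_sub_X_add_X_mem_below (F : FormalGroup R) :
    F.toPowerSeries - (X 0 + X 1) ∈ below 2 := by
  have h := sub_linPart_mem_below F.zero_constantCoeff
  rwa [linPart, Fin.sum_univ_two, F.lin_coeff_X, F.lin_coeff_Y, map_one, one_mul, one_mul] at h

/-- An additive series with no linear term vanishes in characteristic zero. -/
theorem eq_zero_of_additive [IsDomain R] [CharZero R] (F : FormalGroup R) (h : PowerSeries R)
    (h0 : PowerSeries.constantCoeff h = 0) (h1 : PowerSeries.coeff 1 h = 0)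
    (hadd : PowerSeries.subst F.toPowerSeries h = PowerSeries.subst (X (0 : Fin 2)) h +
      PowerSeries.subst (X (1 : Fin 2)) h) : h = 0 := by
  ext d
  rw [map_zero]
  induction d using Nat.strong_induction_on with
  | _ d ih =>
    rcases lt_or_ge d 2 with hd | hd
    · interval_cases d
      · rwa [PowerSeries.coeff_zero_eq_constantCoeff_apply]
      · exact h1
    have hb : h ∈ below (σ := Unit) d := by
      intro e he
      rw [Finsupp.unique_single e, Finsupp.degree_single] at he
      have := ih (e default) he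
      rwa [PowerSeries.coeff, ← Finsupp.unique_single e] at this
    have hX : (PowerSeries.X : PowerSeries R) ∈ below (σ := Unit) 1 :=
      mem_below_one_iff'.2 PowerSeries.constantCoeff_X
    have hv : ∀ t, (![PowerSeries.X, PowerSeries.X] : Fin 2 → MvPowerSeries Unit R) t ∈ below 1 :=
      below_one_vecCons hX hX
    set g : MvPowerSeries Unit R :=
      MvPowerSeries.subst ![PowerSeries.X, PowerSeries.X] F.toPowerSeries with hg
    have hg1 : g ∈ below 1 := subst_mem_below_one hv (fg_mem_below F)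
    have hg2 : g - PowerSeries.C (2 : R) * PowerSeries.X ∈ below (σ := Unit) 2 := by
      have := subst_mem_below_one hv (fg_sub_X_add_X_mem_below F)
      rw [subst_sub (hasSubst_of_below hv), subst_add (hasSubst_of_below hv),
        subst_X (hasSubst_of_below hv), subst_X (hasSubst_of_below hv)] at this
      simp only [Matrix.cons_val_zero, Matrix.cons_val_one, Matrix.cons_val_fin_one] at this
      rw [map_ofNat, two_mul]
      exact this
    have h2X : PowerSeries.C (2 : R) * PowerSeries.X ∈ below (σ := Unit) 1 :=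
      Ideal.mul_mem_left _ _ hX
    have hkey : PowerSeries.subst g h = h + h := by
      have e := congrArg (MvPowerSeries.subst
        (![PowerSeries.X, PowerSeries.X] : Fin 2 → MvPowerSeries Unit R)) hadd
      rw [cz_subst_psubst hv (fg_mem_below F), subst_add (hasSubst_of_below hv),
        cz_subst_psubst hv (X_mem_below _), cz_subst_psubst hv (X_mem_below _),
        subst_X (hasSubst_of_below hv), subst_X (hasSubst_of_below hv)] at e
      simp only [Matrix.cons_val_zero, Matrix.cons_val_one, Matrix.cons_val_fin_one] at e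
      rwa [PowerSeries.X_subst] at e
    have hc := coeff_eq_of_below (subst_sub_subst_mem_below (σ := Unit) (a := fun _ => g)
      (b := fun _ => PowerSeries.C (2 : R) * PowerSeries.X) (fun _ => hg1) (fun _ => h2X)
      (fun _ => hg2) hb) (d := Finsupp.single () d) (by rw [Finsupp.degree_single]; omega)
    change PowerSeries.coeff d (PowerSeries.subst g h) =
      PowerSeries.coeff d (PowerSeries.subst (PowerSeries.C (2 : R) * PowerSeries.X) h) at hc
    have hm := coeff_subst_C_mul_X_pow (2 : R) h le_rfl d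
    rw [one_mul, pow_one] at hm
    rw [hkey, hm, map_add, ← two_mul] at hc
    by_contra hne
    have h22 : ((2 ^ d : ℕ) : R) = (2 : ℕ) := by
      push_cast
      exact mul_left_cancel₀ hne (by rw [← hc]; ring)
    have h23 : 2 ^ 2 ≤ 2 ^ d := Nat.pow_le_pow_right (by norm_num) hd
    have := Nat.cast_injective h22
    omega

theorem isHomSeries_map {S : Type*} [CommRing S] {F G : FormalGroup R} {f : PowerSeries R}
    (hf : IsHomSeries F G f) (φ : R →+* S) :
    IsHomSeries (F.map φ) (G.map φ) (PowerSeries.map φ f) := by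
  refine ⟨by rw [← PowerSeries.coeff_zero_eq_constantCoeff_apply, PowerSeries.coeff_map,
    PowerSeries.coeff_zero_eq_constantCoeff_apply, hf.1, map_zero], ?_⟩
  have hX : ∀ t, PowerSeries.subst (X t : MvPowerSeries (Fin 2) R) f ∈ below 1 := fun t =>
    psubst_mem_below_one (X_mem_below t) hf.1
  have h := congrArg (MvPowerSeries.map φ) hf.2
  rw [PowerSeries.map_subst (hasSubst_single_of_below (fg_mem_below F)),
    MvPowerSeries.map_subst (hasSubst_of_below (below_one_vecCons (hX 0) (hX 1)))] at h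
  refine h.trans ?_
  show MvPowerSeries.subst _ _ = MvPowerSeries.subst _ _
  congr 1
  funext t
  fin_cases t <;>
    simp [PowerSeries.map_subst (hasSubst_single_of_below (X_mem_below _))]

end Series

section LogHom

variable (p : ℕ) [Fact p.Prime] (n : ℕ) {B : Type} [CommRing B] [Algebra ℚ B]

theorem constantCoeff_logSeries' (u : Fin (n - 1) → B) :
    PowerSeries.constantCoeff (logSeries p n u) = 0 := by
  rw [← PowerSeries.coeff_zero_eq_constantCoeff_apply]
  exact coeff_logSeries_eq_zero p n u fun K =>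
    (pow_pos (Fact.out : p.Prime).pos K).ne

theorem coeff_one_logSeries' (u : Fin (n - 1) → B) :
    PowerSeries.coeff 1 (logSeries p n u) = 1 := by
  have := coeff_logSeries_pow p n u 0
  rwa [pow_zero, cLog] at this

/-- A homomorphism is multiplication by its linear coefficient on the logarithms. -/
theorem log_hom [IsDomain B] [CharZero B] (u v : Fin (n - 1) → B) {f : PowerSeries B}
    (hf : IsHomSeries (fg p n u) (fg p n v) f) :
    PowerSeries.subst f (logSeries p n v) =
      PowerSeries.C (PowerSeries.coeff 1 f) * logSeries p n u := by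
  set a := PowerSeries.coeff 1 f
  set lu := logSeries p n u
  set lv := logSeries p n v
  have hlv : PowerSeries.constantCoeff lv = 0 := constantCoeff_logSeries' p n v
  have hlu : PowerSeries.constantCoeff lu = 0 := constantCoeff_logSeries' p n u
  have hfs : (f : MvPowerSeries Unit B) ∈ below 1 := mem_below_one_iff'.2 hf.1
  have hX : ∀ t, PowerSeries.subst (X t : MvPowerSeries (Fin 2) B) f ∈ below 1 := fun t =>
    psubst_mem_below_one (X_mem_below t) hf.1
  have hF := fg_mem_below (fg p n u)
  rw [← sub_eq_zero]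
  refine eq_zero_of_additive (fg p n u) _ ?_ ?_ ?_
  · rw [map_sub, map_mul, hlu, mul_zero, sub_zero]
    exact mem_below_one_iff'.1 (psubst_mem_below_one hfs hlv)
  · rw [map_sub, PowerSeries.coeff_C_mul, coeff_one_logSeries', mul_one,
      pcoeff_subst_range hf.1 lv le_rfl, Finset.sum_range_succ, Finset.sum_range_one,
      PowerSeries.coeff_zero_eq_constantCoeff_apply, hlv, zero_mul, zero_add, pow_one,
      coeff_one_logSeries', one_mul, sub_self]
  · have e : PowerSeries.subst (fg p n u).toPowerSeries (PowerSeries.subst f lv) =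
        PowerSeries.subst (X (0 : Fin 2)) (PowerSeries.subst f lv) +
          PowerSeries.subst (X (1 : Fin 2)) (PowerSeries.subst f lv) := by
      rw [cz_psubst_psubst hF hf.1, hf.2, cz_psubst_psubst (X_mem_below _) hf.1,
        cz_psubst_psubst (X_mem_below _) hf.1,
        ← cz_subst_psubst (below_one_vecCons (hX 0) (hX 1)) (fg_mem_below _), log_fg,
        subst_add (hasSubst_of_below (below_one_vecCons (hX 0) (hX 1))),
        cz_subst_psubst (below_one_vecCons (hX 0) (hX 1)) (X_mem_below _),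
        cz_subst_psubst (below_one_vecCons (hX 0) (hX 1)) (X_mem_below _),
        subst_X (hasSubst_of_below (below_one_vecCons (hX 0) (hX 1))),
        subst_X (hasSubst_of_below (below_one_vecCons (hX 0) (hX 1)))]
      rfl
    rw [PowerSeries.subst_sub (hasSubst_single_of_below hF),
      PowerSeries.subst_sub (hasSubst_single_of_below (X_mem_below _)),
      PowerSeries.subst_sub (hasSubst_single_of_below (X_mem_below _)), e, psubst_C_mul hF,
      psubst_C_mul (X_mem_below _), psubst_C_mul (X_mem_below _), log_fg]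
    ring

end LogHom

section Insens

variable {K : Type*} [NormedField K] [IsUltrametricDist K]

/-- Integral series with coefficients of norm at most `ρ`. -/
def normIdeal (ρ : ℝ) (hρ : 0 ≤ ρ) : Ideal (PowerSeries (Ball K)) where
  carrier := {f | ∀ d, ‖PowerSeries.coeff d f‖ ≤ ρ}
  add_mem' := fun hf hg d => by
    rw [map_add]; exact (IsUltrametricDist.norm_add_le_max _ _).trans (max_le (hf d) (hg d))
  zero_mem' := fun d => by simpa using hρ
  smul_mem' := fun c f hf d => by
    rw [smul_eq_mul, PowerSeries.coeff_mul]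
    refine IsUltrametricDist.norm_sum_le_of_forall_le_of_nonneg hρ fun x _ => ?_
    rw [norm_mul_Ball]
    exact (mul_le_of_le_one_left (norm_nonneg _) (PowerSeries.coeff x.1 c).2).trans (hf x.2)

theorem mem_normIdeal {ρ : ℝ} {hρ : 0 ≤ ρ} {f : PowerSeries (Ball K)} :
    f ∈ normIdeal ρ hρ ↔ ∀ d, ‖PowerSeries.coeff d f‖ ≤ ρ := Iff.rfl

theorem normIdeal_mono {ρ ρ' : ℝ} (h : ρ ≤ ρ') {f : PowerSeries (Ball K)}
    (hf : ∀ d, ‖PowerSeries.coeff d f‖ ≤ ρ) : ∀ d, ‖PowerSeries.coeff d f‖ ≤ ρ' :=
  fun d => (hf d).trans h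

theorem norm_coeff_mul_le {a b : ℝ} (ha0 : 0 ≤ a) (hb0 : 0 ≤ b) {f g : PowerSeries (Ball K)}
    (hf : ∀ d, ‖PowerSeries.coeff d f‖ ≤ a) (hg : ∀ d, ‖PowerSeries.coeff d g‖ ≤ b) (d : ℕ) :
    ‖PowerSeries.coeff d (f * g)‖ ≤ a * b := by
  rw [PowerSeries.coeff_mul]
  refine IsUltrametricDist.norm_sum_le_of_forall_le_of_nonneg (mul_nonneg ha0 hb0) fun x _ => ?_
  rw [norm_mul_Ball]
  exact mul_le_mul (hf _) (hg _) (norm_nonneg _) ha0

theorem norm_coeff_pow_le {a : ℝ} (ha0 : 0 ≤ a) {f : PowerSeries (Ball K)}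
    (hf : ∀ d, ‖PowerSeries.coeff d f‖ ≤ a) : ∀ m d, ‖PowerSeries.coeff d (f ^ m)‖ ≤ a ^ m
  | 0, d => by
    rw [pow_zero, pow_zero, PowerSeries.coeff_one]
    split
    · exact (1 : Ball K).2
    · simp
  | m + 1, d => by
    rw [pow_succ, pow_succ]
    exact norm_coeff_mul_le (pow_nonneg ha0 m) ha0 (norm_coeff_pow_le ha0 hf m) hf d

theorem norm_coeff_pow_prime_sub {p : ℕ} (hp : p.Prime) {A B : PowerSeries (Ball K)} {δ : ℝ}
    (hδ : 0 ≤ δ) (h : ∀ d, ‖PowerSeries.coeff d (A - B)‖ ≤ δ) (d : ℕ) :
    ‖PowerSeries.coeff d (A ^ p - B ^ p)‖ ≤ max (δ ^ p) (‖((p : ℕ) : K)‖ * δ) := by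
  obtain ⟨r, hr⟩ := exists_add_pow_prime_eq hp B (A - B)
  rw [add_sub_cancel] at hr
  rw [show A ^ p - B ^ p = (A - B) ^ p +
    PowerSeries.C ((p : ℕ) : Ball K) * ((A - B) * (B * r)) by rw [hr, map_natCast]; ring, map_add]
  refine (IsUltrametricDist.norm_add_le_max _ _).trans
    (max_le_max (norm_coeff_pow_le hδ h p d) ?_)
  rw [PowerSeries.coeff_C_mul, norm_mul_Ball]
  refine mul_le_mul le_rfl ?_ (norm_nonneg _) (norm_nonneg _)
  exact (norm_coeff_mul_le hδ zero_le_one h (fun d => (PowerSeries.coeff d (B * r)).2) d).trans_eq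
    (mul_one δ)

/-- Raising to the power `p ^ L` makes a small difference decay like `‖p‖ ^ L`. -/
theorem exists_pow_sub_bound {p : ℕ} (hp : p.Prime) (hp0 : ((p : ℕ) : K) ≠ 0) {ε : ℝ}
    (hε1 : ε < 1) (hpε : ‖((p : ℕ) : K)‖ ≤ ε) :
    ∃ C : ℝ, 0 < C ∧ ∀ A B : PowerSeries (Ball K), (∀ d, ‖PowerSeries.coeff d (A - B)‖ ≤ ε) →
      ∀ L d, ‖PowerSeries.coeff d (A ^ p ^ L - B ^ p ^ L)‖ ≤ C * ‖((p : ℕ) : K)‖ ^ L := by
  set P := ‖((p : ℕ) : K)‖
  have hP : 0 < P := norm_pos_iff.2 hp0
  have hε0 : 0 ≤ ε := hP.le.trans hpε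
  obtain ⟨L0, hL0⟩ := exists_pow_lt_of_lt_one hP hε1
  refine ⟨(P ^ L0)⁻¹, by positivity, fun A B h => ?_⟩
  have hstep : ∀ L d, ‖PowerSeries.coeff d (A ^ p ^ L - B ^ p ^ L)‖ ≤ ε ^ (L + 1) := by
    intro L
    induction L with
    | zero => simpa using h
    | succ L ih =>
      intro d
      rw [pow_succ p, pow_mul, pow_mul]
      refine (norm_coeff_pow_prime_sub hp (pow_nonneg hε0 _) ih d).trans (max_le ?_ ?_)
      · rw [← pow_mul]
        refine pow_le_pow_of_le_one hε0 hε1.le ?_
        have := hp.two_le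
        nlinarith
      · rw [pow_succ ε (L + 1), mul_comm (ε ^ (L + 1))]
        exact mul_le_mul_of_nonneg_right hpε (by positivity)
  have hfast : ∀ j d, ‖PowerSeries.coeff d (A ^ p ^ (L0 + j) - B ^ p ^ (L0 + j))‖ ≤ P ^ j := by
    intro j
    induction j with
    | zero =>
      intro d
      exact (hstep L0 d).trans ((pow_le_one₀ hε0 hε1.le).trans_eq (pow_zero P).symm)
    | succ j ih =>
      intro d
      rcases Nat.eq_zero_or_pos j with rfl | hj
      · refine (hstep _ d).trans ?_
        rw [zero_add, pow_one]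
        exact (pow_le_pow_of_le_one hε0 hε1.le (by omega)).trans hL0.le
      rw [show L0 + (j + 1) = L0 + j + 1 by ring, pow_succ p, pow_mul, pow_mul]
      refine (norm_coeff_pow_prime_sub hp (by positivity) ih d).trans (max_le ?_ ?_)
      · rw [← pow_mul]
        refine pow_le_pow_of_le_one hP.le (hpε.trans hε1.le) ?_
        have := hp.two_le
        nlinarith
      · exact (pow_succ' P j).ge
  intro L d
  rcases le_or_gt L0 L with hL | hL
  · obtain ⟨j, rfl⟩ := Nat.exists_eq_add_of_le hL
    refine (hfast j d).trans_eq ?_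
    rw [pow_add, ← mul_assoc, inv_mul_cancel₀ (pow_pos hP L0).ne', one_mul]
  · refine le_trans (PowerSeries.coeff d (A ^ p ^ L - B ^ p ^ L)).2 ?_
    rw [inv_mul_eq_div, one_le_div (pow_pos hP L0)]
    exact pow_le_pow_of_le_one hP.le (hpε.trans hε1.le) hL.le

end Insens

section Relation

variable (p : ℕ) [Fact p.Prime] (n : ℕ) {K : Type} [NontriviallyNormedField K]
  [IsUltrametricDist K] [CharZero K]

/-- The limits `lim p ^ r c_{n r + i}`. -/
def wvec (U : Fin (n - 1) → K) (i : ℕ) : K := wlim p n (cLog p n U) i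

variable {p n}

theorem exists_defect_bound (hn : 1 ≤ n) {ε : ℝ} (hε1 : ε < 1) (hp : ‖((p : ℕ) : K)‖ ≤ ε) :
    ∃ H : ℝ, 1 ≤ H ∧ (∀ L, eta p K ε L ≤ H) ∧ ∀ U : Fin (n - 1) → K, (∀ j, ‖U j‖ ≤ ε) →
      ∀ L, ‖(p : K) * cLog p n U (L + n) - cLog p n U L‖ ≤ H := by
  have hε : 0 < ε := norm_p_pos.trans_le hp
  obtain ⟨H, hH1, hH⟩ := exists_eta_bound (p := p) (K := K) hε hε1
  exact ⟨H, hH1, hH, fun U hU L =>
    norm_defect_le hn hε.le hε1.le hU (zero_le_one.trans hH1) fun M _ => hH M⟩

theorem pow_p_pow_mul_add {R : Type*} [Monoid R] {p n : ℕ} {ζ : R} (hζ : ζ ^ p ^ n = ζ)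
    (r t : ℕ) : ζ ^ p ^ (n * r + t) = ζ ^ p ^ t := by
  induction r with
  | zero => simp
  | succ r ih => rw [show n * (r + 1) + t = n + (n * r + t) by ring, pow_add, pow_mul, hζ, ih]

variable [CompleteSpace K]

/-- The relation between the limits at the source and the target of a lift of
`1 + p ^ N ζ Π ^ m`. -/
theorem hom_relation (hn : 1 ≤ n) {ε : ℝ} (hε1 : ε < 1) (hp : ‖((p : ℕ) : K)‖ ≤ ε)
    (u v : Fin (n - 1) → Ball K) (hu : ∀ i, ‖u i‖ ≤ ε) (hv : ∀ i, ‖v i‖ ≤ ε) {ζ : Ball K}
    (hζ : ζ ^ p ^ n = ζ) {m N : ℕ} (hm : m < n) {f : PowerSeries (Ball K)}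
    (hf : IsHomSeries (fg p n u) (fg p n v) f)
    (hclose : ∀ d, ‖PowerSeries.coeff d f - PowerSeries.coeff d (MvPowerSeries.subst
      ![PowerSeries.X, PowerSeries.C ζ * PowerSeries.X ^ p ^ (m + n * N)]
      (fg p n v).toPowerSeries)‖ ≤ ε) :
    ∀ i < n, ((PowerSeries.coeff 1 f : Ball K) : K) * wvec p n (fun j => (u j : K)) i -
        wvec p n (fun j => (v j : K)) i =
      (p : K) ^ N * ((ζ : K) ^ p ^ (n + i - m) *
        ((p : K) * wvec p n (fun j => (v j : K)) (n + i - m))) := by
  have hpp := (Fact.out : p.Prime)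
  set φ := (Ball K).subtype
  set U : Fin (n - 1) → K := fun j => (u j : K) with hUdef
  set V : Fin (n - 1) → K := fun j => (v j : K) with hVdef
  set M := m + n * N with hM
  set a : K := ((PowerSeries.coeff 1 f : Ball K) : K) with hadef
  set P := ‖((p : ℕ) : K)‖ with hP
  have hP1 : P < 1 := hp.trans_lt hε1
  obtain ⟨C, hC0, hC⟩ := exists_pow_sub_bound hpp (Nat.cast_ne_zero.2 hpp.ne_zero) hε1 hp
  obtain ⟨H, -, -, hH⟩ := exists_defect_bound (p := p) (K := K) hn hε1 hp
  set g : PowerSeries (Ball K) := MvPowerSeries.subst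
    ![PowerSeries.X, PowerSeries.C ζ * PowerSeries.X ^ p ^ M] (fg p n v).toPowerSeries with hg
  have hq : 1 ≤ p ^ M := Nat.one_le_pow _ _ hpp.pos
  have hX : ∀ (R : Type) [CommRing R] (z : R), ∀ t, (![PowerSeries.X,
      PowerSeries.C z * PowerSeries.X ^ p ^ M] : Fin 2 → MvPowerSeries Unit R) t ∈ below 1 :=
    fun R _ z => below_one_vecCons (mem_below_one_iff'.2 PowerSeries.constantCoeff_X)
      (mem_below_one_iff'.2 (constantCoeff_C_mul_X_pow z hq))
  have hg0 : PowerSeries.constantCoeff g = 0 :=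
    mem_below_one_iff'.1 (subst_mem_below_one (hX _ ζ) (fg_mem_below _))
  have hmapV : (fg p n v).map φ = fg p n V := fg_map p n φ v
  have hf' : IsHomSeries (fg p n U) (fg p n V) (PowerSeries.map φ f) := by
    rw [← hmapV, show fg p n U = (fg p n u).map φ from (fg_map p n φ u).symm]
    exact isHomSeries_map hf φ
  have hlog := log_hom p n U V hf'
  have hgK : PowerSeries.map φ g =
      MvPowerSeries.subst ![PowerSeries.X, PowerSeries.C (ζ : K) * PowerSeries.X ^ p ^ M]
        (fg p n V).toPowerSeries := by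
    rw [← hmapV, hg]
    refine (MvPowerSeries.map_subst (hasSubst_of_below (hX _ ζ)) _).trans ?_
    show MvPowerSeries.subst _ _ = MvPowerSeries.subst _ _
    congr 1
    funext t
    fin_cases t
    · exact PowerSeries.map_X φ
    · show PowerSeries.map φ (PowerSeries.C ζ * PowerSeries.X ^ p ^ M) = _
      simp [φ]
  have hlogg : PowerSeries.subst (PowerSeries.map φ g) (logSeries p n V) =
      logSeries p n V +
        PowerSeries.subst (PowerSeries.C (ζ : K) * PowerSeries.X ^ p ^ M) (logSeries p n V) := by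
    have hb := hX K (ζ : K)
    rw [hgK, ← cz_subst_psubst hb (fg_mem_below _), log_fg, subst_add (hasSubst_of_below hb),
      cz_subst_psubst hb (X_mem_below _), cz_subst_psubst hb (X_mem_below _),
      subst_X (hasSubst_of_below hb), subst_X (hasSubst_of_below hb)]
    simp only [Matrix.cons_val_zero, Matrix.cons_val_one, Matrix.cons_val_fin_one,
      PowerSeries.X_subst]
  have hv1 : ∀ j, ‖V j‖ ≤ 1 := fun j => (hv j).trans hε1.le
  have hbound : ∀ d, ‖PowerSeries.coeff d (PowerSeries.subst (PowerSeries.map φ f)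
      (logSeries p n V)) - PowerSeries.coeff d (PowerSeries.subst (PowerSeries.map φ g)
      (logSeries p n V))‖ ≤ C := by
    intro d
    rw [pcoeff_subst_range hf'.1 _ le_rfl, pcoeff_subst_range (by
      rw [← PowerSeries.coeff_zero_eq_constantCoeff_apply, PowerSeries.coeff_map,
        PowerSeries.coeff_zero_eq_constantCoeff_apply, hg0, map_zero]) _ le_rfl,
      ← Finset.sum_sub_distrib]
    refine IsUltrametricDist.norm_sum_le_of_forall_le_of_nonneg hC0.le fun j _ => ?_
    rw [← mul_sub, ← map_pow, ← map_pow, PowerSeries.coeff_map, PowerSeries.coeff_map, ← map_sub,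
      ← map_sub, norm_mul]
    by_cases hj : ∃ L, j = p ^ L
    · obtain ⟨L, rfl⟩ := hj
      rw [coeff_logSeries_pow]
      refine le_trans (mul_le_mul_of_nonneg_left (hC f g (fun e => by rw [map_sub]; exact hclose e)
        L d) (norm_nonneg _)) ?_
      calc ‖cLog p n V L‖ * (C * P ^ L) = C * (P ^ L * ‖cLog p n V L‖) := by ring
        _ ≤ C * 1 := mul_le_mul_of_nonneg_left (cz_norm_cLog_le hv1 L) hC0.le
        _ = C := mul_one C
    · rw [coeff_logSeries_eq_zero p n V fun L h => hj ⟨L, h⟩, norm_zero, zero_mul]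
      exact hC0.le
  intro i hi
  set T := (ζ : K) ^ p ^ (n + i - m) * ((p : K) * wvec p n V (n + i - m)) with hT
  have hζK : (ζ : K) ^ p ^ n = (ζ : K) := by rw [← SubmonoidClass.coe_pow, hζ]
  have hp1 : ‖((p : ℕ) : K)‖ < 1 := hP1
  set e : ℕ → K := fun r => a * ((p : K) ^ r * cLog p n U (n * r + i)) -
    (p : K) ^ r * cLog p n V (n * r + i) - (p : K) ^ N * ((ζ : K) ^ p ^ (n + i - m) *
      ((p : K) * ((p : K) ^ (r - (N + 1)) * cLog p n V (n * (r - (N + 1)) + (n + i - m)))))
    with he
  have hsmall : ∀ r, N + 1 ≤ r → ‖e r‖ ≤ C * P ^ r := by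
    intro r hr
    obtain ⟨s, rfl⟩ := Nat.exists_eq_add_of_le hr
    set L := n * (N + 1 + s) + i with hL
    have hLM : L = M + (n * s + (n + i - m)) := by
      have : n * (N + 1 + s) = n * N + n + n * s := by ring
      omega
    have h := hbound (p ^ L)
    rw [hlog, hlogg, map_add, PowerSeries.coeff_C_mul, coeff_logSeries_pow, coeff_logSeries_pow]
      at h
    rw [show p ^ L = p ^ M * p ^ (n * s + (n + i - m)) by rw [← pow_add, ← hLM],
      coeff_subst_C_mul_X_pow _ _ hq, coeff_logSeries_pow, pow_p_pow_mul_add hζK,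
      PowerSeries.coeff_map] at h
    have h2 := mul_le_mul_of_nonneg_left h (pow_nonneg (norm_nonneg ((p : ℕ) : K)) (N + 1 + s))
    rw [← norm_pow, ← norm_mul] at h2
    rw [mul_comm C, hP, ← norm_pow]
    refine le_of_eq_of_le ?_ h2
    simp only [he, Nat.add_sub_cancel_left, hadef, φ, Subring.coe_subtype]
    congr 1
    ring
  have hU : ∀ j, ‖U j‖ ≤ ε := hu
  have hlim : Tendsto e atTop (𝓝 (a * wvec p n U i - wvec p n V i - (p : K) ^ N * T)) :=
    (((tendsto_wlim (hH U hU) hp1 i).const_mul a).sub (tendsto_wlim (hH V hv) hp1 i)).sub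
      (((((tendsto_wlim (hH V hv) hp1 (n + i - m)).comp (tendsto_sub_atTop_nat (N + 1))).const_mul
        (p : K)).const_mul _).const_mul _)
  have hzero : Tendsto e atTop (𝓝 0) := by
    refine squeeze_zero_norm' (eventually_atTop.2 ⟨N + 1, hsmall⟩) ?_
    simpa using (tendsto_pow_atTop_nhds_zero_of_lt_one (norm_nonneg _) hP1).const_mul C
  exact sub_eq_zero.1 (tendsto_nhds_unique hlim hzero)

end Relation

end Vale.P217

end
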