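import Vale.Agent.P217.Universal
import Vale.Agent.P217.Ball
import Mathlib.Analysis.Normed.Group.Ultra
import Mathlib.Analysis.Normed.Ring.Ultra
import Mathlib.Analysis.SpecificLimits.Normed
import Mathlib.Topology.MetricSpace.Ultra.Basic

/-!
Estimates for the logarithm coefficients in characteristic zero and the limits
`w_i = lim p ^ r c_{n r + i}`.
-/

noncomputable section

set_option linter.unusedSectionVars false

namespace Vale.P217

open Filter Topology

section Rec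

variable (p : ℕ) [Fact p.Prime] (n : ℕ) {B : Type*} [CommRing B] [Algebra ℚ B]

omit [Fact p.Prime] in
theorem uvar_succ_of_lt {R : Type*} [CommRing R] (u : Fin (n - 1) → R) (j : Fin (n - 1)) :
    uvar n u ((j : ℕ) + 1) = u j := by
  have hj := j.isLt
  rw [uvar, dif_pos ⟨by omega, by omega⟩]
  exact congrArg u (Fin.ext (by simp))

omit [Fact p.Prime] in
theorem uvar_self {R : Type*} [CommRing R] (u : Fin (n - 1) → R) : uvar n u n = 1 := by
  rw [uvar, dif_neg (by omega), if_pos rfl]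

omit [Fact p.Prime] in
theorem uvar_gt {R : Type*} [CommRing R] (u : Fin (n - 1) → R) {i : ℕ} (hi : n < i) :
    uvar n u i = 0 := by
  rw [uvar, dif_neg (by omega), if_neg (by omega)]

/-- The defining recursion, cleared of the denominator. -/
theorem cz_p_mul_cLog_succ (u : Fin (n - 1) → B) (K : ℕ) :
    (p : B) * cLog p n u (K + 1) =
      ∑ i ∈ Finset.range (K + 1), cLog p n u (K - i) * uvar n u (i + 1) ^ p ^ (K - i) := by
  have hp : (p : ℚ) ≠ 0 := Nat.cast_ne_zero.2 (Fact.out : p.Prime).ne_zero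
  rw [cLog, ← map_natCast (algebraMap ℚ B), ← mul_assoc, ← map_mul, mul_inv_cancel₀ hp, map_one,
    one_mul, Finset.sum_range fun i => cLog p n u (K - i) * uvar n u (i + 1) ^ p ^ (K - i)]

/-- A sum over the recursion indices reduces to the indices `≤ n`. -/
theorem sum_range_split (hn : 1 ≤ n) (K : ℕ) (T : ℕ → B) (hT : ∀ i, n ≤ i → T i = 0) :
    ∑ i ∈ Finset.range (K + n), T i =
      ∑ j : Fin (n - 1), T j + T (n - 1) := by
  rw [Fin.sum_univ_eq_sum_range (fun i => T i) (n - 1), ← Finset.sum_range_succ,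
    show n - 1 + 1 = n by omega]
  refine (Finset.sum_subset (fun i hi => ?_) fun i _ hi => hT i ?_).symm
  · simp only [Finset.mem_range] at hi ⊢; omega
  · simp only [Finset.mem_range] at hi; omega

/-- `p c_{K+n} - c_K` only involves the parameters. -/
theorem p_mul_cLog_add (hn : 1 ≤ n) (u : Fin (n - 1) → B) (K : ℕ) :
    (p : B) * cLog p n u (K + n) - cLog p n u K =
      ∑ j : Fin (n - 1), cLog p n u (K + n - 1 - j) * u j ^ p ^ (K + n - 1 - (j : ℕ)) := by
  obtain ⟨L, hL⟩ : ∃ L, K + n = L + 1 := ⟨K + n - 1, by omega⟩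
  rw [hL, cz_p_mul_cLog_succ p n u L, ← hL, sum_range_split n hn K _ fun i hi => by
      rw [uvar_gt n u (by omega), zero_pow (by positivity [(Fact.out : p.Prime).ne_zero]), mul_zero],
    show n - 1 + 1 = n by omega, uvar_self, one_pow, mul_one,
    show L - (n - 1) = K by omega, add_sub_cancel_right]
  refine Finset.sum_congr rfl fun j _ => ?_
  rw [uvar_succ_of_lt, show L - (j : ℕ) = K + n - 1 - j by omega]

/-- The directional derivative of `cLog` at `u` along `e`. -/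
def dLog (u e : Fin (n - 1) → B) : ℕ → B
  | 0 => 0
  | K + 1 => algebraMap ℚ B (p : ℚ)⁻¹ *
      ∑ i : Fin (K + 1), (dLog u e (K - (i : ℕ)) * uvar n u ((i : ℕ) + 1) ^ p ^ (K - (i : ℕ)) +
        cLog p n u (K - (i : ℕ)) * (p ^ (K - (i : ℕ)) : ℕ) *
          uvar n u ((i : ℕ) + 1) ^ (p ^ (K - (i : ℕ)) - 1) *
          (if h : (i : ℕ) + 1 < n then e ⟨i, by omega⟩ else 0))
termination_by K => K
decreasing_by omega

theorem p_mul_dLog_succ (u e : Fin (n - 1) → B) (K : ℕ) :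
    (p : B) * dLog p n u e (K + 1) =
      ∑ i ∈ Finset.range (K + 1), (dLog p n u e (K - i) * uvar n u (i + 1) ^ p ^ (K - i) +
        cLog p n u (K - i) * (p ^ (K - i) : ℕ) * uvar n u (i + 1) ^ (p ^ (K - i) - 1) *
          (if h : i + 1 < n then e ⟨i, by omega⟩ else 0)) := by
  have hp : (p : ℚ) ≠ 0 := Nat.cast_ne_zero.2 (Fact.out : p.Prime).ne_zero
  rw [dLog, ← map_natCast (algebraMap ℚ B), ← mul_assoc, ← map_mul, mul_inv_cancel₀ hp, map_one,
    one_mul, Finset.sum_range fun i => (dLog p n u e (K - i) * uvar n u (i + 1) ^ p ^ (K - i) +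
        cLog p n u (K - i) * (p ^ (K - i) : ℕ) * uvar n u (i + 1) ^ (p ^ (K - i) - 1) *
          (if h : i + 1 < n then e ⟨i, by omega⟩ else 0))]

/-- The analogue of `p_mul_cLog_add` for derivatives. -/
theorem p_mul_dLog_add (hn : 1 ≤ n) (u e : Fin (n - 1) → B) (K : ℕ) :
    (p : B) * dLog p n u e (K + n) - dLog p n u e K =
      ∑ j : Fin (n - 1), (dLog p n u e (K + n - 1 - j) * u j ^ p ^ (K + n - 1 - (j : ℕ)) +
        cLog p n u (K + n - 1 - j) * (p ^ (K + n - 1 - (j : ℕ)) : ℕ) *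
          u j ^ (p ^ (K + n - 1 - (j : ℕ)) - 1) * e j) := by
  obtain ⟨L, hL⟩ : ∃ L, K + n = L + 1 := ⟨K + n - 1, by omega⟩
  rw [hL, p_mul_dLog_succ p n u e L, ← hL, sum_range_split n hn K _ fun i hi => by
      rw [uvar_gt n u (by omega), zero_pow (by positivity [(Fact.out : p.Prime).ne_zero]), mul_zero,
        dif_neg (by omega), mul_zero, add_zero],
    dif_neg (by omega : ¬ n - 1 + 1 < n),
    show n - 1 + 1 = n by omega, uvar_self, one_pow, mul_one, mul_zero,
    add_zero, show L - (n - 1) = K by omega, add_sub_cancel_right]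
  refine Finset.sum_congr rfl fun j _ => ?_
  have hj := j.isLt
  rw [uvar_succ_of_lt, dif_pos (by omega), show L - (j : ℕ) = K + n - 1 - j by omega]

theorem dLog_add (u e e' : Fin (n - 1) → B) (K : ℕ) :
    dLog p n u (e + e') K = dLog p n u e K + dLog p n u e' K := by
  induction K using Nat.strong_induction_on with
  | _ K ih =>
    rcases K with _ | K
    · simp [dLog]
    rw [dLog, dLog, dLog, ← mul_add, ← Finset.sum_add_distrib]
    refine congrArg _ (Finset.sum_congr rfl fun i _ => ?_)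
    rw [ih _ (by omega)]
    split <;> simp <;> ring

theorem dLog_smul (u e : Fin (n - 1) → B) (c : B) (K : ℕ) :
    dLog p n u (c • e) K = c * dLog p n u e K := by
  induction K using Nat.strong_induction_on with
  | _ K ih =>
    rcases K with _ | K
    · simp [dLog]
    rw [dLog, dLog, mul_left_comm, Finset.mul_sum (a := c)]
    refine congrArg _ (Finset.sum_congr rfl fun i _ => ?_)
    rw [ih _ (by omega)]
    split <;> simp <;> ring

end Rec

section Est

variable {p : ℕ} [Fact p.Prime] {n : ℕ} {K : Type*} [NontriviallyNormedField K]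
  [IsUltrametricDist K]

theorem norm_p_pos [CharZero K] : 0 < ‖((p : ℕ) : K)‖ :=
  norm_pos_iff.2 (Nat.cast_ne_zero.2 (Fact.out : p.Prime).ne_zero)

theorem cz_norm_uvar_le {u : Fin (n - 1) → K} (hu : ∀ j, ‖u j‖ ≤ 1) (i : ℕ) :
    ‖uvar n u i‖ ≤ 1 := by
  unfold uvar
  split_ifs <;> simp [hu]

theorem cz_norm_cLog_le [CharZero K] {u : Fin (n - 1) → K} (hu : ∀ j, ‖u j‖ ≤ 1) (L : ℕ) :
    ‖((p : ℕ) : K)‖ ^ L * ‖cLog p n u L‖ ≤ 1 := by
  induction L using Nat.strong_induction_on with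
  | _ L ih =>
    rcases L with _ | L
    · rw [cLog, pow_zero, one_mul, norm_one]
    rw [pow_succ, mul_assoc, ← norm_mul, cz_p_mul_cLog_succ]
    obtain ⟨i, hi, hle⟩ := IsUltrametricDist.exists_norm_finsetSum_le
      (Finset.range (L + 1)) fun i => cLog p n u (L - i) * uvar n u (i + 1) ^ p ^ (L - i)
    refine le_trans (mul_le_mul_of_nonneg_left hle (by positivity)) ?_
    rw [norm_mul, norm_pow, ← mul_assoc]
    refine mul_le_one₀ ?_ (by positivity) (pow_le_one₀ (norm_nonneg _) (cz_norm_uvar_le hu _))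
    refine le_trans (mul_le_mul_of_nonneg_right ?_ (norm_nonneg _)) (ih (L - i) (by omega))
    exact pow_le_pow_of_le_one (norm_nonneg _) (IsUltrametricDist.norm_natCast_le_one K p)
      (by omega)

theorem norm_dLog_le [CharZero K] {u e : Fin (n - 1) → K} (hu : ∀ j, ‖u j‖ ≤ 1) {δ : ℝ}
    (hδ : 0 ≤ δ) (he : ∀ j, ‖e j‖ ≤ δ) (L : ℕ) :
    ‖((p : ℕ) : K)‖ ^ L * ‖dLog p n u e L‖ ≤ δ := by
  induction L using Nat.strong_induction_on with
  | _ L ih =>
    rcases L with _ | L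
    · simpa [dLog] using hδ
    rw [pow_succ, mul_assoc, ← norm_mul, p_mul_dLog_succ]
    obtain ⟨i, hi, hle⟩ := IsUltrametricDist.exists_norm_finsetSum_le
      (Finset.range (L + 1)) fun i => (dLog p n u e (L - i) * uvar n u (i + 1) ^ p ^ (L - i) +
        cLog p n u (L - i) * (p ^ (L - i) : ℕ) * uvar n u (i + 1) ^ (p ^ (L - i) - 1) *
          (if h : i + 1 < n then e ⟨i, by omega⟩ else 0))
    have hq : ‖((p : ℕ) : K)‖ ^ L ≤ ‖((p : ℕ) : K)‖ ^ (L - i) :=
      pow_le_pow_of_le_one (norm_nonneg _) (IsUltrametricDist.norm_natCast_le_one K p) (by omega)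
    refine le_trans (mul_le_mul_of_nonneg_left (hle.trans (IsUltrametricDist.norm_add_le_max _ _))
      (by positivity)) ?_
    rw [mul_max_of_nonneg _ _ (by positivity)]
    refine max_le ?_ ?_
    · rw [norm_mul, norm_pow, ← mul_assoc]
      refine (mul_le_of_le_one_right (by positivity)
        (pow_le_one₀ (norm_nonneg _) (cz_norm_uvar_le hu _))).trans ?_
      exact (mul_le_mul_of_nonneg_right hq (norm_nonneg _)).trans (ih (L - i) (by omega))
    · rw [norm_mul, norm_mul, norm_mul, norm_pow]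
      have h1 : ‖((p : ℕ) : K)‖ ^ L * ‖cLog p n u (L - i)‖ ≤ 1 :=
        (mul_le_mul_of_nonneg_right hq (norm_nonneg _)).trans (cz_norm_cLog_le hu _)
      have h2 : ‖((p ^ (L - i) : ℕ) : K)‖ ≤ 1 := IsUltrametricDist.norm_natCast_le_one K _
      have h3 : ‖uvar n u (i + 1)‖ ^ (p ^ (L - i) - 1) ≤ 1 :=
        pow_le_one₀ (norm_nonneg _) (cz_norm_uvar_le hu _)
      rw [← mul_assoc, ← mul_assoc, ← mul_assoc]
      refine (mul_le_of_le_one_left (norm_nonneg _) ?_).trans ?_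
      · exact mul_le_one₀ (mul_le_one₀ h1 (norm_nonneg _) h2) (by positivity) h3
      · split
        · exact he _
        · simpa using hδ

theorem norm_pow_sub_pow_le {x y : K} {ρ δ : ℝ} (hρ : 0 ≤ ρ) (hx : ‖x‖ ≤ ρ) (hy : ‖y‖ ≤ ρ)
    (hxy : ‖y - x‖ ≤ δ) (q : ℕ) : ‖y ^ (q + 1) - x ^ (q + 1)‖ ≤ ρ ^ q * δ := by
  induction q with
  | zero => simpa using hxy
  | succ q ih =>
    rw [show y ^ (q + 1 + 1) - x ^ (q + 1 + 1) =
      y * (y ^ (q + 1) - x ^ (q + 1)) + x ^ (q + 1) * (y - x) by ring]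
    refine (IsUltrametricDist.norm_add_le_max _ _).trans (max_le ?_ ?_)
    · rw [norm_mul]
      exact (mul_le_mul hy ih (norm_nonneg _) hρ).trans_eq (by ring)
    · rw [norm_mul, norm_pow]
      exact mul_le_mul (pow_le_pow_left₀ (norm_nonneg _) hx _) hxy (norm_nonneg _) (by positivity)

/-- Second order remainder of a power. -/
theorem norm_pow_taylor_le {x y : K} {ρ δ : ℝ} (hρ : 0 ≤ ρ) (hx : ‖x‖ ≤ ρ) (hy : ‖y‖ ≤ ρ)
    (hxy : ‖y - x‖ ≤ δ) (q : ℕ) :
    ‖y ^ (q + 2) - x ^ (q + 2) - (q + 2 : ℕ) * x ^ (q + 1) * (y - x)‖ ≤ ρ ^ q * δ ^ 2 := by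
  induction q with
  | zero =>
    rw [show y ^ (0 + 2) - x ^ (0 + 2) - ((0 + 2 : ℕ) : K) * x ^ (0 + 1) * (y - x) = (y - x) ^ 2 by
      push_cast; ring, norm_pow]
    simpa using pow_le_pow_left₀ (norm_nonneg _) hxy 2
  | succ q ih =>
    rw [show y ^ (q + 1 + 2) - x ^ (q + 1 + 2) -
        ((q + 1 + 2 : ℕ) : K) * x ^ (q + 1 + 1) * (y - x) =
      y * (y ^ (q + 2) - x ^ (q + 2) - ((q + 2 : ℕ) : K) * x ^ (q + 1) * (y - x)) +
        ((q + 2 : ℕ) : K) * (x ^ (q + 1) * (y - x) ^ 2) by push_cast; ring]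
    refine (IsUltrametricDist.norm_add_le_max _ _).trans (max_le ?_ ?_)
    · rw [norm_mul]
      exact (mul_le_mul hy ih (norm_nonneg _) hρ).trans_eq (by ring)
    · rw [norm_mul]
      refine (mul_le_of_le_one_left (norm_nonneg _)
        (IsUltrametricDist.norm_natCast_le_one K _)).trans ?_
      rw [norm_mul, norm_pow, norm_pow]
      exact mul_le_mul (pow_le_pow_left₀ (norm_nonneg _) hx _)
        (pow_le_pow_left₀ (norm_nonneg _) hxy 2) (by positivity) (by positivity)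

/-- The tail bound `‖p‖ ^ (-L) ε ^ (p ^ L - 2)`. -/
def eta (p : ℕ) (K : Type*) [NontriviallyNormedField K] (ε : ℝ) (L : ℕ) : ℝ :=
  ε ^ (p ^ L - 2) / ‖((p : ℕ) : K)‖ ^ L

theorem eta_nonneg {ε : ℝ} (hε : 0 ≤ ε) (L : ℕ) : 0 ≤ eta p K ε L := by
  unfold eta; positivity

theorem tendsto_eta [CharZero K] {ε : ℝ} (hε : 0 < ε) (hε1 : ε < 1) :
    Tendsto (eta p K ε) atTop (𝓝 0) := by
  have hp := (Fact.out : p.Prime)
  obtain ⟨k, hk⟩ := pow_unbounded_of_one_lt (‖((p : ℕ) : K)‖⁻¹)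
    (show (1 : ℝ) < p by exact_mod_cast hp.one_lt)
  have h := ((tendsto_pow_const_mul_const_pow_of_abs_lt_one k
    (show |ε| < 1 by rwa [abs_of_pos hε])).comp
    (tendsto_pow_atTop_atTop_of_one_lt hp.one_lt)).mul_const (ε ^ 2)⁻¹
  rw [zero_mul] at h
  refine squeeze_zero' (Eventually.of_forall (eta_nonneg hε.le)) ?_ h
  filter_upwards [eventually_ge_atTop 1] with L hL
  have h2 : 2 ≤ p ^ L := hp.two_le.trans (Nat.le_self_pow (by omega) p)
  have hP : (‖((p : ℕ) : K)‖⁻¹) ^ L ≤ ((p ^ L : ℕ) : ℝ) ^ k := by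
    push_cast
    rw [← pow_mul, mul_comm, pow_mul]
    exact pow_le_pow_left₀ (by positivity) hk.le L
  rw [eta, div_eq_mul_inv, ← inv_pow, Function.comp_apply, mul_assoc,
    show ε ^ (p ^ L) * (ε ^ 2)⁻¹ = ε ^ (p ^ L - 2) by rw [pow_sub₀ _ hε.ne' h2], mul_comm]
  exact mul_le_mul_of_nonneg_right hP (by positivity)

theorem exists_eta_bound [CharZero K] {ε : ℝ} (hε : 0 < ε) (hε1 : ε < 1) :
    ∃ H : ℝ, 1 ≤ H ∧ ∀ L, eta p K ε L ≤ H := by
  obtain ⟨H, hH⟩ := (tendsto_eta (p := p) (K := K) hε hε1).bddAbove_range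
  exact ⟨max H 1, le_max_right _ _, fun L => (hH ⟨L, rfl⟩).trans (le_max_left _ _)⟩

/-- The bound for `p c_{L+n} - c_L`. -/
theorem norm_defect_le [CharZero K] (hn : 1 ≤ n) {u : Fin (n - 1) → K} {ε η : ℝ} (hε : 0 ≤ ε)
    (hε1 : ε ≤ 1) (hu : ∀ j, ‖u j‖ ≤ ε) {L : ℕ} (hη0 : 0 ≤ η)
    (hη : ∀ M, L < M → eta p K ε M ≤ η) :
    ‖(p : K) * cLog p n u (L + n) - cLog p n u L‖ ≤ η := by
  rw [p_mul_cLog_add p n hn]
  refine IsUltrametricDist.norm_sum_le_of_forall_le_of_nonneg hη0 fun j _ => ?_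
  have hj := j.isLt
  set M := L + n - 1 - (j : ℕ)
  have hM : L < M := by omega
  refine le_trans ?_ (hη M hM)
  rw [norm_mul, norm_pow, eta, le_div_iff₀ (pow_pos norm_p_pos _), mul_comm, ← mul_assoc]
  refine (mul_le_of_le_one_left (by positivity)
    (cz_norm_cLog_le (fun j => (hu j).trans hε1) M)).trans ?_
  exact (pow_le_pow_left₀ (norm_nonneg _) (hu j) _).trans
    (pow_le_pow_of_le_one hε hε1 (Nat.sub_le _ _))

/-- The bound for the derivatives of `p c_{L+n} - c_L`. -/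
theorem norm_dDefect_le [CharZero K] (hn : 1 ≤ n) {u e : Fin (n - 1) → K} {ε δ η : ℝ}
    (hε : 0 ≤ ε) (hε1 : ε ≤ 1) (hδ : 0 ≤ δ) (hu : ∀ j, ‖u j‖ ≤ ε) (he : ∀ j, ‖e j‖ ≤ δ) {L : ℕ}
    (hη0 : 0 ≤ η) (hη : ∀ M, L < M → eta p K ε M ≤ η) :
    ‖(p : K) * dLog p n u e (L + n) - dLog p n u e L‖ ≤ η * δ := by
  rw [p_mul_dLog_add p n hn]
  refine IsUltrametricDist.norm_sum_le_of_forall_le_of_nonneg (mul_nonneg hη0 hδ) fun j _ => ?_
  have hj := j.isLt
  set M := L + n - 1 - (j : ℕ)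
  have hM : L < M := by omega
  have hu1 : ∀ j, ‖u j‖ ≤ 1 := fun j => (hu j).trans hε1
  have hpM := pow_pos (norm_p_pos (p := p) (K := K)) M
  refine (IsUltrametricDist.norm_add_le_max _ _).trans (max_le ?_ ?_)
  · refine le_trans ?_ (mul_le_mul_of_nonneg_right (hη M hM) hδ)
    rw [norm_mul, norm_pow, eta, div_mul_eq_mul_div, le_div_iff₀ hpM, mul_comm _ δ]
    calc ‖dLog p n u e M‖ * ‖u j‖ ^ p ^ M * ‖((p : ℕ) : K)‖ ^ M
        = (‖((p : ℕ) : K)‖ ^ M * ‖dLog p n u e M‖) * ‖u j‖ ^ p ^ M := by ring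
      _ ≤ δ * ε ^ (p ^ M - 2) := mul_le_mul (norm_dLog_le hu1 hδ he M)
          ((pow_le_pow_left₀ (norm_nonneg _) (hu j) _).trans
            (pow_le_pow_of_le_one hε hε1 (Nat.sub_le _ _))) (by positivity) hδ
  · refine le_trans ?_ (mul_le_mul_of_nonneg_right (hη M hM) hδ)
    rw [norm_mul, norm_mul, norm_mul, norm_pow, eta, div_mul_eq_mul_div, le_div_iff₀ hpM]
    calc ‖cLog p n u M‖ * ‖((p ^ M : ℕ) : K)‖ * ‖u j‖ ^ (p ^ M - 1) * ‖e j‖ *
          ‖((p : ℕ) : K)‖ ^ M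
        = (‖((p : ℕ) : K)‖ ^ M * ‖cLog p n u M‖) * ‖((p ^ M : ℕ) : K)‖ * ‖u j‖ ^ (p ^ M - 1) *
            ‖e j‖ := by ring
      _ ≤ 1 * 1 * ε ^ (p ^ M - 2) * δ := by
          refine mul_le_mul (mul_le_mul (mul_le_mul (cz_norm_cLog_le hu1 M)
            (IsUltrametricDist.norm_natCast_le_one K _) (norm_nonneg _) zero_le_one) ?_
            (by positivity) (by positivity)) (he j) (norm_nonneg _) (by positivity)
          exact (pow_le_pow_left₀ (norm_nonneg _) (hu j) _).trans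
            (pow_le_pow_of_le_one hε hε1 (by omega))
      _ = _ := by ring

theorem norm_cLog_sub_le [CharZero K] {x y : Fin (n - 1) → K} {δ : ℝ} (hδ : 0 ≤ δ)
    (hx : ∀ j, ‖x j‖ ≤ 1) (hy : ∀ j, ‖y j‖ ≤ 1) (hxy : ∀ j, ‖y j - x j‖ ≤ δ) (L : ℕ) :
    ‖((p : ℕ) : K)‖ ^ L * ‖cLog p n y L - cLog p n x L‖ ≤ δ := by
  induction L using Nat.strong_induction_on with
  | _ L ih =>
    rcases L with _ | L
    · simpa [cLog] using hδ
    rw [pow_succ, mul_assoc, ← norm_mul, mul_sub, cz_p_mul_cLog_succ, cz_p_mul_cLog_succ,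
      ← Finset.sum_sub_distrib]
    obtain ⟨i, hi, hle⟩ := IsUltrametricDist.exists_norm_finsetSum_le (Finset.range (L + 1))
      fun i => cLog p n y (L - i) * uvar n y (i + 1) ^ p ^ (L - i) -
        cLog p n x (L - i) * uvar n x (i + 1) ^ p ^ (L - i)
    refine le_trans (mul_le_mul_of_nonneg_left hle (by positivity)) ?_
    obtain ⟨q, hq⟩ : ∃ q, p ^ (L - i) = q + 1 :=
      ⟨p ^ (L - i) - 1, by have := Nat.one_le_pow (L - i) p (Fact.out : p.Prime).pos; omega⟩
    have hUd : ‖uvar n y (i + 1) - uvar n x (i + 1)‖ ≤ δ := by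
      unfold uvar
      split_ifs with h1 h2
      · exact hxy _
      · simpa using hδ
      · simpa using hδ
    have hpow := norm_pow_sub_pow_le zero_le_one (cz_norm_uvar_le hx (i + 1))
      (cz_norm_uvar_le hy (i + 1)) hUd q
    rw [one_pow, one_mul, ← hq] at hpow
    have hpl : ‖((p : ℕ) : K)‖ ^ L ≤ ‖((p : ℕ) : K)‖ ^ (L - i) :=
      pow_le_pow_of_le_one (norm_nonneg _) (IsUltrametricDist.norm_natCast_le_one K p) (by omega)
    rw [show cLog p n y (L - i) * uvar n y (i + 1) ^ p ^ (L - i) -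
        cLog p n x (L - i) * uvar n x (i + 1) ^ p ^ (L - i) =
      (cLog p n y (L - i) - cLog p n x (L - i)) * uvar n y (i + 1) ^ p ^ (L - i) +
        cLog p n x (L - i) * (uvar n y (i + 1) ^ p ^ (L - i) - uvar n x (i + 1) ^ p ^ (L - i))
      by ring]
    refine le_trans (mul_le_mul_of_nonneg_left (IsUltrametricDist.norm_add_le_max _ _)
      (by positivity)) ?_
    rw [mul_max_of_nonneg _ _ (by positivity)]
    refine max_le ?_ ?_
    · rw [norm_mul, norm_pow, ← mul_assoc]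
      refine (mul_le_of_le_one_right (by positivity)
        (pow_le_one₀ (norm_nonneg _) (cz_norm_uvar_le hy _))).trans ?_
      exact (mul_le_mul_of_nonneg_right hpl (norm_nonneg _)).trans (ih (L - i) (by omega))
    · rw [norm_mul, ← mul_assoc]
      refine (mul_le_mul ((mul_le_mul_of_nonneg_right hpl (norm_nonneg _)).trans
        (cz_norm_cLog_le hx _)) hpow (norm_nonneg _) zero_le_one).trans_eq (one_mul δ)

theorem norm_cLog_taylor_le [CharZero K] {x y : Fin (n - 1) → K} {δ : ℝ} (hδ : 0 ≤ δ)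
    (hx : ∀ j, ‖x j‖ ≤ 1) (hy : ∀ j, ‖y j‖ ≤ 1) (hxy : ∀ j, ‖y j - x j‖ ≤ δ) (L : ℕ) :
    ‖((p : ℕ) : K)‖ ^ L * ‖cLog p n y L - cLog p n x L - dLog p n x (y - x) L‖ ≤ δ ^ 2 := by
  induction L using Nat.strong_induction_on with
  | _ L ih =>
    rcases L with _ | L
    · simpa [cLog, dLog] using pow_nonneg hδ 2
    rw [pow_succ, mul_assoc, ← norm_mul, mul_sub, mul_sub, cz_p_mul_cLog_succ, cz_p_mul_cLog_succ,
      p_mul_dLog_succ, ← Finset.sum_sub_distrib, ← Finset.sum_sub_distrib]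
    refine le_trans (mul_le_mul_of_nonneg_left
      (IsUltrametricDist.norm_sum_le_of_forall_le_of_nonneg (C := δ ^ 2 / ‖((p : ℕ) : K)‖ ^ L)
        (by positivity) fun i hi => ?_) (by positivity))
      (by rw [mul_div_cancel₀ _ (pow_pos norm_p_pos L).ne'])
    rw [le_div_iff₀ (pow_pos norm_p_pos L), mul_comm]
    have hpl : ‖((p : ℕ) : K)‖ ^ L ≤ ‖((p : ℕ) : K)‖ ^ (L - i) :=
      pow_le_pow_of_le_one (norm_nonneg _) (IsUltrametricDist.norm_natCast_le_one K p) (by omega)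
    have ihM := (mul_le_mul_of_nonneg_right hpl (norm_nonneg _)).trans (ih (L - i) (by omega))
    have hc1 := (mul_le_mul_of_nonneg_right hpl (norm_nonneg _)).trans
      (cz_norm_cLog_le (p := p) hx (L - i))
    have hc2 := (mul_le_mul_of_nonneg_right hpl (norm_nonneg _)).trans
      (norm_cLog_sub_le (p := p) hδ hx hy hxy (L - i))
    set cy := cLog p n y (L - i)
    set cx := cLog p n x (L - i)
    set dd := dLog p n x (y - x) (L - i)
    set U := uvar n x (i + 1) with hU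
    set V := uvar n y (i + 1) with hV
    have hUle := cz_norm_uvar_le hx (i + 1)
    have hVle := cz_norm_uvar_le hy (i + 1)
    set E : K := if h : i + 1 < n then (y - x) ⟨i, by omega⟩ else 0 with hEdef
    have hE : E = V - U := by
      rw [hEdef, hU, hV]
      by_cases h : i + 1 < n
      · rw [dif_pos h, uvar, uvar, dif_pos ⟨by omega, h⟩, dif_pos ⟨by omega, h⟩, Pi.sub_apply]
        rfl
      · rw [dif_neg h, uvar, uvar, dif_neg (by omega), dif_neg (by omega), sub_self]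
    have hUd : ‖V - U‖ ≤ δ := by
      rw [← hE, hEdef]
      split
      · exact hxy _
      · simpa using hδ
    set P := p ^ (L - i)
    have hPpos : 1 ≤ P := Nat.one_le_pow _ _ (Fact.out : p.Prime).pos
    have htay : ‖V ^ P - U ^ P - (P : K) * U ^ (P - 1) * E‖ ≤ δ ^ 2 := by
      rw [hE]
      rcases Nat.lt_or_ge P 2 with h | h
      · rw [show P = 1 by omega]; simpa using pow_nonneg hδ 2
      · obtain ⟨q, hq⟩ : ∃ q, P = q + 2 := ⟨P - 2, by omega⟩
        have := norm_pow_taylor_le zero_le_one hUle hVle hUd q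
        rw [one_pow, one_mul] at this
        rw [hq, show q + 2 - 1 = q + 1 by omega]
        exact this
    have hsub : ‖V ^ P - U ^ P‖ ≤ δ := by
      obtain ⟨q, hq⟩ : ∃ q, P = q + 1 := ⟨P - 1, by omega⟩
      have := norm_pow_sub_pow_le zero_le_one hUle hVle hUd q
      rw [one_pow, one_mul, ← hq] at this
      exact this
    rw [show cy * V ^ P - cx * U ^ P - (dd * U ^ P + cx * (P : K) * U ^ (P - 1) * E) =
      (cy - cx - dd) * U ^ P + ((cy - cx) * (V ^ P - U ^ P) +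
        cx * (V ^ P - U ^ P - (P : K) * U ^ (P - 1) * E)) by ring]
    refine le_trans (mul_le_mul_of_nonneg_left ((IsUltrametricDist.norm_add_le_max _ _).trans
      (max_le_max le_rfl (IsUltrametricDist.norm_add_le_max _ _))) (by positivity)) ?_
    rw [mul_max_of_nonneg _ _ (by positivity), mul_max_of_nonneg _ _ (by positivity)]
    refine max_le ?_ (max_le ?_ ?_)
    · rw [norm_mul, norm_pow, ← mul_assoc]
      exact (mul_le_of_le_one_right (by positivity) (pow_le_one₀ (norm_nonneg _) hUle)).trans ihM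
    · rw [norm_mul, ← mul_assoc]
      exact (mul_le_mul hc2 hsub (norm_nonneg _) hδ).trans_eq (sq δ).symm
    · rw [norm_mul, ← mul_assoc]
      exact (mul_le_mul hc1 htay (norm_nonneg _) zero_le_one).trans_eq (one_mul _)

/-- The bound for the second order remainder of `p c_{L+n} - c_L`. -/
theorem norm_taylor_defect_le [CharZero K] (hn : 1 ≤ n) {x y : Fin (n - 1) → K} {ε δ η : ℝ}
    (hε : 0 ≤ ε) (hε1 : ε ≤ 1) (hδ : 0 ≤ δ) (hx : ∀ j, ‖x j‖ ≤ ε) (hy : ∀ j, ‖y j‖ ≤ ε)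
    (hxy : ∀ j, ‖y j - x j‖ ≤ δ) {L : ℕ} (hη0 : 0 ≤ η) (hη : ∀ M, L < M → eta p K ε M ≤ η) :
    ‖((p : K) * (cLog p n y (L + n) - cLog p n x (L + n) - dLog p n x (y - x) (L + n))) -
      (cLog p n y L - cLog p n x L - dLog p n x (y - x) L)‖ ≤ η * δ ^ 2 := by
  rw [show (p : K) * (cLog p n y (L + n) - cLog p n x (L + n) - dLog p n x (y - x) (L + n)) -
      (cLog p n y L - cLog p n x L - dLog p n x (y - x) L) =
    ((p : K) * cLog p n y (L + n) - cLog p n y L) - ((p : K) * cLog p n x (L + n) - cLog p n x L) -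
      ((p : K) * dLog p n x (y - x) (L + n) - dLog p n x (y - x) L) by ring,
    p_mul_cLog_add p n hn, p_mul_cLog_add p n hn, p_mul_dLog_add p n hn,
    ← Finset.sum_sub_distrib, ← Finset.sum_sub_distrib]
  refine IsUltrametricDist.norm_sum_le_of_forall_le_of_nonneg (by positivity) fun j _ => ?_
  have hj := j.isLt
  set M := L + n - 1 - (j : ℕ)
  have hM : L < M := by omega
  refine le_trans ?_ (mul_le_mul_of_nonneg_right (hη M hM) (sq_nonneg δ))
  have hx1 : ∀ j, ‖x j‖ ≤ 1 := fun j => (hx j).trans hε1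
  have hy1 : ∀ j, ‖y j‖ ≤ 1 := fun j => (hy j).trans hε1
  have hc1 := cz_norm_cLog_le (p := p) hx1 M
  have hc2 := norm_cLog_sub_le (p := p) hδ hx1 hy1 hxy M
  have hc3 := norm_cLog_taylor_le (p := p) hδ hx1 hy1 hxy M
  set cy := cLog p n y M
  set cx := cLog p n x M
  set dd := dLog p n x (y - x) M
  have hP2 : 2 ≤ p ^ M := (Fact.out : p.Prime).two_le.trans (Nat.le_self_pow (by omega) p)
  obtain ⟨q, hq⟩ : ∃ q, p ^ M = q + 2 := ⟨p ^ M - 2, by omega⟩
  have htay := norm_pow_taylor_le hε (hx j) (hy j) (hxy j) q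
  have hsub := norm_pow_sub_pow_le hε (hx j) (hy j) (hxy j) (q + 1)
  rw [eta, div_mul_eq_mul_div, le_div_iff₀ (pow_pos norm_p_pos M), mul_comm]
  rw [hq, show q + 2 - 1 = q + 1 by omega, show q + 2 - 2 = q by omega, Pi.sub_apply,
    show cy * y j ^ (q + 2) - cx * x j ^ (q + 2) -
        (dd * x j ^ (q + 2) + cx * ((q + 2 : ℕ) : K) * x j ^ (q + 1) * (y j - x j)) =
      (cy - cx - dd) * x j ^ (q + 2) + ((cy - cx) * (y j ^ (q + 2) - x j ^ (q + 2)) +
        cx * (y j ^ (q + 2) - x j ^ (q + 2) - ((q + 2 : ℕ) : K) * x j ^ (q + 1) * (y j - x j)))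
      by ring]
  refine le_trans (mul_le_mul_of_nonneg_left ((IsUltrametricDist.norm_add_le_max _ _).trans
    (max_le_max le_rfl (IsUltrametricDist.norm_add_le_max _ _))) (by positivity)) ?_
  rw [mul_max_of_nonneg _ _ (by positivity), mul_max_of_nonneg _ _ (by positivity)]
  refine max_le ?_ (max_le ?_ ?_)
  · rw [norm_mul, norm_pow, ← mul_assoc]
    refine (mul_le_mul hc3 ((pow_le_pow_left₀ (norm_nonneg _) (hx j) _).trans
      (pow_le_pow_of_le_one hε hε1 (by omega : q ≤ q + 2))) (by positivity) (sq_nonneg _)).trans_eq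
      (mul_comm _ _)
  · rw [norm_mul, ← mul_assoc]
    refine (mul_le_mul hc2 (hsub.trans (mul_le_mul_of_nonneg_right
      (pow_le_pow_of_le_one hε hε1 (Nat.le_succ q)) hδ)) (norm_nonneg _) hδ).trans_eq (by ring)
  · rw [norm_mul, ← mul_assoc]
    exact (mul_le_mul hc1 htay (norm_nonneg _) zero_le_one).trans_eq (one_mul _)

end Est

section Limit

variable (p : ℕ) [Fact p.Prime] (n : ℕ) {K : Type*} [NontriviallyNormedField K]

/-- The limit of `p ^ r a_{n r + i}`. -/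
def wlim (a : ℕ → K) (i : ℕ) : K := limUnder atTop fun r => (p : K) ^ r * a (n * r + i)

variable {p n} [IsUltrametricDist K] [CompleteSpace K] [CharZero K]

theorem exists_wlim_aux {a : ℕ → K} {C : ℝ}
    (h : ∀ L, ‖(p : K) * a (L + n) - a L‖ ≤ C) (hp : ‖((p : ℕ) : K)‖ < 1) (i : ℕ) :
    ∃ w, Tendsto (fun r => (p : K) ^ r * a (n * r + i)) atTop (𝓝 w) ∧
      ∀ r, ‖(p : K) ^ r * a (n * r + i) - w‖ ≤ ‖((p : ℕ) : K)‖ ^ r * C := by
  have hC : 0 ≤ C := (norm_nonneg _).trans (h 0)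
  have hle : ∀ r s, r ≤ s → ‖(p : K) ^ r * a (n * r + i) - (p : K) ^ s * a (n * s + i)‖ ≤
      ‖((p : ℕ) : K)‖ ^ r * C := by
    intro r s hrs
    induction s, hrs using Nat.le_induction with
    | base => simpa using by positivity
    | succ s hrs ih =>
      rw [← sub_add_sub_cancel _ ((p : K) ^ s * a (n * s + i))]
      refine (IsUltrametricDist.norm_add_le_max _ _).trans (max_le ih ?_)
      rw [← norm_neg, neg_sub, pow_succ, mul_assoc, ← mul_sub, norm_mul, norm_pow,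
        show n * (s + 1) + i = n * s + i + n by ring]
      exact mul_le_mul (pow_le_pow_of_le_one (norm_nonneg _) hp.le hrs) (h _) (norm_nonneg _)
        (by positivity)
  have ht : Tendsto (fun r => ‖((p : ℕ) : K)‖ ^ r * C) atTop (𝓝 0) := by
    simpa using (tendsto_pow_atTop_nhds_zero_of_lt_one (norm_nonneg _) hp).mul_const C
  obtain ⟨w, hw⟩ := cauchySeq_tendsto_of_complete
    (cauchySeq_of_le_tendsto_0' _ (fun r s hrs => (dist_eq_norm _ _).trans_le (hle r s hrs)) ht)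
  exact ⟨w, hw, fun r => le_of_tendsto (tendsto_const_nhds.sub hw).norm
    (eventually_atTop.2 ⟨r, fun s hs => hle r s hs⟩)⟩

theorem tendsto_wlim {a : ℕ → K} {C : ℝ} (h : ∀ L, ‖(p : K) * a (L + n) - a L‖ ≤ C)
    (hp : ‖((p : ℕ) : K)‖ < 1) (i : ℕ) :
    Tendsto (fun r => (p : K) ^ r * a (n * r + i)) atTop (𝓝 (wlim p n a i)) := by
  obtain ⟨w, hw, -⟩ := exists_wlim_aux h hp i
  rwa [wlim, hw.limUnder_eq]

theorem norm_sub_wlim_le {a : ℕ → K} {C : ℝ} (h : ∀ L, ‖(p : K) * a (L + n) - a L‖ ≤ C)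
    (hp : ‖((p : ℕ) : K)‖ < 1) (i r : ℕ) :
    ‖(p : K) ^ r * a (n * r + i) - wlim p n a i‖ ≤ ‖((p : ℕ) : K)‖ ^ r * C := by
  obtain ⟨w, hw, hle⟩ := exists_wlim_aux h hp i
  rw [wlim, hw.limUnder_eq]
  exact hle r

theorem norm_wlim_le {a : ℕ → K} {C : ℝ} (h : ∀ L, ‖(p : K) * a (L + n) - a L‖ ≤ C)
    (hp : ‖((p : ℕ) : K)‖ < 1) (i : ℕ) : ‖wlim p n a i‖ ≤ max ‖a i‖ C := by
  have h0 := norm_sub_wlim_le h hp i 0
  rw [pow_zero, pow_zero, one_mul, one_mul, mul_zero, zero_add] at h0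
  rw [show wlim p n a i = a i - (a i - wlim p n a i) by ring, sub_eq_add_neg]
  exact (IsUltrametricDist.norm_add_le_max _ _).trans (max_le_max le_rfl (by rwa [norm_neg]))

theorem wlim_add_self {a : ℕ → K} {C : ℝ} (h : ∀ L, ‖(p : K) * a (L + n) - a L‖ ≤ C)
    (hp : ‖((p : ℕ) : K)‖ < 1) (i : ℕ) : (p : K) * wlim p n a (i + n) = wlim p n a i := by
  refine tendsto_nhds_unique ?_ ((tendsto_add_atTop_iff_nat 1).2 (tendsto_wlim h hp i))
  refine (((tendsto_wlim h hp (i + n)).const_mul (p : K)).congr fun r => ?_)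
  rw [pow_succ, show n * (r + 1) + i = n * r + (i + n) by ring]
  ring

/-- If all limits vanish, a sequence is bounded by its defects further out. -/
theorem norm_le_of_wlim_eq_zero {a : ℕ → K} {C : ℝ}
    (h : ∀ L, ‖(p : K) * a (L + n) - a L‖ ≤ C) (hp : ‖((p : ℕ) : K)‖ < 1) (hn : 1 ≤ n)
    (hz : ∀ i < n, wlim p n a i = 0) {η : ℝ} {M : ℕ}
    (hη : ∀ L, M ≤ L → ‖(p : K) * a (L + n) - a L‖ ≤ η) : ‖a M‖ ≤ η := by
  have hp0 : (p : K) ≠ 0 := Nat.cast_ne_zero.2 (Fact.out : p.Prime).ne_zero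
  have hall : ∀ i, wlim p n a i = 0 := by
    intro i
    induction i using Nat.strong_induction_on with
    | _ i ih =>
      by_cases hi : i < n
      · exact hz i hi
      · obtain ⟨j, rfl⟩ : ∃ j, i = j + n := ⟨i - n, by omega⟩
        have h1 := wlim_add_self h hp j
        rw [ih j (by omega)] at h1
        exact (mul_eq_zero.1 h1).resolve_left hp0
  have h' : ∀ L, ‖(p : K) * a (M + (L + n)) - a (M + L)‖ ≤ η := fun L => by
    rw [← add_assoc]; exact hη _ (Nat.le_add_right _ _)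
  have h1 := norm_sub_wlim_le (a := fun L => a (M + L)) h' hp 0 0
  have h2 : wlim p n (fun L => a (M + L)) 0 = wlim p n a M :=
    tendsto_nhds_unique (tendsto_wlim h' hp 0) ((tendsto_wlim h hp M).congr fun r => by
      rw [add_zero, add_comm M])
  rw [h2, hall, sub_zero, pow_zero, pow_zero, one_mul, one_mul, mul_zero, zero_add, add_zero]
    at h1
  exact h1

end Limit

end Vale.P217

end
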