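import Mathlib.Data.Nat.Choose.Lucas
import Mathlib.Tactic.FieldSimp
import Mathlib.Tactic.LinearCombination
import Mathlib.Tactic.Ring
import Mathlib.Data.Nat.Choose.Dvd
import Mathlib.Data.Nat.Choose.Sum
import Mathlib.Data.Nat.Factorization.Basic
import Mathlib.Algebra.CharP.Basic
import Mathlib.Algebra.BigOperators.Group.Finset.Basic

/-!
Binomial coefficients in characteristic `p`, and the arithmetic form of Lazard's lemma.
-/

noncomputable section

namespace Vale.P217

variable (p : ℕ) [hp : Fact p.Prime] {k : Type*} [Field k] [CharP k p]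

/-- `binom(p^j, m) / p` in the field. -/
def cpowVal (j m : ℕ) : k := ((Nat.choose (p ^ j) m / p : ℕ) : k)

theorem natCast_eq_of_modEq {a b : ℕ} (h : a ≡ b [MOD p]) : (a : k) = b :=
  (CharP.natCast_eq_natCast k p).2 h

theorem natCast_ne_zero {r : ℕ} (hr : ¬p ∣ r) : (r : k) ≠ 0 := by
  rwa [Ne, CharP.cast_eq_zero_iff k p]

omit [CharP k p] in
theorem mul_choose_div {j m : ℕ} (hm : 1 ≤ m) (hmq : m < p ^ j) :
    m * (p * (Nat.choose (p ^ j) m / p)) = p ^ j * Nat.choose (p ^ j - 1) (m - 1) := by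
  rw [Nat.mul_div_cancel' (hp.1.dvd_choose_pow (by omega) (by omega))]
  obtain ⟨m, rfl⟩ : ∃ t, m = t + 1 := ⟨m - 1, by omega⟩
  have h := Nat.add_one_mul_choose_eq (p ^ j - 1) m
  rw [show p ^ j - 1 + 1 = p ^ j by omega] at h
  rw [Nat.add_sub_cancel, h, mul_comm]

/-- The value at `p ^ s * r`, `p ∤ r`. -/
theorem natCast_mul_cpowVal {j s r : ℕ} (hr1 : 1 ≤ r) (hmq : p ^ s * r < p ^ j) :
    (r : k) * cpowVal p j (p ^ s * r) =
      (p : k) ^ (j - 1 - s) * (Nat.choose (p ^ j - 1) (p ^ s * r - 1) : k) := by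
  have hsj : s < j := by
    have : p ^ s ≤ p ^ s * r := Nat.le_mul_of_pos_right _ (by omega)
    exact (Nat.pow_lt_pow_iff_right hp.1.one_lt).1 (by omega)
  have h1 : 1 ≤ p ^ s * r := Nat.one_le_iff_ne_zero.2 (Nat.mul_ne_zero
    (pow_ne_zero _ hp.1.ne_zero) (by omega))
  have h := mul_choose_div p h1 hmq
  have e : r * (Nat.choose (p ^ j) (p ^ s * r) / p) =
      p ^ (j - 1 - s) * Nat.choose (p ^ j - 1) (p ^ s * r - 1) := by
    apply Nat.eq_of_mul_eq_mul_left (pow_pos hp.1.pos (s + 1))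
    rw [← mul_assoc (p ^ (s + 1)) (p ^ (j - 1 - s)), ← pow_add,
      show s + 1 + (j - 1 - s) = j by omega, ← h, pow_succ]
    ring
  unfold cpowVal
  rw [← Nat.cast_mul, e, Nat.cast_mul, Nat.cast_pow]

theorem cpowVal_of_not_dvd {j m : ℕ} (hj : 2 ≤ j) (hm : m < p ^ j) (hpm : ¬p ∣ m) :
    (cpowVal p j m : k) = 0 := by
  rcases Nat.eq_zero_or_pos m with rfl | hm0
  · exact absurd (dvd_zero p) hpm
  have h := natCast_mul_cpowVal p (k := k) (s := 0) hm0 (by simpa using hm)
  rw [pow_zero, one_mul, CharP.cast_eq_zero k p, zero_pow (by omega), zero_mul,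
    mul_eq_zero] at h
  exact h.resolve_left (natCast_ne_zero p hpm)

theorem cpowVal_mul {j t : ℕ} (ht : 1 ≤ t) (htq : t < p ^ j) :
    (cpowVal p (j + 1) (p * t) : k) = cpowVal p j t := by
  obtain ⟨s, r, hpr, rfl⟩ :=
    Nat.exists_eq_pow_mul_and_not_dvd (n := t) (by omega) p hp.1.ne_one
  have hr1 : 1 ≤ r := Nat.one_le_iff_ne_zero.2 fun h => hpr (h ▸ dvd_zero p)
  have htq' : p ^ (s + 1) * r < p ^ (j + 1) := by
    rw [pow_succ', pow_succ', mul_assoc]
    exact Nat.mul_lt_mul_of_pos_left htq hp.1.pos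
  have h1 := natCast_mul_cpowVal p (k := k) hr1 htq'
  have h2 := natCast_mul_cpowVal p (k := k) hr1 htq
  rw [show p * (p ^ s * r) = p ^ (s + 1) * r by rw [pow_succ']; ring]
  apply mul_left_cancel₀ (natCast_ne_zero p (k := k) hpr)
  rw [h1, h2, show j + 1 - 1 - (s + 1) = j - 1 - s by omega]
  congr 1
  refine natCast_eq_of_modEq p ?_
  set t := p ^ s * r with htdef
  have et : p ^ (s + 1) * r = p * t := by rw [htdef, pow_succ']; ring
  rw [et, pow_succ']
  have hp2 := hp.1.two_le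
  have hc := Choose.choose_modEq_choose_mod_mul_choose_div_nat (p := p)
    (n := p * p ^ j - 1) (k := p * t - 1)
  have e1 : p * p ^ j - 1 = (p - 1) + p * (p ^ j - 1) := by
    rw [Nat.mul_sub_one]
    have := Nat.le_mul_of_pos_right p (pow_pos hp.1.pos j)
    omega
  have e2 : p * t - 1 = (p - 1) + p * (t - 1) := by
    rw [Nat.mul_sub_one]
    have := Nat.le_mul_of_pos_right p (show 0 < t by omega)
    omega
  rw [e1, e2, Nat.add_mul_mod_self_left, Nat.add_mul_mod_self_left,
    Nat.mod_eq_of_lt (by omega), Nat.add_mul_div_left _ _ hp.1.pos,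
    Nat.add_mul_div_left _ _ hp.1.pos, Nat.div_eq_of_lt (by omega), zero_add, zero_add,
    Nat.choose_self, one_mul] at hc
  rwa [← e1, ← e2] at hc

theorem cpowVal_pow_pred (j : ℕ) : (cpowVal p (j + 1) (p ^ j) : k) = 1 := by
  induction j with
  | zero =>
    have e : Nat.choose (p ^ (0 + 1)) (p ^ 0) / p = 1 := by
      simp [Nat.div_self hp.1.pos]
    rw [cpowVal, e, Nat.cast_one]
  | succ j ih =>
    rw [pow_succ', cpowVal_mul p (Nat.one_le_pow _ _ hp.1.pos)
      (Nat.pow_lt_pow_right hp.1.one_lt (Nat.lt_succ_self j)), ih]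

theorem exists_choose_ne_zero {D : ℕ} (hD : 2 ≤ D) (hpow : ∀ j, D ≠ p ^ j) :
    ∃ i, 1 ≤ i ∧ i < D ∧ (D.choose i : k) ≠ 0 := by
  obtain ⟨s, r, hpr, rfl⟩ :=
    Nat.exists_eq_pow_mul_and_not_dvd (n := D) (by omega) p hp.1.ne_one
  have hr2 : 2 ≤ r := by
    rcases r with _ | _ | r
    · exact absurd (dvd_zero p) hpr
    · exact absurd (mul_one _) (hpow s)
    · omega
  refine ⟨p ^ s, Nat.one_le_pow _ _ hp.1.pos, ?_, ?_⟩
  · exact lt_mul_of_one_lt_right (pow_pos hp.1.pos s) (by omega)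
  · have h := Choose.choose_pow_mul_pow_mul_modEq_choose_nat (p := p) (k := s) (a := r) (b := 1)
    rw [mul_one, Nat.choose_one_right] at h
    rw [natCast_eq_of_modEq p h]
    exact natCast_ne_zero p hpr

/-- The arithmetic form of Lazard's lemma. -/
theorem lazard_coeff (D : ℕ) (hD : 2 ≤ D) (a : ℕ → k)
    (hsym : ∀ i ≤ D, a i = a (D - i)) (h0 : a 0 = 0)
    (hrel : ∀ i j l, 1 ≤ i → 1 ≤ l → i + j + l = D →
      ((j + l).choose j : k) * a i = ((i + j).choose i : k) * a (i + j)) :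
    (∃ j, 1 ≤ j ∧ D = p ^ j ∧ ∃ c : k, ∀ m, 1 ≤ m → m < D → a m = c * cpowVal p j m) ∨
      ((∀ j, D ≠ p ^ j) ∧ ∃ c : k, ∀ m, 1 ≤ m → m < D → a m = c * (D.choose m : k)) := by
  induction D using Nat.strong_induction_on generalizing a with
  | _ D ih =>
  have hfirst : ∀ m, 1 ≤ m → m < D → (m : k) * a m = ((D - 1).choose (m - 1) : k) * a 1 := by
    intro m hm hmD
    have h := hrel 1 (m - 1) (D - m) le_rfl (by omega) (by omega)
    rw [show m - 1 + (D - m) = D - 1 by omega, show 1 + (m - 1) = m by omega,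
      Nat.choose_one_right] at h
    exact h.symm
  have hmain : ∀ m, 1 ≤ m → m < D → (D : k) * a m = (D.choose m : k) * a 1 := by
    intro m hm hmD
    have h1 := hfirst m hm hmD
    have h2 := hfirst (D - m) (by omega) (by omega)
    rw [← hsym m hmD.le, show D - m - 1 = D - 1 - m by omega, Nat.choose_symm (by omega)] at h2
    obtain ⟨m, rfl⟩ : ∃ t, m = t + 1 := ⟨m - 1, by omega⟩
    obtain ⟨E, rfl⟩ : ∃ t, D = t + 1 := ⟨D - 1, by omega⟩
    rw [Nat.choose_succ_succ']
    rw [Nat.add_sub_cancel] at h1 h2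
    rw [Nat.add_sub_cancel] at h1
    have hcast : ((E + 1 : ℕ) : k) = ((m + 1 : ℕ) : k) + ((E + 1 - (m + 1) : ℕ) : k) := by
      rw [← Nat.cast_add]; congr 1; omega
    rw [hcast, Nat.cast_add (E.choose m), add_mul, add_mul, h1, h2]
  by_cases hpD : p ∣ D
  swap
  · refine Or.inr ⟨fun j hj => ?_, a 1 / (D : k), fun m hm hmD => ?_⟩
    · rcases j with _ | j
      · rw [pow_zero] at hj; omega
      · exact hpD (hj ▸ dvd_pow_self p (Nat.succ_ne_zero j))
    · have := natCast_ne_zero p (k := k) hpD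
      field_simp
      linear_combination hmain m hm hmD
  by_cases hDp : D = p
  · subst hDp
    refine Or.inl ⟨1, le_rfl, (pow_one D).symm, a 1, fun m hm hmD => ?_⟩
    have hm' : ¬D ∣ m := fun h => absurd (Nat.le_of_dvd (by omega) h) (by omega)
    apply mul_left_cancel₀ (natCast_ne_zero D (k := k) hm')
    rw [hfirst m hm hmD]
    have h := natCast_mul_cpowVal D (k := k) (j := 1) (s := 0) hm (by simpa using hmD)
    simp only [pow_zero, one_mul, Nat.sub_self, pow_one] at h
    rw [mul_left_comm, h]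
    ring
  obtain ⟨E, rfl⟩ := hpD
  have hp2 := hp.1.two_le
  have hE : 2 ≤ E := by
    rcases E with _ | _ | E
    · omega
    · omega
    · omega
  have ha1 : a 1 = 0 := by
    have hlt : p < p * E := lt_mul_of_one_lt_right hp.1.pos (by omega)
    have h := hfirst p hp.1.one_lt.le hlt
    rw [CharP.cast_eq_zero k p, zero_mul] at h
    have hc := Choose.choose_modEq_choose_mod_mul_choose_div_nat (p := p)
      (n := p * E - 1) (k := p - 1)
    have e1 : p * E - 1 = (p - 1) + p * (E - 1) := by rw [Nat.mul_sub_one]; omega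
    rw [e1, Nat.add_mul_mod_self_left, Nat.mod_eq_of_lt (by omega),
      Nat.add_mul_div_left _ _ hp.1.pos, Nat.div_eq_of_lt (by omega), zero_add,
      Nat.choose_self, Nat.choose_zero_right, one_mul] at hc
    rw [← e1] at hc
    rw [natCast_eq_of_modEq p hc, Nat.cast_one, one_mul] at h
    exact h.symm
  have hnd : ∀ m, 1 ≤ m → m < p * E → ¬p ∣ m → a m = 0 := by
    intro m hm hmD hpm
    have h := hfirst m hm hmD
    rw [ha1, mul_zero, mul_eq_zero] at h
    exact h.resolve_left (natCast_ne_zero p hpm)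
  have hEltD : E < p * E := lt_mul_of_one_lt_left (by omega) hp.1.one_lt
  have hch : ∀ x y, ((p * x).choose (p * y) : k) = (x.choose y : k) := fun x y =>
    natCast_eq_of_modEq p Choose.choose_mul_mul_modEq_choose_nat
  rcases ih E hEltD hE (fun t => a (p * t))
      (fun i hi => by
        rw [hsym _ (Nat.mul_le_mul_left p hi), Nat.mul_sub])
      (by simpa using h0)
      (fun i j l hi hl hijl => by
        have h := hrel (p * i) (p * j) (p * l) (Nat.mul_pos hp.1.pos hi)
          (Nat.mul_pos hp.1.pos hl) (by rw [← mul_add, ← mul_add, hijl])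
        rw [← mul_add, ← mul_add, hch, hch] at h
        exact h) with ⟨j, hj, hEj, c, hc⟩ | ⟨hpow, c, hc⟩
  · refine Or.inl ⟨j + 1, by omega, by rw [hEj, pow_succ'], c, fun m hm hmD => ?_⟩
    by_cases hpm : p ∣ m
    · obtain ⟨t, rfl⟩ := hpm
      have ht : 1 ≤ t := Nat.pos_of_mul_pos_left hm
      have htE : t < E := Nat.lt_of_mul_lt_mul_left hmD
      rw [cpowVal_mul p ht (hEj ▸ htE)]
      exact hc t ht htE
    · rw [hnd m hm hmD hpm, cpowVal_of_not_dvd p (by omega) ?_ hpm, mul_zero]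
      rwa [pow_succ', ← hEj]
  · refine Or.inr ⟨fun j hj => ?_, c, fun m hm hmD => ?_⟩
    · rcases j with _ | j
      · rw [pow_zero] at hj; omega
      · exact hpow j (Nat.eq_of_mul_eq_mul_left hp.1.pos (by rw [hj, pow_succ']))
    by_cases hpm : p ∣ m
    · obtain ⟨t, rfl⟩ := hpm
      rw [hch]
      exact hc t (Nat.pos_of_mul_pos_left hm) (Nat.lt_of_mul_lt_mul_left hmD)
    · rw [hnd m hm hmD hpm]
      have h := Choose.choose_modEq_choose_mod_mul_choose_div_nat (p := p) (n := p * E) (k := m)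
      rw [Nat.mul_mod_right, Nat.choose_eq_zero_of_lt
        (Nat.pos_of_ne_zero fun h0 => hpm (Nat.dvd_of_mod_eq_zero h0)), zero_mul] at h
      rw [natCast_eq_of_modEq p h, Nat.cast_zero, mul_zero]

omit hp [CharP k p] in
theorem sum_choose_pow (m D : ℕ) (hD : 1 ≤ D) :
    (∑ i ∈ Finset.Ioo 0 D, D.choose i * m ^ i) + m ^ D + 1 = (m + 1) ^ D := by
  have h : (m + 1) ^ D = ∑ i ∈ Finset.range (D + 1), D.choose i * m ^ i := by
    rw [add_pow]
    exact Finset.sum_congr rfl fun i _ => by simp [mul_comm]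
  rw [h, Finset.sum_range_succ, Nat.choose_self, one_mul]
  have : Finset.range D = insert 0 (Finset.Ioo 0 D) := by
    ext i
    simp only [Finset.mem_range, Finset.mem_insert, Finset.mem_Ioo]
    omega
  rw [this, Finset.sum_insert (by simp), Nat.choose_zero_right, pow_zero, one_mul]
  omega

/-- `∑_{m<p} C_{p^j}(m, 1) = -1`. -/
theorem sum_cpowVal {j : ℕ} (hj : 1 ≤ j) :
    ∑ m ∈ Finset.range p, ∑ i ∈ Finset.Ioo 0 (p ^ j), (cpowVal p j i : k) * (m : k) ^ i = -1 := by
  set D := p ^ j with hD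
  have hD1 : 1 ≤ D := Nat.one_le_pow _ _ hp.1.pos
  set S := ∑ m ∈ Finset.range p, ∑ i ∈ Finset.Ioo 0 D, Nat.choose D i / p * m ^ i with hS
  have hpS : p * S + p = p ^ D := by
    have h : ∀ N, (∑ m ∈ Finset.range N,
        ∑ i ∈ Finset.Ioo 0 D, Nat.choose D i * m ^ i) + N = N ^ D := by
      intro N
      induction N with
      | zero => simp [zero_pow (by omega : D ≠ 0)]
      | succ N ihN =>
        rw [Finset.sum_range_succ, ← sum_choose_pow N D hD1]
        omega
    refine Eq.trans ?_ (h p)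
    congr 1
    simp only [hS, Finset.mul_sum]
    refine Finset.sum_congr rfl fun m _ => Finset.sum_congr rfl fun i hi => ?_
    simp only [Finset.mem_Ioo] at hi
    rw [← mul_assoc, Nat.mul_div_cancel' (hp.1.dvd_choose_pow (by omega) (by omega))]
  have hD2 : 2 ≤ D := le_trans hp.1.two_le (Nat.le_self_pow (by omega) p)
  have hS1 : S + 1 = p ^ (D - 1) := by
    apply Nat.eq_of_mul_eq_mul_left hp.1.pos
    rw [mul_add, mul_one, hpS, ← pow_succ', show D - 1 + 1 = D by omega]
  have hk : (S : k) + 1 = 0 := by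
    rw [← Nat.cast_one, ← Nat.cast_add, hS1, Nat.cast_pow, CharP.cast_eq_zero,
      zero_pow (by omega)]
  rw [eq_neg_iff_add_eq_zero, ← hk]
  simp [hS, cpowVal, hD]

end Vale.P217

end
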