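import Vale.Agent.P217.Universal
import Vale.Agent.P217.CocycleNat

/-!
Coboundaries and cocycles: definitions, and the coefficients of leading forms.
-/

noncomputable section

namespace Vale.P217

open MvPowerSeries Finsupp

variable {k : Type*} [CommRing k]

/-- The coboundary of a one-variable series. -/
def cob (F : FormalGroup k) (h : PowerSeries k) : MvPowerSeries (Fin 2) k :=
  PowerSeries.subst F.toPowerSeries h - PowerSeries.subst (MvPowerSeries.X (0 : Fin 2)) h -
    PowerSeries.subst (MvPowerSeries.X (1 : Fin 2)) h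

/-- A symmetric 2-cocycle of order at least two. -/
structure IsCocycle (F : FormalGroup k) (C : MvPowerSeries (Fin 2) k) : Prop where
  order_two : ∀ d : Fin 2 →₀ ℕ, d.degree < 2 → MvPowerSeries.coeff d C = 0
  symm : MvPowerSeries.subst
      ![(MvPowerSeries.X 1 : MvPowerSeries (Fin 2) k), MvPowerSeries.X 0] C = C
  cocycle :
    MvPowerSeries.subst ![(MvPowerSeries.X 1 : MvPowerSeries (Fin 3) k), MvPowerSeries.X 2] C +
      MvPowerSeries.subst ![(MvPowerSeries.X 0 : MvPowerSeries (Fin 3) k),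
        MvPowerSeries.subst ![MvPowerSeries.X 1, MvPowerSeries.X 2] F.toPowerSeries] C =
    MvPowerSeries.subst ![MvPowerSeries.subst ![(MvPowerSeries.X 0 : MvPowerSeries (Fin 3) k),
        MvPowerSeries.X 1] F.toPowerSeries, MvPowerSeries.X 2] C +
      MvPowerSeries.subst ![(MvPowerSeries.X 0 : MvPowerSeries (Fin 3) k), MvPowerSeries.X 1] C

/-- The exponent `(i, j)`. -/
abbrev pairIdx (i j : ℕ) : Fin 2 →₀ ℕ := single 0 i + single 1 j

theorem degree_pairIdx (i j : ℕ) : (pairIdx i j).degree = i + j := by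
  simp [pairIdx, map_add, Finsupp.degree_single]

theorem pairIdx_apply_zero (i j : ℕ) : pairIdx i j 0 = i := by simp [pairIdx]

theorem pairIdx_apply_one (i j : ℕ) : pairIdx i j 1 = j := by simp [pairIdx]

theorem eq_pairIdx (d : Fin 2 →₀ ℕ) : d = pairIdx (d 0) (d 1) := eq_single_add_single d

theorem eq_pairIdx_iff (d : Fin 2 →₀ ℕ) (i j : ℕ) : d = pairIdx i j ↔ d 0 = i ∧ d 1 = j :=
  ⟨fun h => by rw [h, pairIdx_apply_zero, pairIdx_apply_one]; exact ⟨rfl, rfl⟩,
    fun h => by rw [eq_pairIdx d, h.1, h.2]⟩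

/-- The exponent `(i, j, l)`. -/
abbrev tripleIdx (i j l : ℕ) : Fin 3 →₀ ℕ := single 0 i + single 1 j + single 2 l

theorem degree_tripleIdx (i j l : ℕ) : (tripleIdx i j l).degree = i + j + l := by
  simp [tripleIdx, map_add, Finsupp.degree_single]

theorem coeff_three_monomial (a b c i j l : ℕ) :
    coeff (tripleIdx i j l) ((X 0 : MvPowerSeries (Fin 3) k) ^ a * X 1 ^ b * X 2 ^ c) =
      if i = a ∧ j = b ∧ l = c then 1 else 0 := by
  classical
  rw [X_pow_eq, X_pow_eq, X_pow_eq, monomial_mul_monomial, monomial_mul_monomial, one_mul,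
    one_mul, coeff_monomial]
  refine if_congr ⟨fun h => ?_, fun h => by rw [h.1, h.2.1, h.2.2]⟩ rfl rfl
  exact ⟨by simpa [tripleIdx] using DFunLike.congr_fun h 0,
    by simpa [tripleIdx] using DFunLike.congr_fun h 1,
    by simpa [tripleIdx] using DFunLike.congr_fun h 2⟩

theorem coeff_subst_pair {τ : Type*} {u v : MvPowerSeries τ k} (hu : u ∈ below 1)
    (hv : v ∈ below 1) (f : MvPowerSeries (Fin 2) k) (d : τ →₀ ℕ) :
    coeff d (subst ![u, v] f) = ∑ᶠ e : Fin 2 →₀ ℕ, coeff e f * coeff d (u ^ e 0 * v ^ e 1) := by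
  rw [coeff_subst (hasSubst_pair_below hu hv)]
  refine finsum_congr fun e => ?_
  rw [Finsupp.prod_fintype _ _ (fun s => pow_zero _), Fin.prod_univ_two]
  simp

theorem X3_add_mem_below (s t : Fin 3) :
    (X s + X t : MvPowerSeries (Fin 3) k) ∈ below 1 :=
  Ideal.add_mem _ (X_mem_below s) (X_mem_below t)

theorem coeff_subst_YZ (f : MvPowerSeries (Fin 2) k) (i j l : ℕ) :
    coeff (tripleIdx i j l) (subst ![(X 1 : MvPowerSeries (Fin 3) k), X 2] f) =
      if i = 0 then coeff (pairIdx j l) f else 0 := by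
  rw [coeff_subst_pair (X_mem_below _) (X_mem_below _),
    finsum_eq_single _ (pairIdx j l) (fun e he => ?_)]
  · rw [pairIdx_apply_zero, pairIdx_apply_one,
      show (X 1 : MvPowerSeries (Fin 3) k) ^ j * X 2 ^ l = X 0 ^ 0 * X 1 ^ j * X 2 ^ l by simp,
      coeff_three_monomial]
    simp
  · rw [show (X 1 : MvPowerSeries (Fin 3) k) ^ e 0 * X 2 ^ e 1 = X 0 ^ 0 * X 1 ^ e 0 * X 2 ^ e 1 by
      simp, coeff_three_monomial, if_neg, mul_zero]
    exact fun h => he ((eq_pairIdx_iff _ _ _).2 ⟨h.2.1.symm, h.2.2.symm⟩)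

theorem coeff_subst_XY (f : MvPowerSeries (Fin 2) k) (i j l : ℕ) :
    coeff (tripleIdx i j l) (subst ![(X 0 : MvPowerSeries (Fin 3) k), X 1] f) =
      if l = 0 then coeff (pairIdx i j) f else 0 := by
  rw [coeff_subst_pair (X_mem_below _) (X_mem_below _),
    finsum_eq_single _ (pairIdx i j) (fun e he => ?_)]
  · rw [pairIdx_apply_zero, pairIdx_apply_one,
      show (X 0 : MvPowerSeries (Fin 3) k) ^ i * X 1 ^ j = X 0 ^ i * X 1 ^ j * X 2 ^ 0 by simp,
      coeff_three_monomial]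
    simp
  · rw [show (X 0 : MvPowerSeries (Fin 3) k) ^ e 0 * X 1 ^ e 1 = X 0 ^ e 0 * X 1 ^ e 1 * X 2 ^ 0 by
      simp, coeff_three_monomial, if_neg, mul_zero]
    exact fun h => he ((eq_pairIdx_iff _ _ _).2 ⟨h.1.symm, h.2.1.symm⟩)

theorem coeff_X_mul_add_pow_right (a b i j l : ℕ) :
    coeff (tripleIdx i j l) ((X 0 : MvPowerSeries (Fin 3) k) ^ a * (X 1 + X 2) ^ b) =
      if a = i ∧ b = j + l then ((j + l).choose j : k) else 0 := by
  classical
  have hterm : ∀ m, coeff (tripleIdx i j l) ((X 0 : MvPowerSeries (Fin 3) k) ^ a *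
      (X 1 ^ m * X 2 ^ (b - m) * (b.choose m : MvPowerSeries (Fin 3) k))) =
      if i = a ∧ j = m ∧ l = b - m then (b.choose m : k) else 0 := fun m => by
    rw [← mul_assoc, ← mul_assoc, mul_comm _ (b.choose m : MvPowerSeries (Fin 3) k),
      ← map_natCast (C (σ := Fin 3) (R := k)), coeff_C_mul, coeff_three_monomial]
    split_ifs <;> simp
  rw [add_pow, Finset.mul_sum, map_sum, Finset.sum_congr rfl fun m _ => hterm m]
  by_cases h : a = i ∧ b = j + l
  · rw [if_pos h, Finset.sum_eq_single j]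
    · rw [if_pos ⟨h.1.symm, rfl, by omega⟩, h.2]
    · intro m _ hm
      rw [if_neg (fun hh => hm hh.2.1.symm)]
    · intro hmem
      simp only [Finset.mem_range] at hmem
      omega
  · rw [if_neg h]
    refine Finset.sum_eq_zero fun m hm => if_neg fun hh => h ?_
    simp only [Finset.mem_range] at hm
    omega

theorem coeff_add_pow_mul_X (a b i j l : ℕ) :
    coeff (tripleIdx i j l) (((X 0 : MvPowerSeries (Fin 3) k) + X 1) ^ a * X 2 ^ b) =
      if a = i + j ∧ b = l then ((i + j).choose i : k) else 0 := by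
  classical
  have hterm : ∀ m, coeff (tripleIdx i j l) ((X 0 : MvPowerSeries (Fin 3) k) ^ m * X 1 ^ (a - m) *
      (a.choose m : MvPowerSeries (Fin 3) k) * X 2 ^ b) =
      if i = m ∧ j = a - m ∧ l = b then (a.choose m : k) else 0 := fun m => by
    rw [mul_comm _ (a.choose m : MvPowerSeries (Fin 3) k), mul_assoc,
      ← map_natCast (C (σ := Fin 3) (R := k)), coeff_C_mul, coeff_three_monomial]
    split_ifs <;> simp
  rw [add_pow, Finset.sum_mul, map_sum, Finset.sum_congr rfl fun m _ => hterm m]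
  by_cases h : a = i + j ∧ b = l
  · rw [if_pos h, Finset.sum_eq_single i]
    · rw [if_pos ⟨rfl, by omega, h.2.symm⟩, h.1]
    · intro m _ hm
      rw [if_neg (fun hh => hm hh.1.symm)]
    · intro hmem
      simp only [Finset.mem_range] at hmem
      omega
  · rw [if_neg h]
    refine Finset.sum_eq_zero fun m hm => if_neg fun hh => h ?_
    simp only [Finset.mem_range] at hm
    omega

theorem coeff_subst_X_add (f : MvPowerSeries (Fin 2) k) (i j l : ℕ) :
    coeff (tripleIdx i j l) (subst ![(X 0 : MvPowerSeries (Fin 3) k), X 1 + X 2] f) =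
      ((j + l).choose j : k) * coeff (pairIdx i (j + l)) f := by
  rw [coeff_subst_pair (X_mem_below _) (X3_add_mem_below _ _),
    finsum_eq_single _ (pairIdx i (j + l)) (fun e he => ?_)]
  · rw [pairIdx_apply_zero, pairIdx_apply_one, coeff_X_mul_add_pow_right, if_pos ⟨rfl, rfl⟩,
      mul_comm]
  · rw [coeff_X_mul_add_pow_right, if_neg, mul_zero]
    exact fun h => he ((eq_pairIdx_iff _ _ _).2 h)

theorem coeff_subst_add_X (f : MvPowerSeries (Fin 2) k) (i j l : ℕ) :
    coeff (tripleIdx i j l) (subst ![(X 0 : MvPowerSeries (Fin 3) k) + X 1, X 2] f) =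
      ((i + j).choose i : k) * coeff (pairIdx (i + j) l) f := by
  rw [coeff_subst_pair (X3_add_mem_below _ _) (X_mem_below _),
    finsum_eq_single _ (pairIdx (i + j) l) (fun e he => ?_)]
  · rw [pairIdx_apply_zero, pairIdx_apply_one, coeff_add_pow_mul_X, if_pos ⟨rfl, rfl⟩, mul_comm]
  · rw [coeff_add_pow_mul_X, if_neg, mul_zero]
    exact fun h => he ((eq_pairIdx_iff _ _ _).2 h)

theorem coeff_swap (f : MvPowerSeries (Fin 2) k) (i j : ℕ) :
    coeff (pairIdx i j) (subst ![(X 1 : MvPowerSeries (Fin 2) k), X 0] f) =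
      coeff (pairIdx j i) f := by
  have hm : ∀ a b, coeff (pairIdx i j) ((X 1 : MvPowerSeries (Fin 2) k) ^ a * X 0 ^ b) =
      if i = b ∧ j = a then 1 else 0 := fun a b => by
    rw [mul_comm, coeff_two_monomial, pairIdx_apply_zero, pairIdx_apply_one]
  rw [coeff_subst_pair (X_mem_below _) (X_mem_below _),
    finsum_eq_single _ (pairIdx j i) (fun e he => ?_)]
  · rw [pairIdx_apply_zero, pairIdx_apply_one, hm, if_pos ⟨rfl, rfl⟩, mul_one]
  · rw [hm, if_neg, mul_zero]
    exact fun h => he ((eq_pairIdx_iff _ _ _).2 ⟨h.2.symm, h.1.symm⟩)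

/-- The cocycle expression. -/
def cocycleDefect (F : FormalGroup k) (C : MvPowerSeries (Fin 2) k) : MvPowerSeries (Fin 3) k :=
  subst ![(X 1 : MvPowerSeries (Fin 3) k), X 2] C +
      subst ![(X 0 : MvPowerSeries (Fin 3) k), subst ![X 1, X 2] F.toPowerSeries] C -
    (subst ![subst ![(X 0 : MvPowerSeries (Fin 3) k), X 1] F.toPowerSeries, X 2] C +
      subst ![(X 0 : MvPowerSeries (Fin 3) k), X 1] C)

theorem IsCocycle.defect {F : FormalGroup k} {C : MvPowerSeries (Fin 2) k} (h : IsCocycle F C) :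
    cocycleDefect F C = 0 := sub_eq_zero.2 h.cocycle

theorem IsCocycle.mem_below {F : FormalGroup k} {C : MvPowerSeries (Fin 2) k}
    (h : IsCocycle F C) : C ∈ below 2 := h.order_two

theorem subst_fg_sub_add_mem_below (F : FormalGroup k) (s t : Fin 3) :
    subst ![(X s : MvPowerSeries (Fin 3) k), X t] F.toPowerSeries - (X s + X t) ∈ below 2 := by
  have hs : ∀ i, (![(X s : MvPowerSeries (Fin 3) k), X t] : Fin 2 → _) i ∈ below 1 := fun i => by
    fin_cases i <;> exact X_mem_below _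
  have h := subst_mem_below_one hs (fg_sub_linear_mem_below F)
  rw [subst_sub (hasSubst_of_below hs), subst_add (hasSubst_of_below hs),
    subst_X (hasSubst_of_below hs), subst_X (hasSubst_of_below hs)] at h
  simpa using h

/-- The leading form of a cocycle satisfies the additive relations. -/
theorem lead_relations (F : FormalGroup k) {D : ℕ} (hD : 2 ≤ D) {C : MvPowerSeries (Fin 2) k}
    (hC : C ∈ below D)
    (hsym : subst ![(X 1 : MvPowerSeries (Fin 2) k), X 0] C - C ∈ below (D + 1))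
    (hcoc : cocycleDefect F C ∈ below (D + 1)) :
    (∀ i ≤ D, coeff (pairIdx i (D - i)) C = coeff (pairIdx (D - i) (D - (D - i))) C) ∧
    coeff (pairIdx 0 D) C = 0 ∧
    ∀ i j l, 1 ≤ i → 1 ≤ l → i + j + l = D →
      ((j + l).choose j : k) * coeff (pairIdx i (D - i)) C =
        ((i + j).choose i : k) * coeff (pairIdx (i + j) (D - (i + j))) C := by
  have hR : subst ![(X 0 : MvPowerSeries (Fin 3) k), subst ![X 1, X 2] F.toPowerSeries] C -
      subst ![(X 0 : MvPowerSeries (Fin 3) k), X 1 + X 2] C ∈ below (D + 1) := by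
    refine below_antitone (by omega) (subst_sub_subst_mem_below (e := 2) ?_ ?_ ?_ hC) <;>
      intro s <;> fin_cases s
    · exact X_mem_below _
    · exact subst_pair_mem_below (X_mem_below _) (X_mem_below _) F
    · exact X_mem_below _
    · exact X3_add_mem_below _ _
    · simp
    · exact subst_fg_sub_add_mem_below F 1 2
  have hL : subst ![subst ![(X 0 : MvPowerSeries (Fin 3) k), X 1] F.toPowerSeries, X 2] C -
      subst ![(X 0 : MvPowerSeries (Fin 3) k) + X 1, X 2] C ∈ below (D + 1) := by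
    refine below_antitone (by omega) (subst_sub_subst_mem_below (e := 2) ?_ ?_ ?_ hC) <;>
      intro s <;> fin_cases s
    · exact subst_pair_mem_below (X_mem_below _) (X_mem_below _) F
    · exact X_mem_below _
    · exact X3_add_mem_below _ _
    · exact X_mem_below _
    · exact subst_fg_sub_add_mem_below F 0 1
    · simp
  have heq : ∀ i j l, i + j + l = D →
      (if i = 0 then coeff (pairIdx j l) C else 0) +
          ((j + l).choose j : k) * coeff (pairIdx i (j + l)) C =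
        ((i + j).choose i : k) * coeff (pairIdx (i + j) l) C +
          (if l = 0 then coeff (pairIdx i j) C else 0) := by
    intro i j l h
    have hd : (tripleIdx i j l).degree < D + 1 := by rw [degree_tripleIdx]; omega
    have h0 := hcoc _ hd
    rw [cocycleDefect, map_sub, sub_eq_zero, map_add, map_add, coeff_eq_of_below hR hd,
      coeff_eq_of_below hL hd, coeff_subst_YZ, coeff_subst_X_add, coeff_subst_add_X,
      coeff_subst_XY] at h0
    exact h0
  refine ⟨fun i hi => ?_, ?_, fun i j l hi hl h => ?_⟩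
  · have h := hsym (pairIdx i (D - i)) (by rw [degree_pairIdx]; omega)
    rw [map_sub, sub_eq_zero, coeff_swap] at h
    rw [show D - (D - i) = i by omega, h]
  · have h := heq 0 0 D (by omega)
    simp [show D ≠ 0 by omega] at h
    exact h
  · have h2 := heq i j l h
    rw [if_neg (by omega), if_neg (by omega), zero_add, add_zero] at h2
    rwa [show D - i = j + l by omega, show D - (i + j) = l by omega]

/-- `(X + Y) ^ D - X ^ D - Y ^ D`. -/
def binForm (D : ℕ) : MvPowerSeries (Fin 2) k :=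
  (X 0 + X 1) ^ D - X 0 ^ D - X 1 ^ D

theorem coeff_binForm (D : ℕ) (d : Fin 2 →₀ ℕ) :
    coeff d (binForm D : MvPowerSeries (Fin 2) k) =
      if d 0 + d 1 = D ∧ d 0 ≠ 0 ∧ d 1 ≠ 0 then (D.choose (d 0) : k)
      else if D = 0 ∧ d 0 = 0 ∧ d 1 = 0 then -1 else 0 := by
  rw [binForm, map_sub, map_sub, coeff_add_pow, coeff_X_zero_pow, coeff_X_one_pow]
  by_cases h : d 0 + d 1 = D
  · by_cases h0 : d 0 = 0
    · rw [if_neg (by omega : ¬(d 0 + d 1 = D ∧ d 0 ≠ 0 ∧ d 1 ≠ 0)), if_pos h,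
        if_pos (by omega : d 0 = 0 ∧ d 1 = D), h0, Nat.choose_zero_right, Nat.cast_one]
      split_ifs <;> first | (exfalso; omega) | ring
    · by_cases h1 : d 1 = 0
      · rw [if_neg (by omega : ¬(d 0 + d 1 = D ∧ d 0 ≠ 0 ∧ d 1 ≠ 0)), if_pos h,
          if_pos (by omega : d 0 = D ∧ d 1 = 0), if_neg (by omega : ¬(d 0 = 0 ∧ d 1 = D)),
          show d 0 = D by omega, Nat.choose_self, Nat.cast_one, if_neg (by omega)]
        ring
      · rw [if_pos (⟨h, h0, h1⟩ : d 0 + d 1 = D ∧ d 0 ≠ 0 ∧ d 1 ≠ 0), if_pos h,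
          if_neg (by omega : ¬(d 0 = D ∧ d 1 = 0)), if_neg (by omega : ¬(d 0 = 0 ∧ d 1 = D))]
        ring
  · rw [if_neg h, if_neg (by omega : ¬(d 0 = D ∧ d 1 = 0)),
      if_neg (by omega : ¬(d 0 = 0 ∧ d 1 = D)),
      if_neg (by omega : ¬(d 0 + d 1 = D ∧ d 0 ≠ 0 ∧ d 1 ≠ 0)),
      if_neg (by omega : ¬(D = 0 ∧ d 0 = 0 ∧ d 1 = 0))]
    ring

theorem binForm_mem_below {D : ℕ} (hD : 1 ≤ D) :
    (binForm D : MvPowerSeries (Fin 2) k) ∈ below D := fun d hd => by
  rw [degree_fin_two] at hd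
  rw [coeff_binForm, if_neg (by omega), if_neg (by omega)]

variable (p : ℕ)

theorem Cpow_mem_below (j : ℕ) : (Cpow p j : MvPowerSeries (Fin 2) k) ∈ below (p ^ j) := fun d hd => by
  rw [degree_fin_two] at hd
  rw [coeff_Cpow, if_neg (by omega)]

variable [hp : Fact p.Prime] {K : Type*} [Field K] [CharP K p]

/-- Classification of leading forms. -/
theorem exists_lead (F : FormalGroup K) {D : ℕ} (hD : 2 ≤ D) {C : MvPowerSeries (Fin 2) K}
    (hC : C ∈ below D)
    (hsym : subst ![(X 1 : MvPowerSeries (Fin 2) K), X 0] C - C ∈ below (D + 1))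
    (hcoc : cocycleDefect F C ∈ below (D + 1)) :
    (∃ j, 1 ≤ j ∧ D = p ^ j ∧
        ∃ c : K, C - MvPowerSeries.C c * Cpow p j ∈ below (D + 1)) ∨
      ((∀ j, D ≠ p ^ j) ∧
        ∃ c : K, C - MvPowerSeries.C c * binForm D ∈ below (D + 1)) := by
  obtain ⟨hs, h0, hrel⟩ := lead_relations F hD hC hsym hcoc
  set a : ℕ → K := fun i => coeff (pairIdx i (D - i)) C with ha
  have haD : a D = 0 := by
    have h := hs D le_rfl
    rw [Nat.sub_self, Nat.sub_zero, h0] at h
    simpa [ha] using h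
  have hvanish : ∀ {L : MvPowerSeries (Fin 2) K}, L ∈ below D →
      (∀ d : Fin 2 →₀ ℕ, d 0 + d 1 = D → coeff d C = coeff d L) → C - L ∈ below (D + 1) := by
    intro L hL h d hd
    rw [map_sub, sub_eq_zero]
    rw [degree_fin_two] at hd
    rcases Nat.lt_or_ge (d 0 + d 1) D with h' | h'
    · rw [hC d (by rwa [degree_fin_two]), hL d (by rwa [degree_fin_two])]
    · exact h d (by omega)
  have hCd : ∀ d : Fin 2 →₀ ℕ, d 0 + d 1 = D → coeff d C = a (d 0) := fun d hd => by
    conv_lhs => rw [eq_pairIdx d]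
    simp only [ha]
    rw [show D - d 0 = d 1 by omega]
  rcases lazard_coeff p D hD a hs (by simpa [ha] using h0) hrel with
    ⟨j, hj, hDj, c, hc⟩ | ⟨hpow, c, hc⟩
  · refine Or.inl ⟨j, hj, hDj, c, hvanish (Ideal.mul_mem_left _ _ (hDj ▸ Cpow_mem_below p j))
      fun d hd => ?_⟩
    rw [hCd d hd, coeff_C_mul, coeff_Cpow]
    split_ifs with hh
    · rw [hc (d 0) (by omega) (by omega)]
      rfl
    · rcases Nat.eq_zero_or_pos (d 0) with hz | hz
      · rw [hz, mul_zero]; simpa [ha] using h0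
      · rw [show d 0 = D by omega, haD, mul_zero]
  · refine Or.inr ⟨hpow, c, hvanish (Ideal.mul_mem_left _ _ (binForm_mem_below (by omega)))
      fun d hd => ?_⟩
    rw [hCd d hd, coeff_C_mul, coeff_binForm]
    split_ifs with hh hh2
    · rw [hc (d 0) (by omega) (by omega)]
    · omega
    · rcases Nat.eq_zero_or_pos (d 0) with hz | hz
      · rw [hz, mul_zero]; simpa [ha] using h0
      · rw [show d 0 = D by omega, haD, mul_zero]

theorem Cpow_eq_cpowVal (j : ℕ) (d : Fin 2 →₀ ℕ) :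
    coeff d (Cpow p j : MvPowerSeries (Fin 2) K) =
      if d 0 + d 1 = p ^ j ∧ d 0 ≠ 0 ∧ d 1 ≠ 0 then cpowVal p j (d 0) else 0 := rfl

/-- In characteristic `p`, `Cpow j (X^p, Y^p) = Cpow (j + 1)`. -/
theorem expand_Cpow {j : ℕ} (hj : 1 ≤ j) :
    expand p hp.1.ne_zero (Cpow p j : MvPowerSeries (Fin 2) K) = Cpow p (j + 1) := by
  classical
  have hp0 := hp.1.pos
  ext d : 1
  rw [Cpow_eq_cpowVal p (j + 1)]
  by_cases hd : p ∣ d 0 ∧ p ∣ d 1
  · obtain ⟨⟨a, ha⟩, b, hb⟩ := hd
    have e : d = p • pairIdx a b := by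
      rw [eq_pairIdx d, ha, hb]
      simp [pairIdx, smul_add, Finsupp.smul_single']
    conv_lhs => rw [e, coeff_expand_smul, Cpow_eq_cpowVal, pairIdx_apply_zero, pairIdx_apply_one]
    rw [ha, hb, pow_succ']
    by_cases h : a + b = p ^ j ∧ a ≠ 0 ∧ b ≠ 0
    · rw [if_pos h, if_pos ⟨by rw [← mul_add, h.1], Nat.mul_ne_zero hp.1.ne_zero h.2.1,
        Nat.mul_ne_zero hp.1.ne_zero h.2.2⟩, cpowVal_mul p (by omega) (by omega)]
    · rw [if_neg h, if_neg]
      rintro ⟨h1, h2, h3⟩
      rw [← mul_add] at h1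
      exact h ⟨Nat.eq_of_mul_eq_mul_left hp0 h1, right_ne_zero_of_mul h2, right_ne_zero_of_mul h3⟩
  · obtain ⟨i, hi⟩ : ∃ i : Fin 2, ¬p ∣ d i := by
      by_contra hc
      push Not at hc
      exact hd ⟨hc 0, hc 1⟩
    rw [coeff_expand_of_not_dvd _ _ _ hi]
    split_ifs with h
    · refine (cpowVal_of_not_dvd p (by omega) (by omega) fun hdiv => hd ⟨hdiv, ?_⟩).symm
      exact (Nat.dvd_add_right hdiv).1 (h.1 ▸ dvd_pow_self p (Nat.succ_ne_zero j))
    · rfl

theorem Cpow_pow {j : ℕ} (hj : 1 ≤ j) (m : ℕ) :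
    (Cpow p j : MvPowerSeries (Fin 2) K) ^ p ^ m = Cpow p (j + m) := by
  induction m with
  | zero => simp
  | succ m ih =>
    have : ExpChar K p := ExpChar.prime hp.1
    rw [pow_succ, pow_mul, ih, ← map_frobenius_expand p hp.1.ne_zero,
      expand_Cpow p (by omega), map_Cpow]
    rfl

theorem exists_coeff_Cpow_ne_zero {j : ℕ} (hj : 1 ≤ j) :
    ∃ d : Fin 2 →₀ ℕ, d.degree = p ^ j ∧ coeff d (Cpow p j : MvPowerSeries (Fin 2) K) ≠ 0 := by
  obtain ⟨i, rfl⟩ : ∃ i, j = i + 1 := ⟨j - 1, by omega⟩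
  have h1 : p ^ i < p ^ (i + 1) := Nat.pow_lt_pow_right hp.1.one_lt (Nat.lt_succ_self i)
  have h2 : 1 ≤ p ^ i := Nat.one_le_pow _ _ hp.1.pos
  refine ⟨pairIdx (p ^ i) (p ^ (i + 1) - p ^ i), by rw [degree_pairIdx]; omega, ?_⟩
  rw [Cpow_eq_cpowVal, pairIdx_apply_zero, pairIdx_apply_one, if_pos (by omega),
    cpowVal_pow_pred]
  exact one_ne_zero

theorem exists_coeff_binForm_ne_zero {D : ℕ} (hD : 2 ≤ D) (hpow : ∀ j, D ≠ p ^ j) :
    ∃ d : Fin 2 →₀ ℕ, d.degree = D ∧ coeff d (binForm D : MvPowerSeries (Fin 2) K) ≠ 0 := by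
  obtain ⟨i, h1, h2, h3⟩ := exists_choose_ne_zero p (k := K) hD hpow
  refine ⟨pairIdx i (D - i), by rw [degree_pairIdx]; omega, ?_⟩
  rwa [coeff_binForm, pairIdx_apply_zero, pairIdx_apply_one, if_pos (by omega)]

end Vale.P217

end
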