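import Vale.Agent.P217.CocycleBasic

/-!
The symmetric second cohomology of a formal group law of height `n`.
-/

noncomputable section

namespace Vale.P217

open MvPowerSeries Finsupp

section General

variable {k : Type*} [CommRing k] (F : FormalGroup k)

/-- The coboundary of `X ^ M`. -/
def cobPow (M : ℕ) : MvPowerSeries (Fin 2) k :=
  F.toPowerSeries ^ M - X 0 ^ M - X 1 ^ M

theorem cob_add (a b : PowerSeries k) : cob F (a + b) = cob F a + cob F b := by
  rw [cob, cob, cob, PowerSeries.subst_add (hasSubst_single_of_below (fg_mem_below_one F)),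
    PowerSeries.subst_add (hasSubst_single_of_below (X_mem_below _)),
    PowerSeries.subst_add (hasSubst_single_of_below (X_mem_below _))]
  ring

theorem cob_sub (a b : PowerSeries k) : cob F (a - b) = cob F a - cob F b := by
  have h := cob_add F (a - b) b
  rw [sub_add_cancel] at h
  rw [h, add_sub_cancel_right]

theorem cob_C_mul (r : k) (h : PowerSeries k) : cob F (PowerSeries.C r * h) = C r * cob F h := by
  rw [cob, cob, PowerSeries.subst_mul (hasSubst_single_of_below (fg_mem_below_one F)),
    PowerSeries.subst_mul (hasSubst_single_of_below (X_mem_below _)),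
    PowerSeries.subst_mul (hasSubst_single_of_below (X_mem_below _)), PowerSeries.subst_C,
    PowerSeries.subst_C, PowerSeries.subst_C]
  ring

theorem cob_X_pow (M : ℕ) : cob F (PowerSeries.X ^ M) = cobPow F M := by
  have e : ∀ {a : MvPowerSeries (Fin 2) k}, a ∈ below 1 →
      PowerSeries.subst a (PowerSeries.X ^ M : PowerSeries k) = a ^ M := fun ha => by
    rw [PowerSeries.subst_pow (hasSubst_single_of_below ha),
      PowerSeries.subst_X (hasSubst_single_of_below ha)]
  rw [cob, cobPow, e (fg_mem_below_one F), e (X_mem_below _), e (X_mem_below _)]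

theorem cob_zero : cob F 0 = 0 := by
  have h := cob_sub F 0 0
  rwa [sub_self, sub_self] at h

theorem coeff_cob (h : PowerSeries k) (d : Fin 2 →₀ ℕ) {N : ℕ} (hN : d.degree ≤ N) :
    coeff d (cob F h) =
      ∑ M ∈ Finset.range (N + 1), PowerSeries.coeff M h * coeff d (cobPow F M) := by
  rw [cob, map_sub, map_sub, coeff_subst_range (fg_mem_below_one F) h d hN,
    coeff_subst_range (X_mem_below _) h d hN, coeff_subst_range (X_mem_below _) h d hN,
    ← Finset.sum_sub_distrib, ← Finset.sum_sub_distrib]
  refine Finset.sum_congr rfl fun M _ => ?_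
  rw [cobPow, map_sub, map_sub]
  ring

theorem cobPow_zero : cobPow F 0 = -1 := by simp [cobPow]

variable {F}

theorem IsCocycle.sub {C B : MvPowerSeries (Fin 2) k} (hC : IsCocycle F C) (hB : IsCocycle F B) :
    IsCocycle F (C - B) := by
  have hF := subst_pair_mem_below (τ := Fin 3) (X_mem_below (R := k) 1) (X_mem_below 2) F
  have hG := subst_pair_mem_below (τ := Fin 3) (X_mem_below (R := k) 0) (X_mem_below 1) F
  refine ⟨fun d hd => by rw [map_sub, hC.order_two d hd, hB.order_two d hd, sub_self], ?_, ?_⟩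
  · rw [subst_sub (hasSubst_pair_below (X_mem_below _) (X_mem_below _)), hC.symm, hB.symm]
  · rw [subst_sub (hasSubst_pair_below (X_mem_below _) (X_mem_below _)),
      subst_sub (hasSubst_pair_below (X_mem_below _) hF),
      subst_sub (hasSubst_pair_below hG (X_mem_below _)),
      subst_sub (hasSubst_pair_below (X_mem_below _) (X_mem_below _))]
    linear_combination hC.cocycle - hB.cocycle

theorem IsCocycle.zero : IsCocycle F 0 := by
  have hz : ∀ {τ : Type} {u v : MvPowerSeries τ k}, u ∈ below 1 → v ∈ below 1 →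
      subst ![u, v] (0 : MvPowerSeries (Fin 2) k) = 0 := fun hu hv => by
    rw [← coe_substAlgHom (hasSubst_pair_below hu hv), map_zero]
  have hF := subst_pair_mem_below (τ := Fin 3) (X_mem_below (R := k) 1) (X_mem_below 2) F
  have hG := subst_pair_mem_below (τ := Fin 3) (X_mem_below (R := k) 0) (X_mem_below 1) F
  refine ⟨fun d _ => map_zero _, hz (X_mem_below _) (X_mem_below _), ?_⟩
  rw [hz (X_mem_below _) (X_mem_below _), hz (X_mem_below _) hF, hz hG (X_mem_below _),
    hz (X_mem_below _) (X_mem_below _)]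

theorem IsCocycle.add {C B : MvPowerSeries (Fin 2) k} (hC : IsCocycle F C) (hB : IsCocycle F B) :
    IsCocycle F (C + B) := by
  simpa using hC.sub (IsCocycle.zero.sub hB)

theorem IsCocycle.C_mul {B : MvPowerSeries (Fin 2) k} (hB : IsCocycle F B) (r : k) :
    IsCocycle F (MvPowerSeries.C r * B) := by
  have hF := subst_pair_mem_below (τ := Fin 3) (X_mem_below (R := k) 1) (X_mem_below 2) F
  have hG := subst_pair_mem_below (τ := Fin 3) (X_mem_below (R := k) 0) (X_mem_below 1) F
  refine ⟨fun d hd => by rw [coeff_C_mul, hB.order_two d hd, mul_zero], ?_, ?_⟩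
  · rw [subst_mul (hasSubst_pair_below (X_mem_below _) (X_mem_below _)), subst_C, hB.symm]
  · rw [subst_mul (hasSubst_pair_below (X_mem_below _) (X_mem_below _)),
      subst_mul (hasSubst_pair_below (X_mem_below _) hF),
      subst_mul (hasSubst_pair_below hG (X_mem_below _)),
      subst_mul (hasSubst_pair_below (X_mem_below _) (X_mem_below _))]
    simp only [subst_C]
    linear_combination (MvPowerSeries.C (σ := Fin 3) r) * hB.cocycle

theorem IsCocycle.sum {ι : Type*} (s : Finset ι) (B : ι → MvPowerSeries (Fin 2) k)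
    (hB : ∀ i ∈ s, IsCocycle F (B i)) : IsCocycle F (∑ i ∈ s, B i) := by
  classical
  induction s using Finset.induction_on with
  | empty => simpa using IsCocycle.zero
  | insert i s his ih =>
    rw [Finset.sum_insert his]
    exact (hB i (Finset.mem_insert_self i s)).add
      (ih fun j hj => hB j (Finset.mem_insert_of_mem hj))

theorem subst_cob {τ : Type*} {u v : MvPowerSeries τ k} (hu : u ∈ below 1) (hv : v ∈ below 1)
    (h : PowerSeries k) : subst ![u, v] (cob F h) =
      PowerSeries.subst (subst ![u, v] F.toPowerSeries) h - PowerSeries.subst u h -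
        PowerSeries.subst v h := by
  have hs : ∀ i, (![u, v] : Fin 2 → MvPowerSeries τ k) i ∈ below 1 := fun i => by
    fin_cases i <;> assumption
  rw [cob, subst_sub (hasSubst_of_below hs), subst_sub (hasSubst_of_below hs),
    subst_subst_single (fg_mem_below_one F) hs, subst_subst_single (X_mem_below _) hs,
    subst_subst_single (X_mem_below _) hs, subst_X (hasSubst_of_below hs),
    subst_X (hasSubst_of_below hs)]
  rfl

theorem isCocycle_cob [F.IsComm] {h : PowerSeries k} (h0 : PowerSeries.constantCoeff h = 0) :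
    IsCocycle F (cob F h) := by
  have hX2 : ∀ i : Fin 2, (X i : MvPowerSeries (Fin 2) k) ∈ below 1 := X_mem_below
  have hX3 : ∀ i : Fin 3, (X i : MvPowerSeries (Fin 3) k) ∈ below 1 := X_mem_below
  have hF := subst_pair_mem_below (hX3 1) (hX3 2) F
  have hG := subst_pair_mem_below (hX3 0) (hX3 1) F
  refine ⟨?_, ?_, ?_⟩
  · intro d hd
    have hl : ∀ a : MvPowerSeries (Fin 2) k, a ∈ below 1 →
        PowerSeries.subst a h - C (PowerSeries.coeff 1 h) * a ∈ below 2 := fun a ha => by
      simpa [PowerSeries.subst_zero_of_constantCoeff_zero h0] using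
        subst_single_sub_linear ha (Ideal.zero_mem _) (e := 1) (by simpa using ha) h0
    have hall : cob F h - C (PowerSeries.coeff 1 h) * (F.toPowerSeries - X 0 - X 1) ∈ below 2 := by
      have := Ideal.sub_mem _ (Ideal.sub_mem _ (hl _ (fg_mem_below_one F)) (hl _ (hX2 0)))
        (hl _ (hX2 1))
      convert this using 1
      rw [cob]
      ring
    have h2 : C (PowerSeries.coeff 1 h) * (F.toPowerSeries - X 0 - X 1) ∈ below 2 :=
      Ideal.mul_mem_left _ _ (by rw [sub_sub]; exact fg_sub_linear_mem_below F)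
    simpa using Ideal.add_mem _ hall h2 d hd
  · rw [subst_cob (hX2 1) (hX2 0), ← FormalGroup.IsComm.comm, cob]
    ring
  · rw [subst_cob (hX3 1) (hX3 2), subst_cob (hX3 0) hF, subst_cob hG (hX3 2),
      subst_cob (hX3 0) (hX3 1), F.assoc]
    ring

end General

variable (p : ℕ) [hp : Fact p.Prime] {k : Type*} [Field k] [CharP k p] {n : ℕ}
  {F : FormalGroup k}

omit hp [CharP k p] in
theorem cobPow_sub_binForm_mem (M : ℕ) : cobPow F M - binForm M ∈ below (M + 1) := by
  have h := pow_sub_pow_mem_below (fg_mem_below_one F) X_add_X_mem_below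
    (fg_sub_linear_mem_below F) M
  rw [show 2 + M - 1 = M + 1 by omega] at h
  convert h using 1
  rw [cobPow, binForm]
  ring

theorem cobPow_pow_sub_mem (hn : 1 ≤ n) {a : k}
    (hF : F.toPowerSeries - (X 0 + X 1 + C a * Cpow p n) ∈ below (p ^ n + 1)) (m : ℕ) :
    cobPow F (p ^ m) - C (a ^ p ^ m) * Cpow p (n + m) ∈ below (p ^ (n + m) + 1) := by
  have : ExpChar k p := ExpChar.prime hp.1
  have : ExpChar (MvPowerSeries (Fin 2) k) p :=
    expChar_of_injective_ringHom (f := C) (fun x y h => by
      simpa using congrArg constantCoeff h) p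
  have h := pow_mem_below hF (p ^ m)
  refine below_antitone ?_ (D := p ^ (n + m) + 1) (E := (p ^ n + 1) * p ^ m) ?_
  · have := Nat.one_le_pow m p hp.1.pos
    rw [pow_add, Nat.add_one_mul]
    omega
  convert h using 1
  rw [sub_pow_expChar_pow, add_pow_expChar_pow, add_pow_expChar_pow, mul_pow, ← map_pow,
    Cpow_pow p hn, cobPow]
  ring

/-- The degree of the leading form of the coboundary of `X ^ M`. -/
def cobDeg (n M : ℕ) : ℕ :=
  @ite _ (∃ m, M = p ^ m) (Classical.propDecidable _) (p ^ n * M) M

omit [CharP k p] in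
theorem le_cobDeg (n M : ℕ) : M ≤ cobDeg p n M := by
  unfold cobDeg
  split_ifs
  · exact Nat.le_mul_of_pos_left M (pow_pos hp.1.pos n)
  · exact le_rfl

omit [CharP k p] in
theorem cobDeg_le (n M : ℕ) : cobDeg p n M ≤ p ^ n * M := by
  unfold cobDeg
  split_ifs
  · exact le_rfl
  · exact Nat.le_mul_of_pos_left M (pow_pos hp.1.pos n)

theorem cobPow_mem_below (hn : 1 ≤ n) {a : k}
    (hF : F.toPowerSeries - (X 0 + X 1 + C a * Cpow p n) ∈ below (p ^ n + 1)) {M : ℕ}
    (hM : 1 ≤ M) : cobPow F M ∈ below (cobDeg p n M) := by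
  unfold cobDeg
  split_ifs with h
  · obtain ⟨m, rfl⟩ := h
    have h1 := cobPow_pow_sub_mem p hn hF m
    rw [← pow_add]
    simpa using Ideal.add_mem _ (below_antitone (D := p ^ (n + m)) (by omega) h1)
      (Ideal.mul_mem_left _ (C (a ^ p ^ m)) (Cpow_mem_below p (n + m)))
  · simpa using Ideal.add_mem _ (below_antitone (D := M) (by omega) (cobPow_sub_binForm_mem M))
      (binForm_mem_below hM)

theorem cob_mem_below (hn : 1 ≤ n) {a : k}
    (hF : F.toPowerSeries - (X 0 + X 1 + C a * Cpow p n) ∈ below (p ^ n + 1)) {N : ℕ}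
    {g : PowerSeries k} (g0 : PowerSeries.constantCoeff g = 0)
    (hg : ∀ M, cobDeg p n M < N → PowerSeries.coeff M g = 0) : cob F g ∈ below N := by
  intro d hd
  rw [coeff_cob F g d le_rfl]
  refine Finset.sum_eq_zero fun M _ => ?_
  rcases Nat.eq_zero_or_pos M with rfl | hM
  · rw [PowerSeries.coeff_zero_eq_constantCoeff, g0, zero_mul]
  rcases lt_or_ge (cobDeg p n M) N with h | h
  · rw [hg M h, zero_mul]
  · rw [cobPow_mem_below p hn hF hM d (lt_of_lt_of_le hd h), mul_zero]

omit [CharP k p] in
theorem cobDeg_eq_iff_of_ne_pow {N : ℕ} (hN : ∀ j, N ≠ p ^ j) (M : ℕ) :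
    cobDeg p n M = N ↔ M = N := by
  unfold cobDeg
  split_ifs with h
  · obtain ⟨m, rfl⟩ := h
    rw [← pow_add]
    exact ⟨fun h => absurd h.symm (hN _), fun h => absurd h.symm (hN _)⟩
  · exact Iff.rfl

omit [CharP k p] in
theorem cobDeg_eq_pow {j : ℕ} {M : ℕ} (h : cobDeg p n M = p ^ j) : n ≤ j ∧ M = p ^ (j - n) := by
  unfold cobDeg at h
  split_ifs at h with h'
  · obtain ⟨m, rfl⟩ := h'
    rw [← pow_add] at h
    have := Nat.pow_right_injective hp.1.two_le h
    exact ⟨by omega, by congr 1; omega⟩
  · exact absurd ⟨j, h⟩ h'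

omit [CharP k p] in
theorem cobDeg_pow (n m : ℕ) : cobDeg p n (p ^ m) = p ^ (n + m) := by
  rw [cobDeg, if_pos ⟨m, rfl⟩, pow_add]

section Decomp

variable (hn : 1 ≤ n) [F.IsComm] {a : k} (ha : a ≠ 0)
  (hF : F.toPowerSeries - (X 0 + X 1 + C a * Cpow p n) ∈ below (p ^ n + 1))
  (B : Fin (n - 1) → MvPowerSeries (Fin 2) k) (hB : ∀ i, IsCocycle F (B i))
  (b : Fin (n - 1) → k) (hb : ∀ i, b i ≠ 0)
  (hlead : ∀ i : Fin (n - 1),
    B i - C (b i) * Cpow p ((i : ℕ) + 1) ∈ below (p ^ ((i : ℕ) + 1) + 1))

/-- A linear combination of the chosen cocycles and a coboundary. -/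
def combo (F : FormalGroup k) (B : Fin (n - 1) → MvPowerSeries (Fin 2) k) (c : Fin (n - 1) → k)
    (h : PowerSeries k) : MvPowerSeries (Fin 2) k :=
  (∑ i, C (c i) * B i) + cob F h

omit hp [CharP k p] [F.IsComm] in
theorem combo_add_single (c : Fin (n - 1) → k) (h : PowerSeries k) (i : Fin (n - 1)) (x : k) :
    combo F B (c + Pi.single i x) h = combo F B c h + C x * B i := by
  classical
  simp only [combo, Pi.add_apply, map_add, add_mul, Finset.sum_add_distrib]
  rw [Finset.sum_eq_single (f := fun j => C ((Pi.single i x : Fin (n - 1) → k) j) * B j) i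
    (fun j _ hj => by simp [Pi.single_eq_of_ne hj]) (fun h => absurd (Finset.mem_univ i) h),
    Pi.single_eq_same]
  ring

include hF hlead in
omit [F.IsComm] in
theorem B_mem_below (i : Fin (n - 1)) : B i ∈ below (p ^ ((i : ℕ) + 1)) := by
  have := hlead i
  simpa using Ideal.add_mem _ (below_antitone (D := p ^ ((i : ℕ) + 1)) (by omega) this)
    (Ideal.mul_mem_left _ (C (b i)) (Cpow_mem_below p ((i : ℕ) + 1)))

include hn ha hF hB hb hlead in
/-- One step of the successive approximation. -/
theorem decomp_step {C' : MvPowerSeries (Fin 2) k} (hC : IsCocycle F C') {N : ℕ} (hN : 2 ≤ N)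
    (c : Fin (n - 1) → k) (h : PowerSeries k) (h0 : PowerSeries.constantCoeff h = 0)
    (hR : C' - combo F B c h ∈ below N) :
    ∃ c' h', PowerSeries.constantCoeff h' = 0 ∧ C' - combo F B c' h' ∈ below (N + 1) ∧
      (p ^ n < N → c' = c) ∧
      ∀ M, cobDeg p n M ≠ N → PowerSeries.coeff M h' = PowerSeries.coeff M h := by
  have hRc : IsCocycle F (C' - combo F B c h) :=
    hC.sub ((IsCocycle.sum _ _ fun i _ => (hB i).C_mul (c i)).add (isCocycle_cob h0))
  -- adding a multiple of `cob (X ^ M)`
  have upd : ∀ M lam μ (L : MvPowerSeries (Fin 2) k), 1 ≤ M → lam ≠ 0 →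
      cobDeg p n M = N → cobPow F M - C lam * L ∈ below (N + 1) →
      C' - combo F B c h - C μ * L ∈ below (N + 1) →
      ∃ c' h', PowerSeries.constantCoeff h' = 0 ∧ C' - combo F B c' h' ∈ below (N + 1) ∧
        (p ^ n < N → c' = c) ∧
        ∀ M, cobDeg p n M ≠ N → PowerSeries.coeff M h' = PowerSeries.coeff M h := by
    intro M lam μ L hM hlam hdeg h1 h2
    refine ⟨c, h + PowerSeries.C (μ / lam) * PowerSeries.X ^ M, ?_, ?_, fun _ => rfl, ?_⟩
    · simp [h0, show M ≠ 0 by omega]
    · have h3 := Ideal.sub_mem _ h2 (Ideal.mul_mem_left _ (C (μ / lam)) h1)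
      convert h3 using 1
      rw [combo, combo, cob_add, cob_C_mul, cob_X_pow]
      have : C (μ / lam) * C lam = C (σ := Fin 2) μ := by rw [← map_mul, div_mul_cancel₀ μ hlam]
      linear_combination L * (-this)
    · intro M' hM'
      rw [map_add, PowerSeries.coeff_C_mul, PowerSeries.coeff_X_pow,
        if_neg (fun e : M' = M => hM' (e ▸ hdeg)), mul_zero, add_zero]
  rcases exists_lead p F hN hR (by rw [hRc.symm, sub_self]; exact Ideal.zero_mem _)
    (by rw [hRc.defect]; exact Ideal.zero_mem _) with ⟨j, hj, hNj, μ, hμ⟩ | ⟨hpow, μ, hμ⟩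
  · rcases lt_or_ge j n with hjn | hjn
    · obtain ⟨j, rfl⟩ : ∃ t, j = t + 1 := ⟨j - 1, by omega⟩
      set i : Fin (n - 1) := ⟨j, by omega⟩ with hi
      refine ⟨c + Pi.single i (μ / b i), h, h0, ?_, fun hlt => ?_, fun _ _ => rfl⟩
      · have h1 := hlead i
        simp only [hi] at h1
        rw [← hi, ← hNj] at h1
        have h3 := Ideal.sub_mem _ hμ (Ideal.mul_mem_left _ (C (μ / b i)) h1)
        convert h3 using 1
        rw [combo_add_single]
        have : C (μ / b i) * C (b i) = C (σ := Fin 2) μ := by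
          rw [← map_mul, div_mul_cancel₀ μ (hb i)]
        linear_combination (Cpow p (j + 1) : MvPowerSeries (Fin 2) k) * (-this)
      · have := Nat.pow_lt_pow_right hp.1.one_lt hjn
        omega
    · obtain ⟨m, rfl⟩ := Nat.exists_eq_add_of_le hjn
      refine upd (p ^ m) (a ^ p ^ m) μ _ (Nat.one_le_pow _ _ hp.1.pos) (pow_ne_zero _ ha)
        (by rw [cobDeg_pow, hNj]) ?_ hμ
      rw [hNj]
      exact cobPow_pow_sub_mem p hn hF m
  · refine upd N 1 μ _ (by omega) one_ne_zero ((cobDeg_eq_iff_of_ne_pow p hpow N).2 rfl) ?_ hμ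
    rw [map_one, one_mul]
    exact cobPow_sub_binForm_mem N

include hn ha hF hB hb hlead in
theorem decomp_exists {C' : MvPowerSeries (Fin 2) k} (hC : IsCocycle F C') :
    ∃ (c : Fin (n - 1) → k) (h : PowerSeries k),
      PowerSeries.constantCoeff h = 0 ∧ C' = combo F B c h := by
  choose c' h' hh0 hmem hc hh using
    fun (N : ℕ) (hN : 2 ≤ N) (x : {x : (Fin (n - 1) → k) × PowerSeries k //
      PowerSeries.constantCoeff x.2 = 0 ∧ C' - combo F B x.1 x.2 ∈ below N}) =>
      decomp_step p hn ha hF B hB b hb hlead hC hN x.1.1 x.1.2 x.2.1 x.2.2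
  let S : (t : ℕ) → {x : (Fin (n - 1) → k) × PowerSeries k //
      PowerSeries.constantCoeff x.2 = 0 ∧ C' - combo F B x.1 x.2 ∈ below (t + 2)} := fun t =>
    Nat.rec ⟨(0, 0), by simp, by simpa [combo, cob_zero] using hC.mem_below⟩
      (fun t x => ⟨(c' (t + 2) (by omega) x, h' (t + 2) (by omega) x),
        hh0 _ _ _, hmem _ _ _⟩) t
  have hSc : ∀ t, p ^ n ≤ t → (S t).1.1 = (S (p ^ n)).1.1 := by
    intro t ht
    induction t, ht using Nat.le_induction with
    | base => rfl
    | succ t ht ih => exact (hc (t + 2) (by omega) (S t) (by omega)).trans ih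
  have hSh : ∀ M t, cobDeg p n M ≤ t →
      PowerSeries.coeff M (S t).1.2 = PowerSeries.coeff M (S (cobDeg p n M)).1.2 := by
    intro M t ht
    induction t, ht using Nat.le_induction with
    | base => rfl
    | succ t ht ih => exact (hh (t + 2) (by omega) (S t) M (by omega)).trans ih
  set hlim : PowerSeries k :=
    PowerSeries.mk fun M => PowerSeries.coeff M (S (cobDeg p n M)).1.2 with hhl
  have hl0 : PowerSeries.constantCoeff hlim = 0 := by
    rw [← PowerSeries.coeff_zero_eq_constantCoeff, hhl, PowerSeries.coeff_mk,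
      PowerSeries.coeff_zero_eq_constantCoeff, (S _).2.1]
  refine ⟨(S (p ^ n)).1.1, hlim, hl0, eq_of_below fun D => ?_⟩
  set t := max D (p ^ n) with ht
  have h1 := (S t).2.2
  rw [hSc t (le_max_right _ _)] at h1
  have h2 : cob F (hlim - (S t).1.2) ∈ below D := by
    refine cob_mem_below p hn hF (by rw [map_sub, hl0, (S t).2.1, sub_self]) fun M hM => ?_
    rw [map_sub, hhl, PowerSeries.coeff_mk, hSh M t (le_trans hM.le (le_max_left _ _)), sub_self]
  have h3 := Ideal.sub_mem _ (below_antitone (D := D) (by omega) h1) h2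
  convert h3 using 1
  rw [combo, combo, cob_sub]
  ring

include hn ha hF hb hlead in
omit [F.IsComm] in
theorem decomp_unique (c : Fin (n - 1) → k) (h : PowerSeries k)
    (h0 : PowerSeries.constantCoeff h = 0) (he : combo F B c h = 0) : c = 0 ∧ h = 0 := by
  suffices H : ∀ N, (∀ i : Fin (n - 1), p ^ ((i : ℕ) + 1) < N → c i = 0) ∧
      ∀ M, cobDeg p n M < N → PowerSeries.coeff M h = 0 by
    refine ⟨funext fun i => (H (p ^ ((i : ℕ) + 1) + 1)).1 i (Nat.lt_succ_self _),
      PowerSeries.ext fun M => ?_⟩
    rw [map_zero]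
    exact (H (cobDeg p n M + 1)).2 M (Nat.lt_succ_self _)
  intro N
  induction N with
  | zero => exact ⟨fun i hi => absurd hi (Nat.not_lt_zero _), fun M hM => absurd hM (Nat.not_lt_zero _)⟩
  | succ N ih =>
    obtain ⟨ihc, ihh⟩ := ih
    have hM0 : PowerSeries.coeff 0 h = 0 := by rw [PowerSeries.coeff_zero_eq_constantCoeff, h0]
    -- the coefficient in degree `N`
    have hcoef : ∀ d : Fin 2 →₀ ℕ, d.degree = N →
        (∑ i : Fin (n - 1), if p ^ ((i : ℕ) + 1) = N then c i * coeff d (B i) else 0) +
          (∑ M ∈ Finset.range (N + 1),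
            if cobDeg p n M = N then PowerSeries.coeff M h * coeff d (cobPow F M) else 0) = 0 := by
      intro d hd
      have he' := congrArg (coeff d) he
      rw [combo, map_add, map_sum, map_zero, coeff_cob F h d hd.le] at he'
      refine Eq.trans ?_ he'
      congr 1
      · refine Finset.sum_congr rfl fun i _ => ?_
        rw [coeff_C_mul]
        split_ifs with hi
        · rfl
        · rcases lt_or_gt_of_ne hi with hlt | hgt
          · rw [ihc i hlt, zero_mul]
          · rw [B_mem_below p hF B b hlead i d (by omega), mul_zero]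
      · refine Finset.sum_congr rfl fun M _ => ?_
        split_ifs with hM
        · rfl
        · rcases lt_or_gt_of_ne hM with hlt | hgt
          · rw [ihh M hlt, zero_mul]
          · rcases Nat.eq_zero_or_pos M with rfl | hM1
            · rw [hM0, zero_mul]
            · rw [cobPow_mem_below p hn hF hM1 d (by omega), mul_zero]
    have fin : ∀ (x lam : k) (L : MvPowerSeries (Fin 2) k) (d : Fin 2 →₀ ℕ), lam ≠ 0 →
        coeff d L ≠ 0 → x * (lam * coeff d L) = 0 → x = 0 := fun x lam L d h1 h2 h3 =>
      (mul_eq_zero.1 h3).resolve_right (mul_ne_zero h1 h2)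
    refine ⟨fun i hi => ?_, fun M hM => ?_⟩
    · rcases Nat.lt_succ_iff_lt_or_eq.1 hi with hi | hiN
      · exact ihc i hi
      obtain ⟨d, hd, hd0⟩ := exists_coeff_Cpow_ne_zero p (K := k) (j := (i : ℕ) + 1) (by omega)
      have hs := hcoef d (hd.trans hiN)
      rw [Finset.sum_eq_single i, if_pos hiN, Finset.sum_eq_zero, add_zero,
        coeff_eq_of_below (hlead i) (by omega), coeff_C_mul] at hs
      · exact fin _ _ _ d (hb i) hd0 hs
      · intro M _
        refine if_neg fun hM => ?_
        have := (cobDeg_eq_pow p (hM.trans hiN.symm)).1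
        omega
      · intro i' _ hne
        refine if_neg fun h' => hne (Fin.ext ?_)
        have := Nat.pow_right_injective hp.1.two_le (h'.trans hiN.symm)
        omega
      · exact fun h => absurd (Finset.mem_univ i) h
    · rcases Nat.lt_succ_iff_lt_or_eq.1 hM with hM | hMN
      · exact ihh M hM
      rcases Nat.eq_zero_or_pos M with rfl | hM1
      · exact hM0
      have hMN' : M ≤ N := hMN ▸ le_cobDeg p n M
      by_cases hpw : ∃ m, M = p ^ m
      · obtain ⟨m, rfl⟩ := hpw
        rw [cobDeg_pow] at hMN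
        obtain ⟨d, hd, hd0⟩ := exists_coeff_Cpow_ne_zero p (K := k) (j := n + m) (by omega)
        have hs := hcoef d (hd.trans hMN)
        rw [Finset.sum_eq_zero, zero_add, Finset.sum_eq_single (p ^ m),
          if_pos (by rw [cobDeg_pow, hMN]),
          coeff_eq_of_below (cobPow_pow_sub_mem p hn hF m) (by omega), coeff_C_mul] at hs
        · exact fin _ _ _ d (pow_ne_zero _ ha) hd0 hs
        · intro M' _ hne
          refine if_neg fun h' => hne ?_
          obtain ⟨_, h2⟩ := cobDeg_eq_pow p (h'.trans hMN.symm)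
          rw [h2, Nat.add_sub_cancel_left]
        · intro hmem
          exact absurd (Finset.mem_range.2 (by omega)) hmem
        · intro i _
          refine if_neg fun h' => ?_
          have := Nat.pow_right_injective hp.1.two_le (h'.trans hMN.symm)
          omega
      · have hdeg : cobDeg p n M = M := if_neg hpw
        rw [hdeg] at hMN
        subst hMN
        have hM2 : 2 ≤ M := by
          by_contra hlt
          exact hpw ⟨0, by rw [pow_zero]; omega⟩
        have hpw' : ∀ j, M ≠ p ^ j := fun j hj => hpw ⟨j, hj⟩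
        obtain ⟨d, hd, hd0⟩ := exists_coeff_binForm_ne_zero p (K := k) hM2 hpw'
        have hs := hcoef d hd
        rw [Finset.sum_eq_zero, zero_add, Finset.sum_eq_single M, if_pos hdeg,
          coeff_eq_of_below (cobPow_sub_binForm_mem M) (by omega)] at hs
        · exact fin _ 1 _ d one_ne_zero hd0 (by rw [one_mul]; exact hs)
        · intro M' _ hne
          exact if_neg fun h' => hne ((cobDeg_eq_iff_of_ne_pow p hpw' M').1 h')
        · intro hmem
          exact absurd (Finset.mem_range.2 (Nat.lt_succ_self M)) hmem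
        · intro i _
          exact if_neg fun h' => hpw' _ h'.symm

end Decomp

end Vale.P217

end
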