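import Vale.Agent.P217.Defs
import Mathlib.RingTheory.MvPowerSeries.Rename
import Mathlib.RingTheory.MvPowerSeries.NoZeroDivisors
import Mathlib.RingTheory.MvPowerSeries.Equiv
import Mathlib.RingTheory.PowerSeries.Ideal
import Mathlib.RingTheory.WittVector.Complete
import Mathlib.RingTheory.WittVector.DiscreteValuationRing

/-!
The Lubin-Tate ring as a complete Noetherian local ring, and its coordinate ideals.
-/

noncomputable section

namespace Vale.P217

open IsLocalRing MvPowerSeries

section General

theorem isNoetherianRing_mvPowerSeries (R : Type) [CommRing R] [IsNoetherianRing R] :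
    ∀ d : ℕ, IsNoetherianRing (MvPowerSeries (Fin d) R)
  | 0 => isNoetherianRing_of_ringEquiv R
      (MvPowerSeries.isEmptyEquiv (σ := Fin 0) (R := R)).toRingEquiv.symm
  | d + 1 => by
    have := isNoetherianRing_mvPowerSeries R d
    exact isNoetherianRing_of_ringEquiv (PowerSeries (MvPowerSeries (Fin d) R))
      (MvPowerSeries.finSuccEquiv R d).toRingEquiv.symm

variable {R : Type*} [CommRing R] {d : ℕ}

/-- The part of `f` made of the monomials whose first variable among those in `S` is `i`,
divided by that variable. -/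
def splitPart (S : Fin d → Prop) [DecidablePred S] (f : MvPowerSeries (Fin d) R) (i : Fin d) :
    MvPowerSeries (Fin d) R :=
  fun e => if S i ∧ ∀ j, S j → j < i → e j = 0 then coeff (e + Finsupp.single i 1) f else 0

theorem coeff_X_mul_splitPart (S : Fin d → Prop) [DecidablePred S] (f : MvPowerSeries (Fin d) R)
    (i : Fin d) (e : Fin d →₀ ℕ) :
    coeff e (X i * splitPart S f i) =
      if S i ∧ e i ≠ 0 ∧ ∀ j, S j → j < i → e j = 0 then coeff e f else 0 := by
  classical
  rw [X, coeff_monomial_mul, one_mul]
  by_cases hle : Finsupp.single i 1 ≤ e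
  · have hi : e i ≠ 0 := by
      have := hle i
      simp at this
      omega
    rw [if_pos hle, coeff_apply, splitPart, tsub_add_cancel_of_le hle]
    refine if_congr ?_ rfl rfl
    constructor
    · rintro ⟨h1, h2⟩
      refine ⟨h1, hi, fun j hj hji => ?_⟩
      simpa [Finsupp.tsub_apply, Finsupp.single_eq_of_ne (ne_of_lt hji)] using h2 j hj hji
    · rintro ⟨h1, _, h2⟩
      refine ⟨h1, fun j hj hji => ?_⟩
      simp [h2 j hj hji]
  · have hi : e i = 0 := by
      by_contra hi
      refine hle fun j => ?_
      rcases eq_or_ne j i with rfl | hj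
      · simp; omega
      · simp [Finsupp.single_eq_of_ne hj]
    rw [if_neg hle, if_neg (by simp [hi])]

theorem coeff_sum_X_mul_splitPart (S : Fin d → Prop) [DecidablePred S]
    (f : MvPowerSeries (Fin d) R) (e : Fin d →₀ ℕ) :
    coeff e (∑ i, X i * splitPart S f i) = if ∃ j, S j ∧ e j ≠ 0 then coeff e f else 0 := by
  classical
  simp only [map_sum, coeff_X_mul_splitPart]
  by_cases h : ∃ j, S j ∧ e j ≠ 0
  · rw [if_pos h]
    set T := Finset.univ.filter fun j => S j ∧ e j ≠ 0 with hT
    have hne : T.Nonempty := by
      obtain ⟨j, hj⟩ := h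
      exact ⟨j, by simp [hT, hj]⟩
    set i := T.min' hne with hi
    obtain ⟨hi1, hi2⟩ : S i ∧ e i ≠ 0 := (Finset.mem_filter.1 (T.min'_mem hne)).2
    have hmin : ∀ j, S j → j < i → e j = 0 := fun j hj hji => by
      by_contra hne'
      exact absurd (T.min'_le j (by simp [hT, hj, hne'])) (not_le.2 hji)
    rw [Finset.sum_eq_single i, if_pos ⟨hi1, hi2, hmin⟩]
    · intro j _ hji
      rw [if_neg]
      rintro ⟨h1, h2, h3⟩
      rcases lt_or_gt_of_ne hji with hlt | hgt
      · exact h2 (hmin j h1 hlt)
      · exact hi2 (h3 i hi1 hgt)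
    · simp
  · rw [if_neg h]
    refine Finset.sum_eq_zero fun i _ => if_neg ?_
    rintro ⟨h1, h2, -⟩
    exact h ⟨i, h1, h2⟩

/-- A series all whose monomials of degree `< k` vanish lies in the `k`-th power of any ideal
containing the variables. -/
theorem mem_pow_of_coeff_eq_zero (I : Ideal (MvPowerSeries (Fin d) R)) (hI : ∀ i, X i ∈ I) :
    ∀ (k : ℕ) (f : MvPowerSeries (Fin d) R), (∀ e, e.degree < k → coeff e f = 0) → f ∈ I ^ k
  | 0, f, _ => by simp
  | k + 1, f, hf => by
    classical
    have hdec : f = ∑ i, X i * splitPart (fun _ => True) f i := by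
      ext e
      rw [coeff_sum_X_mul_splitPart]
      split_ifs with h
      · rfl
      · refine hf e ?_
        have : e = 0 := Finsupp.ext fun j => by
          by_contra hj
          exact h ⟨j, trivial, hj⟩
        simp [this]
    rw [hdec, pow_succ']
    refine Ideal.sum_mem _ fun i _ => Ideal.mul_mem_mul (hI i) (mem_pow_of_coeff_eq_zero I hI k _ ?_)
    intro e he
    rw [coeff_apply, splitPart]
    split_ifs
    · refine hf _ ?_
      rw [map_add, Finsupp.degree_single]
      omega
    · rfl

end General

variable (p : ℕ) [Fact p.Prime] (n : ℕ)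

instance : IsNoetherianRing (Coef p n) := inferInstance

instance : IsNoetherianRing (LTRing p n) := isNoetherianRing_mvPowerSeries _ _

theorem ker_residueMap : RingHom.ker (residueMap p n) = maximalIdeal (LTRing p n) := by
  have : (RingHom.ker (residueMap p n)).IsMaximal :=
    RingHom.ker_isMaximal_of_surjective _ (fun a => ⟨C (WittVector.teichmuller p a), by
      simp [residueMap, WittVector.constantCoeff]⟩)
  exact IsLocalRing.eq_maximalIdeal inferInstance

/-- The embedding of the variables of the stratum of height `h`. -/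
def stratumEmb (h : ℕ) : Fin (n - 1 - (h - 1)) ↪ Fin (n - 1) :=
  ⟨fun i => ⟨h - 1 + (i : ℕ), by omega⟩, fun i j hij => by
    simp [Fin.ext_iff] at hij
    exact Fin.ext hij⟩

theorem range_stratumEmb (h : ℕ) (i : Fin (n - 1)) :
    i ∈ Set.range (stratumEmb n h) ↔ h - 1 ≤ (i : ℕ) := by
  constructor
  · rintro ⟨j, rfl⟩
    show h - 1 ≤ h - 1 + (j : ℕ)
    omega
  · intro hi
    exact ⟨⟨(i : ℕ) - (h - 1), by omega⟩, Fin.ext (show h - 1 + ((i : ℕ) - (h - 1)) = i by omega)⟩

/-- Restriction to the stratum of height at least `h`. -/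
def stratumMap (h : ℕ) :
    LTRing p n →+* MvPowerSeries (Fin (n - 1 - (h - 1))) (GaloisField p n) :=
  (killCompl (stratumEmb n h)).toRingHom.comp (MvPowerSeries.map WittVector.constantCoeff)

theorem coeff_stratumMap (h : ℕ) (f : LTRing p n) (e : Fin (n - 1 - (h - 1)) →₀ ℕ) :
    coeff e (stratumMap p n h f) =
      WittVector.constantCoeff (coeff (Finsupp.embDomain (stratumEmb n h) e) f) := by
  simp [stratumMap, coeff_killCompl]

theorem stratumMap_surjective (h : ℕ) : Function.Surjective (stratumMap p n h) := by
  intro g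
  obtain ⟨g', hg'⟩ : ∃ g', MvPowerSeries.map WittVector.constantCoeff g' =
      rename (stratumEmb n h) g :=
    ⟨fun e => WittVector.teichmuller p (coeff e (rename (stratumEmb n h) g)), by
      ext e; exact WittVector.teichmuller_coeff_zero (p := p) _⟩
  exact ⟨g', by simp [stratumMap, hg']⟩

theorem coord_generator_mem (h : ℕ) (i : Fin (n - 1)) (hi : (i : ℕ) + 1 < h) :
    (X i : LTRing p n) ∈ coordIdeal p n h :=
  Ideal.subset_span (Or.inr ⟨i, hi, rfl⟩)

theorem natCast_mem_coordIdeal (h : ℕ) : (p : LTRing p n) ∈ coordIdeal p n h :=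
  Ideal.subset_span (Or.inl rfl)

theorem coordIdeal_mono {h h' : ℕ} (hh : h ≤ h') : coordIdeal p n h ≤ coordIdeal p n h' := by
  refine Ideal.span_mono (Set.union_subset_union_right _ ?_)
  rintro a ⟨i, hi, rfl⟩
  exact ⟨i, hi.trans_le hh, rfl⟩

theorem dvd_of_constantCoeff_eq_zero {w : Coef p n} (hw : WittVector.constantCoeff w = 0) :
    (p : Coef p n) ∣ w := by
  rw [← Ideal.mem_span_singleton, ← WittVector.ker_constantCoeff]
  exact hw

theorem ker_stratumMap (h : ℕ) : RingHom.ker (stratumMap p n h) = coordIdeal p n h := by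
  classical
  refine le_antisymm (fun f hf => ?_) (Ideal.span_le.2 ?_)
  · set f₁ : LTRing p n := ∑ i, X i * splitPart (fun j => (j : ℕ) + 1 < h) f i with hf₁
    have h1 : f₁ ∈ coordIdeal p n h := by
      refine Ideal.sum_mem _ fun i _ => ?_
      by_cases hi : (i : ℕ) + 1 < h
      · exact Ideal.mul_mem_right _ _ (coord_generator_mem p n h i hi)
      · have : splitPart (fun j : Fin (n - 1) => (j : ℕ) + 1 < h) f i = 0 := by
          ext e
          rw [coeff_apply, splitPart, if_neg (fun hc => hi hc.1), map_zero]
        simp [this]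
    have h2 : ∀ e, (p : Coef p n) ∣ coeff e (f - f₁) := fun e => by
      rw [map_sub, hf₁, coeff_sum_X_mul_splitPart]
      split_ifs with he
      · simp
      · rw [sub_zero]
        apply dvd_of_constantCoeff_eq_zero
        have hsupp : e ∈ Set.range (Finsupp.embDomain (stratumEmb n h)) := by
          rw [Finsupp.mem_range_embDomain_iff]
          intro j hj
          rw [range_stratumEmb]
          by_contra hlt
          exact he ⟨j, by omega, Finsupp.mem_support_iff.1 hj⟩
        obtain ⟨e', rfl⟩ := hsupp
        rw [← coeff_stratumMap, RingHom.mem_ker.1 hf, map_zero]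
    choose g hg using h2
    have h3 : f - f₁ = (p : LTRing p n) * (show LTRing p n from g) := by
      ext e
      rw [hg e, ← map_natCast (C : Coef p n →+* LTRing p n), coeff_C_mul]
      rfl
    have h4 : f = f₁ + (p : LTRing p n) * (show LTRing p n from g) := by rw [← h3]; ring
    rw [h4]
    exact Ideal.add_mem _ h1 (Ideal.mul_mem_right _ _ (natCast_mem_coordIdeal p n h))
  · rintro a (rfl | ⟨i, hi, rfl⟩)
    · rw [SetLike.mem_coe, RingHom.mem_ker, map_natCast]
      ext e
      rw [map_zero, ← map_natCast (C : GaloisField p n →+* _), coeff_C]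
      split_ifs <;> simp [CharP.cast_eq_zero]
    · rw [SetLike.mem_coe, RingHom.mem_ker, stratumMap, RingHom.comp_apply, map_X]
      refine killCompl_X_eq_zero fun hr => ?_
      rw [range_stratumEmb] at hr
      omega

theorem isPrime_coordIdeal (h : ℕ) (_hh : 1 ≤ h) (_hhn : h ≤ n) :
    (coordIdeal p n h).IsPrime := by
  rw [← ker_stratumMap]
  have : IsDomain (MvPowerSeries (Fin (n - 1 - (h - 1))) (GaloisField p n)) :=
    NoZeroDivisors.to_isDomain _
  exact RingHom.ker_isPrime _

theorem maximalIdeal_eq_coordIdeal (_hn : 1 ≤ n) :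
    maximalIdeal (LTRing p n) = coordIdeal p n n := by
  rw [← ker_stratumMap, ← ker_residueMap]
  ext f
  have : IsEmpty (Fin (n - 1 - (n - 1))) := by
    rw [Nat.sub_self]; exact inferInstance
  rw [RingHom.mem_ker, RingHom.mem_ker]
  constructor
  · intro hf
    ext e
    rw [Subsingleton.elim e 0, coeff_stratumMap]
    simpa [residueMap, Finsupp.embDomain_zero] using hf
  · intro hf
    have := congrArg (coeff 0) hf
    rw [coeff_stratumMap] at this
    simpa [residueMap, Finsupp.embDomain_zero] using this

theorem X_mem_maximalIdeal (i : Fin (n - 1)) :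
    (X i : LTRing p n) ∈ maximalIdeal (LTRing p n) := by
  rw [← ker_residueMap, RingHom.mem_ker]
  simp [residueMap]

theorem natCast_mem_maximalIdeal : (p : LTRing p n) ∈ maximalIdeal (LTRing p n) := by
  rw [← ker_residueMap, RingHom.mem_ker, map_natCast]
  exact CharP.cast_eq_zero _ p

theorem mem_maximalIdeal_pow_iff (k : ℕ) (f : LTRing p n) :
    f ∈ maximalIdeal (LTRing p n) ^ k ↔
      ∀ e, coeff e f ∈ Ideal.span {(p : Coef p n)} ^ (k - e.degree) := by
  classical
  constructor
  · intro hf
    induction k generalizing f with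
    | zero => intro e; simp
    | succ k ih =>
      rw [pow_succ'] at hf
      refine Submodule.mul_induction_on hf (fun a ha b hb e => ?_) fun a b ha hb e => ?_
      · rw [coeff_mul]
        refine Ideal.sum_mem _ fun x hx => ?_
        rw [Finset.HasAntidiagonal.mem_antidiagonal] at hx
        have hb' := ih b hb x.2
        rcases eq_or_ne x.1 0 with h0 | h0
        · have ha0 : coeff x.1 a ∈ Ideal.span {(p : Coef p n)} := by
            rw [← ker_residueMap, RingHom.mem_ker] at ha
            rw [← WittVector.ker_constantCoeff, RingHom.mem_ker, h0]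
            simpa [residueMap] using ha
          have h := Ideal.mul_mem_mul ha0 hb'
          rw [← pow_succ'] at h
          refine Ideal.pow_le_pow_right ?_ h
          rw [← hx, h0, zero_add]
          omega
        · refine Ideal.pow_le_pow_right ?_ (Ideal.mul_mem_left _ _ hb')
          rw [← hx, map_add]
          have : x.1.degree ≠ 0 := by simpa [Finsupp.degree_eq_zero_iff] using h0
          omega
      · rw [map_add]
        exact Ideal.add_mem _ (ha e) (hb e)
  · intro hf
    set P : MvPolynomial (Fin (n - 1)) (Coef p n) := truncTotal k f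
    have h1 : f - (P : LTRing p n) ∈ maximalIdeal (LTRing p n) ^ k :=
      mem_pow_of_coeff_eq_zero _ (X_mem_maximalIdeal p n) k _ fun e he => by
        rw [map_sub, MvPolynomial.coeff_coe, coeff_truncTotal _ he, sub_self]
    have h2 : (P : LTRing p n) ∈ maximalIdeal (LTRing p n) ^ k := by
      rw [P.as_sum, ← MvPolynomial.coeToMvPowerSeries.ringHom_apply, map_sum]
      refine Ideal.sum_mem _ fun e he => ?_
      rw [MvPolynomial.coeToMvPowerSeries.ringHom_apply, MvPolynomial.coe_monomial]
      have hek : e.degree < k := by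
        by_contra hge
        exact MvPolynomial.mem_support_iff.1 he (coeff_truncTotal_eq_zero _ (not_lt.1 hge))
      obtain ⟨w, hw⟩ := Ideal.mem_span_singleton.1 (by
        simpa [Ideal.span_singleton_pow] using hf e)
      have hc : P.coeff e = (p : Coef p n) ^ (k - e.degree) * w := by
        rw [coeff_truncTotal _ hek, hw]
      have hmon : monomial e (P.coeff e) =
          (p : LTRing p n) ^ (k - e.degree) * monomial e w := by
        rw [hc, ← map_natCast (C : Coef p n →+* LTRing p n), ← map_pow, ← monomial_zero_eq_C_apply,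
          monomial_mul_monomial, zero_add]
      rw [hmon]
      have hx : monomial e w ∈ maximalIdeal (LTRing p n) ^ e.degree :=
        mem_pow_of_coeff_eq_zero _ (X_mem_maximalIdeal p n) _ _ fun e' he' => by
          rw [coeff_monomial, if_neg]
          rintro rfl
          omega
      have := Ideal.mul_mem_mul (Ideal.pow_mem_pow (natCast_mem_maximalIdeal p n) (k - e.degree)) hx
      rwa [← pow_add, Nat.sub_add_cancel hek.le] at this
    have := Ideal.add_mem _ h1 h2
    rwa [sub_add_cancel] at this

instance : IsAdicComplete (maximalIdeal (LTRing p n)) (LTRing p n) where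
  haus' x hx := by
    refine MvPowerSeries.ext fun e => ?_
    rw [map_zero]
    have hH : IsHausdorff (Ideal.span {(p : Coef p n)}) (Coef p n) := inferInstance
    refine hH.haus' _ fun j => ?_
    have h := hx (j + e.degree)
    rw [SModEq.zero, smul_eq_mul, Ideal.mul_top, mem_maximalIdeal_pow_iff] at h
    rw [SModEq.zero, smul_eq_mul, Ideal.mul_top]
    simpa using h e
  prec' f hf := by
    have hc : ∀ {a b : ℕ}, a ≤ b → ∀ e,
        coeff e (f a) - coeff e (f b) ∈ Ideal.span {(p : Coef p n)} ^ (a - e.degree) :=
      fun {a b} hab e => by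
        have h := hf hab
        rw [SModEq.sub_mem, smul_eq_mul, Ideal.mul_top, mem_maximalIdeal_pow_iff] at h
        simpa using h e
    have hL : ∀ e : Fin (n - 1) →₀ ℕ, ∃ L, ∀ j,
        coeff e (f (j + e.degree)) ≡ L [SMOD (Ideal.span {(p : Coef p n)} ^ j • ⊤ :
          Submodule (Coef p n) (Coef p n))] := fun e =>
      IsPrecomplete.prec inferInstance fun {a b} hab => by
        rw [SModEq.sub_mem, smul_eq_mul, Ideal.mul_top]
        simpa using hc (show a + e.degree ≤ b + e.degree by omega) e
    choose L hL using hL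
    refine ⟨(show LTRing p n from fun e => L e), fun k => ?_⟩
    rw [SModEq.sub_mem, smul_eq_mul, Ideal.mul_top, mem_maximalIdeal_pow_iff]
    intro e
    rcases le_or_gt e.degree k with hle | hgt
    · have h := hL e (k - e.degree)
      rw [SModEq.sub_mem, smul_eq_mul, Ideal.mul_top, Nat.sub_add_cancel hle] at h
      rw [map_sub]
      exact h
    · rw [Nat.sub_eq_zero_of_le hgt.le, pow_zero, Ideal.one_eq_top]
      trivial

end Vale.P217

end
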