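import Vale.Agent.P217.CoverKernel
import Mathlib.LinearAlgebra.Matrix.ToLinearEquiv
import Mathlib.Algebra.MvPolynomial.PDeriv

/-!
The Jacobian of the torsion equations in the parameters.
-/

noncomputable section

set_option linter.unusedSectionVars false

namespace Vale.P217

open Filter Topology

variable (p : ℕ) [Fact p.Prime] (n : ℕ)
variable {K : Type*} [NontriviallyNormedField K] [IsUltrametricDist K] [CompleteSpace K]
  [CharP K p]

/-- The formal derivative of `[p]` in the parameter `u_{i+1}`. -/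
def dMul (u : Fin (n - 1) → Ball K) (i : Fin (n - 1)) : PowerSeries (Ball K) :=
  PowerSeries.mk fun d => MvPolynomial.aeval u
    (MvPolynomial.pderiv i (PowerSeries.coeff d (mulSeries (univFG p n) p)))

theorem evalP_sum_C_mul {x : Ball K} (hx : ‖x‖ < 1) {ι : Type*} (s : Finset ι) (c : ι → Ball K)
    (f : ι → PowerSeries (Ball K)) :
    evalP (∑ i ∈ s, PowerSeries.C (c i) * f i) x = ∑ i ∈ s, c i * evalP (f i) x := by
  classical
  induction s using Finset.induction_on with
  | empty => simp [evalP_zero hx]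
  | insert a s ha ih =>
    rw [Finset.sum_insert ha, Finset.sum_insert ha, evalP_add hx, evalP_mul hx, evalP_C hx, ih]

theorem eq_zero_of_forall_norm_mul_le {x : Ball K}
    (h : ∀ t : Ball K, ‖t * x‖ ≤ ‖t‖ ^ 2) : x = 0 := by
  by_contra hx
  obtain ⟨y, hy0, hy1⟩ := exists_small_ne_zero (K := K)
  have h1 := h (x * y)
  have hp : 0 < ‖x * y‖ := by
    rw [norm_mul_Ball]
    exact mul_pos (norm_pos_iff.2 hx) (norm_pos_iff.2 hy0)
  rw [norm_mul_Ball, sq] at h1
  have h2 := le_of_mul_le_mul_left h1 hp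
  rw [norm_mul_Ball] at h2
  exact absurd h2 (not_le.2 (mul_lt_of_lt_one_right (norm_pos_iff.2 hx) hy1))

/-- The derivative of `[p]` at `u` in the direction `C`. -/
def dDir (u C : Fin (n - 1) → Ball K) : PowerSeries (Ball K) :=
  PowerSeries.mk fun d => dirDeriv u C (PowerSeries.coeff d (mulSeries (univFG p n) p))

theorem dDir_eq_sum (u C : Fin (n - 1) → Ball K) :
    dDir p n u C = ∑ a, PowerSeries.C (C a) * dMul p n u a := by
  ext d
  simp [dDir, dMul, dirDeriv, map_sum, PowerSeries.coeff_C_mul]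

variable (u C : Fin (n - 1) → Ball K)

theorem norm_mulP_taylor {x : Ball K} (hx : ‖x‖ < 1) (t : Ball K) :
    ‖mulP p n (fun i => u i + t * C i) x - mulP p n u x - t * evalP (dDir p n u C) x‖
      ≤ ‖t‖ ^ 2 := by
  have h : mulP p n u x + t * evalP (dDir p n u C) x =
      evalP (mulSeries (fg p n u) p + PowerSeries.C t * dDir p n u C) x := by
    rw [evalP_add hx, evalP_mul hx, evalP_C hx, mulP]
  rw [sub_sub, h, mulP]
  refine norm_evalP_sub_coeff (sq_nonneg _) hx fun d => ?_
  rw [map_add, PowerSeries.coeff_C_mul, coeff_mulSeries_fg, coeff_mulSeries_fg, dDir,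
    PowerSeries.coeff_mk, ← sub_sub]
  exact norm_aeval_taylor _ u C t

theorem evalP_dDir_zero : evalP (dDir p n u C) (0 : Ball K) = 0 := by
  refine eq_zero_of_forall_norm_mul_le fun t => ?_
  have h0 : ‖(0 : Ball K)‖ < 1 := by simp
  have hz : ∀ v : Fin (n - 1) → Ball K, mulP p n v 0 = 0 := fun v =>
    norm_le_zero_iff.1 (by simpa using norm_mulP_le p n v h0)
  have h := norm_mulP_taylor p n u C h0 t
  rwa [hz, hz, sub_zero, zero_sub, norm_neg] at h

/-- The zeros of the derivative in the kernel are closed under addition. -/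
theorem evalP_dDir_fadd (hn : 1 ≤ n) {x y : Ball K} (hx : ‖x‖ < 1) (hy : ‖y‖ < 1)
    (hx0 : mulP p n u x = 0) (hy0 : mulP p n u y = 0) (hxd : evalP (dDir p n u C) x = 0)
    (hyd : evalP (dDir p n u C) y = 0) :
    evalP (dDir p n u C) (fadd (fg p n u) x y) = 0 := by
  refine eq_zero_of_forall_norm_mul_le fun t => ?_
  set v := fun i => u i + t * C i with hv
  have hs : ‖fadd (fg p n u) x y‖ < 1 := norm_fadd_lt_one _ hx hy
  have hs' : ‖fadd (fg p n v) x y‖ < 1 := norm_fadd_lt_one _ hx hy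
  have hu0 : mulP p n u (fadd (fg p n u) x y) = 0 := by
    have h := iterate_mulP_fadd p n u hx hy 1
    simp only [Function.iterate_one] at h
    rw [h, hx0, hy0, Pt.fadd_zero_left (by simp)]
  have h1 : ∀ z : Ball K, ‖z‖ < 1 → mulP p n u z = 0 → evalP (dDir p n u C) z = 0 →
      ‖mulP p n v z‖ ≤ ‖t‖ ^ 2 := fun z hz h0 hd => by
    simpa [h0, hd] using norm_mulP_taylor p n u C hz t
  have h2 : ‖mulP p n v (fadd (fg p n v) x y)‖ ≤ ‖t‖ ^ 2 := by
    have h := iterate_mulP_fadd p n v hx hy 1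
    simp only [Function.iterate_one] at h
    rw [h]
    have := norm_fadd_sub_le (fg p n v) (norm_mulP_lt p n v hx) (norm_mulP_lt p n v hy)
      (a' := 0) (b' := 0) (by simp) (by simp) (sq_nonneg ‖t‖)
      (by simpa using h1 x hx hx0 hxd) (by simpa using h1 y hy hy0 hyd)
    rwa [Pt.fadd_zero_left (by simp), sub_zero] at this
  have h3 : ‖fadd (fg p n u) x y - fadd (fg p n v) x y‖ ≤ ‖t‖ :=
    norm_fadd_param p n (norm_nonneg _) (fun i => by
      rw [hv, sub_add_cancel_left, norm_neg]; exact norm_mul_le_left _ _) hx hy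
  have h4 : ‖mulP p n v (fadd (fg p n u) x y)‖ ≤ ‖t‖ ^ 2 := by
    have h := IsUltrametricDist.norm_add_le_max
      (mulP p n v (fadd (fg p n u) x y) - mulP p n v (fadd (fg p n v) x y))
      (mulP p n v (fadd (fg p n v) x y))
    rw [sub_add_cancel] at h
    refine h.trans (max_le ((norm_mulP_sub_le p n hn v hs hs').trans ?_) h2)
    exact (pow_le_pow_left₀ (norm_nonneg _) h3 p).trans
      (pow_le_pow_of_le_one (norm_nonneg _) (UnitNormed.norm_le_one _)
        (Fact.out : p.Prime).two_le)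
  have h5 := norm_mulP_taylor p n u C hs t
  rw [hu0, sub_zero] at h5
  have h6 := norm_sub_le_ultra (mulP p n v (fadd (fg p n u) x y))
    (mulP p n v (fadd (fg p n u) x y) - t * evalP (dDir p n u C) (fadd (fg p n u) x y))
  rw [sub_sub_cancel] at h6
  exact h6.trans (max_le h4 h5)

variable {h : ℕ}

/-- Along the stratum only the degrees divisible by `p ^ h` occur. -/
theorem coeff_dDir_not_dvd (hh : 1 ≤ h) (hhn : h ≤ n)
    (hu0 : ∀ i : Fin (n - 1), (i : ℕ) + 1 < h → u i = 0)
    (hC : ∀ i : Fin (n - 1), (i : ℕ) + 1 < h → C i = 0) {d : ℕ} (hd : ¬p ^ h ∣ d) :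
    PowerSeries.coeff d (dDir p n u C) = 0 := by
  rw [dDir, PowerSeries.coeff_mk]
  refine eq_zero_of_forall_norm_mul_le fun t => ?_
  have h1 := coeff_mulSeries_not_dvd p n (fun i => u i + t * C i) hh hhn
    (fun i hi => by simp [hu0 i hi, hC i hi]) hd
  have h2 := coeff_mulSeries_not_dvd p n u hh hhn hu0 hd
  have h3 := norm_aeval_taylor (PowerSeries.coeff d (mulSeries (univFG p n) p)) u C t
  rw [← coeff_mulSeries_fg, ← coeff_mulSeries_fg, h1, h2] at h3
  simpa using h3

/-- The derivative at `0` of the coefficient of `X ^ (p ^ k)`, for parameters past `k`. -/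
theorem aeval_pderiv_top (b : Fin (n - 1)) {k : ℕ} (hk : 1 ≤ k) (hkb : k ≤ (b : ℕ) + 1) :
    MvPolynomial.aeval (0 : Fin (n - 1) → Ball K)
      (MvPolynomial.pderiv b (PowerSeries.coeff (p ^ k) (mulSeries (univFG p n) p))) =
        if k = (b : ℕ) + 1 then 1 else 0 := by
  classical
  set P := PowerSeries.coeff (p ^ k) (mulSeries (univFG p n) p)
  have hp1 := (Fact.out : p.Prime).one_lt
  have hb : (b : ℕ) + 1 < n := by omega
  have h0 : MvPolynomial.aeval (0 : Fin (n - 1) → Ball K) P = 0 := by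
    rw [← coeff_mulSeries_fg, mulSeries_fg_zero p n (by omega), PowerSeries.coeff_X_pow, if_neg]
    exact fun e => absurd (Nat.pow_right_injective (Fact.out : p.Prime).two_le e) (by omega)
  refine sub_eq_zero.1 (eq_zero_of_forall_norm_mul_le fun t => ?_)
  have ht := norm_aeval_taylor P (0 : Fin (n - 1) → Ball K) (Pi.single b 1) t
  have hd : dirDeriv (0 : Fin (n - 1) → Ball K) (Pi.single b 1) P =
      MvPolynomial.aeval (0 : Fin (n - 1) → Ball K) (MvPolynomial.pderiv b P) := by
    rw [dirDeriv, Finset.sum_eq_single b] <;> simp +contextual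
  have hv : ∀ i : Fin (n - 1), (i : ℕ) + 1 < (b : ℕ) + 1 →
      (0 : Fin (n - 1) → Ball K) i + t * (Pi.single b 1 : Fin (n - 1) → Ball K) i = 0 :=
    fun i hi => by simp [show i ≠ b from fun e => by rw [e] at hi; omega]
  rw [hd, h0, sub_zero, ← coeff_mulSeries_fg] at ht
  split_ifs with hkb'
  · subst hkb'
    rw [coeff_mulSeries_leading p n _ (by omega) (by omega) hv,
      uvar, dif_pos ⟨by omega, hb⟩] at ht
    have e : (⟨(b : ℕ) + 1 - 1, by omega⟩ : Fin (n - 1)) = b := Fin.ext (by simp)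
    rw [e] at ht
    simpa [mul_sub, norm_sub_rev] using ht
  · rw [coeff_mulSeries_not_dvd p n _ (by omega) (by omega) hv] at ht
    · simpa using ht
    · exact fun e => absurd ((Nat.pow_dvd_pow_iff_le_right hp1).1 e) (by omega)

variable [IsAlgClosed K] {ε : ℝ} (hu : SmallParam n u ε) (hh : 1 ≤ h) (hhn : h < n)
  (hu0 : ∀ i : Fin (n - 1), (i : ℕ) + 1 < h → u i = 0) (huh : uvar n u h ≠ 0)
include hu hh hhn hu0 huh

/-- A direction killing the derivative at a generating set of the kernel has no unit entry. -/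
theorem norm_lt_one_of_dDir_vanish {C : Fin (n - 1) → Ball K}
    (hC : ∀ i : Fin (n - 1), (i : ℕ) + 1 < h → C i = 0) {ι : Type*} [Fintype ι]
    (r : ι → Pt (fg p n u)) (hr : ∀ j, p • r j = 0)
    (hgen : ∀ a : Pt (fg p n u), p • a = 0 → ∃ μ : ι → ℕ, a = ∑ j, μ j • r j)
    (hv : ∀ j, evalP (dDir p n u C) (r j).val = 0) : ∀ a, ‖C a‖ < 1 := by
  classical
  have hn : 1 ≤ n := by omega
  have hall : ∀ a : Pt (fg p n u), p • a = 0 → evalP (dDir p n u C) a.val = 0 := by
    let S : AddSubmonoid (Pt (fg p n u)) :=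
      { carrier := {a | p • a = 0 ∧ evalP (dDir p n u C) a.val = 0}
        zero_mem' := ⟨smul_zero _, by rw [Pt.val_zero]; exact evalP_dDir_zero p n u C⟩
        add_mem' := fun {a b} ha hb => ⟨by rw [smul_add, ha.1, hb.1, add_zero], by
          rw [Pt.val_add]
          exact evalP_dDir_fadd p n u C hn a.norm_lt b.norm_lt
            (by rw [← val_nsmul_p, ha.1, Pt.val_zero]) (by rw [← val_nsmul_p, hb.1, Pt.val_zero])
            ha.2 hb.2⟩ }
    intro a ha
    obtain ⟨μ, rfl⟩ := hgen a ha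
    exact (S.sum_mem fun j _ => S.nsmul_mem (show r j ∈ S from ⟨hr j, hv j⟩) (μ j)).2
  obtain ⟨Z, hcard, hZ⟩ := exists_kernel p n hu hh hhn hu0 huh
  obtain ⟨g, -, -, hg, hev⟩ := exists_factor_series p n hu hh hhn hu0
  have hq : p ^ h ≠ 0 := pow_ne_zero h (Fact.out : p.Prime).ne_zero
  set G := PowerSeries.mk fun m => PowerSeries.coeff (p ^ h * m) (dDir p n u C) with hG
  have hGe : ∀ x : Ball K, ‖x‖ < 1 → evalP (dDir p n u C) x = evalP G (x ^ p ^ h) := by
    intro x hx
    have he : dDir p n u C = PowerSeries.subst (PowerSeries.X ^ p ^ h) G := by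
      rw [← PowerSeries.expand_apply _ hq]
      refine PowerSeries.ext fun d => ?_
      rw [PowerSeries.coeff_expand]
      split_ifs with hd
      · rw [hG, PowerSeries.coeff_mk, Nat.mul_div_cancel' hd]
      · exact coeff_dDir_not_dvd p n u C hh hhn.le hu0 hC hd
    rw [he, evalP_subst hx _ (by simp [(Fact.out : p.Prime).ne_zero]), evalP_pow hx, evalP_X hx]
  have hlow := hg.coeff_lt_one_of_vanish G (Z.image fun x => x ^ p ^ h)
    (by rw [Finset.card_image_of_injective _ (pow_p_pow_injective p h), hcard]) fun r hr => by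
      obtain ⟨x, hx, rfl⟩ := Finset.mem_image.1 hr
      obtain ⟨hx1, hx0⟩ := (hZ x).1 hx
      refine ⟨norm_pow_ball_lt hx1 hq, by rw [← hev x hx1, hx0], ?_⟩
      rw [← hGe x hx1]
      exact hall (Pt.mk _ x hx1) (Pt.ext (by rw [val_nsmul_p, Pt.val_mk, hx0, Pt.val_zero]))
  intro a
  induction ha : (a : ℕ) using Nat.strong_induction_on generalizing a with
  | _ i IH =>
    subst ha
    by_cases hah : (a : ℕ) + 1 < h
    · simp [hC a hah]
    set k := (a : ℕ) + 1 with hk
    have hkm : p ^ k = p ^ h * p ^ (k - h) := by rw [← pow_add]; congr 1; omega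
    have hD : ‖PowerSeries.coeff (p ^ k) (dDir p n u C)‖ < 1 := by
      have := hlow (p ^ (k - h))
        (Nat.pow_lt_pow_right (Fact.out : p.Prime).one_lt (by omega))
      rwa [hG, PowerSeries.coeff_mk, ← hkm] at this
    set P := PowerSeries.coeff (p ^ k) (mulSeries (univFG p n) p) with hP
    have hdiff : ‖PowerSeries.coeff (p ^ k) (dDir p n u C) - C a‖ < 1 := by
      have e : PowerSeries.coeff (p ^ k) (dDir p n u C) - C a = ∑ b, C b *
          (MvPolynomial.aeval u (MvPolynomial.pderiv b P) - if b = a then 1 else 0) := by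
        simp only [dDir, PowerSeries.coeff_mk, dirDeriv, ← hP, mul_sub, Finset.sum_sub_distrib,
          mul_ite, mul_one, mul_zero, Finset.sum_ite_eq', Finset.mem_univ, if_true]
      have hterm : ∀ b, ‖C b *
          (MvPolynomial.aeval u (MvPolynomial.pderiv b P) - if b = a then 1 else 0)‖ < 1 := by
        intro b
        rcases lt_or_ge (b : ℕ) (a : ℕ) with hba | hba
        · exact (norm_mul_le_left _ _).trans_lt (IH b hba b rfl)
        · refine ((norm_mul_le_right _ _).trans ?_).trans_lt hu.2.1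
          have h1 := norm_aeval_sub_le (O := Ball K) (u := u) (v := 0)
            (MvPolynomial.pderiv b P) hu.1 fun i => by simpa using hu.2.2 i
          rw [hP, aeval_pderiv_top p n b (by omega) (by omega), ← hP] at h1
          have hiff : k = (b : ℕ) + 1 ↔ b = a := by rw [Fin.ext_iff]; omega
          rwa [if_congr hiff rfl rfl] at h1
      rw [e]
      have : Nonempty (Fin (n - 1)) := ⟨a⟩
      obtain ⟨b0, hb0⟩ := Finite.exists_max (α := Fin (n - 1)) (β := ℝ) fun b => ‖C b *
          (MvPolynomial.aeval u (MvPolynomial.pderiv b P) - if b = a then 1 else 0)‖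
      exact (IsUltrametricDist.norm_sum_le_of_forall_le_of_nonneg (norm_nonneg _)
        fun b _ => hb0 b).trans_lt (hterm b0)
    have h1 := norm_sub_le_ultra (PowerSeries.coeff (p ^ k) (dDir p n u C))
      (PowerSeries.coeff (p ^ k) (dDir p n u C) - C a)
    rw [sub_sub_cancel] at h1
    exact h1.trans_lt (max_lt hD hdiff)

/-- The Jacobian of the torsion equations is invertible. -/
theorem det_dMul_ne_zero (r : Fin (n - h) → Pt (fg p n u)) (hr : ∀ j, p • r j = 0)
    (hgen : ∀ a : Pt (fg p n u), p • a = 0 → ∃ μ : Fin (n - h) → ℕ, a = ∑ j, μ j • r j) :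
    (Matrix.of fun j i : Fin (n - h) =>
      evalP (dMul p n u ⟨h - 1 + (i : ℕ), by omega⟩) (r j).val).det ≠ 0 := by
  classical
  intro hdet
  obtain ⟨v, hv0, hv⟩ := Matrix.exists_mulVec_eq_zero_iff.2 hdet
  have : Nonempty (Fin (n - h)) := ⟨⟨0, by omega⟩⟩
  obtain ⟨i0, hi0⟩ := Finite.exists_max fun i => ‖v i‖
  have hvi : v i0 ≠ 0 := fun e => hv0 (funext fun i => norm_le_zero_iff.1 (by simpa [e] using hi0 i))
  have hpos : 0 < ‖(v i0 : K)‖ := norm_pos_iff.2 fun e => hvi (Subtype.ext e)
  let c : Fin (n - h) → Ball K := fun i => ⟨(v i : K) / (v i0 : K), by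
    rw [mem_Ball, norm_div, div_le_one hpos]; exact hi0 i⟩
  have hcv : ∀ i, c i * v i0 = v i := fun i => Subtype.ext
    (div_mul_cancel₀ (v i : K) (norm_pos_iff.1 hpos))
  let C : Fin (n - 1) → Ball K := fun a =>
    if hA : h - 1 ≤ (a : ℕ) then c ⟨(a : ℕ) - (h - 1), by omega⟩ else 0
  have hC : ∀ i : Fin (n - 1), (i : ℕ) + 1 < h → C i = 0 := fun i hi => dif_neg (by omega)
  have hCe : ∀ i : Fin (n - h), C ⟨h - 1 + (i : ℕ), by omega⟩ = c i := fun i => by
    simp only [C]
    rw [dif_pos (by omega)]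
    congr 1
    exact Fin.ext (by simp)
  have hvan : ∀ j, evalP (dDir p n u C) (r j).val = 0 := fun j => by
    rw [dDir_eq_sum, evalP_sum_C_mul (r j).norm_lt,
      ← Fintype.sum_of_injective (fun i : Fin (n - h) => (⟨h - 1 + (i : ℕ), by omega⟩ : Fin (n - 1)))
        (fun a b hab => Fin.ext (by simpa using congrArg Fin.val hab))
        (fun i => c i * evalP (dMul p n u ⟨h - 1 + (i : ℕ), by omega⟩) (r j).val)]
    · refine (mul_left_inj' hvi).1 ?_
      rw [zero_mul, Finset.sum_mul]
      refine Eq.trans (Finset.sum_congr rfl fun i _ => ?_) (congrFun hv j)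
      simp only [Matrix.of_apply]
      rw [← hcv i]
      ring
    · intro a ha
      rw [hC a ?_, zero_mul]
      by_contra hlt
      exact ha ⟨⟨(a : ℕ) - (h - 1), by omega⟩, Fin.ext (by simp; omega)⟩
    · intro i
      rw [hCe]
  have h1 := norm_lt_one_of_dDir_vanish p n u hu hh hhn hu0 huh hC r hr hgen hvan
    ⟨h - 1 + (i0 : ℕ), by omega⟩
  rw [hCe] at h1
  have h2 : ‖c i0‖ = 1 := by
    rw [← norm_coe]
    simp [c, div_self (norm_pos_iff.1 hpos)]
  exact h1.ne h2

end Vale.P217

end
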