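import Vale.Agent.P217.CoverLift
import Vale.Agent.P217.CoverDet

/-!
The universal cover of a deformation of the Honda law and torsion in it.

The definitions and the limit statements are in `CoverPhi`; here we choose lifts of a basis of
the `p`-torsion.
-/

noncomputable section

namespace Vale.P217

open Filter Topology

variable (p : ℕ) [Fact p.Prime] (n : ℕ)
variable {K : Type*} [NontriviallyNormedField K] [IsUltrametricDist K] [CompleteSpace K]
  [CharP K p] [PerfectRing K p] [IsAlgClosed K]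

/-- Lifts to the universal cover of a basis of the `p`-torsion in height `h`: they are killed by
`[p]`, are uniformly independent, and the Jacobian of the torsion equations is invertible. -/
theorem exists_torsion_basis (u : Fin (n - 1) → Ball K) {ε : ℝ} (hu : SmallParam n u ε) {h : ℕ}
    (hh : 1 ≤ h) (hhn : h < n) (hu0 : ∀ i : Fin (n - 1), (i : ℕ) + 1 < h → u i = 0)
    (huh : uvar n u h ≠ 0) :
    ∃ z : Fin (n - h) → Pt (fg p n (0 : Fin (n - 1) → Ball K)),
      (∀ j, phiK p n u ((z j).val ^ p ^ n) = 0) ∧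
      (∃ δ : ℝ, 0 < δ ∧ ∀ μ : Fin (n - h) → ℕ, (∃ j, ¬p ∣ μ j) →
        δ ≤ ‖(∑ j, μ j • z j).val‖) ∧
      (Matrix.of fun j i : Fin (n - h) =>
        evalP (dMul p n u ⟨h - 1 + (i : ℕ), by omega⟩) (phiK p n u (z j).val)).det ≠ 0 := by
  classical
  have hn : 1 ≤ n := by omega
  obtain ⟨r, hr, hind, hgen⟩ := exists_basis_kernel p n hu hh hhn hu0 huh
  choose z hz using fun j => phiPt_surjective p n hu hh hhn hu0 (r j)
  have hval : ∀ j, phiK p n u (z j).val = (r j).val := fun j => by
    rw [← val_phiPt p n hn hu, hz]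
  refine ⟨z, fun j => ?_, ?_, ?_⟩
  · rw [phiK_pow p n hn hu (z j).norm_lt, hval, ← val_nsmul_p, hr, Pt.val_zero]
  · obtain ⟨Z, -, hZ⟩ := exists_kernel p n hu hh hhn hu0 huh
    set T := insert (1 : ℝ) ((Z.filter fun x => x ≠ 0).image fun x => ‖x‖) with hT
    have hTne : T.Nonempty := Finset.insert_nonempty _ _
    set δ₀ := T.min' hTne with hδ₀
    have h₀ : 0 < δ₀ := by
      rw [hδ₀, Finset.lt_min'_iff]
      intro t ht
      simp only [hT, Finset.mem_insert, Finset.mem_image, Finset.mem_filter] at ht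
      rcases ht with rfl | ⟨x, ⟨-, hx⟩, rfl⟩
      · exact one_pos
      · exact norm_pos_iff.2 hx
    obtain ⟨δ, hδ, hsmall⟩ := exists_delta_phiK p n hn hu h₀
    refine ⟨δ, hδ, fun μ hμ => le_of_not_gt fun hlt => ?_⟩
    set a := phiPt p n hn hu (∑ j, μ j • z j) with ha
    have hsum : a = ∑ j, μ j • r j := by
      simp only [ha, map_sum, map_nsmul, hz]
    have hne : a.val ≠ 0 := fun e => by
      obtain ⟨j, hj⟩ := hμ
      exact hj (hind μ (by rw [← hsum]; exact Pt.ext (by rw [e, Pt.val_zero])) j)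
    have hpa : p • a = 0 := by
      rw [hsum, Finset.smul_sum]
      exact Finset.sum_eq_zero fun j _ => by rw [smul_comm, hr, smul_zero]
    have hmem : a.val ∈ Z :=
      (hZ _).2 ⟨a.norm_lt, by rw [← val_nsmul_p, hpa, Pt.val_zero]⟩
    have hle : δ₀ ≤ ‖a.val‖ := Finset.min'_le _ _ (Finset.mem_insert_of_mem
      (Finset.mem_image.2 ⟨a.val, Finset.mem_filter.2 ⟨hmem, hne⟩, rfl⟩))
    have hlt' : ‖a.val‖ < δ₀ := by
      rw [ha, val_phiPt]
      exact hsmall _ (Pt.norm_lt _) hlt
    exact absurd hle (not_le.2 hlt')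
  · simp only [hval]
    exact det_dMul_ne_zero p n u hu hh hhn hu0 huh r hr hgen

end Vale.P217

end
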