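import Vale.Agent.P217.CoverCongr
import Vale.Agent.P217.Ball

/-!
The map `[p]` on the open ball, in characteristic `p`.
-/

noncomputable section

set_option linter.unusedSectionVars false

namespace Vale.P217

open Filter Topology

variable (p : ℕ) [Fact p.Prime] (n : ℕ)
variable {O : Type*} [NormedCommRing O] [IsUltrametricDist O] [UnitNormed O] [CompleteSpace O]

/-- `[p]` of the law with parameters `u`, as a map on the unit ball. -/
def mulP (u : Fin (n - 1) → O) (x : O) : O := evalP (mulSeries (fg p n u) p) x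

theorem norm_mulP_le (u : Fin (n - 1) → O) {x : O} (hx : ‖x‖ < 1) : ‖mulP p n u x‖ ≤ ‖x‖ :=
  norm_evalP_le hx _ (constantCoeff_mulSeries _ _)

theorem norm_mulP_lt (u : Fin (n - 1) → O) {x : O} (hx : ‖x‖ < 1) : ‖mulP p n u x‖ < 1 :=
  (norm_mulP_le p n u hx).trans_lt hx

theorem norm_iterate_mulP_lt (u : Fin (n - 1) → O) {x : O} (hx : ‖x‖ < 1) :
    ∀ l, ‖(mulP p n u)^[l] x‖ < 1
  | 0 => hx
  | l + 1 => by
    rw [Function.iterate_succ_apply']
    exact norm_mulP_lt p n u (norm_iterate_mulP_lt u hx l)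

theorem norm_iterate_mulP_le (u : Fin (n - 1) → O) {x : O} (hx : ‖x‖ < 1) :
    ∀ l, ‖(mulP p n u)^[l] x‖ ≤ ‖x‖
  | 0 => le_rfl
  | l + 1 => by
    rw [Function.iterate_succ_apply']
    exact (norm_mulP_le p n u (norm_iterate_mulP_lt p n u hx l)).trans
      (norm_iterate_mulP_le u hx l)

theorem norm_mulP_param {u v : Fin (n - 1) → O} {δ : ℝ} (hδ : 0 ≤ δ) (h : ∀ i, ‖u i - v i‖ ≤ δ)
    {x : O} (hx : ‖x‖ < 1) : ‖mulP p n u x - mulP p n v x‖ ≤ δ :=
  norm_evalP_sub_coeff hδ hx fun d => by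
    rw [coeff_mulSeries_fg, coeff_mulSeries_fg]
    exact norm_aeval_sub_le _ hδ h

theorem val_nsmul_p {u : Fin (n - 1) → O} (a : Pt (fg p n u)) : (p • a).val = mulP p n u a.val :=
  nsmul_val _ a p

theorem val_nsmul_pow {u : Fin (n - 1) → O} (a : Pt (fg p n u)) :
    ∀ l, (p ^ l • a).val = (mulP p n u)^[l] a.val
  | 0 => by simp
  | l + 1 => by
    rw [Function.iterate_succ_apply', ← val_nsmul_pow a l, ← val_nsmul_p, smul_smul, pow_succ']

theorem iterate_mulP_fadd (u : Fin (n - 1) → O) {a b : O} (ha : ‖a‖ < 1) (hb : ‖b‖ < 1) (l : ℕ) :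
    (mulP p n u)^[l] (fadd (fg p n u) a b) =
      fadd (fg p n u) ((mulP p n u)^[l] a) ((mulP p n u)^[l] b) := by
  have h := congrArg Pt.val (smul_add (p ^ l) (Pt.mk (fg p n u) a ha) (Pt.mk _ b hb))
  rw [val_nsmul_pow, Pt.val_add, Pt.val_add, val_nsmul_pow, val_nsmul_pow] at h
  exact h

theorem iterate_mulP_hom {u v : Fin (n - 1) → O} {f : PowerSeries O}
    (hf : IsHomSeries (fg p n u) (fg p n v) f) {x : O} (hx : ‖x‖ < 1) (l : ℕ) :
    evalP f ((mulP p n u)^[l] x) = (mulP p n v)^[l] (evalP f x) := by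
  have h := congrArg Pt.val ((homPt hf).map_nsmul (p ^ l) (Pt.mk (fg p n u) x hx))
  rw [val_nsmul_pow] at h
  change evalP f (p ^ l • Pt.mk (fg p n u) x hx).val = _ at h
  rw [val_nsmul_pow] at h
  exact h

variable [CharP O p] (hn : 1 ≤ n)
include hn

theorem norm_mulP_sub_pow {u : Fin (n - 1) → O} {ε : ℝ} (hε : 0 ≤ ε) (hu : ∀ i, ‖u i‖ ≤ ε)
    {x : O} (hx : ‖x‖ < 1) : ‖mulP p n u x - x ^ p ^ n‖ ≤ ε := by
  have h := norm_mulP_param p n (v := (0 : Fin (n - 1) → O)) hε (fun i => by simpa using hu i) hx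
  rwa [mulP, mulP, mulSeries_fg_zero p n hn, evalP_pow hx, evalP_X hx] at h

theorem mulP_zero_param {x : O} (hx : ‖x‖ < 1) :
    mulP p n (0 : Fin (n - 1) → O) x = x ^ p ^ n := by
  rw [mulP, mulSeries_fg_zero p n hn, evalP_pow hx, evalP_X hx]

theorem fadd_zero_param_pow {a b : O} (ha : ‖a‖ < 1) (hb : ‖b‖ < 1) :
    fadd (fg p n (0 : Fin (n - 1) → O)) a b ^ p ^ n =
      fadd (fg p n (0 : Fin (n - 1) → O)) (a ^ p ^ n) (b ^ p ^ n) := by
  have h := iterate_mulP_fadd p n (0 : Fin (n - 1) → O) ha hb 1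
  simp only [Function.iterate_one] at h
  rwa [mulP_zero_param p n hn (norm_fadd_lt_one _ ha hb), mulP_zero_param p n hn ha,
    mulP_zero_param p n hn hb] at h

/-- `[p]` factors through the `p`-th power. -/
theorem norm_mulP_sub_le (u : Fin (n - 1) → O) {x y : O} (hx : ‖x‖ < 1) (hy : ‖y‖ < 1) :
    ‖mulP p n u x - mulP p n u y‖ ≤ ‖x - y‖ ^ p := by
  obtain ⟨g, hg0, -, hg⟩ := mulSeries_fg_stratum p n u (h := 1) le_rfl hn (fun i hi => by omega)
  have hpos : p ≠ 0 := (Fact.out : p.Prime).ne_zero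
  have hX : PowerSeries.constantCoeff ((PowerSeries.X : PowerSeries O) ^ p ^ 1) = 0 := by
    simp [hpos]
  have hev : ∀ z : O, ‖z‖ < 1 → mulP p n u z = evalP g (z ^ p) := fun z hz => by
    rw [mulP, hg, evalP_subst hz _ hX, evalP_pow hz, evalP_X hz, pow_one]
  have hlt : ∀ z : O, ‖z‖ < 1 → ‖z ^ p‖ < 1 := fun z hz =>
    (norm_pow_le' z p).trans_lt (pow_lt_one₀ (norm_nonneg _) hz hpos)
  rw [hev x hx, hev y hy]
  refine norm_evalMv_sub_le (fun _ => hlt x hx) (fun _ => hlt y hy) g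
    (pow_nonneg (norm_nonneg _) _) fun _ => ?_
  rw [← sub_pow_char]
  exact norm_pow_le' _ _

theorem norm_iterate_mulP_sub_le (u : Fin (n - 1) → O) {x y : O} {δ : ℝ} (hδ1 : δ ≤ 1)
    (hx : ‖x‖ < 1) (hy : ‖y‖ < 1) (hxy : ‖x - y‖ ≤ δ) (l : ℕ) :
    ‖(mulP p n u)^[l] x - (mulP p n u)^[l] y‖ ≤ δ ^ (l + 1) := by
  have hδ0 : 0 ≤ δ := (norm_nonneg _).trans hxy
  induction l with
  | zero => simpa using hxy
  | succ l ih =>
    rw [Function.iterate_succ_apply', Function.iterate_succ_apply']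
    refine (norm_mulP_sub_le p n hn u (norm_iterate_mulP_lt p n u hx l)
      (norm_iterate_mulP_lt p n u hy l)).trans ?_
    refine (pow_le_pow_left₀ (norm_nonneg _) ih p).trans ?_
    rw [← pow_mul]
    refine pow_le_pow_of_le_one hδ0 hδ1 ?_
    have := Nat.mul_le_mul_left (l + 1) (Fact.out : p.Prime).two_le
    omega

theorem norm_iterate_mulP_param {u v : Fin (n - 1) → O} {δ : ℝ} (hδ : 0 ≤ δ)
    (h : ∀ i, ‖u i - v i‖ ≤ δ) {x : O} (hx : ‖x‖ < 1) :
    ∀ l, ‖(mulP p n u)^[l] x - (mulP p n v)^[l] x‖ ≤ δ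
  | 0 => by simpa using hδ
  | l + 1 => by
    rw [Function.iterate_succ_apply', Function.iterate_succ_apply']
    refine (norm_sub_trans _ (mulP p n u ((mulP p n v)^[l] x)) _).trans (max_le ?_ ?_)
    · refine (norm_mulP_sub_le p n hn u (norm_iterate_mulP_lt p n u hx l)
        (norm_iterate_mulP_lt p n v hx l)).trans ?_
      exact (pow_le_of_le_one (norm_nonneg _) (UnitNormed.norm_le_one _)
        (Fact.out : p.Prime).ne_zero).trans (norm_iterate_mulP_param hδ h hx l)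
    · exact norm_mulP_param p n hδ h (norm_iterate_mulP_lt p n v hx l)

/-- Iterating `[p]` on sequences which are uniformly `ε`-close gives the same limit. -/
theorem tendsto_iterate_mulP_sub (u : Fin (n - 1) → O) {ε : ℝ} (hε0 : 0 ≤ ε) (hε : ε < 1)
    {a b : ℕ → O} (ha : ∀ l, ‖a l‖ < 1) (hb : ∀ l, ‖b l‖ < 1) (h : ∀ l, ‖a l - b l‖ ≤ ε) :
    Tendsto (fun l => (mulP p n u)^[l] (a l) - (mulP p n u)^[l] (b l)) atTop (𝓝 0) := by
  refine squeeze_zero_norm (fun l => norm_iterate_mulP_sub_le p n hn u hε.le (ha l) (hb l) (h l) l)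
    ?_
  exact (tendsto_pow_atTop_nhds_zero_of_lt_one hε0 hε).comp (tendsto_add_atTop_nat 1)

end Vale.P217

end
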