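import Vale.Agent.P217.Ball
import Mathlib.RingTheory.PowerSeries.WeierstrassPreparation
import Mathlib.RingTheory.PowerSeries.Inverse
import Mathlib.LinearAlgebra.Lagrange
import Mathlib.Analysis.Normed.Field.Lemmas

/-!
Zeros in the open unit ball of a series whose first unit coefficient has index `N`.
-/

noncomputable section

namespace Vale.P217

open Filter Topology

variable {K : Type*} [NontriviallyNormedField K] [IsUltrametricDist K] [CompleteSpace K]

theorem isUnit_ball {x : Ball K} (hx : ‖x‖ = 1) : IsUnit x := by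
  have hx0 : (x : K) ≠ 0 := fun h => by rw [← norm_coe, h, norm_zero] at hx; exact zero_ne_one hx
  refine IsUnit.of_mul_eq_one ⟨(x : K)⁻¹, ?_⟩ (Subtype.ext (mul_inv_cancel₀ hx0))
  rw [mem_Ball, norm_inv, norm_coe, hx, inv_one]

theorem norm_eq_one_of_isUnit {x : Ball K} (hx : IsUnit x) : ‖x‖ = 1 := by
  obtain ⟨u, rfl⟩ := hx
  have h : ‖(u : Ball K)‖ * ‖((u⁻¹ : (Ball K)ˣ) : Ball K)‖ = 1 := by
    rw [← norm_mul_Ball, Units.mul_inv]; exact norm_one (α := K)
  refine le_antisymm (UnitNormed.norm_le_one _) ?_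
  rw [← h]
  exact mul_le_of_le_one_right (norm_nonneg _) (UnitNormed.norm_le_one _)

theorem mem_span_singleton_ball {π : Ball K} (hπ : π ≠ 0) (x : Ball K) :
    x ∈ Ideal.span {π} ↔ ‖x‖ ≤ ‖π‖ := by
  rw [Ideal.mem_span_singleton]
  constructor
  · rintro ⟨y, rfl⟩
    rw [norm_mul_Ball]
    exact mul_le_of_le_one_right (norm_nonneg _) (UnitNormed.norm_le_one _)
  · intro h
    have hπ' : (π : K) ≠ 0 := fun e => hπ (Subtype.ext e)
    refine ⟨⟨(x : K) / π, ?_⟩, Subtype.ext ?_⟩
    · rw [mem_Ball, norm_div]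
      exact div_le_one_of_le₀ h (norm_nonneg _)
    · exact (mul_div_cancel₀ _ hπ').symm

theorem isAdicComplete_span {π : Ball K} (hπ : π ≠ 0) (h1 : ‖π‖ < 1) :
    IsAdicComplete (Ideal.span {π}) (Ball K) := by
  have hk : ∀ (k : ℕ) (x y : Ball K),
      (x ≡ y [SMOD ((Ideal.span {π}) ^ k • ⊤ : Submodule (Ball K) (Ball K))]) ↔
        ‖x - y‖ ≤ ‖π‖ ^ k := fun k x y => by
    rw [SModEq.sub_mem, smul_eq_mul, Ideal.mul_top, Ideal.span_singleton_pow,
      mem_span_singleton_ball (pow_ne_zero _ hπ), norm_pow_Ball]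
  have htend : Tendsto (fun k : ℕ => ‖π‖ ^ k) atTop (𝓝 0) :=
    tendsto_pow_atTop_nhds_zero_of_lt_one (norm_nonneg _) h1
  refine { haus' := fun x hx => ?_, prec' := fun f hf => ?_ }
  · refine norm_le_zero_iff.1 (ge_of_tendsto' htend fun k => ?_)
    simpa using (hk k x 0).1 (hx k)
  · have hc : CauchySeq f := by
      refine cauchySeq_of_le_geometric ‖π‖ 1 h1 fun k => ?_
      rw [dist_eq_norm, one_mul]
      exact (hk k _ _).1 (hf (Nat.le_succ k))
    obtain ⟨L, hL⟩ := cauchySeq_tendsto_of_complete hc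
    refine ⟨L, fun k => (hk k _ _).2 ?_⟩
    refine le_of_tendsto ((tendsto_const_nhds.sub hL).norm) ?_
    filter_upwards [eventually_ge_atTop k] with j hj
    exact (hk k _ _).1 (hf hj)

theorem exists_small_ne_zero : ∃ x : Ball K, x ≠ 0 ∧ ‖x‖ < 1 := by
  obtain ⟨x, h0, h1⟩ := NormedField.exists_norm_lt_one K
  exact ⟨⟨x, h1.le⟩, fun h => (norm_pos_iff.1 h0) (congrArg Subtype.val h), h1⟩

/-- Evaluation of a polynomial as a series. -/
theorem evalP_coe (P : Polynomial (Ball K)) {x : Ball K} (hx : ‖x‖ < 1) :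
    evalP (P : PowerSeries (Ball K)) x = P.eval x := by
  induction P using Polynomial.induction_on' with
  | add P Q hP hQ => rw [Polynomial.coe_add, evalP_add hx, hP, hQ, Polynomial.eval_add]
  | monomial k a =>
    rw [← Polynomial.C_mul_X_pow_eq_monomial, Polynomial.coe_mul, Polynomial.coe_C,
      Polynomial.coe_pow, Polynomial.coe_X, evalP_mul hx, evalP_C hx, evalP_pow hx, evalP_X hx]
    simp

/-- The hypothesis on the series: the coefficient of index `N` is the first unit one. -/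
structure FirstUnitCoeff (g : PowerSeries (Ball K)) (N : ℕ) : Prop where
  low : ∀ j < N, ‖PowerSeries.coeff j g‖ < 1
  top : ‖PowerSeries.coeff N g‖ = 1

namespace FirstUnitCoeff

variable {g : PowerSeries (Ball K)} {N : ℕ}

theorem exists_uniformizer (hg : FirstUnitCoeff g N) :
    ∃ π : Ball K, π ≠ 0 ∧ ‖π‖ < 1 ∧ ∀ j < N, ‖PowerSeries.coeff j g‖ ≤ ‖π‖ := by
  obtain ⟨x, hx0, hx1⟩ := exists_small_ne_zero (K := K)
  induction N generalizing g with
  | zero => exact ⟨x, hx0, hx1, fun j hj => absurd hj (Nat.not_lt_zero j)⟩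
  | succ N _ =>
    obtain ⟨i, hi⟩ := Finite.exists_max fun i : Fin (N + 1) => ‖PowerSeries.coeff (i : ℕ) g‖
    rcases le_total ‖PowerSeries.coeff (i : ℕ) g‖ ‖x‖ with h | h
    · exact ⟨x, hx0, hx1, fun j hj => (hi ⟨j, hj⟩).trans h⟩
    · refine ⟨PowerSeries.coeff (i : ℕ) g, fun e => ?_, hg.low i i.2, fun j hj => hi ⟨j, hj⟩⟩
      rw [e, norm_zero] at h
      exact hx0 (norm_le_zero_iff.1 h)

/-- Division with remainder by `g`. -/
theorem exists_division (hg : FirstUnitCoeff g N) (G : PowerSeries (Ball K)) :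
    ∃ (q : PowerSeries (Ball K)) (r : Polynomial (Ball K)) (π : Ball K), r.degree < N ∧
      ‖π‖ < 1 ∧ (∀ j < N, ‖PowerSeries.coeff j g‖ ≤ ‖π‖) ∧ G = g * q + r := by
  obtain ⟨π, hπ0, hπ1, hπ⟩ := hg.exists_uniformizer
  have := isAdicComplete_span hπ0 hπ1
  set I := Ideal.span {π}
  have hord : (g.map (Ideal.Quotient.mk I)).order = N := by
    rw [PowerSeries.order_eq_nat]
    refine ⟨?_, fun j hj => ?_⟩
    · rw [PowerSeries.coeff_map, ne_eq, Ideal.Quotient.eq_zero_iff_mem,
        mem_span_singleton_ball hπ0, hg.top]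
      exact not_le.2 hπ1
    · rw [PowerSeries.coeff_map, Ideal.Quotient.eq_zero_iff_mem, mem_span_singleton_ball hπ0]
      exact hπ j hj
  have H : g.IsWeierstrassDivisorAt I := by
    rw [PowerSeries.IsWeierstrassDivisorAt, hord]
    exact isUnit_ball hg.top
  have hdiv := H.isWeierstrassDivisionAt_div_mod G
  refine ⟨H.div G, H.mod G, π, ?_, hπ1, hπ, hdiv.eq_mul_add⟩
  have h := hdiv.degree_lt
  rwa [hord, ENat.toNat_coe] at h

/-- A series vanishing at `N` zeros of `g` has its first `N` coefficients in the open ball. -/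
theorem coeff_lt_one_of_vanish (hg : FirstUnitCoeff g N) (G : PowerSeries (Ball K))
    (Z : Finset (Ball K)) (hcard : Z.card = N)
    (hZ : ∀ r ∈ Z, ‖r‖ < 1 ∧ evalP g r = 0 ∧ evalP G r = 0) :
    ∀ m < N, ‖PowerSeries.coeff m G‖ < 1 := by
  obtain ⟨q, r, π, hr, hπ1, hπ, hG⟩ := hg.exists_division G
  have hr0 : r = 0 := by
    refine Polynomial.eq_zero_of_degree_lt_of_eval_finset_eq_zero Z (by rw [hcard]; exact hr)
      fun x hx => ?_
    obtain ⟨hx1, hgx, hGx⟩ := hZ x hx
    rw [hG, evalP_add hx1, evalP_mul hx1, hgx, zero_mul, zero_add, evalP_coe r hx1] at hGx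
    exact hGx
  intro m hm
  rw [hG, hr0, Polynomial.coe_zero, add_zero, PowerSeries.coeff_mul]
  refine lt_of_le_of_lt (IsUltrametricDist.norm_sum_le_of_forall_le_of_nonneg (norm_nonneg π)
    fun x hx => ?_) hπ1
  rw [Finset.mem_antidiagonal] at hx
  rw [norm_mul_Ball]
  refine (mul_le_of_le_one_right (norm_nonneg _) (UnitNormed.norm_le_one _)).trans (hπ _ ?_)
  omega

/-- Weierstrass factorisation. -/
theorem exists_factor (hg : FirstUnitCoeff g N) :
    ∃ (f : Polynomial (Ball K)) (h : PowerSeries (Ball K)), f.Monic ∧ f.natDegree = N ∧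
      (∀ j < N, ‖f.coeff j‖ < 1) ∧ IsUnit (PowerSeries.constantCoeff h) ∧
      (f : PowerSeries (Ball K)) = g * h := by
  obtain ⟨q, r, π, hr, hπ1, hπ, hG⟩ := hg.exists_division (PowerSeries.X ^ N)
  set f : Polynomial (Ball K) := Polynomial.X ^ N - r with hf
  have hfq : (f : PowerSeries (Ball K)) = g * q := by
    rw [hf, Polynomial.coe_sub, Polynomial.coe_pow, Polynomial.coe_X, hG, add_sub_cancel_right]
  have hsmall : ∀ m < N, ‖f.coeff m‖ ≤ ‖π‖ := fun m hm => by
    rw [← Polynomial.coeff_coe, hfq, PowerSeries.coeff_mul]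
    refine IsUltrametricDist.norm_sum_le_of_forall_le_of_nonneg (norm_nonneg π) fun x hx => ?_
    rw [Finset.mem_antidiagonal] at hx
    rw [norm_mul_Ball]
    exact (mul_le_of_le_one_right (norm_nonneg _) (UnitNormed.norm_le_one _)).trans
      (hπ _ (by omega))
  have hdeg : r.degree < (Polynomial.X ^ N : Polynomial (Ball K)).degree := by
    rwa [Polynomial.degree_X_pow]
  have hmonic : f.Monic := (Polynomial.monic_X_pow N).sub_of_left hdeg
  have hnat : f.natDegree = N := by
    rw [hf, Polynomial.natDegree, Polynomial.degree_sub_eq_left_of_degree_lt hdeg,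
      Polynomial.degree_X_pow]
    rfl
  refine ⟨f, q, hmonic, hnat, fun m hm => (hsmall m hm).trans_lt hπ1, ?_, hfq⟩
  refine isUnit_ball (le_antisymm (UnitNormed.norm_le_one _) ?_)
  have h1 : f.coeff N = 1 := by rw [← hnat]; exact hmonic.coeff_natDegree
  have h2 : f.coeff N = PowerSeries.coeff N g * PowerSeries.constantCoeff q +
      ∑ x ∈ (Finset.antidiagonal N).erase (N, 0),
        PowerSeries.coeff x.1 g * PowerSeries.coeff x.2 q := by
    rw [← Polynomial.coeff_coe, hfq, PowerSeries.coeff_mul,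
      ← Finset.add_sum_erase _ _ (a := (N, 0)) (by simp),
      PowerSeries.coeff_zero_eq_constantCoeff]
  have h3 : ‖∑ x ∈ (Finset.antidiagonal N).erase (N, 0),
      PowerSeries.coeff x.1 g * PowerSeries.coeff x.2 q‖ ≤ ‖π‖ := by
    refine IsUltrametricDist.norm_sum_le_of_forall_le_of_nonneg (norm_nonneg π) fun x hx => ?_
    rw [Finset.mem_erase, Finset.mem_antidiagonal] at hx
    rw [norm_mul_Ball]
    refine (mul_le_of_le_one_right (norm_nonneg _) (UnitNormed.norm_le_one _)).trans (hπ _ ?_)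
    by_contra hle
    exact hx.1 (Prod.ext (by simp only; omega) (by simp only; omega))
  by_contra hlt
  rw [not_le] at hlt
  have h4 : (1 : ℝ) ≤ max ‖PowerSeries.coeff N g * PowerSeries.constantCoeff q‖
      ‖∑ x ∈ (Finset.antidiagonal N).erase (N, 0),
        PowerSeries.coeff x.1 g * PowerSeries.coeff x.2 q‖ := by
    refine le_trans (le_of_eq ?_) (IsUltrametricDist.norm_add_le_max _ _)
    rw [← h2, h1]
    exact (norm_one (α := K)).symm
  rw [norm_mul_Ball, hg.top, one_mul] at h4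
  exact absurd h4 (not_le.2 (max_lt hlt (h3.trans_lt hπ1)))

variable [IsAlgClosed K]

theorem exists_root (hg : FirstUnitCoeff g N) (hN : 1 ≤ N) :
    ∃ x : Ball K, ‖x‖ < 1 ∧ evalP g x = 0 := by
  obtain ⟨f, h, hmonic, hnat, hsmall, hh, hfh⟩ := hg.exists_factor
  obtain ⟨y, hy⟩ := IsAlgClosed.exists_root (f.map (Ball K).subtype) (by
    rw [hmonic.degree_map, Polynomial.degree_eq_natDegree hmonic.ne_zero, hnat]
    exact_mod_cast (by omega : N ≠ 0))
  have hy1 : ‖y‖ < 1 := norm_root_lt_one hmonic hnat hsmall hy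
  refine ⟨⟨y, hy1.le⟩, hy1, ?_⟩
  have h0 : f.eval (⟨y, hy1.le⟩ : Ball K) = 0 := by
    refine Subtype.ext ?_
    rw [Polynomial.IsRoot, show y = (Ball K).subtype ⟨y, hy1.le⟩ from rfl,
      Polynomial.eval_map_apply] at hy
    exact hy
  have hsmall' : ‖(⟨y, hy1.le⟩ : Ball K)‖ < 1 := hy1
  have := evalP_coe f hsmall'
  rw [hfh, evalP_mul hsmall', h0] at this
  exact (mul_eq_zero.1 this).resolve_right (evalP_ne_zero_of_isUnit hsmall' hh)
where
  norm_root_lt_one {f : Polynomial (Ball K)} (hmonic : f.Monic) (hnat : f.natDegree = N)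
      (hsmall : ∀ j < N, ‖f.coeff j‖ < 1) {y : K}
      (hy : (f.map (Ball K).subtype).IsRoot y) : ‖y‖ < 1 := by
    by_contra hge
    rw [not_lt] at hge
    have hd : (f.map (Ball K).subtype).natDegree = N := by rw [hmonic.natDegree_map, hnat]
    rw [Polynomial.IsRoot, Polynomial.eval_eq_sum_range, hd, Finset.sum_range_succ] at hy
    have hN1 : (f.map (Ball K).subtype).coeff N = 1 := by
      rw [← hd]; exact (hmonic.map _).coeff_natDegree
    rw [hN1, one_mul] at hy
    rcases Nat.eq_zero_or_pos N with hN0 | hN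
    · rw [hN0] at hy
      simp at hy
    have h1 : ‖y ^ N‖ = ‖∑ i ∈ Finset.range N, (f.map (Ball K).subtype).coeff i * y ^ i‖ := by
      rw [eq_neg_of_add_eq_zero_right hy, norm_neg]
    obtain ⟨i, hi, hle⟩ := IsUltrametricDist.exists_norm_finset_sum_le_of_nonempty
      (Finset.nonempty_range_iff.2 hN.ne')
      (fun i => (f.map (Ball K).subtype).coeff i * y ^ i)
    rw [Finset.mem_range] at hi
    rw [← h1, norm_pow, norm_mul, norm_pow, Polynomial.coeff_map] at hle
    have h2 : ‖(Ball K).subtype (f.coeff i)‖ * ‖y‖ ^ i < ‖y‖ ^ N :=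
      calc ‖(Ball K).subtype (f.coeff i)‖ * ‖y‖ ^ i < 1 * ‖y‖ ^ i :=
            mul_lt_mul_of_pos_right (hsmall i hi) (pow_pos (by linarith) i)
        _ ≤ ‖y‖ ^ N := by rw [one_mul]; exact pow_le_pow_right₀ hge hi.le
    linarith
  evalP_ne_zero_of_isUnit {x : Ball K} (hx : ‖x‖ < 1) {h : PowerSeries (Ball K)}
      (hh : IsUnit (PowerSeries.constantCoeff h)) : evalP h x ≠ 0 := by
    have hu : IsUnit h := PowerSeries.isUnit_iff_constantCoeff.2 hh
    rw [evalP, ← evalHom_apply (fun _ : Unit => hx)]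
    exact (hu.map _).ne_zero

/-- `g` has exactly `N` zeros if none of them is double. -/
theorem exists_zeros (hg : FirstUnitCoeff g N)
    (hsimple : ∀ r : Ball K, ‖r‖ < 1 → evalP g r = 0 →
      ¬ ∀ x : Ball K, ‖x‖ < 1 → ‖evalP g x‖ ≤ ‖x - r‖ ^ 2) :
    ∃ Z : Finset (Ball K), Z.card = N ∧ ∀ x, x ∈ Z ↔ ‖x‖ < 1 ∧ evalP g x = 0 := by
  classical
  obtain ⟨f, h, hmonic, hnat, hsmall, hh, hfh⟩ := hg.exists_factor
  set f' := f.map (Ball K).subtype with hf'
  have hsplit : f'.Splits := IsAlgClosed.splits f'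
  have hroots : f'.roots.card = N := by
    rw [← hsplit.natDegree_eq_card_roots, hmonic.natDegree_map, hnat]
  have hlt : ∀ y ∈ f'.roots, ‖y‖ < 1 := fun y hy =>
    exists_root.norm_root_lt_one hmonic hnat hsmall (Polynomial.isRoot_of_mem_roots hy)
  have key : ∀ x : Ball K, ‖x‖ < 1 →
      ((x : K) ∈ f'.roots ↔ evalP g x = 0) ∧
        ‖evalP g x‖ = (f'.roots.map fun y => ‖(x : K) - y‖).prod := by
    intro x hx
    have h1 := evalP_coe f hx
    rw [hfh, evalP_mul hx] at h1
    have hne := exists_root.evalP_ne_zero_of_isUnit (K := K) hx hh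
    have h2 : f'.eval (x : K) = ((f.eval x : Ball K) : K) :=
      Polynomial.eval_map_apply (Ball K).subtype x
    refine ⟨?_, ?_⟩
    · rw [Polynomial.mem_roots (hmonic.map _).ne_zero, Polynomial.IsRoot, h2, ← h1]
      constructor
      · intro e
        exact (mul_eq_zero.1 (Subtype.ext e : evalP g x * evalP h x = 0)).resolve_right hne
      · intro e; rw [e, zero_mul]; rfl
    · have hu : ‖evalP h x‖ = 1 := by
        refine norm_eq_one_of_isUnit ?_
        rw [evalP, ← evalHom_apply (fun _ : Unit => hx)]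
        exact (PowerSeries.isUnit_iff_constantCoeff.2 hh).map _
      have h3 : ‖f'.eval (x : K)‖ = ‖evalP g x‖ := by
        rw [h2, ← h1, norm_coe, norm_mul_Ball, hu, mul_one]
      rw [← h3, hsplit.eval_eq_prod_roots_of_monic (hmonic.map _)]
      rw [← normHom_apply, map_multiset_prod, Multiset.map_map]
      rfl
  have hnd : f'.roots.Nodup := by
    rw [Multiset.nodup_iff_ne_cons_cons]
    intro y t ht
    have hy0 : y ∈ f'.roots := by rw [ht]; simp
    refine hsimple ⟨y, (hlt y hy0).le⟩ (hlt y hy0) ((key ⟨y, _⟩ (hlt y hy0)).1.1 hy0)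
      fun x hx => ?_
    rw [(key x hx).2, ht, Multiset.map_cons, Multiset.map_cons, Multiset.prod_cons,
      Multiset.prod_cons, ← mul_assoc, ← sq]
    refine mul_le_of_le_one_right (pow_nonneg (norm_nonneg _) _) ?_
    have hbd : ∀ z ∈ t, ‖(x : K) - z‖ ≤ 1 := fun z hz =>
      (sub_eq_add_neg (x : K) z ▸ IsUltrametricDist.norm_add_le_max (x : K) (-z)).trans
        (max_le x.2 (le_of_eq_of_le (norm_neg z) (hlt z (by rw [ht]; simp [hz])).le))
    clear ht
    induction t using Multiset.induction_on with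
    | empty => simp
    | cons a t ih =>
      rw [Multiset.map_cons, Multiset.prod_cons]
      exact mul_le_one₀ (hbd a (by simp)) (Multiset.prod_nonneg fun b hb => by
        obtain ⟨z, -, rfl⟩ := Multiset.mem_map.1 hb
        exact norm_nonneg _) (ih fun z hz => hbd z (by simp [hz]))
  refine ⟨(f'.roots.toFinset).subtype (fun y => y ∈ Ball K), ?_, fun x => ?_⟩
  · rw [Finset.card_subtype, Finset.filter_true_of_mem fun y hy =>
      show y ∈ Ball K from (hlt y (Multiset.mem_toFinset.1 hy)).le,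
      Multiset.toFinset_card_of_nodup hnd, hroots]
  · rw [Finset.mem_subtype, Multiset.mem_toFinset]
    exact ⟨fun hx => ⟨hlt _ hx, (key x (hlt _ hx)).1.1 hx⟩, fun ⟨hx, he⟩ => (key x hx).1.2 he⟩

end FirstUnitCoeff

end Vale.P217

end
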