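import Vale.Agent.P217.CoverPhi
import Vale.Agent.P217.CoverRoots
import Mathlib.RingTheory.PowerSeries.Expand

/-!
The kernel of `[p]` on the open ball in height `h < n`.
-/

noncomputable section

set_option linter.unusedSectionVars false

namespace Vale.P217

open Filter Topology

variable (p : ℕ) [Fact p.Prime] (n : ℕ)

theorem coeff_mulSeries_of_stratum {R : Type*} [CommRing R] {F : FormalGroup R}
    {g : PowerSeries R} {q : ℕ} (hq : q ≠ 0)
    (hg : mulSeries F p = PowerSeries.subst (PowerSeries.X ^ q) g) (d : ℕ) :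
    PowerSeries.coeff d (mulSeries F p) =
      if q ∣ d then PowerSeries.coeff (d / q) g else 0 := by
  rw [hg, ← PowerSeries.expand_apply q hq, PowerSeries.coeff_expand]

section Stratum

variable {R : Type*} [CommRing R] [CharP R p] (v : Fin (n - 1) → R) {h : ℕ} (hh : 1 ≤ h)
  (hhn : h ≤ n) (hv : ∀ i : Fin (n - 1), (i : ℕ) + 1 < h → v i = 0)
include hh hhn hv

theorem coeff_mulSeries_not_dvd {d : ℕ} (hd : ¬p ^ h ∣ d) :
    PowerSeries.coeff d (mulSeries (fg p n v) p) = 0 := by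
  obtain ⟨g, -, -, hg⟩ := mulSeries_fg_stratum p n v hh hhn hv
  rw [coeff_mulSeries_of_stratum p (pow_ne_zero h (Fact.out : p.Prime).ne_zero) hg, if_neg hd]

theorem coeff_mulSeries_leading :
    PowerSeries.coeff (p ^ h) (mulSeries (fg p n v) p) = uvar n v h := by
  obtain ⟨g, -, hg1, hg⟩ := mulSeries_fg_stratum p n v hh hhn hv
  rw [coeff_mulSeries_of_stratum p (pow_ne_zero h (Fact.out : p.Prime).ne_zero) hg,
    if_pos (dvd_refl _), Nat.div_self (pow_pos (Fact.out : p.Prime).pos h), hg1]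

end Stratum

variable {K : Type*} [NontriviallyNormedField K] [IsUltrametricDist K] [CompleteSpace K]
  [CharP K p]

theorem Pt.fadd_zero_left {F : FormalGroup (Ball K)} {b : Ball K} (hb : ‖b‖ < 1) :
    fadd F 0 b = b :=
  congrArg Pt.val (Pt.zero_add' (Pt.mk F b hb))

theorem Pt.fadd_zero_right {F : FormalGroup (Ball K)} {b : Ball K} (hb : ‖b‖ < 1) :
    fadd F b 0 = b :=
  congrArg Pt.val (Pt.add_zero' (Pt.mk F b hb))

theorem norm_pow_ball_lt {x : Ball K} (hx : ‖x‖ < 1) {k : ℕ} (hk : k ≠ 0) : ‖x ^ k‖ < 1 :=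
  (norm_pow_le' x k).trans_lt (pow_lt_one₀ (norm_nonneg _) hx hk)

variable [IsAlgClosed K]

theorem exists_qRoot {x : Ball K} (hx : ‖x‖ < 1) (m : ℕ) :
    ∃ y : Ball K, ‖y‖ < 1 ∧ y ^ p ^ m = x := by
  refine ⟨(frobeniusEquiv (Ball K) p).symm^[m] x, ?_, iterate_frobSymm_pow p x m⟩
  by_contra hge
  rw [← iterate_frobSymm_pow p x m, norm_pow_Ball] at hx
  exact absurd hx (not_lt.2 (one_le_pow₀ (not_lt.1 hge)))

theorem pow_p_pow_injective (m : ℕ) : Function.Injective fun x : Ball K => x ^ p ^ m := by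
  intro x y h
  have h' : iterateFrobenius (Ball K) p m x = iterateFrobenius (Ball K) p m y := by
    simpa [iterateFrobenius_def] using h
  exact (bijective_iterateFrobenius (Ball K) p m).1 h'

variable {u : Fin (n - 1) → Ball K} {ε : ℝ} (hu : SmallParam n u ε) {h : ℕ} (hh : 1 ≤ h)
  (hhn : h < n) (hu0 : ∀ i : Fin (n - 1), (i : ℕ) + 1 < h → u i = 0)
include hu hh hhn hu0

theorem norm_coeff_mulSeries (d : ℕ) (hd : d ≠ p ^ n) :
    ‖PowerSeries.coeff d (mulSeries (fg p n u) p)‖ ≤ ε := by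
  have h0 : PowerSeries.coeff d (mulSeries (fg p n (0 : Fin (n - 1) → Ball K)) p) = 0 := by
    rw [mulSeries_fg_zero p n (by omega), PowerSeries.coeff_X_pow, if_neg hd]
  have := norm_aeval_sub_le (O := Ball K) (u := u) (v := 0)
    (PowerSeries.coeff d (mulSeries (univFG p n) p)) hu.1 fun i => by simpa using hu.2.2 i
  rwa [← coeff_mulSeries_fg, ← coeff_mulSeries_fg, h0, sub_zero] at this

theorem norm_coeff_mulSeries_top :
    ‖PowerSeries.coeff (p ^ n) (mulSeries (fg p n u) p) - 1‖ ≤ ε := by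
  have h0 : PowerSeries.coeff (p ^ n) (mulSeries (fg p n (0 : Fin (n - 1) → Ball K)) p) = 1 := by
    rw [mulSeries_fg_zero p n (by omega), PowerSeries.coeff_X_pow, if_pos rfl]
  have := norm_aeval_sub_le (O := Ball K) (u := u) (v := 0)
    (PowerSeries.coeff (p ^ n) (mulSeries (univFG p n) p)) hu.1 fun i => by simpa using hu.2.2 i
  rwa [← coeff_mulSeries_fg, ← coeff_mulSeries_fg, h0] at this

/-- `[p] = g(X ^ (p ^ h))` with `g` of Weierstrass degree `p ^ (n - h)`. -/
theorem exists_factor_series :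
    ∃ g : PowerSeries (Ball K), PowerSeries.constantCoeff g = 0 ∧
      PowerSeries.coeff 1 g = uvar n u h ∧ FirstUnitCoeff g (p ^ (n - h)) ∧
      ∀ x : Ball K, ‖x‖ < 1 → mulP p n u x = evalP g (x ^ p ^ h) := by
  obtain ⟨g, hg0, hg1, hg⟩ := mulSeries_fg_stratum p n u hh hhn.le hu0
  have hq : p ^ h ≠ 0 := pow_ne_zero h (Fact.out : p.Prime).ne_zero
  have hcoef : ∀ m, PowerSeries.coeff m g =
      PowerSeries.coeff (p ^ h * m) (mulSeries (fg p n u) p) := fun m => by
    rw [coeff_mulSeries_of_stratum p hq hg, if_pos (dvd_mul_right _ m),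
      Nat.mul_div_cancel_left _ (Nat.pos_of_ne_zero hq)]
  have hN : p ^ h * p ^ (n - h) = p ^ n := by
    rw [← pow_add, Nat.add_sub_cancel' hhn.le]
  refine ⟨g, hg0, hg1, ⟨fun j hj => ?_, ?_⟩, fun x hx => ?_⟩
  · rw [hcoef]
    refine (norm_coeff_mulSeries p n hu hh hhn hu0 _ ?_).trans_lt hu.2.1
    rw [← hN]
    exact fun e => hj.ne (mul_left_cancel₀ hq e)
  · rw [hcoef, hN]
    refine le_antisymm (UnitNormed.norm_le_one _) ?_
    have h1 := norm_sub_le_ultra (PowerSeries.coeff (p ^ n) (mulSeries (fg p n u) p))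
      (PowerSeries.coeff (p ^ n) (mulSeries (fg p n u) p) - 1)
    rw [sub_sub_cancel] at h1
    by_contra hlt
    have h2 : max ‖PowerSeries.coeff (p ^ n) (mulSeries (fg p n u) p)‖
        ‖PowerSeries.coeff (p ^ n) (mulSeries (fg p n u) p) - 1‖ < 1 :=
      max_lt (not_le.1 hlt) ((norm_coeff_mulSeries_top p n hu hh hhn hu0).trans_lt hu.2.1)
    exact absurd (h1.trans_lt h2) (by rw [show ‖(1 : Ball K)‖ = 1 from norm_one (α := K)]; simp)
  · rw [mulP, hg, evalP_subst hx _ (by simp [(Fact.out : p.Prime).ne_zero]), evalP_pow hx,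
      evalP_X hx]

variable (huh : uvar n u h ≠ 0)
include huh

/-- The zeros of `[p]` in the open ball. -/
theorem exists_kernel :
    ∃ Z : Finset (Ball K), Z.card = p ^ (n - h) ∧
      ∀ x, x ∈ Z ↔ ‖x‖ < 1 ∧ mulP p n u x = 0 := by
  classical
  obtain ⟨g, hg0, hg1, hg, hev⟩ := exists_factor_series p n hu hh hhn hu0
  have hu1 : ‖uvar n u h‖ < 1 := by
    rw [uvar, dif_pos ⟨hh, hhn⟩]
    exact (hu.2.2 _).trans_lt hu.2.1
  have hsimple : ∀ r : Ball K, ‖r‖ < 1 → evalP g r = 0 →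
      ¬∀ x : Ball K, ‖x‖ < 1 → ‖evalP g x‖ ≤ ‖x - r‖ ^ 2 := by
    intro r hr hgr hsq
    obtain ⟨ρ, hρ, hρr⟩ := exists_qRoot p hr h
    set y := uvar n u h ^ 2 with hy
    have hy1 : ‖y‖ < 1 := norm_pow_ball_lt hu1 two_ne_zero
    obtain ⟨η, hη, hηy⟩ := exists_qRoot p hy1 h
    have hpos : p ^ h ≠ 0 := pow_ne_zero h (Fact.out : p.Prime).ne_zero
    set x0 := fadd (fg p n u) ρ η with hx0
    have hx0l : ‖x0‖ < 1 := norm_fadd_lt_one _ hρ hη
    have hval : evalP g (x0 ^ p ^ h) = evalP g y := by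
      rw [← hev x0 hx0l, ← hηy, ← hev η hη]
      have h1 := iterate_mulP_fadd p n u hρ hη 1
      simp only [Function.iterate_one] at h1
      rw [h1, hev ρ hρ, hρr, hgr, Pt.fadd_zero_left (norm_mulP_lt p n u hη)]
    have hdist : ‖x0 ^ p ^ h - r‖ ≤ ‖y‖ := by
      rw [← hρr, ← hηy, ← sub_pow_char_pow, norm_pow_Ball, norm_pow_Ball]
      refine pow_le_pow_left₀ (norm_nonneg _) ?_ _
      have h2 := norm_fadd_sub_le (fg p n u) hρ hη hρ
        (show ‖(0 : Ball K)‖ < 1 by simp) (norm_nonneg η) (by simp) (by simp)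
      rwa [Pt.fadd_zero_right hρ] at h2
    have hlin : ‖evalP g y - uvar n u h * y‖ ≤ ‖y‖ ^ 2 := by
      have h3 : evalP g y - uvar n u h * y
          = evalP (g - PowerSeries.C (uvar n u h) * PowerSeries.X) y := by
        rw [show evalP (g - PowerSeries.C (uvar n u h) * PowerSeries.X) y
          = evalP g y - evalP (PowerSeries.C (uvar n u h) * PowerSeries.X) y from
            evalMv_sub (fun _ => hy1) _ _, evalP_mul hy1, evalP_C hy1, evalP_X hy1]
      rw [h3]
      refine norm_evalMv_le_pow (fun _ => hy1) _ (fun d hd => ?_) (norm_nonneg y) hy1.le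
        fun _ => le_rfl
      have hd' : d = Finsupp.single () (d ()) := by ext; simp
      rw [hd', Finsupp.degree_single] at hd
      rw [hd']
      change PowerSeries.coeff (d ()) (g - PowerSeries.C (uvar n u h) * PowerSeries.X) = 0
      rw [map_sub, PowerSeries.coeff_C_mul]
      interval_cases (d ())
      · simp [hg0]
      · simp [hg1]
    have hgy : ‖evalP g y‖ ≤ ‖y‖ ^ 2 := by
      rw [← hval]
      exact (hsq _ (norm_pow_ball_lt hx0l hpos)).trans (pow_le_pow_left₀ (norm_nonneg _) hdist 2)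
    have h4 := norm_sub_le_ultra (evalP g y) (evalP g y - uvar n u h * y)
    rw [sub_sub_cancel, norm_mul_Ball] at h4
    have h5 : ‖uvar n u h‖ * ‖y‖ ≤ ‖y‖ ^ 2 := h4.trans (max_le hgy hlin)
    have hb0 : 0 < ‖uvar n u h‖ := norm_pos_iff.2 huh
    rw [hy, norm_pow_Ball] at h5
    have h6 : ‖uvar n u h‖ * ‖uvar n u h‖ ^ 2 ≤ ‖uvar n u h‖ * ‖uvar n u h‖ ^ 3 := by
      calc _ ≤ _ := h5
        _ = _ := by ring
    have h7 := le_of_mul_le_mul_left h6 hb0
    rw [pow_succ _ 2] at h7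
    exact absurd h7 (not_le.2 (mul_lt_of_lt_one_right (pow_pos hb0 2) hu1))
  obtain ⟨Z, hcard, hZ⟩ := hg.exists_zeros hsimple
  refine ⟨Z.image ((frobeniusEquiv (Ball K) p).symm^[h]), ?_, fun x => ?_⟩
  · rw [Finset.card_image_of_injective _ (Function.Injective.iterate (RingEquiv.injective _) h),
      hcard]
  · rw [Finset.mem_image]
    constructor
    · rintro ⟨r, hr, rfl⟩
      obtain ⟨hr1, hgr⟩ := (hZ r).1 hr
      obtain ⟨ρ, hρ, hρr⟩ := exists_qRoot p hr1 h
      have he : (frobeniusEquiv (Ball K) p).symm^[h] r = ρ :=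
        pow_p_pow_injective p h (by simp only [iterate_frobSymm_pow, hρr])
      rw [he, hev ρ hρ, hρr]
      exact ⟨hρ, hgr⟩
    · rintro ⟨hx, hx0⟩
      refine ⟨x ^ p ^ h, (hZ _).2 ⟨norm_pow_ball_lt hx (pow_ne_zero h (Fact.out : p.Prime).ne_zero),
        by rw [← hev x hx, hx0]⟩, ?_⟩
      exact pow_p_pow_injective p h (iterate_frobSymm_pow p (x ^ p ^ h) h)

omit huh in
theorem exists_preimage (a : Pt (fg p n u)) : ∃ b : Pt (fg p n u), p • b = a := by
  obtain ⟨g, hg0, hg1, hg, hev⟩ := exists_factor_series p n hu hh hhn hu0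
  have hN : 1 ≤ p ^ (n - h) := Nat.one_le_pow _ _ (Fact.out : p.Prime).pos
  have hg' : FirstUnitCoeff (g - PowerSeries.C a.val) (p ^ (n - h)) := by
    refine ⟨fun j hj => ?_, ?_⟩
    · rw [map_sub, PowerSeries.coeff_C]
      split_ifs
      · exact (norm_sub_le_ultra _ _).trans_lt (max_lt (hg.low j hj) a.norm_lt)
      · rw [sub_zero]; exact hg.low j hj
    · rw [map_sub, PowerSeries.coeff_C, if_neg (by omega), sub_zero]
      exact hg.top
  obtain ⟨r, hr, hr0⟩ := hg'.exists_root hN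
  obtain ⟨ρ, hρ, hρr⟩ := exists_qRoot p hr h
  refine ⟨Pt.mk _ ρ hρ, Pt.ext ?_⟩
  rw [val_nsmul_p, Pt.val_mk, hev ρ hρ, hρr]
  rw [show evalP (g - PowerSeries.C a.val) r = evalP g r - evalP (PowerSeries.C a.val) r from
    evalMv_sub (fun _ => hr) _ _, evalP_C hr, sub_eq_zero] at hr0
  exact hr0

end Vale.P217

end
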