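import Vale.Agent.P217.CoverKernel
import Mathlib.Algebra.Module.ZMod
import Mathlib.LinearAlgebra.Dimension.Free
import Mathlib.FieldTheory.Finiteness

/-!
Lifting the `p`-torsion to the universal cover.
-/

noncomputable section

set_option linter.unusedSectionVars false

namespace Vale.P217

open Filter Topology

variable (p : ℕ) [Fact p.Prime] (n : ℕ)
variable {K : Type*} [NontriviallyNormedField K] [IsUltrametricDist K] [CompleteSpace K]
  [CharP K p] [PerfectRing K p] [IsAlgClosed K]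

theorem rootSeq_zero (z : Ball K) : rootSeq p n z 0 = z := by simp [rootSeq]

theorem rootSeq_unique {w : ℕ → Ball K} (hw : IsRootSeq p n w) : rootSeq p n (w 0) = w := by
  funext l
  apply pow_p_pow_injective p (n * l)
  simp only [rootSeq_pow]
  induction l with
  | zero => simp
  | succ l ih => rw [Nat.mul_succ, pow_add, pow_mul', hw.pow_succ, ← ih]

theorem rootSeq_fadd (hn : 1 ≤ n) {z z' : Ball K} (hz : ‖z‖ < 1) (hz' : ‖z'‖ < 1) :
    rootSeq p n (fadd (fg p n (0 : Fin (n - 1) → Ball K)) z z') =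
      fun l => fadd (fg p n (0 : Fin (n - 1) → Ball K)) (rootSeq p n z l) (rootSeq p n z' l) := by
  have h := rootSeq_unique p n (IsRootSeq.fadd p n hn (norm_rootSeq_lt p n hz)
    (norm_rootSeq_lt p n hz') (isRootSeq_rootSeq p n hz) (isRootSeq_rootSeq p n hz'))
  simpa only [rootSeq_zero] using h

variable {u : Fin (n - 1) → Ball K} {ε : ℝ}

theorem norm_phiK_lt_one (hn : 1 ≤ n) (hu : SmallParam n u ε) {z : Ball K} (hz : ‖z‖ < 1) :
    ‖phiK p n u z‖ < 1 :=
  norm_phiSeq_lt_one p n hn hu (norm_rootSeq_lt p n hz) (isRootSeq_rootSeq p n hz)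

theorem phiK_fadd (hn : 1 ≤ n) (hu : SmallParam n u ε) {z z' : Ball K} (hz : ‖z‖ < 1)
    (hz' : ‖z'‖ < 1) :
    phiK p n u (fadd (fg p n (0 : Fin (n - 1) → Ball K)) z z') =
      fadd (fg p n u) (phiK p n u z) (phiK p n u z') := by
  rw [phiK, rootSeq_fadd p n hn hz hz']
  exact phiSeq_add p n hn hu (norm_rootSeq_lt p n hz) (norm_rootSeq_lt p n hz')
    (isRootSeq_rootSeq p n hz) (isRootSeq_rootSeq p n hz')

/-- The cover map as a homomorphism. -/
def phiPt (hn : 1 ≤ n) (hu : SmallParam n u ε) :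
    Pt (fg p n (0 : Fin (n - 1) → Ball K)) →+ Pt (fg p n u) :=
  AddMonoidHom.mk' (fun z => Pt.mk _ (phiK p n u z.val) (norm_phiK_lt_one p n hn hu z.norm_lt))
    fun a b => Pt.ext (phiK_fadd p n hn hu a.norm_lt b.norm_lt)

theorem val_phiPt (hn : 1 ≤ n) (hu : SmallParam n u ε)
    (z : Pt (fg p n (0 : Fin (n - 1) → Ball K))) :
    (phiPt p n hn hu z).val = phiK p n u z.val := rfl

theorem phiK_pow (hn : 1 ≤ n) (hu : SmallParam n u ε) {z : Ball K} (hz : ‖z‖ < 1) :
    phiK p n u (z ^ p ^ n) = mulP p n u (phiK p n u z) := by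
  have h := rootSeq_unique p n (IsRootSeq.shift p n hn (norm_rootSeq_lt p n hz)
    (isRootSeq_rootSeq p n hz))
  simp only [rootSeq_zero] at h
  rw [phiK, h]
  exact phiSeq_shift p n hn hu (norm_rootSeq_lt p n hz) (isRootSeq_rootSeq p n hz)

/-- The tail of the sequence defining the cover. -/
theorem norm_phiSeq_sub_iterate_le (hn : 1 ≤ n) (hu : SmallParam n u ε) {w : ℕ → Ball K}
    (hsmall : ∀ l, ‖w l‖ < 1) (hw : IsRootSeq p n w) (l : ℕ) :
    ‖phiSeq p n u w - (mulP p n u)^[l] (w l)‖ ≤ ε ^ (l + 1) := by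
  refine le_of_tendsto ((phiSeq_tendsto p n hn hu hsmall hw).sub_const _).norm
    (eventually_atTop.2 ⟨l, fun m hm => ?_⟩)
  induction m, hm using Nat.le_induction with
  | base => simpa using pow_nonneg hu.1 _
  | succ m hm ih =>
    refine (norm_sub_trans _ ((mulP p n u)^[m] (w m)) _).trans (max_le ?_ ih)
    rw [Function.iterate_succ_apply]
    refine (norm_iterate_mulP_sub_le p n hn u hu.2.1.le (norm_mulP_lt p n u (hsmall _)) (hsmall m)
      ?_ m).trans (pow_le_pow_of_le_one hu.1 hu.2.1.le (by omega))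
    rw [← hw.pow_succ m]
    exact norm_mulP_sub_pow p n hn hu.1 hu.2.2 (hsmall _)

/-- The cover map is continuous at `0`. -/
theorem exists_delta_phiK (hn : 1 ≤ n) (hu : SmallParam n u ε) {δ₀ : ℝ} (h₀ : 0 < δ₀) :
    ∃ δ : ℝ, 0 < δ ∧ ∀ z : Ball K, ‖z‖ < 1 → ‖z‖ < δ → ‖phiK p n u z‖ < δ₀ := by
  obtain ⟨l, hl⟩ := exists_pow_lt_of_lt_one h₀ hu.2.1
  refine ⟨δ₀ ^ p ^ (n * l), pow_pos h₀ _, fun z hz hzd => ?_⟩
  have hr : ‖rootSeq p n z l‖ < δ₀ := by
    rw [← rootSeq_pow p n z l, norm_pow_Ball] at hzd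
    exact lt_of_pow_lt_pow_left₀ _ h₀.le hzd
  have h1 := norm_phiSeq_sub_iterate_le p n hn hu (norm_rootSeq_lt p n hz)
    (isRootSeq_rootSeq p n hz) l
  have h2 := IsUltrametricDist.norm_add_le_max
    (phiK p n u z - (mulP p n u)^[l] (rootSeq p n z l)) ((mulP p n u)^[l] (rootSeq p n z l))
  rw [sub_add_cancel] at h2
  refine h2.trans_lt (max_lt ?_ ?_)
  · exact (h1.trans (pow_le_pow_of_le_one hu.1 hu.2.1.le (Nat.le_succ l))).trans_lt hl
  · exact (norm_iterate_mulP_le p n u (norm_rootSeq_lt p n hz l) l).trans_lt hr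

variable (hu : SmallParam n u ε) {h : ℕ} (hh : 1 ≤ h) (hhn : h < n)
  (hu0 : ∀ i : Fin (n - 1), (i : ℕ) + 1 < h → u i = 0)
include hu hh hhn hu0

/-- The cover map is surjective. -/
theorem phiPt_surjective : Function.Surjective (phiPt p n (by omega) hu) := by
  have hn : 1 ≤ n := by omega
  intro r
  let x : ℕ → Pt (fg p n u) := fun l =>
    Nat.rec r (fun _ a => (exists_preimage p n hu hh hhn hu0 a).choose) l
  have hx : ∀ l, mulP p n u (x (l + 1)).val = (x l).val := fun l => by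
    rw [← val_nsmul_p]
    exact congrArg Pt.val (exists_preimage p n hu hh hhn hu0 (x l)).choose_spec
  have hit : ∀ l, (mulP p n u)^[l] (x l).val = r.val := by
    intro l
    induction l with
    | zero => rfl
    | succ l ih => rw [Function.iterate_succ_apply, hx, ih]
  set c : ℕ → Ball K := fun l => (x l).val ^ p ^ (n * l) with hc
  have hstep : ∀ l, ‖c l - c (l + 1)‖ ≤ ε ^ p ^ (n * l) := fun l => by
    have he : c (l + 1) = ((x (l + 1)).val ^ p ^ n) ^ p ^ (n * l) := by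
      simp only [hc]
      rw [← pow_mul, ← pow_add, Nat.mul_succ, Nat.add_comm n (n * l)]
    rw [he]
    simp only [hc]
    rw [← sub_pow_char_pow, norm_pow_Ball]
    refine pow_le_pow_left₀ (norm_nonneg _) ?_ _
    rw [← hx l]
    exact norm_mulP_sub_pow p n hn hu.1 hu.2.2 (x (l + 1)).norm_lt
  have hcau : CauchySeq c := by
    refine cauchySeq_of_le_geometric ε 1 hu.2.1 fun l => ?_
    rw [dist_eq_norm, one_mul]
    refine (hstep l).trans (pow_le_pow_of_le_one hu.1 hu.2.1.le ?_)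
    exact (Nat.le_mul_of_pos_left l (by omega)).trans
      (Nat.lt_pow_self (Fact.out : p.Prime).one_lt).le
  obtain ⟨z, hz⟩ := cauchySeq_tendsto_of_complete hcau
  have hclose : ∀ l, ‖c l - z‖ ≤ ε ^ p ^ (n * l) := fun l => by
    refine le_of_tendsto (hz.const_sub (c l)).norm (eventually_atTop.2 ⟨l, fun m hm => ?_⟩)
    induction m, hm using Nat.le_induction with
    | base => simpa using pow_nonneg hu.1 _
    | succ m hm ih =>
      refine (norm_sub_trans _ (c m) _).trans (max_le ih ((hstep m).trans ?_))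
      exact pow_le_pow_of_le_one hu.1 hu.2.1.le
        (Nat.pow_le_pow_right (Fact.out : p.Prime).pos (Nat.mul_le_mul_left n hm))
  have hz1 : ‖z‖ < 1 := by
    have h2 := norm_sub_le_ultra (c 0) (c 0 - z)
    rw [sub_sub_cancel] at h2
    refine h2.trans_lt (max_lt ?_ ((hclose 0).trans_lt ?_))
    · simpa [hc] using (x 0).norm_lt
    · simpa using hu.2.1
  refine ⟨Pt.mk _ z hz1, Pt.ext ?_⟩
  rw [val_phiPt, Pt.val_mk]
  have h1 := phiSeq_tendsto p n hn hu (norm_rootSeq_lt p n hz1) (isRootSeq_rootSeq p n hz1)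
  have h3 := tendsto_iterate_mulP_sub p n hn u hu.1 hu.2.1
    (a := rootSeq p n z) (b := fun l => (x l).val) (norm_rootSeq_lt p n hz1)
    (fun l => (x l).norm_lt) fun l => by
      refine le_of_pow_le_pow_left₀ (pow_ne_zero (n * l) (Fact.out : p.Prime).ne_zero) hu.1 ?_
      rw [← norm_pow_Ball, sub_pow_char_pow, rootSeq_pow, norm_sub_rev]
      exact hclose l
  simp only [hit] at h3
  exact sub_eq_zero.1 (tendsto_nhds_unique (h1.sub_const r.val) h3)

variable (huh : uvar n u h ≠ 0)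
include huh

/-- A basis of the `p`-torsion. -/
theorem exists_basis_kernel :
    ∃ r : Fin (n - h) → Pt (fg p n u), (∀ j, p • r j = 0) ∧
      (∀ μ : Fin (n - h) → ℕ, ∑ j, μ j • r j = 0 → ∀ j, p ∣ μ j) ∧
      ∀ a : Pt (fg p n u), p • a = 0 → ∃ μ : Fin (n - h) → ℕ, a = ∑ j, μ j • r j := by
  classical
  obtain ⟨Z, hcard, hZ⟩ := exists_kernel p n hu hh hhn hu0 huh
  let P : AddSubgroup (Pt (fg p n u)) := (nsmulAddMonoidHom p).ker
  have hmem : ∀ a : Pt (fg p n u), a ∈ P ↔ p • a = 0 := fun a => Iff.rfl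
  let e : P ≃ Z :=
    { toFun := fun a => ⟨a.1.val, (hZ _).2 ⟨a.1.norm_lt, by
        rw [← val_nsmul_p, (hmem a.1).1 a.2, Pt.val_zero]⟩⟩
      invFun := fun x => ⟨Pt.mk _ x.1 ((hZ _).1 x.2).1, (hmem _).2 (Pt.ext (by
        rw [val_nsmul_p, Pt.val_mk, Pt.val_zero]; exact ((hZ _).1 x.2).2))⟩
      left_inv := fun _ => rfl
      right_inv := fun _ => rfl }
  have : Finite P := Finite.of_equiv Z e.symm
  letI : Module (ZMod p) P := AddCommGroup.zmodModule (n := p) fun a =>
    Subtype.ext ((hmem a.1).1 a.2)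
  have hfr : Module.finrank (ZMod p) P = n - h := by
    have h1 := Module.natCard_eq_pow_finrank (K := ZMod p) (V := P)
    rw [Nat.card_congr e, Nat.card_eq_fintype_card, Fintype.card_coe, hcard, Nat.card_zmod] at h1
    exact (Nat.pow_right_injective (Fact.out : p.Prime).two_le h1).symm
  let b := Module.finBasisOfFinrankEq (ZMod p) P hfr
  have hsum : ∀ μ : Fin (n - h) → ℕ,
      ((∑ j, (μ j : ZMod p) • b j : P) : Pt (fg p n u)) = ∑ j, μ j • (b j : Pt (fg p n u)) := by
    intro μ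
    simp only [Nat.cast_smul_eq_nsmul, AddSubgroup.val_finset_sum, AddSubgroup.coe_nsmul]
  refine ⟨fun j => (b j : Pt (fg p n u)), fun j => (hmem _).1 (b j).2, fun μ hμ j => ?_,
    fun a ha => ?_⟩
  · rw [← hsum] at hμ
    have h0 : ∑ j, (μ j : ZMod p) • b j = 0 := Subtype.ext hμ
    exact (ZMod.natCast_eq_zero_iff _ _).1
      (Fintype.linearIndependent_iff.1 b.linearIndependent (fun j => (μ j : ZMod p)) h0 j)
  · refine ⟨fun j => (b.repr ⟨a, (hmem a).2 ha⟩ j).val, ?_⟩
    rw [← hsum]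
    simp only [ZMod.natCast_zmod_val]
    exact congrArg Subtype.val (b.sum_repr ⟨a, (hmem a).2 ha⟩).symm

end Vale.P217

end
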