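import Vale.Agent.P217.CoverBasic

/-!
The universal cover of a deformation of the Honda law.
-/

noncomputable section

namespace Vale.P217

open Filter Topology

variable (p : ℕ) [Fact p.Prime] (n : ℕ)

section General

variable {O : Type*} [NormedCommRing O] [IsUltrametricDist O] [UnitNormed O] [CompleteSpace O]

/-- A compatible system of `p ^ n`-th roots of a small element. -/
structure IsRootSeq (w : ℕ → O) : Prop where
  small : ‖w 0‖ < 1
  pow_succ : ∀ l, w (l + 1) ^ p ^ n = w l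

/-- The universal cover map: `lim [p ^ l]_u (z ^ (p ^ (-n l)))`. -/
def phiSeq (u : Fin (n - 1) → O) (w : ℕ → O) : O :=
  limUnder atTop fun l => (mulP p n u)^[l] (w l)

/-- The parameters are small. -/
def SmallParam (u : Fin (n - 1) → O) (ε : ℝ) : Prop := 0 ≤ ε ∧ ε < 1 ∧ ∀ i, ‖u i‖ ≤ ε

/-- The coefficients are fixed by the `p ^ n`-th power map. -/
def FixedCoeff (a : PowerSeries O) : Prop :=
  ∀ d, PowerSeries.coeff d a ^ p ^ n = PowerSeries.coeff d a

variable [CharP O p] (hn : 1 ≤ n)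
include hn

theorem IsRootSeq.norm_lt {w : ℕ → O} (hw : IsRootSeq p n w)
    (hpow : ∀ (x : O) k, ‖x ^ k‖ = ‖x‖ ^ k) (l : ℕ) : ‖w l‖ < 1 := by
  induction l with
  | zero => exact hw.small
  | succ l ih =>
    rw [← hw.pow_succ l, hpow] at ih
    exact (pow_lt_one_iff_of_nonneg (norm_nonneg _)
      (pow_ne_zero n (Fact.out : p.Prime).ne_zero)).1 ih

theorem phiSeq_tendsto {u : Fin (n - 1) → O} {ε : ℝ} (hu : SmallParam n u ε) {w : ℕ → O}
    (hsmall : ∀ l, ‖w l‖ < 1) (hw : IsRootSeq p n w) :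
    Tendsto (fun l => (mulP p n u)^[l] (w l)) atTop (𝓝 (phiSeq p n u w)) := by
  have hc : CauchySeq fun l => (mulP p n u)^[l] (w l) := by
    refine cauchySeq_of_le_geometric ε 1 hu.2.1 fun l => ?_
    rw [dist_eq_norm, one_mul, norm_sub_rev, Function.iterate_succ_apply]
    refine (norm_iterate_mulP_sub_le p n hn u hu.2.1.le (norm_mulP_lt p n u (hsmall _)) (hsmall l)
      ?_ l).trans (pow_le_pow_of_le_one hu.1 hu.2.1.le (Nat.le_succ l))
    rw [← hw.pow_succ l]
    exact norm_mulP_sub_pow p n hn hu.1 hu.2.2 (hsmall _)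
  exact hc.tendsto_limUnder

theorem norm_phiSeq_sub_le {u : Fin (n - 1) → O} {ε : ℝ} (hu : SmallParam n u ε) {w : ℕ → O}
    (hsmall : ∀ l, ‖w l‖ < 1) (hw : IsRootSeq p n w) :
    ‖phiSeq p n u w - w 0‖ ≤ ε := by
  refine le_of_tendsto ((phiSeq_tendsto p n hn hu hsmall hw).sub_const (w 0)).norm
    (Eventually.of_forall fun l => ?_)
  induction l with
  | zero => simpa using hu.1
  | succ l ih =>
    refine (norm_sub_trans _ ((mulP p n u)^[l] (w l)) _).trans (max_le ?_ ih)
    rw [Function.iterate_succ_apply]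
    refine (norm_iterate_mulP_sub_le p n hn u hu.2.1.le (norm_mulP_lt p n u (hsmall _)) (hsmall l)
      ?_ l).trans (pow_le_of_le_one hu.1 hu.2.1.le (Nat.succ_ne_zero l))
    rw [← hw.pow_succ l]
    exact norm_mulP_sub_pow p n hn hu.1 hu.2.2 (hsmall _)

theorem norm_phiSeq_lt_one {u : Fin (n - 1) → O} {ε : ℝ} (hu : SmallParam n u ε) {w : ℕ → O}
    (hsmall : ∀ l, ‖w l‖ < 1) (hw : IsRootSeq p n w) : ‖phiSeq p n u w‖ < 1 := by
  have h := IsUltrametricDist.norm_add_le_max (phiSeq p n u w - w 0) (w 0)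
  rw [sub_add_cancel] at h
  exact h.trans_lt (max_lt ((norm_phiSeq_sub_le p n hn hu hsmall hw).trans_lt hu.2.1) hw.small)

theorem IsRootSeq.fadd {w w' : ℕ → O} (hsmall : ∀ l, ‖w l‖ < 1) (hsmall' : ∀ l, ‖w' l‖ < 1)
    (hw : IsRootSeq p n w) (hw' : IsRootSeq p n w') :
    IsRootSeq p n fun l => fadd (fg p n (0 : Fin (n - 1) → O)) (w l) (w' l) :=
  ⟨norm_fadd_lt_one _ hw.small hw'.small, fun l => by
    rw [fadd_zero_param_pow p n hn (hsmall _) (hsmall' _), hw.pow_succ, hw'.pow_succ]⟩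

theorem phiSeq_add {u : Fin (n - 1) → O} {ε : ℝ} (hu : SmallParam n u ε) {w w' : ℕ → O}
    (hsmall : ∀ l, ‖w l‖ < 1) (hsmall' : ∀ l, ‖w' l‖ < 1) (hw : IsRootSeq p n w)
    (hw' : IsRootSeq p n w') :
    phiSeq p n u (fun l => fadd (fg p n (0 : Fin (n - 1) → O)) (w l) (w' l)) =
      fadd (fg p n u) (phiSeq p n u w) (phiSeq p n u w') := by
  have hs'' : ∀ l, ‖Vale.P217.fadd (fg p n (0 : Fin (n - 1) → O)) (w l) (w' l)‖ < 1 :=
    fun l => norm_fadd_lt_one _ (hsmall l) (hsmall' l)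
  have h1 := phiSeq_tendsto p n hn hu hs''
    (IsRootSeq.fadd p n hn hsmall hsmall' hw hw')
  have h2 := fadd_tendsto (fg p n u) (phiSeq_tendsto p n hn hu hsmall hw)
    (phiSeq_tendsto p n hn hu hsmall' hw') (fun l => norm_iterate_mulP_lt p n u (hsmall l) l)
    (fun l => norm_iterate_mulP_lt p n u (hsmall' l) l) (norm_phiSeq_lt_one p n hn hu hsmall hw)
    (norm_phiSeq_lt_one p n hn hu hsmall' hw')
  have h3 := tendsto_iterate_mulP_sub p n hn u hu.1 hu.2.1
    (a := fun l => Vale.P217.fadd (fg p n (0 : Fin (n - 1) → O)) (w l) (w' l))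
    (b := fun l => Vale.P217.fadd (fg p n u) (w l) (w' l)) hs''
    (fun l => norm_fadd_lt_one _ (hsmall l) (hsmall' l))
    fun l => norm_fadd_param p n hu.1 (fun i => by simpa using hu.2.2 i) (hsmall l) (hsmall' l)
  simp only [iterate_mulP_fadd p n u (hsmall _) (hsmall' _)] at h3
  exact tendsto_nhds_unique h1 (by simpa using h3.add h2)

theorem IsRootSeq.shift {w : ℕ → O} (hsmall : ∀ l, ‖w l‖ < 1) (hw : IsRootSeq p n w) :
    IsRootSeq p n fun l => w l ^ p ^ n :=
  ⟨(norm_pow_le' _ _).trans_lt (pow_lt_one₀ (norm_nonneg _) (hsmall 0)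
    (pow_ne_zero n (Fact.out : p.Prime).ne_zero)), fun l => by rw [hw.pow_succ]⟩

theorem phiSeq_shift {u : Fin (n - 1) → O} {ε : ℝ} (hu : SmallParam n u ε) {w : ℕ → O}
    (hsmall : ∀ l, ‖w l‖ < 1) (hw : IsRootSeq p n w) :
    phiSeq p n u (fun l => w l ^ p ^ n) = mulP p n u (phiSeq p n u w) := by
  have hs' : ∀ l, ‖w l ^ p ^ n‖ < 1 := fun l => (norm_pow_le' _ _).trans_lt
    (pow_lt_one₀ (norm_nonneg _) (hsmall l) (pow_ne_zero n (Fact.out : p.Prime).ne_zero))
  have h1 := phiSeq_tendsto p n hn hu hs' (IsRootSeq.shift p n hn hsmall hw)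
  have h2 : Tendsto (fun l => mulP p n u ((mulP p n u)^[l] (w l))) atTop
      (𝓝 (mulP p n u (phiSeq p n u w))) :=
    evalP_tendsto _ (phiSeq_tendsto p n hn hu hsmall hw)
      (fun l => norm_iterate_mulP_lt p n u (hsmall l) l) (norm_phiSeq_lt_one p n hn hu hsmall hw)
  have h3 := tendsto_iterate_mulP_sub p n hn u hu.1 hu.2.1
    (a := fun l => w l ^ p ^ n) (b := fun l => mulP p n u (w l)) hs'
    (fun l => norm_mulP_lt p n u (hsmall l))
    (fun l => by rw [norm_sub_rev]; exact norm_mulP_sub_pow p n hn hu.1 hu.2.2 (hsmall l))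
  simp only [← Function.iterate_succ_apply (mulP p n u)] at h3
  simp only [Function.iterate_succ_apply'] at h3
  exact tendsto_nhds_unique h1 (by simpa using h3.add h2)

/-- The cover map is `1`-Lipschitz in the parameters. -/
theorem norm_phiSeq_sub_param_le {u v : Fin (n - 1) → O} {ε : ℝ} (hu : SmallParam n u ε)
    (hv : SmallParam n v ε) {w : ℕ → O} (hsmall : ∀ l, ‖w l‖ < 1) (hw : IsRootSeq p n w) {δ : ℝ}
    (hδ : 0 ≤ δ) (hd : ∀ i, ‖u i - v i‖ ≤ δ) :
    ‖phiSeq p n u w - phiSeq p n v w‖ ≤ δ :=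
  le_of_tendsto ((phiSeq_tendsto p n hn hu hsmall hw).sub
    (phiSeq_tendsto p n hn hv hsmall hw)).norm
    (Eventually.of_forall fun l => norm_iterate_mulP_param p n hn hδ hd (hsmall l) l)

omit hn in
theorem FixedCoeff.evalP_pow {g : PowerSeries O} (hgfix : FixedCoeff p n g) {x : O}
    (hx : ‖x‖ < 1) : evalP g x ^ p ^ n = evalP g (x ^ p ^ n) := by
  have hcont : Continuous (iterateFrobenius O p n) := by
    rw [show (iterateFrobenius O p n : O → O) = fun y => y ^ p ^ n from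
      funext fun y => iterateFrobenius_def p n y]
    exact continuous_pow _
  have hx' : ‖x ^ p ^ n‖ < 1 := (norm_pow_le' _ _).trans_lt
    (pow_lt_one₀ (norm_nonneg _) hx (pow_ne_zero n (Fact.out : p.Prime).ne_zero))
  have h1 := (hasSum_evalP hx g).map (iterateFrobenius O p n) hcont
  have h2 := hasSum_evalP hx' g
  rw [← iterateFrobenius_def p n (evalP g x)]
  refine h1.unique (h2.congr_fun fun d => ?_)
  simp only [Function.comp_apply, iterateFrobenius_def, mul_pow, hgfix d, ← pow_mul, mul_comm d]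

/-- A homomorphism reducing to an endomorphism `g` of the Honda law commutes with the cover. -/
theorem phiSeq_hom {u v : Fin (n - 1) → O} {ε : ℝ} (hu : SmallParam n u ε)
    (hv : SmallParam n v ε) {f g : PowerSeries O} (hf : IsHomSeries (fg p n u) (fg p n v) f)
    (hg : PowerSeries.constantCoeff g = 0) (hgfix : FixedCoeff p n g)
    (hfg : ∀ d, ‖PowerSeries.coeff d f - PowerSeries.coeff d g‖ ≤ ε) {w : ℕ → O}
    (hsmall : ∀ l, ‖w l‖ < 1) (hw : IsRootSeq p n w) :
    phiSeq p n v (fun l => evalP g (w l)) = evalP f (phiSeq p n u w) := by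
  have hsg : ∀ l, ‖evalP g (w l)‖ < 1 := fun l => norm_evalP_lt_one (hsmall l) g hg
  have hwg : IsRootSeq p n fun l => evalP g (w l) :=
    ⟨hsg 0, fun l => by rw [FixedCoeff.evalP_pow p n hgfix (hsmall _), hw.pow_succ]⟩
  have h1 := phiSeq_tendsto p n hn hv hsg hwg
  have h2 := evalP_tendsto f (phiSeq_tendsto p n hn hu hsmall hw)
    (fun l => norm_iterate_mulP_lt p n u (hsmall l) l) (norm_phiSeq_lt_one p n hn hu hsmall hw)
  have h3 := tendsto_iterate_mulP_sub p n hn v hv.1 hv.2.1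
    (a := fun l => evalP g (w l)) (b := fun l => evalP f (w l)) hsg
    (fun l => norm_evalP_lt_one (hsmall l) f hf.1)
    fun l => norm_evalP_sub_coeff hv.1 (hsmall l) fun d => by rw [norm_sub_rev]; exact hfg d
  simp only [← iterate_mulP_hom p n hf (hsmall _)] at h3
  exact tendsto_nhds_unique h1 (by simpa using h3.add h2)

omit hn in
/-- The cover commutes with norm-decreasing ring maps. -/
theorem map_phiSeq {O' : Type*} [NormedCommRing O'] [IsUltrametricDist O'] [UnitNormed O']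
    [CompleteSpace O'] [CharP O' p] (φ : O →+* O') (hφ : ∀ x, ‖φ x‖ ≤ ‖x‖) (hn' : 1 ≤ n)
    {u : Fin (n - 1) → O} {ε : ℝ} (hu : SmallParam n u ε) {w : ℕ → O}
    (hsmall : ∀ l, ‖w l‖ < 1) (hw : IsRootSeq p n w) :
    φ (phiSeq p n u w) = phiSeq p n (φ ∘ u) (φ ∘ w) := by
  have hcont : Continuous φ := AddMonoidHomClass.continuous_of_bound φ 1 (by simpa using hφ)
  have hmul : ∀ x : O, ‖x‖ < 1 → φ (mulP p n u x) = mulP p n (φ ∘ u) (φ x) := fun x hx => by
    rw [mulP, mulP, evalP, evalP,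
      map_evalMv φ hcont (fun _ => hx) (fun _ => (hφ x).trans_lt hx)]
    congr 1
    rw [← fg_map, ← mulSeries_map]
    rfl
  have hit : ∀ l (x : O), ‖x‖ < 1 → φ ((mulP p n u)^[l] x) = (mulP p n (φ ∘ u))^[l] (φ x) := by
    intro l
    induction l with
    | zero => exact fun x _ => rfl
    | succ l ih =>
      intro x hx
      rw [Function.iterate_succ_apply', Function.iterate_succ_apply',
        hmul _ (norm_iterate_mulP_lt p n u hx l), ih x hx]
  have hsmall' : ∀ l, ‖(φ ∘ w) l‖ < 1 := fun l => (hφ _).trans_lt (hsmall l)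
  have h1 := phiSeq_tendsto p n hn' (u := φ ∘ u) ⟨hu.1, hu.2.1, fun i => (hφ _).trans (hu.2.2 i)⟩
    hsmall' ⟨hsmall' 0, fun l => by simp [← map_pow, hw.pow_succ]⟩
  have h2 := (hcont.tendsto _).comp (phiSeq_tendsto p n hn' hu hsmall hw)
  exact tendsto_nhds_unique (h2.congr fun l => hit l _ (hsmall l)) h1

end General

section Field

variable {K : Type*} [NontriviallyNormedField K] [IsUltrametricDist K] [CompleteSpace K]
  [CharP K p] [PerfectRing K p]

/-- The canonical roots `z ^ (p ^ (-n l))`. -/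
def rootSeq (z : Ball K) (l : ℕ) : Ball K := (frobeniusEquiv (Ball K) p).symm^[n * l] z

/-- The universal cover map on the ball. -/
def phiK (u : Fin (n - 1) → Ball K) (z : Ball K) : Ball K := phiSeq p n u (rootSeq p n z)

theorem iterate_frobSymm_pow (x : Ball K) : ∀ k,
    ((frobeniusEquiv (Ball K) p).symm^[k] x) ^ p ^ k = x
  | 0 => by simp
  | k + 1 => by
    rw [Function.iterate_succ_apply, pow_succ, pow_mul, iterate_frobSymm_pow]
    exact frobenius_apply_frobeniusEquiv_symm (Ball K) p x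

theorem rootSeq_pow (z : Ball K) (l : ℕ) : rootSeq p n z l ^ p ^ (n * l) = z :=
  iterate_frobSymm_pow p z (n * l)

theorem rootSeq_pow_succ (z : Ball K) (l : ℕ) :
    rootSeq p n z (l + 1) ^ p ^ n = rootSeq p n z l := by
  rw [rootSeq, rootSeq, Nat.mul_succ, Nat.add_comm, Function.iterate_add_apply]
  exact iterate_frobSymm_pow p _ n

theorem norm_rootSeq_lt {z : Ball K} (hz : ‖z‖ < 1) (l : ℕ) : ‖rootSeq p n z l‖ < 1 := by
  rw [← rootSeq_pow p n z l, norm_pow_Ball] at hz
  exact (pow_lt_one_iff_of_nonneg (norm_nonneg _)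
    (pow_ne_zero _ (Fact.out : p.Prime).ne_zero)).1 hz

theorem isRootSeq_rootSeq {z : Ball K} (hz : ‖z‖ < 1) : IsRootSeq p n (rootSeq p n z) :=
  ⟨norm_rootSeq_lt p n hz 0, rootSeq_pow_succ p n z⟩

end Field

end Vale.P217

end
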