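import Mathlib.RingTheory.FormalGroup.Basic
import Mathlib.RingTheory.WittVector.Frobenius
import Mathlib.RingTheory.WittVector.DiscreteValuationRing
import Mathlib.RingTheory.MvPowerSeries.Inverse
import Mathlib.RingTheory.AdicCompletion.Completeness
import Mathlib.FieldTheory.Finite.GaloisField
import Mathlib.RingTheory.Ideal.Maps

/-!
Definitions used in the statement for P217: Lubin-Tate deformations of a height `n` formal group
law over `ZMod p` with `[p](X) = X ^ (p ^ n)`, moves by the extended stabilizer, height ideals.
-/

noncomputable section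

namespace Vale.P217

open IsLocalRing

/-- `f` is a homomorphism of formal group laws from `F` to `G`: `f(0) = 0` and
`f(F(X,Y)) = G(f(X),f(Y))`. -/
def IsHomSeries {R : Type*} [CommRing R] (F G : FormalGroup R) (f : PowerSeries R) : Prop :=
  PowerSeries.constantCoeff f = 0 ∧
    PowerSeries.subst F.toPowerSeries f =
      MvPowerSeries.subst
        ![PowerSeries.subst (MvPowerSeries.X (0 : Fin 2)) f,
          PowerSeries.subst (MvPowerSeries.X (1 : Fin 2)) f] G.toPowerSeries

/-- An isomorphism of formal group laws: a homomorphism with invertible linear coefficient. -/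
def IsIsoSeries {R : Type*} [CommRing R] (F G : FormalGroup R) (f : PowerSeries R) : Prop :=
  IsHomSeries F G f ∧ IsUnit (PowerSeries.coeff 1 f)

/-- The multiplication series `[m]_F(X)`. -/
def mulSeries {R : Type*} [CommRing R] (F : FormalGroup R) : ℕ → PowerSeries R
  | 0 => 0
  | m + 1 => MvPowerSeries.subst ![mulSeries F m, PowerSeries.X] F.toPowerSeries

variable (p : ℕ) [Fact p.Prime] (n : ℕ)

/-- The coefficient ring `W(𝔽_{p^n})`. -/
abbrev Coef : Type := WittVector p (GaloisField p n)

/-- The Lubin-Tate ring `W(𝔽_{p^n})[[u_1, …, u_{n-1}]]`; the variable `i` is `u_{i+1}`. -/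
abbrev LTRing : Type := MvPowerSeries (Fin (n - 1)) (Coef p n)

/-- Reduction of the Lubin-Tate ring to its residue field `𝔽_{p^n}`. -/
def residueMap : LTRing p n →+* GaloisField p n :=
  WittVector.constantCoeff.comp MvPowerSeries.constantCoeff

/-- The base change of `Γ` to `𝔽_{p^n}`. -/
def baseChange (Γ : FormalGroup (ZMod p)) : FormalGroup (GaloisField p n) :=
  Γ.map (algebraMap (ZMod p) (GaloisField p n))

/-- `F` is a universal deformation of `Γ`: it is a commutative formal group law over the
Lubin-Tate ring reducing to `Γ`, and every deformation `G` of `Γ` over a complete Noetherian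
local `W(𝔽_{p^n})`-algebra with residue field `𝔽_{p^n}` is obtained from `F` by a unique algebra
map, up to an isomorphism which is the identity on the special fibre. -/
def IsUniversalDeformation (Γ : FormalGroup (ZMod p)) (F : FormalGroup (LTRing p n)) : Prop :=
  F.IsComm ∧ F.map (residueMap p n) = baseChange p n Γ ∧
    ∀ (R : Type) [CommRing R] [IsLocalRing R] [IsNoetherianRing R]
      [IsAdicComplete (maximalIdeal R) R] [Algebra (Coef p n) R] (ρ : R →+* GaloisField p n),
      Function.Surjective ρ →
      ρ.comp (algebraMap (Coef p n) R) = WittVector.constantCoeff →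
      ∀ G : FormalGroup R, G.IsComm → G.map ρ = baseChange p n Γ →
        ∃! α : LTRing p n →ₐ[Coef p n] R,
          ρ.comp α.toRingHom = residueMap p n ∧
            ∃ f : PowerSeries R, IsIsoSeries G (F.map α.toRingHom) f ∧
              PowerSeries.map ρ f = PowerSeries.X

/-- `α` is the automorphism of the Lubin-Tate ring by which the element `(τ, g)` of the extended
stabilizer acts: it is `W(τ)` on coefficients, `τ` on the residue field, and some isomorphism
`F ≅ α_* F` reduces to `g` on the special fibre. -/
def IsMove (F : FormalGroup (LTRing p n)) (τ : GaloisField p n ≃+* GaloisField p n)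
    (g : PowerSeries (GaloisField p n)) (α : LTRing p n ≃+* LTRing p n) : Prop :=
  (∀ w : Coef p n,
      α (MvPowerSeries.C w) = MvPowerSeries.C (WittVector.map τ.toRingHom w)) ∧
    (∀ x : LTRing p n, residueMap p n (α x) = τ (residueMap p n x)) ∧
      ∃ f : PowerSeries (LTRing p n),
        IsIsoSeries F (F.map α.toRingHom) f ∧ PowerSeries.map (residueMap p n) f = g

/-- Invariance of an ideal under the extended stabilizer `Aut(Γ) ⋊ Gal(𝔽_{p^n}/𝔽_p)`. -/
def IsInvariantExt (Γ : FormalGroup (ZMod p)) (F : FormalGroup (LTRing p n))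
    (I : Ideal (LTRing p n)) : Prop :=
  ∀ (τ : GaloisField p n ≃+* GaloisField p n) (g : PowerSeries (GaloisField p n))
    (α : LTRing p n ≃+* LTRing p n),
    IsIsoSeries (baseChange p n Γ) (baseChange p n Γ) g → IsMove p n F τ g α →
      I.map α.toRingHom = I

/-- Invariance of an ideal under the stabilizer `Aut(Γ)` alone. -/
def IsInvariantAut (Γ : FormalGroup (ZMod p)) (F : FormalGroup (LTRing p n))
    (I : Ideal (LTRing p n)) : Prop :=
  ∀ (g : PowerSeries (GaloisField p n)) (α : LTRing p n ≃+* LTRing p n),
    IsIsoSeries (baseChange p n Γ) (baseChange p n Γ) g →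
      IsMove p n F (RingEquiv.refl _) g α → I.map α.toRingHom = I

/-- The `h`-th height ideal: generated by the coefficients of `[p]_F(X)` in degrees `< p ^ h`.
It is `0` for `h = 0` and contains `p` for `h ≥ 1`. -/
def heightIdeal (F : FormalGroup (LTRing p n)) (h : ℕ) : Ideal (LTRing p n) :=
  Ideal.span {a | ∃ j < p ^ h, a = PowerSeries.coeff j (mulSeries F p)}

/-- `(p, u_1, …, u_{h-1})`. -/
def coordIdeal (h : ℕ) : Ideal (LTRing p n) :=
  Ideal.span ({(p : LTRing p n)} ∪
    {a | ∃ i : Fin (n - 1), (i : ℕ) + 1 < h ∧ a = MvPowerSeries.X i})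

end Vale.P217

end
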