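import Mathlib.RingTheory.MvPowerSeries.Derivative
import Mathlib.RingTheory.MvPowerSeries.Expand
import Mathlib.RingTheory.MvPowerSeries.Order
import Mathlib.FieldTheory.Perfect
import Mathlib.FieldTheory.Finite.Basic

/-!
An ideal closed under derivations and `p`-th roots in a power series ring over a perfect field
is trivial.
-/

noncomputable section

namespace Vale.P217

open MvPowerSeries

variable {σ : Type*} {L : Type*} [Field L]

/-- The Euler operator `X_i ∂_i`. -/
theorem coeff_X_mul_pderiv (i : σ) (f : MvPowerSeries σ L) (d : σ →₀ ℕ) :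
    coeff d (X i * pderiv L i f) = (d i : L) * coeff d f := by
  classical
  rw [X_def, coeff_monomial_mul]
  split_ifs with h
  · have hi : 1 ≤ d i := by simpa using h i
    rw [coeff_pderiv, tsub_add_cancel_of_le h, one_mul, Finsupp.tsub_apply,
      Finsupp.single_eq_same, Nat.cast_sub hi, Nat.cast_one, sub_add_cancel, mul_comm]
  · have hi : d i = 0 := by
      by_contra hne
      exact h fun j => by
        by_cases hj : j = i
        · subst hj; simpa using Nat.one_le_iff_ne_zero.2 hne
        · simp [Finsupp.single_eq_of_ne hj]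
    simp [hi]

theorem coeff_euler_iterate (i : σ) (f : MvPowerSeries σ L) (d : σ →₀ ℕ) (k : ℕ) :
    coeff d ((fun g => X i * pderiv L i g)^[k] f) = (d i : L) ^ k * coeff d f := by
  induction k with
  | zero => simp
  | succ k ih => rw [Function.iterate_succ_apply', coeff_X_mul_pderiv, ih, pow_succ']; ring


theorem eq_bot_of_pderiv_closed {σ : Type*} [Finite σ] {L : Type*} [Field L] (p : ℕ)
    [Fact p.Prime] [CharP L p] [PerfectRing L p] (J : Ideal (MvPowerSeries σ L)) (hne : J ≠ ⊤)
    (hd : ∀ (i : σ) (f : MvPowerSeries σ L), f ∈ J → MvPowerSeries.pderiv L i f ∈ J)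
    (hroot : ∀ f : MvPowerSeries σ L, f ^ p ∈ J → f ∈ J) : J = ⊥ := by
  classical
  have := Fintype.ofFinite σ
  have hp := (Fact.out : p.Prime)
  suffices key : ∀ (D : ℕ), ∀ f ∈ J, ∀ d : σ →₀ ℕ, d.degree = D → coeff d f = 0 by
    rw [Submodule.eq_bot_iff]
    exact fun f hf => MvPowerSeries.ext fun d => by rw [key _ f hf d rfl, map_zero]
  intro D
  induction D using Nat.strong_induction_on with
  | _ D IH =>
  intro f hf d hdeg
  by_contra hc
  rcases Nat.eq_zero_or_pos D with rfl | hD
  · refine hne (Ideal.eq_top_of_isUnit_mem _ hf ?_)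
    rw [MvPowerSeries.isUnit_iff_constantCoeff, isUnit_iff_ne_zero]
    rwa [(Finsupp.degree_eq_zero_iff d).1 hdeg, coeff_zero_eq_constantCoeff_apply] at hc
  by_cases hdiv : ∀ i, p ∣ d i
  swap
  · push Not at hdiv
    obtain ⟨i, hi⟩ := hdiv
    have hi1 : Finsupp.single i 1 ≤ d := fun j => by
      by_cases hj : j = i
      · subst hj
        simpa using Nat.one_le_iff_ne_zero.2 fun e => hi (by rw [e]; exact dvd_zero p)
      · simp [Finsupp.single_eq_of_ne hj]
    have hdeg' : (d - Finsupp.single i 1).degree + 1 = D := by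
      rw [← hdeg]
      conv_rhs => rw [← tsub_add_cancel_of_le hi1, map_add, Finsupp.degree_single]
    have h0 := IH _ (by omega) _ (hd i f hf) (d - Finsupp.single i 1) rfl
    rw [coeff_pderiv, tsub_add_cancel_of_le hi1] at h0
    have hcast : ((d - Finsupp.single i 1 : σ →₀ ℕ) i : L) + 1 = (d i : L) := by
      have : 1 ≤ d i := by simpa using hi1 i
      rw [Finsupp.tsub_apply, Finsupp.single_eq_same, Nat.cast_sub this, Nat.cast_one,
        sub_add_cancel]
    rw [hcast, mul_eq_zero, CharP.cast_eq_zero_iff L p] at h0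
    exact h0.elim hc hi
  -- the part of `f` with exponents divisible by `p` is in `J`
  have hproj : ∀ s : Finset σ, ∃ g ∈ J, ∀ e : σ →₀ ℕ,
      coeff e g = if ∀ i ∈ s, p ∣ e i then coeff e f else 0 := by
    intro s
    induction s using Finset.induction_on with
    | empty => exact ⟨f, hf, fun e => by simp⟩
    | insert a s _ ih =>
      obtain ⟨g, hg, hgc⟩ := ih
      have hE : ∀ k, (fun g => X a * pderiv L a g)^[k] g ∈ J := by
        intro k
        induction k with
        | zero => simpa
        | succ k ihk =>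
          rw [Function.iterate_succ_apply']
          exact J.mul_mem_left _ (hd a _ ihk)
      refine ⟨g - (fun g => X a * pderiv L a g)^[p - 1] g, J.sub_mem hg (hE _), fun e => ?_⟩
      rw [map_sub, coeff_euler_iterate, hgc]
      simp only [Finset.forall_mem_insert]
      by_cases ha : p ∣ e a
      · rw [(CharP.cast_eq_zero_iff L p (e a)).2 ha, zero_pow (by have := hp.two_le; omega),
          zero_mul, sub_zero]
        simp [ha]
      · have h1 : (e a : L) ^ (p - 1) = 1 := by
          have hne' : (e a : ZMod p) ≠ 0 := fun h => ha ((ZMod.natCast_eq_zero_iff _ _).1 h)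
          have h2 := congrArg (ZMod.castHom dvd_rfl L) (ZMod.pow_card_sub_one_eq_one hne')
          rwa [map_pow, map_natCast, map_one] at h2
        simp [h1, ha]
  obtain ⟨g, hg, hgc⟩ := hproj Finset.univ
  have hp0 : p ≠ 0 := hp.ne_zero
  let r : MvPowerSeries σ L := fun e => (frobeniusEquiv L p).symm (coeff (p • e) f)
  have hr : ∀ e, coeff e r = (frobeniusEquiv L p).symm (coeff (p • e) f) := fun e => rfl
  have hpow : r ^ p = g := by
    rw [← MvPowerSeries.map_frobenius_expand p hp0]
    ext e
    rw [coeff_map, hgc]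
    by_cases he : ∀ i, p ∣ e i
    · choose q hq using he
      have hee : e = p • Finsupp.equivFunOnFinite.symm q :=
        Finsupp.ext fun i => by simp [hq i]
      rw [if_pos fun i _ => ⟨q i, hq i⟩, hee, coeff_expand_smul, hr]
      exact frobenius_apply_frobeniusEquiv_symm L p _
    · rw [if_neg fun h => he fun i => h i (Finset.mem_univ i)]
      push Not at he
      obtain ⟨i, hi⟩ := he
      rw [coeff_expand_of_not_dvd p hp0 _ hi, map_zero]
  choose q hq using hdiv
  set e := Finsupp.equivFunOnFinite.symm q with he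
  have hde : d = p • e := Finsupp.ext fun i => by simp [he, hq i]
  have hlt : e.degree < D := by
    rw [← hdeg, hde, map_nsmul, smul_eq_mul]
    rw [hde, map_nsmul, smul_eq_mul] at hdeg
    have hpos : 0 < e.degree := Nat.pos_of_mul_pos_left (hdeg ▸ hD)
    exact lt_mul_of_one_lt_left hpos hp.one_lt
  have h0 := IH _ hlt r (hroot r (hpow ▸ hg)) e rfl
  rw [hr, _root_.map_eq_zero] at h0
  exact hc (hde ▸ h0)

end Vale.P217

end
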