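import Vale.Agent.P217.Order
import Mathlib.Analysis.Normed.Field.Basic
import Mathlib.Analysis.Normed.Group.Ultra
import Mathlib.RingTheory.MvPowerSeries.Trunc
import Mathlib.Topology.Algebra.Order.Field
import Mathlib.RingTheory.Ideal.Quotient.Operations

/-!
Formal series vanishing to all orders along a sequence of points tending to zero, and the formal
solution of an implicit equation.
-/

noncomputable section

set_option linter.unusedSectionVars false

namespace Vale.P217

open MvPowerSeries Filter Topology Finset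

section Closed

variable {σ τ R : Type*} [CommRing R]

/-- An ideal of series is closed for the adic topology. -/
def IsBelowClosed (I : Ideal (MvPowerSeries σ R)) : Prop :=
  ∀ f, (∀ M, f ∈ I ⊔ below M) → f ∈ I

theorem sub_truncTotal_mem_below [Finite σ] (M : ℕ) (f : MvPowerSeries σ R) :
    f - (truncTotal M f : MvPowerSeries σ R) ∈ below M := by
  intro d hd
  rw [map_sub, MvPolynomial.coeff_coe, coeff_truncTotal _ hd, sub_self]

/-- Substituting families which agree modulo a closed ideal. -/
theorem subst_sub_subst_mem_ideal [Finite σ] {I : Ideal (MvPowerSeries τ R)}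
    (hI : IsBelowClosed I) {a b : σ → MvPowerSeries τ R} (ha : ∀ s, a s ∈ below 1)
    (hb : ∀ s, b s ∈ below 1) (hab : ∀ s, a s - b s ∈ I) (F : MvPowerSeries σ R) :
    subst a F - subst b F ∈ I := by
  refine hI _ fun M => ?_
  have h1 : ∀ c : σ → MvPowerSeries τ R, (∀ s, c s ∈ below 1) →
      subst c F - MvPolynomial.aeval c (truncTotal M F) ∈ below M := by
    intro c hc
    rw [← subst_coe, ← subst_sub (hasSubst_of_below hc)]
    exact subst_mem_below_one hc (sub_truncTotal_mem_below M F)
  have h2 : MvPolynomial.aeval a (truncTotal M F) - MvPolynomial.aeval b (truncTotal M F) ∈ I := by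
    have h : (Ideal.Quotient.mkₐ R I).comp (MvPolynomial.aeval a) =
        (Ideal.Quotient.mkₐ R I).comp (MvPolynomial.aeval b) :=
      MvPolynomial.algHom_ext fun s => by
        simpa [Ideal.Quotient.eq] using hab s
    exact Ideal.Quotient.eq.1 (DFunLike.congr_fun h (truncTotal M F))
  rw [show subst a F - subst b F =
    ((subst a F - MvPolynomial.aeval a (truncTotal M F)) -
      (subst b F - MvPolynomial.aeval b (truncTotal M F))) +
      (MvPolynomial.aeval a (truncTotal M F) - MvPolynomial.aeval b (truncTotal M F)) by ring]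
  exact Ideal.add_mem _ (Ideal.mem_sup_right (Ideal.sub_mem _ (h1 a ha) (h1 b hb)))
    (Ideal.mem_sup_left h2)

theorem coeff_single_eq_zero_of_mem_below_two {f : MvPowerSeries σ R} (hf : f ∈ below 2) (s : σ) :
    coeff (Finsupp.single s 1) f = 0 :=
  hf _ (by simp)

end Closed

section Implicit

variable {s t : ℕ} {R : Type*} [CommRing R] (Φ : Fin s → MvPowerSeries (Fin s ⊕ Fin t) R)

/-- The equations `Δ = Φ (Δ, X)` have no constant term and no linear term in `Δ`. -/
def IsContracting : Prop :=
  (∀ i, constantCoeff (Φ i) = 0) ∧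
    ∀ i k, coeff (Finsupp.single (Sum.inl k) 1) (Φ i) = 0

/-- Iterations towards the solution. -/
def fixIter : ℕ → Fin s → MvPowerSeries (Fin t) R
  | 0 => 0
  | k + 1 => fun i => subst (Sum.elim (fixIter k) X) (Φ i)

/-- The solution of `Δ = Φ (Δ, X)`. -/
def fixSol (i : Fin s) : MvPowerSeries (Fin t) R :=
  fun d => coeff d (fixIter Φ (d.degree + 1) i)

variable {Φ}

theorem coeff_fixSol (d : Fin t →₀ ℕ) (i : Fin s) :
    coeff d (fixSol Φ i) = coeff d (fixIter Φ (d.degree + 1) i) := by
  rw [coeff_apply (fixSol Φ i) d]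
  delta fixSol
  exact Eq.refl _

theorem elim_mem_below {τ : Type*} {U : Fin s → MvPowerSeries τ R}
    {V : Fin t → MvPowerSeries τ R} (hU : ∀ i, U i ∈ below 1) (hV : ∀ j, V j ∈ below 1) :
    ∀ x, Sum.elim U V x ∈ below 1 := by
  rintro (i | j)
  · exact hU i
  · exact hV j

theorem subst_linPart_sum {τ : Type*} {a : Fin s ⊕ Fin t → MvPowerSeries τ R}
    (ha : ∀ x, a x ∈ below 1) {f : MvPowerSeries (Fin s ⊕ Fin t) R}
    (h0 : ∀ k, coeff (Finsupp.single (Sum.inl k) 1) f = 0) :
    subst a (linPart f) = ∑ j, C (coeff (Finsupp.single (Sum.inr j) 1) f) * a (Sum.inr j) := by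
  have hs := hasSubst_of_below ha
  rw [linPart, ← coe_substAlgHom hs, map_sum, Fintype.sum_sum_type]
  simp only [map_mul, coe_substAlgHom hs, subst_C, subst_X hs, h0, map_zero, zero_mul,
    Finset.sum_const_zero, zero_add]

theorem subst_elim_sub_mem_below (hΦ : IsContracting Φ) {τ : Type*}
    {a b : Fin s → MvPowerSeries τ R} {c : Fin t → MvPowerSeries τ R}
    (ha : ∀ i, a i ∈ below 1) (hb : ∀ i, b i ∈ below 1) (hc : ∀ j, c j ∈ below 1)
    {e : ℕ} (hab : ∀ i, a i - b i ∈ below e) (i : Fin s) :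
    subst (Sum.elim a c) (Φ i) - subst (Sum.elim b c) (Φ i) ∈ below (e + 1) := by
  have hab' : ∀ x, Sum.elim a c x - Sum.elim b c x ∈ below e := by
    rintro (k | j)
    · exact hab k
    · simp
  have h := subst_sub_subst_linear (elim_mem_below ha hc) (elim_mem_below hb hc) hab' (hΦ.1 i)
  rwa [Fintype.sum_sum_type, Finset.sum_eq_zero (fun k _ => by rw [hΦ.2 i k, map_zero, zero_mul]),
    Finset.sum_eq_zero (fun j _ => by simp), add_zero, sub_zero] at h

theorem fixIter_mem_below (hΦ : IsContracting Φ) : ∀ k i, fixIter Φ k i ∈ below 1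
  | 0, _ => Ideal.zero_mem _
  | k + 1, i => subst_mem_below_one (elim_mem_below (fixIter_mem_below hΦ k) X_mem_below)
      (mem_below_one_iff.2 (hΦ.1 i))

theorem fixIter_succ_sub_mem (hΦ : IsContracting Φ) :
    ∀ k i, fixIter Φ (k + 1) i - fixIter Φ k i ∈ below (k + 1)
  | 0, i => Ideal.sub_mem _ (fixIter_mem_below hΦ 1 i) (fixIter_mem_below hΦ 0 i)
  | k + 1, i => subst_elim_sub_mem_below hΦ (fixIter_mem_below hΦ (k + 1)) (fixIter_mem_below hΦ k)
      X_mem_below (fixIter_succ_sub_mem hΦ k) i

theorem fixIter_sub_mem (hΦ : IsContracting Φ) (k : ℕ) :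
    ∀ l i, fixIter Φ (k + l) i - fixIter Φ k i ∈ below (k + 1)
  | 0, i => by simp
  | l + 1, i => by
    have h1 := below_antitone (show k + 1 ≤ k + l + 1 by omega)
      (fixIter_succ_sub_mem hΦ (k + l) i)
    have h2 := Ideal.add_mem _ h1 (fixIter_sub_mem hΦ k l i)
    rwa [sub_add_sub_cancel] at h2

theorem fixSol_sub_mem (hΦ : IsContracting Φ) (k : ℕ) (i : Fin s) :
    fixSol Φ i - fixIter Φ k i ∈ below (k + 1) := by
  intro d hd
  rw [map_sub, sub_eq_zero]
  rw [coeff_fixSol]
  rcases Nat.le_total k (d.degree + 1) with h | h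
  · obtain ⟨l, hl⟩ := le_iff_exists_add.1 h
    rw [hl]
    exact coeff_eq_of_below (fixIter_sub_mem hΦ k l i) hd
  · obtain ⟨l, hl⟩ := le_iff_exists_add.1 h
    rw [hl]
    exact (coeff_eq_of_below (fixIter_sub_mem hΦ (d.degree + 1) l i) (by omega)).symm

theorem fixSol_mem_below (hΦ : IsContracting Φ) (i : Fin s) : fixSol Φ i ∈ below 1 := by
  simpa [fixIter] using fixSol_sub_mem hΦ 0 i

/-- The solution solves the equations. -/
theorem subst_fixSol (hΦ : IsContracting Φ) (i : Fin s) :
    subst (Sum.elim (fixSol Φ) X) (Φ i) = fixSol Φ i := by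
  refine eq_of_below fun D => ?_
  have h1 : subst (Sum.elim (fixSol Φ) X) (Φ i) - fixIter Φ (D + 1) i ∈ below D :=
    below_antitone (by omega) (subst_elim_sub_mem_below hΦ (fixSol_mem_below hΦ)
      (fixIter_mem_below hΦ D) X_mem_below (fixSol_sub_mem hΦ D) i)
  have h2 := below_antitone (show D ≤ D + 1 + 1 by omega) (fixSol_sub_mem hΦ (D + 1) i)
  simpa using Ideal.sub_mem _ h1 h2

theorem coeff_single_fixSol (hΦ : IsContracting Φ) (i : Fin s) (j : Fin t) :
    coeff (Finsupp.single j 1) (fixSol Φ i) = coeff (Finsupp.single (Sum.inr j) 1) (Φ i) := by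
  classical
  have hU := elim_mem_below (fixSol_mem_below hΦ) (X_mem_below (σ := Fin t) (R := R))
  have h := subst_mem_below_one hU (sub_linPart_mem_below (hΦ.1 i))
  rw [subst_sub (hasSubst_of_below hU), subst_fixSol hΦ, subst_linPart_sum hU (hΦ.2 i)] at h
  rw [coeff_eq_of_below h (d := Finsupp.single j 1) (by simp), map_sum, Finset.sum_eq_single j]
  · simp
  · intro j' _ hj'
    rw [Sum.elim_inr, coeff_C_mul, coeff_X, if_neg, mul_zero]
    intro he
    exact hj' ((Finsupp.single_left_inj one_ne_zero).1 he).symm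
  · simp

/-- The coordinates agree with the solution modulo a closed ideal containing the equations. -/
theorem sub_fixSol_mem (hΦ : IsContracting Φ) {I : Ideal (MvPowerSeries (Fin s ⊕ Fin t) R)}
    (hI : IsBelowClosed I) (hmem : ∀ i, X (Sum.inl i) - Φ i ∈ I) (i : Fin s) :
    X (Sum.inl i) - subst (fun j => X (Sum.inr j)) (fixSol Φ i) ∈ I := by
  set U : Fin s → MvPowerSeries (Fin s ⊕ Fin t) R := fun i =>
    subst (fun j => X (Sum.inr j)) (fixSol Φ i)
  have hinr : ∀ j : Fin t, (X (Sum.inr j) : MvPowerSeries (Fin s ⊕ Fin t) R) ∈ below 1 :=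
    fun j => X_mem_below _
  have hU : ∀ i, U i ∈ below 1 := fun i => subst_mem_below_one hinr (fixSol_mem_below hΦ i)
  have hUfix : ∀ i, subst (Sum.elim U fun j => X (Sum.inr j)) (Φ i) = U i := by
    intro i
    conv_rhs => simp only [U]; rw [← subst_fixSol hΦ i]
    rw [subst_comp_subst_apply (hasSubst_of_below (elim_mem_below (fixSol_mem_below hΦ)
      X_mem_below)) (hasSubst_of_below hinr)]
    congr 1
    funext x
    cases x with
    | inl k => rfl
    | inr j => simp [subst_X (hasSubst_of_below hinr)]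
  have key : ∀ M i, X (Sum.inl i) - U i ∈ I ⊔ below (M + 1) := by
    intro M
    induction M with
    | zero => exact fun i => Ideal.mem_sup_right (Ideal.sub_mem _ (X_mem_below _) (hU i))
    | succ M ih =>
      intro i
      choose r hr t' ht' hrt using fun k => Submodule.mem_sup.1 (ih k)
      -- `a'` agrees with `Δ` modulo `I` and with `U` modulo higher terms
      have ha' : ∀ k, U k + t' k ∈ below 1 := fun k =>
        Ideal.add_mem _ (hU k) (below_antitone (by omega) (ht' k))
      have hX : ∀ x, (X x : MvPowerSeries (Fin s ⊕ Fin t) R) ∈ below 1 := fun x => X_mem_below x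
      have e1 : Φ i - subst (Sum.elim (fun k => U k + t' k) fun j => X (Sum.inr j)) (Φ i) ∈ I := by
        have h := subst_sub_subst_mem_ideal hI hX (elim_mem_below ha' hinr)
          (by
            rintro (k | j)
            · rw [Sum.elim_inl, show X (Sum.inl k) - (U k + t' k) = r k by rw [← sub_sub, ← hrt k]; ring]
              exact hr k
            · simp)
          (Φ i)
        rwa [subst_self, id] at h
      have e2 := subst_elim_sub_mem_below hΦ ha' hU hinr (e := M + 1)
        (fun k => by simpa using ht' k) i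
      rw [hUfix i] at e2
      have h3 := Ideal.add_mem (I ⊔ below (M + 1 + 1))
        (Ideal.mem_sup_left (Ideal.add_mem _ (hmem i) e1)) (Ideal.mem_sup_right e2)
      convert h3 using 1
      ring
  refine hI _ fun M => ?_
  exact sup_le_sup_left (fun _ => below_antitone M.le_succ) I (key M i)

end Implicit

section Asymptotic

variable {σ τ : Type*} [Fintype σ] [Fintype τ] {K : Type*} [NormedField K] [IsUltrametricDist K]

/-- All truncations of `F` are as small along `z` as their order predicts. -/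
def AsympZero (z : ℕ → σ → K) (F : MvPowerSeries σ K) : Prop :=
  ∀ M : ℕ, ∃ B : ℝ, ∀ᶠ N in atTop,
    ‖MvPolynomial.eval (z N) (truncTotal M F)‖ ≤ B * ‖z N‖ ^ M

variable {z : ℕ → σ → K} (hz : Tendsto z atTop (𝓝 0))
include hz

omit [IsUltrametricDist K] in
theorem eventually_norm_le_one : ∀ᶠ N in atTop, ‖z N‖ ≤ 1 := by
  have h := (tendsto_zero_iff_norm_tendsto_zero.1 hz).eventually (ge_mem_nhds one_pos)
  exact h

omit [IsUltrametricDist K] in
theorem eventually_norm_eval_le {P : MvPolynomial σ K} {M : ℕ}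
    (hP : (P : MvPowerSeries σ K) ∈ below M) :
    ∃ B : ℝ, ∀ᶠ N in atTop, ‖MvPolynomial.eval (z N) P‖ ≤ B * ‖z N‖ ^ M := by
  classical
  refine ⟨∑ d ∈ P.support, ‖P.coeff d‖, (eventually_norm_le_one hz).mono fun N hN => ?_⟩
  rw [MvPolynomial.eval_eq', Finset.sum_mul]
  refine (norm_sum_le _ _).trans (Finset.sum_le_sum fun d hd => ?_)
  rw [norm_mul, norm_prod]
  refine mul_le_mul_of_nonneg_left ?_ (norm_nonneg _)
  calc ∏ i, ‖z N i ^ d i‖ ≤ ∏ i, ‖z N‖ ^ d i := Finset.prod_le_prod (fun i _ => norm_nonneg _)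
        fun i _ => by rw [norm_pow]; exact pow_le_pow_left₀ (norm_nonneg _) (norm_le_pi_norm _ i) _
    _ = ‖z N‖ ^ d.degree := by rw [Finset.prod_pow_eq_pow_sum, Finsupp.degree_eq_sum]
    _ ≤ ‖z N‖ ^ M := pow_le_pow_of_le_one (norm_nonneg _) hN (by
        by_contra hlt
        exact MvPolynomial.mem_support_iff.1 hd (by simpa using hP d (not_le.1 hlt)))

theorem asympZero_add {F G : MvPowerSeries σ K} (hF : AsympZero z F) (hG : AsympZero z G) :
    AsympZero z (F + G) := by
  intro M
  obtain ⟨B, hB⟩ := hF M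
  obtain ⟨B', hB'⟩ := hG M
  refine ⟨max B B', (hB.and hB').mono fun N hN => ?_⟩
  rw [map_add, map_add]
  refine (IsUltrametricDist.norm_add_le_max _ _).trans (max_le ?_ ?_)
  · exact hN.1.trans (mul_le_mul_of_nonneg_right (le_max_left _ _) (by positivity))
  · exact hN.2.trans (mul_le_mul_of_nonneg_right (le_max_right _ _) (by positivity))

theorem bound_of_congr {F : MvPowerSeries σ K} {P : MvPolynomial σ K} {M : ℕ}
    (hP : F - (P : MvPowerSeries σ K) ∈ below M) :
    (∃ B : ℝ, ∀ᶠ N in atTop, ‖MvPolynomial.eval (z N) (truncTotal M F)‖ ≤ B * ‖z N‖ ^ M) ↔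
      ∃ B : ℝ, ∀ᶠ N in atTop, ‖MvPolynomial.eval (z N) P‖ ≤ B * ‖z N‖ ^ M := by
  have hd : ((truncTotal M F - P : MvPolynomial σ K) : MvPowerSeries σ K) ∈ below M := by
    intro d hd
    rw [MvPolynomial.coeff_coe, MvPolynomial.coeff_sub, coeff_truncTotal _ hd]
    simpa using hP d hd
  obtain ⟨D, hD⟩ := eventually_norm_eval_le hz hd
  constructor
  · rintro ⟨B, hB⟩
    refine ⟨max B D, (hB.and hD).mono fun N hN => ?_⟩
    have h : MvPolynomial.eval (z N) P = MvPolynomial.eval (z N) (truncTotal M F) +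
        -MvPolynomial.eval (z N) (truncTotal M F - P) := by rw [map_sub]; ring
    rw [h]
    refine (IsUltrametricDist.norm_add_le_max _ _).trans (max_le ?_ ?_)
    · exact hN.1.trans (mul_le_mul_of_nonneg_right (le_max_left _ _) (by positivity))
    · rw [norm_neg]
      exact hN.2.trans (mul_le_mul_of_nonneg_right (le_max_right _ _) (by positivity))
  · rintro ⟨B, hB⟩
    refine ⟨max B D, (hB.and hD).mono fun N hN => ?_⟩
    have h : MvPolynomial.eval (z N) (truncTotal M F) = MvPolynomial.eval (z N) P +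
        MvPolynomial.eval (z N) (truncTotal M F - P) := by rw [map_sub]; ring
    rw [h]
    refine (IsUltrametricDist.norm_add_le_max _ _).trans (max_le ?_ ?_)
    · exact hN.1.trans (mul_le_mul_of_nonneg_right (le_max_left _ _) (by positivity))
    · exact hN.2.trans (mul_le_mul_of_nonneg_right (le_max_right _ _) (by positivity))

theorem asympZero_mul (G : MvPowerSeries σ K) {F : MvPowerSeries σ K} (hF : AsympZero z F) :
    AsympZero z (G * F) := by
  intro M
  have hc : G * F - ((truncTotal M G * truncTotal M F : MvPolynomial σ K) : MvPowerSeries σ K) ∈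
      below M := by
    rw [MvPolynomial.coe_mul, show G * F - (truncTotal M G : MvPowerSeries σ K) *
      (truncTotal M F : MvPowerSeries σ K) = G * (F - truncTotal M F) +
        (G - truncTotal M G) * truncTotal M F by ring]
    exact Ideal.add_mem _ (Ideal.mul_mem_left _ _ (sub_truncTotal_mem_below M F))
      (Ideal.mul_mem_right _ _ (sub_truncTotal_mem_below M G))
  rw [bound_of_congr hz hc]
  obtain ⟨B, hB⟩ := hF M
  obtain ⟨A, hA⟩ := eventually_norm_eval_le hz (P := truncTotal M G) (mem_below_zero _)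
  refine ⟨A * B, (hA.and hB).mono fun N hN => ?_⟩
  rw [map_mul, norm_mul, mul_assoc]
  refine mul_le_mul (by simpa using hN.1) hN.2 (norm_nonneg _) ?_
  exact (norm_nonneg _).trans (by simpa using hN.1)

/-- The series vanishing to all orders along `z`. -/
def asympIdeal : Ideal (MvPowerSeries σ K) where
  carrier := {F | AsympZero z F}
  add_mem' := asympZero_add hz
  zero_mem' := fun M => ⟨0, by simp⟩
  smul_mem' := fun G _ hF => asympZero_mul hz G hF

theorem mem_asympIdeal {F : MvPowerSeries σ K} : F ∈ asympIdeal hz ↔ AsympZero z F := Iff.rfl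

theorem isBelowClosed_asympIdeal : IsBelowClosed (asympIdeal hz) := by
  intro F hF M
  obtain ⟨F', hF', r, hr, rfl⟩ := Submodule.mem_sup.1 (hF M)
  rw [bound_of_congr hz (P := truncTotal M F')]
  · exact hF' M
  · rw [show F' + r - (truncTotal M F' : MvPowerSeries σ K) =
      (F' - truncTotal M F') + r by ring]
    exact Ideal.add_mem _ (sub_truncTotal_mem_below M F') hr

end Asymptotic

section Transfer

variable {s t : ℕ} {K : Type*} [NormedField K] [IsUltrametricDist K]
  {z : ℕ → Fin s ⊕ Fin t → K} (hz : Tendsto z atTop (𝓝 0))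
include hz

theorem eval_rename_truncTotal {σ' : Type*} [Fintype σ'] (e : σ' → Fin s ⊕ Fin t) (M : ℕ)
    (G : MvPowerSeries σ' K) :
    subst (fun j => (X (e j) : MvPowerSeries (Fin s ⊕ Fin t) K)) G -
      (MvPolynomial.rename e (truncTotal M G) : MvPowerSeries (Fin s ⊕ Fin t) K) ∈ below M ∧
      ∀ N, MvPolynomial.eval (z N) (MvPolynomial.rename e (truncTotal M G)) =
        MvPolynomial.eval (z N ∘ e) (truncTotal M G) := by
  refine ⟨?_, fun N => MvPolynomial.eval_rename _ _ _⟩
  have he : ∀ j, (X (e j) : MvPowerSeries (Fin s ⊕ Fin t) K) ∈ below 1 := fun j => X_mem_below _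
  have h := subst_mem_below_one he (sub_truncTotal_mem_below M G)
  rw [subst_sub (hasSubst_of_below he), subst_coe] at h
  convert h using 2
  induction truncTotal M G using MvPolynomial.induction_on with
  | C a => simp [MvPowerSeries.algebraMap_apply]
  | add P Q hP hQ => simp [hP, hQ]
  | mul_X P j hP => simp [hP]

/-- The first coordinates are bounded by the last ones. -/
theorem exists_norm_le_inr {U : Fin s → MvPowerSeries (Fin t) K} (hU : ∀ i, U i ∈ below 1)
    (hD : ∀ i, X (Sum.inl i) - subst (fun j => X (Sum.inr j)) (U i) ∈ asympIdeal hz) :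
    ∃ B : ℝ, 0 ≤ B ∧ ∀ᶠ N in atTop, ‖z N‖ ≤ B * ‖z N ∘ Sum.inr‖ := by
  classical
  have hX : Tendsto (fun N => z N ∘ Sum.inr) atTop (𝓝 (0 : Fin t → K)) :=
    tendsto_pi_nhds.2 fun j => (tendsto_pi_nhds.1 hz) (Sum.inr j)
  have hi : ∀ i, ∃ B : ℝ, ∀ᶠ N in atTop,
      ‖z N (Sum.inl i)‖ ≤ B * max (‖z N ∘ Sum.inr‖) (‖z N‖ ^ 2) := by
    intro i
    obtain ⟨B, hB⟩ := (bound_of_congr hz (P := MvPolynomial.X (Sum.inl i) -
      MvPolynomial.rename Sum.inr (truncTotal 2 (U i))) (by
        have e : ∀ P Q : MvPolynomial (Fin s ⊕ Fin t) K,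
            ((P - Q : MvPolynomial (Fin s ⊕ Fin t) K) : MvPowerSeries (Fin s ⊕ Fin t) K) =
              (P : MvPowerSeries (Fin s ⊕ Fin t) K) - Q :=
          map_sub MvPolynomial.coeToMvPowerSeries.ringHom
        rw [e, MvPolynomial.coe_X, sub_sub_sub_cancel_left, ← neg_sub]
        exact neg_mem (eval_rename_truncTotal hz Sum.inr 2 (U i)).1)).1 (hD i 2)
    obtain ⟨A, hA⟩ := eventually_norm_eval_le hX (P := truncTotal 2 (U i)) (M := 1) (by
      intro d hd
      rw [MvPolynomial.coeff_coe, coeff_truncTotal _ (by omega), hU i d hd])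
    refine ⟨max B A, (hB.and hA).mono fun N hN => ?_⟩
    have h1 := hN.1
    rw [map_sub, MvPolynomial.eval_X, MvPolynomial.eval_rename] at h1
    rw [show z N (Sum.inl i) = (z N (Sum.inl i) -
      MvPolynomial.eval (z N ∘ Sum.inr) (truncTotal 2 (U i))) +
        MvPolynomial.eval (z N ∘ Sum.inr) (truncTotal 2 (U i)) by ring]
    refine (IsUltrametricDist.norm_add_le_max _ _).trans (max_le ?_ ?_)
    · refine h1.trans ?_
      calc B * ‖z N‖ ^ 2 ≤ max B A * ‖z N‖ ^ 2 :=
            mul_le_mul_of_nonneg_right (le_max_left _ _) (by positivity)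
        _ ≤ max B A * max (‖z N ∘ Sum.inr‖) (‖z N‖ ^ 2) := by
          rcases eq_or_lt_of_le (sq_nonneg ‖z N‖) with h0 | h0
          · have hz0 : z N = 0 := norm_eq_zero.1 (sq_eq_zero_iff.1 h0.symm)
            simp [hz0]
          · refine mul_le_mul_of_nonneg_left (le_max_right _ _) ?_
            have := (norm_nonneg _).trans h1
            exact (nonneg_of_mul_nonneg_left this h0).trans (le_max_left _ _)
    · refine hN.2.trans ?_
      rw [pow_one]
      calc A * ‖z N ∘ Sum.inr‖ ≤ max B A * ‖z N ∘ Sum.inr‖ :=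
            mul_le_mul_of_nonneg_right (le_max_right _ _) (norm_nonneg _)
        _ ≤ max B A * max (‖z N ∘ Sum.inr‖) (‖z N‖ ^ 2) := by
          rcases eq_or_lt_of_le (norm_nonneg (z N ∘ Sum.inr)) with h0 | h0
          · have h2 := hN.2
            rw [pow_one, ← h0, mul_zero] at h2
            have h3 : 0 ≤ max B A * max 0 (‖z N‖ ^ 2) := by
              rcases eq_or_lt_of_le (sq_nonneg ‖z N‖) with h4 | h4
              · simp [← h4]
              · exact mul_nonneg ((nonneg_of_mul_nonneg_left ((norm_nonneg _).trans h1) h4).trans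
                  (le_max_left _ _)) (le_max_left _ _)
            rw [← h0, mul_zero]
            exact h3
          · refine mul_le_mul_of_nonneg_left (le_max_left _ _) ?_
            have h2 := (norm_nonneg _).trans hN.2
            rw [pow_one] at h2
            exact (nonneg_of_mul_nonneg_left h2 h0).trans (le_max_right _ _)
  choose B hB using hi
  set B' : ℝ := max 1 (∑ i, |B i|)
  have hB'1 : 1 ≤ B' := le_max_left _ _
  have hsmall : ∀ᶠ N in atTop, ‖z N‖ < 1 / B' :=
    (tendsto_zero_iff_norm_tendsto_zero.1 hz).eventually (Iio_mem_nhds (by positivity))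
  refine ⟨B', zero_le_one.trans hB'1, ((eventually_all.2 hB).and hsmall).mono fun N hN => ?_⟩
  have hle : ‖z N‖ ≤ max (B' * ‖z N ∘ Sum.inr‖) (B' * ‖z N‖ ^ 2) := by
    refine (pi_norm_le_iff_of_nonneg (le_max_of_le_left (by positivity))).2 fun x => ?_
    cases x with
    | inl i =>
      rw [← mul_max_of_nonneg _ _ (zero_le_one.trans hB'1)]
      refine (hN.1 i).trans (mul_le_mul_of_nonneg_right ?_ (le_max_of_le_left (norm_nonneg _)))
      exact (le_abs_self _).trans ((Finset.single_le_sum (fun k _ => abs_nonneg (B k))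
        (Finset.mem_univ i)).trans (le_max_right _ _))
    | inr j =>
      exact le_max_of_le_left ((norm_le_pi_norm (z N ∘ Sum.inr) j).trans
        (le_mul_of_one_le_left (norm_nonneg _) hB'1))
  rcases le_max_iff.1 hle with h | h
  · exact h
  · rcases eq_or_lt_of_le (norm_nonneg (z N)) with h0 | h0
    · rw [← h0]; positivity
    · exfalso
      have h2 := hN.2
      rw [lt_div_iff₀ (by positivity)] at h2
      nlinarith

/-- A series vanishing along the first coordinates gives, after substitution of the solution,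
a series vanishing along the last ones. -/
theorem asympZero_subst {U : Fin s → MvPowerSeries (Fin t) K} (hU : ∀ i, U i ∈ below 1)
    (hD : ∀ i, X (Sum.inl i) - subst (fun j => X (Sum.inr j)) (U i) ∈ asympIdeal hz)
    {F : MvPowerSeries (Fin s) K}
    (hF : ∀ M, ∃ B : ℝ, ∀ᶠ N in atTop,
      ‖MvPolynomial.eval (z N ∘ Sum.inl) (truncTotal M F)‖ ≤ B * ‖z N‖ ^ M) :
    AsympZero (fun N => z N ∘ Sum.inr) (subst U F) := by
  have hinl : ∀ i : Fin s, (X (Sum.inl i) : MvPowerSeries (Fin s ⊕ Fin t) K) ∈ below 1 :=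
    fun i => X_mem_below _
  have hinr : ∀ j : Fin t, (X (Sum.inr j) : MvPowerSeries (Fin s ⊕ Fin t) K) ∈ below 1 :=
    fun j => X_mem_below _
  have hF' : subst (fun i => X (Sum.inl i)) F ∈ asympIdeal hz := fun M => by
    obtain ⟨h1, h2⟩ := eval_rename_truncTotal hz Sum.inl M F
    rw [bound_of_congr hz h1]
    obtain ⟨B, hB⟩ := hF M
    exact ⟨B, hB.mono fun N hN => by rwa [h2]⟩
  have hG : subst (fun j => X (Sum.inr j)) (subst U F) ∈ asympIdeal hz := by
    rw [subst_comp_subst_apply (hasSubst_of_below hU) (hasSubst_of_below hinr)]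
    have h := subst_sub_subst_mem_ideal (isBelowClosed_asympIdeal hz) hinl
      (fun i => subst_mem_below_one hinr (hU i)) hD F
    have h' := Ideal.sub_mem _ hF' h
    rwa [sub_sub_cancel] at h'
  obtain ⟨D, hD0, hD⟩ := exists_norm_le_inr hz hU hD
  intro M
  obtain ⟨h1, h2⟩ := eval_rename_truncTotal hz Sum.inr M (subst U F)
  obtain ⟨B, hB⟩ := (bound_of_congr hz h1).1 (hG M)
  refine ⟨|B| * D ^ M, (hB.and hD).mono fun N hN => ?_⟩
  rw [← h2]
  refine hN.1.trans ?_
  rw [mul_assoc, ← mul_pow]
  exact mul_le_mul (le_abs_self B) (pow_le_pow_left₀ (norm_nonneg _) hN.2 M) (by positivity)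
    (abs_nonneg B)

end Transfer

end Vale.P217

end
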