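import Vale.Agent.P217.ExpansionEquation

/-!
The formal limit equation of the orbit and its values at moved points.
-/

noncomputable section

set_option linter.unusedSectionVars false

namespace Vale.P217

open SeriesNorm MvPowerSeries

variable (p : ℕ) [Fact p.Prime] (n : ℕ) {h : ℕ} {K : Type} [NontriviallyNormedField K]
  [IsUltrametricDist K] [CompleteSpace K] [CharP K p] [IsAlgClosed K]
  (u : Fin (n - 1) → Ball K) (π : Ball K) (ι : PowerSeries (Ball K)) (z : Fin (n - h) → Ball K)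

/-- The formal limit equation: the `(α, β)` coefficient of the level `l` equation divided by
`(c_l ^ 2 π) ^ |β|`, for `l = |α|`. -/
def eForm (j : Fin (n - h)) : MvPowerSeries (Fin (n - h) ⊕ Fin (n - h)) K :=
  fun d => ((coeff d (eqn p n u π ι z (SeriesNorm.leftDeg d) j) : Ball K) : K) /
    (((hondaScale p h ι (SeriesNorm.leftDeg d) ^ 2 * π : Ball K) : K)) ^ rightDeg d

theorem coeff_eForm_def (j : Fin (n - h)) (d : Fin (n - h) ⊕ Fin (n - h) →₀ ℕ) :
    coeff d (eForm p n u π ι z j) =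
      ((coeff d (eqn p n u π ι z (SeriesNorm.leftDeg d) j) : Ball K) : K) /
        (((hondaScale p h ι (SeriesNorm.leftDeg d) ^ 2 * π : Ball K) : K)) ^ rightDeg d := by
  rw [coeff_apply (eForm p n u π ι z j) d]
  delta eForm
  exact Eq.refl _

variable (hπ : ‖π‖ < 1) (hn : 1 ≤ n) {ε : ℝ} (hu : SmallParam n u ε) (hz : ∀ j, ‖z j‖ < 1)
  (hh : 1 ≤ h) (hhn : h ≤ n) (hu0 : ∀ i : Fin (n - 1), (i : ℕ) + 1 < h → u i = 0)
  (hι : IsHomSeries (fg p n u) (fg p h (0 : Fin (h - 1) → Ball K)) ι)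
  (hι1 : PowerSeries.coeff 1 ι ≠ 0)
include hπ hn hu hz hh hhn hu0 hι hι1

/-- The coefficients stabilise. -/
theorem coeff_eForm (j : Fin (n - h)) (d : Fin (n - h) ⊕ Fin (n - h) →₀ ℕ) {l : ℕ}
    (hl : SeriesNorm.leftDeg d ≤ l) :
    coeff d (eForm p n u π ι z j) = ((coeff d (eqn p n u π ι z l j) : Ball K) : K) /
      (((hondaScale p h ι l ^ 2 * π : Ball K) : K)) ^ rightDeg d := by
  induction l, hl using Nat.le_induction with
  | base => exact coeff_eForm_def p n u π ι z j d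
  | succ l hl ih =>
    have hlt : SeriesNorm.leftDeg d < p ^ (h * l) + 0 := by
      rw [add_zero]
      rcases Nat.eq_zero_or_pos l with rfl | hl0
      · rw [Nat.le_zero.1 hl, Nat.mul_zero, pow_zero]; exact one_pos
      · exact hl.trans_lt ((Nat.le_mul_of_pos_left l hh).trans_lt
          (Nat.lt_pow_self (Fact.out : p.Prime).one_lt))
    have h1 := eqn_succ_sub_mem p n u π ι z hπ hn hu hz hh hhn hu0 hι hι1 l j d hlt
    rw [map_sub, sub_eq_zero, coeff_rescale, prod_elim_one] at h1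
    have hk : ((hondaRatio p h ι l : Ball K) : K) ≠ 0 := by
      rw [hondaRatio, hondaScale]
      simp only [Subring.coe_pow, ne_eq]
      exact pow_ne_zero _ (pow_ne_zero _ fun h0 => hι1 (Subtype.ext h0))
    rw [ih, h1, hondaScale_succ_sq, mul_assoc]
    push_cast
    rw [mul_pow (hondaRatio p h ι l : K), mul_div_mul_left _ _ (pow_ne_zero _ hk)]

theorem coeff_eForm_inl (j k : Fin (n - h)) :
    coeff (Finsupp.single (Sum.inl k) 1) (eForm p n u π ι z j) =
      ((π * evalP (dMul p n u ⟨h - 1 + k, by omega⟩) (phiK p n u (z j)) : Ball K) : K) := by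
  classical
  have hr : rightDeg (Finsupp.single (Sum.inl k : Fin (n - h) ⊕ Fin (n - h)) 1) = 0 := by
    simp [rightDeg]
  rw [coeff_eForm p n u π ι z hπ hn hu hz hh hhn hu0 hι hι1 j _
    (l := 1) (leftDeg_single_inl k).le, hr, pow_zero, div_one]
  congr 1
  have h1 := congrArg (coeff (Finsupp.single (Sum.inl k : Fin (n - h) ⊕ Fin (n - h)) 1))
    (rescale_zero_eqn p n u π ι z hπ hn hu hz (a := Sum.elim (fun _ => 1) fun _ => 0)
      (fun _ => rfl) (fun _ => rfl) 1 j)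
  rw [coeff_rescale, prod_elim_one, hr, pow_zero, one_mul] at h1
  rw [h1, coeff_pSer p n u π hn hh hhn hu0 hu hπ (hz j) k]

theorem coeff_eForm_inr (hπ0 : π ≠ 0) (hz0 : ∀ j, phiK p n u (z j ^ p ^ n) = 0)
    (j k : Fin (n - h)) :
    coeff (Finsupp.single (Sum.inr k) 1) (eForm p n u π ι z j) =
      if k = j then ((PowerSeries.coeff 1 ι : Ball K) : K)⁻¹ else 0 := by
  classical
  have hr : rightDeg (Finsupp.single (Sum.inr k : Fin (n - h) ⊕ Fin (n - h)) 1) = 1 := by
    simp [rightDeg, Finsupp.single_apply]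
  rw [coeff_eForm p n u π ι z hπ hn hu hz hh hhn hu0 hι hι1 j _
    (l := 0) (leftDeg_single_inr k).le, hr, pow_one]
  -- only the section contributes
  set a : Fin (n - h) ⊕ Fin (n - h) → Ball K := Sum.elim (fun _ => 0) fun _ => 1 with ha
  have hU : ⇑(rescale a) ∘ upar n h u π = fun i => C (u i) :=
    funext fun i => rescale_upar_zero n u π (fun _ => rfl) i
  have hy := norm_sectPt_lt_one p n π ι hπ 0 j
  have hRy : rescale a (theta p n u π ι 0 j) = sectPt p n π ι 0 j := by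
    rw [map_theta p n u π ι hπ _ (norm_rescale_le a), gIter, rescale_orbVar,
      show a (Sum.inr j) = 1 from rfl, map_one, one_mul, evalP_X]
    · rw [sectPt, orbVar]
      congr 1
      exact PowerSeries.ext fun e => by simp [SeriesNorm.rescale_C]
    · refine (norm_evalP_le (norm_orbVar_lt n π hπ j) _ ?_).trans_lt (norm_orbVar_lt n π hπ j)
      rw [constantCoeff_map', constantCoeff_frobS p h 0 (constantCoeff_sectS ι), map_zero]
  have hR : rescale a (eqn p n u π ι z 0 j) = sectPt p n π ι 0 j := by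
    rw [map_eqn p n u π ι z hπ hn hu hz _ (norm_rescale_le a), hU,
      rescale_pSer_zero p n u π hn hu hπ (hz j) (fun _ => rfl), hz0, map_zero, hRy,
      fadd_zero_left' _ hy]
  have hc : coeff (Finsupp.single (Sum.inr k) 1) (eqn p n u π ι z 0 j) =
      coeff (Finsupp.single (Sum.inr k) 1) (sectPt p n π ι 0 j) := by
    conv_rhs => rw [← hR, coeff_rescale]
    simp [ha]
  have hX : coeff (Finsupp.single (Sum.inr k) 1) (orbVar n π j) = if k = j then π else 0 := by
    rw [orbVar, coeff_C_mul, coeff_X]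
    by_cases hkj : k = j
    · subst hkj; simp
    · rw [if_neg hkj, if_neg fun he => hkj (Sum.inr.inj ((Finsupp.single_left_inj one_ne_zero).1 he)),
        mul_zero]
  have h1 := hasSum_coeff (hasSum_evalP (norm_orbVar_lt n π hπ j)
    ((frobS p h 0 (sectS ι)).map C)) (Finsupp.single (Sum.inr k) 1)
  have h2 : coeff (Finsupp.single (Sum.inr k) 1) (sectPt p n π ι 0 j) =
      PowerSeries.coeff 1 ι * if k = j then π else 0 := by
    refine h1.unique ?_
    convert hasSum_single 1 (fun e (he : e ≠ 1) => ?_) using 1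
    · rw [PowerSeries.coeff_map, coeff_C_mul, coeff_single_pow n hn, coeff_frobS, coeff_one_sectS,
        hX]
      simp
    · rw [PowerSeries.coeff_map, coeff_C_mul, coeff_single_pow n hn]
      rcases e with _ | _ | e
      · simp
      · exact absurd rfl he
      · simp [orbVar]
  rw [hc, h2, hondaScale, Nat.mul_zero, pow_zero, pow_one]
  push_cast
  have ha1 : ((PowerSeries.coeff 1 ι : Ball K) : K) ≠ 0 := fun h0 => hι1 (Subtype.ext h0)
  have hπ' : (π : K) ≠ 0 := fun h0 => hπ0 (Subtype.ext h0)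
  split_ifs
  · field_simp
  · simp

omit hz in
theorem honda_iterate_mulP (m : ℕ) {x : Ball K} (hx : ‖x‖ < 1) :
    evalP ι ((mulP p n u)^[m] x) = evalP ι x ^ p ^ (h * m) := by
  induction m with
  | zero => simp
  | succ m ih =>
    rw [Function.iterate_succ_apply', honda_mulP p n hh hhn u hu0 hι
      (norm_iterate_mulP_lt p n u hx m), ih, ← pow_mul, ← pow_add, Nat.mul_succ]

omit hz in
theorem norm_iterate_mulP_pow_le (m : ℕ) {x : Ball K} (hx : ‖x‖ < 1) :
    ‖(mulP p n u)^[m] x‖ ≤ ‖x‖ ^ p ^ (h * m) := by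
  rw [iterate_mulP_eq p n hh hhn u hu0 m hx]
  exact (norm_evalP_le (norm_pow_lt_one hx (pow_ne_zero _ (Fact.out : p.Prime).ne_zero)) _
    (constantCoeff_gIter p n h u m)).trans (norm_pow_le' x _)

/-- At a moved point, the level `l` equation is small to order `q ^ l`. -/
theorem norm_evalAt_eqn_le (j : Fin (n - h)) (ζ : Fin (n - h) ⊕ Fin (n - h) → Ball K)
    (hζ : ∀ x, ‖ζ x‖ < 1) {v : Fin (n - 1) → Ball K}
    (hv : evalAt ζ hζ ∘ upar n h u π = v) {ε' : ℝ} (hv' : SmallParam n v ε')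
    {δ : ℝ} (hδ1 : δ ≤ 1) (hδ : 0 ≤ δ) (hd : ∀ i, ‖u i - v i‖ ≤ δ)
    (hv0 : ∀ i : Fin (n - 1), (i : ℕ) + 1 < h → v i = 0) {x : Ball K} (hx : ‖x‖ < 1)
    {l N : ℕ} (hl : l ≤ N + 1)
    (hrel : fadd (fg p n v) (phiK p n v (z j ^ p ^ n))
      ((mulP p n v)^[N + 1] (phiK p n v x)) = 0)
    (hB : ‖(mulP p n u)^[N + 1 - l] (phiK p n u x)‖ < ‖PowerSeries.coeff 1 ι‖)
    (hX : hondaScale p h ι l ^ 2 * (π * ζ (Sum.inr j)) =
      evalP ι (phiK p n u x) ^ p ^ (h * (N + 1))) :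
    ‖evalAt ζ hζ (eqn p n u π ι z l j)‖ ≤ δ ^ p ^ (h * l) := by
  have hp0 := (Fact.out : p.Prime).ne_zero
  obtain ⟨m, hm⟩ : ∃ m, N + 1 - l = m := ⟨_, rfl⟩
  rw [hm] at hB
  set Bu := (mulP p n u)^[m] (phiK p n u x)
  set Bv := (mulP p n v)^[m] (phiK p n v x)
  have hxu := norm_phiK_lt_one p n hn hu hx
  have hxv := norm_phiK_lt_one p n hn hv' hx
  have hBu : ‖Bu‖ < 1 := norm_iterate_mulP_lt p n u hxu m
  have hBv : ‖Bv‖ < 1 := norm_iterate_mulP_lt p n v hxv m
  have hid : (evalAt ζ hζ).comp (C : Ball K →+* OrbSeries n h K) = RingHom.id (Ball K) :=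
    evalAt_comp_C ζ hζ
  have horb : evalAt ζ hζ (orbVar n π j) = π * ζ (Sum.inr j) := by
    simp [orbVar, evalAt_apply, evalMv_mul hζ, evalMv_C hζ, evalMv_X hζ]
  have hπζ : ‖π * ζ (Sum.inr j)‖ ≤ ‖π‖ := norm_mul_le_left _ _
  set y0 := evalP (frobS p h l (sectS ι)) (π * ζ (Sum.inr j))
  have hy0 : ‖y0‖ ≤ ‖hondaScale p h ι l‖ * ‖π‖ := by
    refine le_trans ?_ (mul_le_mul_of_nonneg_left hπζ (norm_nonneg _))
    have h1 := norm_evalP_sectS_le p (RingHom.id (Ball K)) norm_mul_Ball h l ι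
      (hπζ.trans_lt hπ)
    rwa [PowerSeries.map_id, id] at h1
  have hc := norm_hondaScale_pos p (h := h) hι1 l
  have hy0' : ‖y0‖ < ‖hondaScale p h ι l‖ := hy0.trans_lt (mul_lt_of_lt_one_right hc hπ)
  have hy01 : ‖y0‖ < 1 := hy0'.trans_le (UnitNormed.norm_le_one _)
  have hBl : ‖Bu ^ p ^ (h * l)‖ < ‖hondaScale p h ι l‖ := by
    rw [hondaScale, norm_pow_Ball, norm_pow_Ball]
    exact pow_lt_pow_left₀ hB (norm_nonneg _) (pow_ne_zero _ hp0)
  have hy0eq : y0 = Bu ^ p ^ (h * l) := by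
    refine evalP_injective (RingHom.id (Ball K)) norm_mul_Ball (f := frobS p h l ι) hy01
      (norm_pow_lt_one hBu (pow_ne_zero _ hp0)) (by rwa [coeff_frobS]) (by rwa [coeff_frobS]) ?_
    rw [PowerSeries.map_id, id]
    simp only [y0]
    rw [← evalP_subst (hπζ.trans_lt hπ) _ (constantCoeff_frobS p h l (constantCoeff_sectS ι)),
      frobS_subst_sectS p h l hι.1, evalP_mul (hπζ.trans_lt hπ), evalP_C (hπζ.trans_lt hπ),
      evalP_X (hπζ.trans_lt hπ), mul_comm 2, pow_mul, ← hondaScale, hX, frobS,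
      ← evalP_pow_p_pow p ι hBu (h * l)]
    simp only [Bu]
    rw [honda_iterate_mulP p n u π ι hπ hn hu hh hhn hu0 hι hι1 m hxu, ← pow_mul, ← pow_add]
    congr 2
    rw [← Nat.mul_add, show m + l = N + 1 by omega]
  have hBuv : ‖Bu - Bv‖ ≤ δ := by
    refine (norm_sub_trans _ ((mulP p n v)^[m] (phiK p n u x)) _).trans (max_le ?_ ?_)
    · exact norm_iterate_mulP_param p n hn hδ hd hxu m
    · refine (norm_iterate_mulP_sub_le p n hn v hδ1 hxu hxv
        (norm_phiSeq_sub_param_le p n hn (ε := max ε ε')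
          ⟨le_max_of_le_left hu.1, max_lt hu.2.1 hv'.2.1,
            fun i => (hu.2.2 i).trans (le_max_left _ _)⟩
          ⟨le_max_of_le_left hu.1, max_lt hu.2.1 hv'.2.1,
            fun i => (hv'.2.2 i).trans (le_max_right _ _)⟩ (norm_rootSeq_lt p n hx)
          (isRootSeq_rootSeq p n hx) hδ hd) m).trans ?_
      exact pow_le_of_le_one hδ hδ1 (Nat.succ_ne_zero m)
  have e1 : evalAt ζ hζ (eqn p n u π ι z l j) = fadd (fg p n v) (phiK p n v (z j ^ p ^ n))
      (evalP (gIter p n h v l) y0) := by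
    rw [map_eqn p n u π ι z hπ hn hu hz _ (norm_evalAt_le ζ hζ),
      evalAt_pSer p n u π hn hu hπ (hz j) ζ hζ, map_theta p n u π ι hπ _ (norm_evalAt_le ζ hζ),
      hid, PowerSeries.map_id, id, horb, hv]
  have e2 : (mulP p n v)^[N + 1] (phiK p n v x) = evalP (gIter p n h v l) (Bv ^ p ^ (h * l)) := by
    rw [show N + 1 = l + m by omega, Function.iterate_add_apply,
      iterate_mulP_eq p n hh hhn v hv0 l hBv]
  rw [e1, ← sub_zero (fadd _ _ _), ← hrel, e2, hy0eq]
  have hzv : ‖phiK p n v (z j ^ p ^ n)‖ < 1 :=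
    norm_phiK_lt_one p n hn hv' (norm_zQ_lt p n (hz j))
  have hg : ∀ b : Ball K, ‖b‖ < 1 → ‖evalP (gIter p n h v l) b‖ < 1 := fun b hb =>
    norm_evalP_lt_one hb _ (constantCoeff_gIter p n h v l)
  have hu1 := norm_pow_lt_one hBu (pow_ne_zero (h * l) hp0)
  have hv1 := norm_pow_lt_one hBv (pow_ne_zero (h * l) hp0)
  refine norm_fadd_sub_le _ hzv (hg _ hu1) hzv (hg _ hv1) (pow_nonneg hδ _)
    (by simpa using pow_nonneg hδ _) ?_
  refine norm_evalMv_sub_le (fun _ => hu1) (fun _ => hv1) _ (pow_nonneg hδ _) fun _ => ?_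
  rw [← sub_pow_char_pow, norm_pow_Ball]
  exact pow_le_pow_left₀ (norm_nonneg _) hBuv _

/-- The truncated limit equation at a point, through the level `M` equation. -/
theorem norm_eval_truncTotal_eForm_le (hπ0 : π ≠ 0) (j : Fin (n - h)) (M : ℕ)
    (w : Fin (n - h) ⊕ Fin (n - h) → K)
    (ζ : Fin (n - h) ⊕ Fin (n - h) → Ball K) (hζ : ∀ x, ‖ζ x‖ < 1)
    (hl : ∀ i, w (Sum.inl i) = (ζ (Sum.inl i) : K))
    (hr : ∀ i, w (Sum.inr i) = ((hondaScale p h ι M ^ 2 * π * ζ (Sum.inr i) : Ball K) : K))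
    {ρ : ℝ} (hρ0 : 0 ≤ ρ) (hρ1 : ρ ≤ 1) (hρ : ∀ x, ‖ζ x‖ ≤ ρ) :
    ‖MvPolynomial.eval w (truncTotal M (eForm p n u π ι z j))‖ ≤
      max ‖evalAt ζ hζ (eqn p n u π ι z M j)‖ (ρ ^ M) := by
  classical
  set E := eqn p n u π ι z M j
  have hs : ((hondaScale p h ι M ^ 2 * π : Ball K) : K) ≠ 0 := by
    intro h0
    have h1 : hondaScale p h ι M ^ 2 * π = 0 := Subtype.ext h0
    rw [← norm_eq_zero, norm_mul_Ball, norm_pow_Ball] at h1
    exact (mul_pos (pow_pos (norm_hondaScale_pos p hι1 M) 2) (norm_pos_iff.2 hπ0)).ne' h1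
  have e : MvPolynomial.eval w (truncTotal M (eForm p n u π ι z j)) =
      ((MvPolynomial.eval ζ (truncTotal M E) : Ball K) : K) := by
    rw [eval_truncTotal_eq_sum, eval_truncTotal_eq_sum, AddSubmonoidClass.coe_finsetSum]
    refine Finset.sum_congr rfl fun d hd => ?_
    simp only [Set.Finite.mem_toFinset, Set.mem_ofPred_eq] at hd
    rw [coeff_eForm p n u π ι z hπ hn hu hz hh hhn hu0 hι hι1 j d
      (l := M) ((leftDeg_le_degree d).trans hd.le), Fintype.prod_sum_type]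
    push_cast
    simp only [hl, hr]
    push_cast
    rw [Fintype.prod_sum_type]
    have hsM : (hondaScale p h ι M : K) ≠ 0 := by
      intro h0; simp [h0] at hs
    have hπK : (π : K) ≠ 0 := fun h0 => hπ0 (Subtype.ext h0)
    simp only [mul_pow, Finset.prod_mul_distrib, Finset.prod_pow_eq_pow_sum, rightDeg, E]
    field_simp
  rw [e, norm_coe]
  have htail : ‖evalMv (E - (truncTotal M E : MvPowerSeries _ (Ball K))) ζ‖ ≤ ρ ^ M :=
    norm_evalMv_le_pow hζ _ (fun d hd => by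
      rw [map_sub, MvPolynomial.coeff_coe, coeff_truncTotal _ hd, sub_self]) hρ0 hρ1 hρ
  rw [evalMv_sub hζ, evalMv_coe hζ, ← evalAt_apply ζ hζ] at htail
  have h2 := norm_sub_le_ultra (evalAt ζ hζ E) (evalAt ζ hζ E - MvPolynomial.eval ζ (truncTotal M E))
  rw [sub_sub_cancel] at h2
  exact h2.trans (max_le_max le_rfl htail)

end Vale.P217

end
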