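import Vale.Agent.P217.RigidityRelation
import Vale.Agent.P217.Descent

/-!
Asymptotic rigidity for subgroups of points of powers of the Honda formal group law.
-/

noncomputable section

namespace Vale.P217

open MvPowerSeries

variable (p : ℕ) [Fact p.Prime] (h : ℕ) {K : Type*} [NontriviallyNormedField K]
  [IsUltrametricDist K] [CompleteSpace K] {s : ℕ}

theorem rigidity_aux [CharP K p] [hh : Fact (1 ≤ h)] :
    ∀ (s : ℕ) (S : AddSubgroup (Fin s → Pt (hondaBall p h K))),
      NoRelation p h (S : Set (Fin s → Pt (hondaBall p h K))) →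
      ∀ H, AsympVanishing p h (S : Set (Fin s → Pt (hondaBall p h K))) H → H = 0 := by
  intro s
  induction s with
  | zero =>
    intro S _ H hH
    refine MvPowerSeries.ext fun d => ?_
    rw [map_zero]
    by_contra hd
    obtain ⟨f, hfd, hf⟩ := exists_vanishing_fix p h hH hd
    have h0 := hf 0 S.zero_mem
    rw [evalMv_at_zero (x := fun j => ((0 : Fin 0 → Pt (hondaBall p h K)) j).val) (fun _ => rfl),
      constantCoeff_map] at h0
    rw [Subsingleton.elim d 0, coeff_zero_eq_constantCoeff_apply] at hfd
    exact hfd ((ofFix (K := K) p h).injective (by rw [h0, map_zero]))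
  | succ r IH =>
    intro S hS H hH
    refine MvPowerSeries.ext fun d => ?_
    rw [map_zero]
    by_contra hd
    obtain ⟨f, hfd, hf⟩ := exists_vanishing_fix p h hH hd
    let J : Ideal (MvPowerSeries (Fin (r + 1)) (fixF (K := K) p h)) :=
      { carrier := {g | ∀ w ∈ S, evalMv (g.map (ofFix p h)) (fun j => (w j).val) = 0}
        zero_mem' := fun w _ => by rw [map_zero, evalMv_zero fun j => (w j).norm_lt]
        add_mem' := fun {a b} ha hb w hw => by
          rw [map_add, evalMv_add fun j => (w j).norm_lt, ha w hw, hb w hw, add_zero]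
        smul_mem' := fun c a ha w hw => by
          rw [smul_eq_mul, map_mul, evalMv_mul fun j => (w j).norm_lt, ha w hw, mul_zero] }
    have hne : J ≠ ⊤ := fun e => by
      have h1 := (Ideal.eq_top_iff_one J).1 e 0 S.zero_mem
      rw [map_one, evalMv_at_zero
        (x := fun j => ((0 : Fin (r + 1) → Pt (hondaBall p h K)) j).val) (fun _ => rfl),
        map_one] at h1
      exact one_ne_zero h1
    have hroot : ∀ g, g ^ p ∈ J → g ∈ J := fun g hg w hw => by
      have h1 := hg w hw
      rw [map_pow, evalMv_pow fun j => (w j).norm_lt] at h1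
      exact eq_zero_of_pow_eq_zero h1
    by_cases hder : ∀ (i : Fin (r + 1)) g, g ∈ J → pderiv _ i g ∈ J
    · have hJ := eq_bot_of_pderiv_closed p J hne hder hroot
      have hfJ : f ∈ J := hf
      rw [hJ, Submodule.mem_bot] at hfJ
      exact hfd (by rw [hfJ, map_zero])
    push Not at hder
    obtain ⟨i, g, hg, hgi⟩ := hder
    obtain ⟨w₀, hw₀, hne0⟩ : ∃ w ∈ S,
        evalMv ((pderiv _ i g).map (ofFix p h)) (fun j => (w j).val) ≠ 0 := by
      by_contra hall
      push Not at hall
      exact hgi hall
    have hmap : (pderiv _ i g).map (ofFix p h) = pderiv (Ball K) i (g.map (ofFix p h)) :=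
      MvPowerSeries.ext fun e => by simp [coeff_pderiv]
    rw [hmap] at hne0
    obtain ⟨H', hH', hH'i⟩ := exists_linear_of_derivative p h S _ hg hw₀ i hne0
    obtain ⟨f', hf'i, hf'⟩ := exists_vanishing_fix p h hH' hH'i
    exact false_of_linear p h i S hS IH f' hf'i hf'

/-- Rigidity: a subgroup without relations is asymptotically Zariski dense. -/
theorem rigidity [CharP K p] [PerfectRing K p] (hh : 1 ≤ h)
    (S : AddSubgroup (Fin s → Pt (hondaBall p h K)))
    (hS : NoRelation p h (S : Set (Fin s → Pt (hondaBall p h K))))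
    (H : MvPowerSeries (Fin s) K)
    (hH : AsympVanishing p h (S : Set (Fin s → Pt (hondaBall p h K))) H) : H = 0 :=
  have : Fact (1 ≤ h) := ⟨hh⟩
  rigidity_aux p h s S hS H hH

end Vale.P217

end
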