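import Vale.Agent.P217.NoRelation
import Vale.Agent.P217.Rigidity
import Vale.Agent.P217.CoverLift

/-!
The displacement coordinates of all fixed endomorphisms form a subgroup without relations.
-/

noncomputable section

set_option linter.unusedSectionVars false

namespace Vale.P217

variable (p : ℕ) [Fact p.Prime] (n : ℕ) {K : Type} [NontriviallyNormedField K]
  [IsUltrametricDist K] [CompleteSpace K] [CharP K p] [IsAlgClosed K]

/-- Fixed endomorphisms are recognised on points. -/
theorem fixedEndo_of_evalP {f : PowerSeries (Ball K)} (h0 : PowerSeries.constantCoeff f = 0)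
    (hadd : ∀ a b : Ball K, ‖a‖ < 1 → ‖b‖ < 1 →
      evalP f (fadd (fg p n (0 : Fin (n - 1) → Ball K)) a b) =
        fadd (fg p n (0 : Fin (n - 1) → Ball K)) (evalP f a) (evalP f b))
    (hpow : ∀ x : Ball K, ‖x‖ < 1 → evalP f x ^ p ^ n = evalP f (x ^ p ^ n)) :
    FixedEndo p n f := by
  refine ⟨isHomSeries_of_evalP h0 hadd, fun d => ?_⟩
  have h1 : f.map (iterateFrobenius (Ball K) p n) - f = 0 := by
    refine eq_zero_of_evalP_eq_zero fun y hy => ?_
    obtain ⟨x, hx, rfl⟩ := exists_qRoot p hy n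
    rw [evalP, evalMv_sub (fun _ => hy), sub_eq_zero]
    refine Eq.trans ?_ (hpow x hx)
    have h := (hasSum_evalP hx f).map (iterateFrobenius (Ball K) p n) (by
      rw [show (iterateFrobenius (Ball K) p n : Ball K → Ball K) = fun y => y ^ p ^ n from
        funext fun y => iterateFrobenius_def p n y]
      exact continuous_pow _)
    rw [← iterateFrobenius_def p n (evalP f x)]
    refine (hasSum_evalP hy (f.map (iterateFrobenius (Ball K) p n))).unique (h.congr_fun fun e => ?_)
    rw [Function.comp_apply, map_mul, map_pow, PowerSeries.coeff_map, iterateFrobenius_def p n x]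
  have h2 := congrArg (PowerSeries.coeff d) h1
  rwa [map_sub, map_zero, sub_eq_zero, PowerSeries.coeff_map, iterateFrobenius_def] at h2

theorem fixedEndo_zero (_hn : 1 ≤ n) : FixedEndo p n (0 : PowerSeries (Ball K)) :=
  ⟨isHomSeries_zero _ _, fun d => by
    simp [zero_pow (pow_ne_zero n (Fact.out : p.Prime).ne_zero)]⟩

/-- The `Q`-power map is additive on the Honda law. -/
def qPowHom (hn : 1 ≤ n) :
    Pt (fg p n (0 : Fin (n - 1) → Ball K)) →+ Pt (fg p n (0 : Fin (n - 1) → Ball K)) :=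
  AddMonoidHom.mk' (fun x => Pt.mk _ (x.val ^ p ^ n)
      (norm_pow_ball_lt x.norm_lt (pow_ne_zero n (Fact.out : p.Prime).ne_zero)))
    fun a b => Pt.ext (fadd_zero_param_pow p n hn a.norm_lt b.norm_lt)

theorem val_qPowHom (hn : 1 ≤ n) (x : Pt (fg p n (0 : Fin (n - 1) → Ball K))) :
    (qPowHom p n hn x).val = x.val ^ p ^ n := rfl

theorem exists_fixedEndo_add (hn : 1 ≤ n) {a b : PowerSeries (Ball K)} (ha : FixedEndo p n a)
    (hb : FixedEndo p n b) : ∃ (c : PowerSeries (Ball K)) (hc : FixedEndo p n c),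
      ∀ x, homPt hc.hom x = homPt ha.hom x + homPt hb.hom x := by
  set Γ := fg p n (0 : Fin (n - 1) → Ball K)
  set c : PowerSeries (Ball K) := MvPowerSeries.subst ![a, b] Γ.toPowerSeries
  have h0 : ∀ i, MvPowerSeries.constantCoeff ((![a, b] : Fin 2 → PowerSeries (Ball K)) i) = 0 :=
    fun i => by fin_cases i; exacts [ha.hom.1, hb.hom.1]
  have hc0 : PowerSeries.constantCoeff c = 0 :=
    MvPowerSeries.constantCoeff_subst_eq_zero (MvPowerSeries.hasSubst_of_constantCoeff_zero h0) h0
      Γ.zero_constantCoeff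
  have hev : ∀ x : Pt Γ, evalP c x.val = (homPt ha.hom x + homPt hb.hom x).val := fun x => by
    rw [evalP, evalMv_subst (fun _ => x.norm_lt) h0]
    refine congrArg (evalMv Γ.toPowerSeries) (funext fun i => ?_)
    fin_cases i <;> rfl
  have hc : FixedEndo p n c := by
    refine fixedEndo_of_evalP p n hc0 (fun x y hx hy => ?_) fun x hx => ?_
    · have e : evalP c (fadd Γ x y) = _ := hev (Pt.mk Γ x hx + Pt.mk Γ y hy)
      rw [map_add, map_add, add_add_add_comm] at e
      rw [e, Pt.val_add, ← hev, ← hev]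
      rfl
    · have e : ∀ (f : PowerSeries (Ball K)) (hf : FixedEndo p n f),
          qPowHom p n hn (homPt hf.hom (Pt.mk Γ x hx)) =
            homPt hf.hom (qPowHom p n hn (Pt.mk Γ x hx)) := fun f hf =>
        Pt.ext (FixedCoeff.evalP_pow p n hf.fixed hx)
      have h1 := hev (qPowHom p n hn (Pt.mk Γ x hx))
      rw [← e a ha, ← e b hb, ← map_add, val_qPowHom, val_qPowHom, ← hev] at h1
      exact h1.symm
  exact ⟨c, hc, fun x => Pt.ext (hev x)⟩

theorem exists_fixedEndo_neg (hn : 1 ≤ n) {a : PowerSeries (Ball K)} (ha : FixedEndo p n a) :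
    ∃ (c : PowerSeries (Ball K)) (hc : FixedEndo p n c),
      ∀ x, homPt hc.hom x = -homPt ha.hom x := by
  set Γ := fg p n (0 : Fin (n - 1) → Ball K)
  set c : PowerSeries (Ball K) := PowerSeries.subst a (negSeries Γ)
  have hc0 : PowerSeries.constantCoeff c = 0 :=
    MvPowerSeries.constantCoeff_subst_eq_zero
      (PowerSeries.HasSubst.of_constantCoeff_zero' ha.hom.1).const (fun _ => ha.hom.1)
      (constantCoeff_negSeries Γ)
  have hev : ∀ x : Pt Γ, evalP c x.val = (-homPt ha.hom x).val := fun x => by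
    rw [evalP_subst x.norm_lt a ha.hom.1]
    rfl
  have hc : FixedEndo p n c := by
    refine fixedEndo_of_evalP p n hc0 (fun x y hx hy => ?_) fun x hx => ?_
    · have e : evalP c (fadd Γ x y) = _ := hev (Pt.mk Γ x hx + Pt.mk Γ y hy)
      rw [map_add, neg_add] at e
      rw [e, Pt.val_add, ← hev, ← hev]
      rfl
    · have e : qPowHom p n hn (homPt ha.hom (Pt.mk Γ x hx)) =
          homPt ha.hom (qPowHom p n hn (Pt.mk Γ x hx)) :=
        Pt.ext (FixedCoeff.evalP_pow p n ha.fixed hx)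
      have h1 := hev (qPowHom p n hn (Pt.mk Γ x hx))
      rw [← e, ← map_neg, val_qPowHom, val_qPowHom, ← hev] at h1
      exact h1.symm
  exact ⟨c, hc, fun x => Pt.ext (hev x)⟩

variable (hn : 1 ≤ n) {u : Fin (n - 1) → Ball K} {ε : ℝ} (hu : SmallParam n u ε) {h : ℕ}
  {ι : PowerSeries (Ball K)} (hι : IsHomSeries (fg p n u) (fg p h (0 : Fin (h - 1) → Ball K)) ι)
  {s : ℕ} (z : Fin s → Pt (fg p n (0 : Fin (n - 1) → Ball K)))

/-- The displacement coordinates `ι (φ (a z_j))`. -/
def orbitCoord {a : PowerSeries (Ball K)} (ha : FixedEndo p n a) (j : Fin s) :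
    Pt (fg p h (0 : Fin (h - 1) → Ball K)) :=
  ((homPt hι).comp (phiPt p n hn hu)) (homPt ha.hom (z j))

theorem val_orbitCoord {a : PowerSeries (Ball K)} (ha : FixedEndo p n a) (j : Fin s) :
    (orbitCoord p n hn hu hι z ha j).val = evalP ι (phiK p n u (evalP a (z j).val)) := rfl

/-- The subgroup of displacement coordinates. -/
def orbitGroup : AddSubgroup (Fin s → Pt (fg p h (0 : Fin (h - 1) → Ball K))) where
  carrier := {w | ∃ (a : PowerSeries (Ball K)) (ha : FixedEndo p n a),
    ∀ j, w j = orbitCoord p n hn hu hι z ha j}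
  zero_mem' := ⟨0, fixedEndo_zero p n hn, fun j => by
    have h0 : homPt (fixedEndo_zero (K := K) p n hn).hom (z j) = 0 :=
      Pt.ext (evalP_zero (z j).norm_lt)
    rw [orbitCoord, h0, map_zero]
    rfl⟩
  add_mem' := by
    rintro w w' ⟨a, ha, hw⟩ ⟨b, hb, hw'⟩
    obtain ⟨c, hc, hsum⟩ := exists_fixedEndo_add p n hn ha hb
    refine ⟨c, hc, fun j => ?_⟩
    rw [Pi.add_apply, hw, hw', orbitCoord, orbitCoord, orbitCoord, hsum, map_add]
  neg_mem' := by
    rintro w ⟨a, ha, hw⟩
    obtain ⟨c, hc, hneg⟩ := exists_fixedEndo_neg p n hn ha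
    refine ⟨c, hc, fun j => ?_⟩
    rw [Pi.neg_apply, hw, orbitCoord, orbitCoord, hneg, map_neg]

theorem mem_orbitGroup {w : Fin s → Pt (fg p h (0 : Fin (h - 1) → Ball K))} :
    w ∈ orbitGroup p n hn hu hι z ↔ ∃ (a : PowerSeries (Ball K)) (ha : FixedEndo p n a),
      ∀ j, w j = orbitCoord p n hn hu hι z ha j := Iff.rfl

theorem noRelation_orbitGroup (hh : 1 ≤ h) (hι1 : PowerSeries.coeff 1 ι ≠ 0) (hs : s ≤ n)
    {δ : ℝ} (hδ : 0 < δ)
    (hind : ∀ μ : Fin s → ℕ, (∃ j, ¬p ∣ μ j) → δ ≤ ‖(∑ j, μ j • z j).val‖) :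
    NoRelation p h (orbitGroup p n hn hu hι z : Set (Fin s → Pt (hondaBall p h K))) := by
  intro β hβ hrel
  exact no_relation p n hn u hu hh ι hι hι1 hs z hδ hind β hβ
    (fun a ha j => (orbitCoord p n hn hu hι z ha j).norm_lt)
    fun a ha => hrel (orbitCoord p n hn hu hι z ha) ⟨a, ha, fun j => rfl⟩

end Vale.P217

end
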