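import Vale.Agent.P217.NoRelation
import Vale.Agent.P217.Rigidity
import Vale.Agent.P217.ExpansionIdeal
import Vale.Agent.P217.ExpansionLimit
import Vale.Agent.P217.ExpansionSubgroup
import Mathlib.RingTheory.MvPowerSeries.Derivative
import Mathlib.LinearAlgebra.Matrix.NonsingularInverse

/-!
Vanishing on an orbit forces the differential to vanish.
-/

noncomputable section

set_option linter.unusedSectionVars false

namespace Vale.P217

variable (p : ℕ) [Fact p.Prime] (n : ℕ) {K : Type} [NontriviallyNormedField K]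
  [IsUltrametricDist K] [CompleteSpace K] [CharP K p] [IsAlgClosed K]

/-- The series `X +_Γ a (X ^ (p ^ (n N)))`. -/
def nearOneBall (a : PowerSeries (Ball K)) (N : ℕ) : PowerSeries (Ball K) :=
  MvPowerSeries.subst ![PowerSeries.X, PowerSeries.subst (PowerSeries.X ^ p ^ (n * N)) a]
    (fg p n (0 : Fin (n - 1) → Ball K)).toPowerSeries

/-- `v` is the point to which `1 + p ^ N a` moves `u`. -/
def IsMovedPoint (u v : Fin (n - 1) → Ball K) (ε : ℝ) (a : PowerSeries (Ball K)) (N : ℕ) : Prop :=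
  ∃ f, IsHomSeries (fg p n u) (fg p n v) f ∧
    ∀ d, ‖PowerSeries.coeff d f - PowerSeries.coeff d (nearOneBall p n a N)‖ ≤ ε

/-! ### Auxiliary facts -/

open SeriesNorm MvPowerSeries Filter Topology

theorem coeff_single_subst {σ τ : Type*} [Fintype σ] {R : Type*} [CommRing R]
    {b : σ → MvPowerSeries τ R} (hb : ∀ x, b x ∈ below 1) {F : MvPowerSeries σ R}
    (h0 : constantCoeff F = 0) (k : τ) :
    coeff (Finsupp.single k 1) (subst b F) =
      ∑ x, coeff (Finsupp.single x 1) F * coeff (Finsupp.single k 1) (b x) := by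
  have hs := hasSubst_of_below hb
  have h1 := subst_mem_below_one hb (sub_linPart_mem_below h0) (Finsupp.single k 1) (by simp)
  rw [subst_sub hs, map_sub, sub_eq_zero] at h1
  rw [h1, linPart, ← coe_substAlgHom hs, map_sum, map_sum]
  refine Finset.sum_congr rfl fun x _ => ?_
  rw [map_mul, coe_substAlgHom hs, subst_C, subst_X hs, coeff_C_mul]

theorem asympZero_elim {s t : ℕ} {k : Type*} [NormedField k] [IsUltrametricDist k]
    {z : ℕ → Fin s ⊕ Fin t → k} (hz : Tendsto z atTop (𝓝 0))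
    {U : Fin s → MvPowerSeries (Fin t) k} (hU : ∀ i, U i ∈ below 1)
    (hD : ∀ i, X (Sum.inl i) - subst (fun j => X (Sum.inr j)) (U i) ∈ asympIdeal hz)
    {F : MvPowerSeries (Fin s ⊕ Fin t) k} (hF : F ∈ asympIdeal hz) :
    AsympZero (fun N => z N ∘ Sum.inr) (subst (Sum.elim U X) F) := by
  have hinr : ∀ j : Fin t, (X (Sum.inr j) : MvPowerSeries (Fin s ⊕ Fin t) k) ∈ below 1 :=
    fun j => X_mem_below _
  have hG : subst (fun j => X (Sum.inr j)) (subst (Sum.elim U X) F) ∈ asympIdeal hz := by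
    rw [subst_comp_subst_apply (hasSubst_of_below (elim_mem_below hU X_mem_below))
      (hasSubst_of_below hinr)]
    have hb : ∀ x, subst (fun j => X (Sum.inr j)) (Sum.elim U X x) ∈
        (below 1 : Ideal (MvPowerSeries (Fin s ⊕ Fin t) k)) := fun x =>
      subst_mem_below_one hinr (elim_mem_below hU X_mem_below x)
    have h := subst_sub_subst_mem_ideal (isBelowClosed_asympIdeal hz)
      (fun x => X_mem_below x) hb (fun x => by
        cases x with
        | inl i => exact hD i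
        | inr j => simp [subst_X (hasSubst_of_below hinr)]) F
    rw [subst_self] at h
    have h' := Ideal.sub_mem _ hF h
    rwa [id, sub_sub_cancel] at h'
  obtain ⟨D, hD0, hD'⟩ := exists_norm_le_inr hz hU hD
  intro M
  obtain ⟨h1, h2⟩ := eval_rename_truncTotal hz Sum.inr M (subst (Sum.elim U X) F)
  obtain ⟨B, hB⟩ := (bound_of_congr hz h1).1 (hG M)
  refine ⟨|B| * D ^ M, (hB.and hD').mono fun N hN => ?_⟩
  rw [← h2]
  refine hN.1.trans ?_
  rw [mul_assoc, ← mul_pow]
  exact mul_le_mul (le_abs_self B) (pow_le_pow_left₀ (norm_nonneg _) hN.2 M) (by positivity)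
    (abs_nonneg B)

theorem exists_norm_between {ε : ℝ} (hε : ε < 1) (hε0 : 0 ≤ ε) :
    ∃ π : Ball K, ε < ‖π‖ ∧ ‖π‖ < 1 := by
  obtain ⟨x, hx0, hx1⟩ := exists_small_ne_zero (K := K)
  obtain ⟨k, hk⟩ := exists_pow_lt_of_lt_one (norm_pos_iff.2 hx0) hε
  obtain ⟨y, hy⟩ := IsAlgClosed.exists_pow_nat_eq (x : K) (Nat.succ_pos k)
  have hyn : ‖y‖ ^ (k + 1) = ‖x‖ := by rw [← norm_pow, hy, norm_coe]
  have hy1 : ‖y‖ < 1 := by
    by_contra hge
    exact absurd (hyn.symm ▸ one_le_pow₀ (not_lt.1 hge)) (not_le.2 hx1)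
  refine ⟨⟨y, hy1.le⟩, ?_, hy1⟩
  change ε < ‖y‖
  by_contra hle
  have h1 := pow_le_pow_left₀ (norm_nonneg _) (not_lt.1 hle) (k + 1)
  rw [hyn] at h1
  exact absurd (h1.trans (pow_le_pow_of_le_one hε0 hε.le (Nat.le_succ k))) (not_le.2 hk)

variable {h : ℕ}

theorem coeff_upar_inr (u : Fin (n - 1) → Ball K) (π : Ball K) (k : Fin (n - h))
    (i : Fin (n - 1)) :
    coeff (Finsupp.single (Sum.inr k) 1) (upar n h u π i) = 0 := by
  classical
  rw [upar, map_add, coeff_C, if_neg (by simp), zero_add]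
  split_ifs
  · rw [coeff_C_mul, coeff_X, if_neg, mul_zero]
    intro he
    exact absurd ((Finsupp.single_left_inj one_ne_zero).1 he) (by simp)
  · rw [map_zero]

theorem eval_truncTotal_map {σ : Type*} [Fintype σ] (M : ℕ) (G : MvPowerSeries σ (Ball K))
    (ζ : σ → Ball K) :
    MvPolynomial.eval (fun x => (ζ x : K)) (truncTotal M (G.map (Ball K).subtype)) =
      ((MvPolynomial.eval ζ (truncTotal M G) : Ball K) : K) := by
  rw [eval_truncTotal_eq_sum, eval_truncTotal_eq_sum, AddSubmonoidClass.coe_finsetSum]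
  exact Finset.sum_congr rfl fun d _ => by simp [coeff_map]

/-- The moved point and the displacement coordinates, as a point of `K ^ (2 (n - h))`. -/
def orbitPoint (u : Fin (n - 1) → Ball K) (π : Ball K) (hh : 1 ≤ h) (ω : Fin (n - h) → Ball K)
    (v : ℕ → Fin (n - 1) → Ball K) (N : ℕ) : Fin (n - h) ⊕ Fin (n - h) → K :=
  Sum.elim
    (fun i => ((v N ⟨h - 1 + i, by omega⟩ : K) - (u ⟨h - 1 + i, by omega⟩ : K)) / (π : K))
    (fun j => (ω j : K) ^ p ^ (h * (N + 1)))

theorem tendsto_orbitPoint (u : Fin (n - 1) → Ball K) (π : Ball K) (hh : 1 ≤ h)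
    {ω : Fin (n - h) → Ball K} (hω : ∀ j, ‖ω j‖ < 1) (v : ℕ → Fin (n - 1) → Ball K) {ε : ℝ}
    (hε0 : 0 ≤ ε) (hε : ε < 1) {N₀ : ℕ} (hv : ∀ N, N₀ ≤ N → ∀ i, ‖v N i - u i‖ ≤ ε ^ N) :
    Tendsto (orbitPoint p n u π hh ω v) atTop (𝓝 0) := by
  refine tendsto_pi_nhds.2 fun x => ?_
  cases x with
  | inl i =>
    refine squeeze_zero_norm' (a := fun N => ε ^ N / ‖(π : K)‖)
      (eventually_atTop.2 ⟨N₀, fun N hN => ?_⟩) ?_
    · rw [orbitPoint, Sum.elim_inl, norm_div]
      exact div_le_div_of_nonneg_right (hv N hN _) (norm_nonneg _)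
    · simpa using (tendsto_pow_atTop_nhds_zero_of_lt_one hε0 hε).div_const ‖(π : K)‖
  | inr j =>
    refine squeeze_zero_norm' (a := fun N => ‖ω j‖ ^ N) (Eventually.of_forall fun N => ?_)
      (tendsto_pow_atTop_nhds_zero_of_lt_one (norm_nonneg _) (hω j))
    rw [orbitPoint, Sum.elim_inr, norm_pow, norm_coe]
    refine pow_le_pow_of_le_one (norm_nonneg _) (hω j).le ?_
    exact ((Nat.le_succ N).trans (Nat.le_mul_of_pos_left (N + 1) hh)).trans
      (Nat.lt_pow_self (Fact.out : p.Prime).one_lt).le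

section Orbit

variable {u : Fin (n - 1) → Ball K} {π : Ball K} {ι : PowerSeries (Ball K)}
  {z : Fin (n - h) → Ball K} (hπ : ‖π‖ < 1) (hπ0 : π ≠ 0) (hn : 1 ≤ n) {ε : ℝ}
  (hu : SmallParam n u ε) (hz : ∀ j, ‖z j‖ < 1)
  (hz0 : ∀ j, phiK p n u (z j ^ p ^ n) = 0) (hh : 1 ≤ h) (hhn : h ≤ n)
  (hu0 : ∀ i : Fin (n - 1), (i : ℕ) + 1 < h → u i = 0)
  (hι : IsHomSeries (fg p n u) (fg p h (0 : Fin (h - 1) → Ball K)) ι)
  (hι1 : PowerSeries.coeff 1 ι ≠ 0) {a : PowerSeries (Ball K)} (ha : FixedEndo p n a)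
  {v : ℕ → Fin (n - 1) → Ball K} {N₀ : ℕ}
  (hv : ∀ N, N₀ ≤ N →
    SmallParam n (v N) ε ∧ IsMovedPoint p n u (v N) ε a N ∧
      (∀ i : Fin (n - 1), (i : ℕ) + 1 < h → v N i = 0) ∧ ∀ i, ‖v N i - u i‖ ≤ ε ^ N)
  (hT : Tendsto (orbitPoint p n u π hh (fun j => evalP ι (phiK p n u (evalP a (z j)))) v)
    atTop (𝓝 0))
include hπ hπ0 hn hu hz hz0 hh hhn hu0 hι hι1 ha hv hT

/-- The limit equations vanish to all orders along the orbit of a fixed endomorphism. -/
theorem eForm_mem_asympIdeal (j : Fin (n - h)) : eForm p n u π ι z j ∈ asympIdeal hT := by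
  classical
  intro M
  set ω : Fin (n - h) → Ball K := fun j => evalP ι (phiK p n u (evalP a (z j)))
  set zs := orbitPoint p n u π hh ω v with hzs
  have hπK : (π : K) ≠ 0 := fun h0 => hπ0 (Subtype.ext h0)
  set sB : Ball K := hondaScale p h ι M ^ 2 * π with hsB
  set r := ‖sB‖
  have hr : 0 < r := by
    change 0 < ‖sB‖
    rw [hsB, norm_mul_Ball, norm_pow_Ball]
    exact mul_pos (pow_pos (norm_hondaScale_pos p hι1 M) 2) (norm_pos_iff.2 hπ0)
  have hr1 : r ≤ 1 := UnitNormed.norm_le_one _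
  have hsK : (sB : K) ≠ 0 := fun h0 => by
    have : r = 0 := by simp only [r]; rw [← norm_coe, h0, norm_zero]
    exact hr.ne' this
  have hsmall : ∀ᶠ N in atTop, ‖zs N‖ < r :=
    (tendsto_zero_iff_norm_tendsto_zero.1 hT).eventually (Iio_mem_nhds hr)
  have hxlt : ‖evalP a (z j)‖ < 1 := norm_evalP_lt_one (hz j) a ha.hom.1
  have hxu := norm_phiK_lt_one p n hn hu hxlt
  obtain ⟨k, hk⟩ := exists_pow_lt_of_lt_one (norm_pos_iff.2 hι1) hxu
  refine ⟨(1 / r) ^ M, ?_⟩
  filter_upwards [hsmall, eventually_ge_atTop N₀, eventually_ge_atTop (M + k)] with N hN hN0 hNk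
  obtain ⟨hvs, hmov, hvz, -⟩ := hv N hN0
  have hz1 : ‖zs N‖ < 1 := hN.trans_le hr1
  set ρ := ‖zs N‖ / r
  have hρ0 : 0 ≤ ρ := div_nonneg (norm_nonneg _) hr.le
  have hρ1 : ρ < 1 := (div_lt_one hr).2 hN
  have hzρ : ‖zs N‖ ≤ ρ := by
    rw [le_div_iff₀ hr]
    exact mul_le_of_le_one_right (norm_nonneg _) hr1
  have hle : ∀ x, ‖zs N x‖ ≤ ‖zs N‖ := norm_le_pi_norm _
  have hdiv : ∀ i, ‖zs N (Sum.inr i) / (sB : K)‖ ≤ ρ := fun i => by
    rw [norm_div, norm_coe]
    exact div_le_div_of_nonneg_right (hle _) hr.le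
  let ζ : Fin (n - h) ⊕ Fin (n - h) → Ball K :=
    Sum.elim (fun i => ⟨zs N (Sum.inl i), ((hle _).trans hzρ).trans hρ1.le⟩)
      (fun i => ⟨zs N (Sum.inr i) / (sB : K), (hdiv i).trans hρ1.le⟩)
  have hζρ : ∀ x, ‖ζ x‖ ≤ ρ := by
    rintro (i | i)
    · exact (hle (Sum.inl i)).trans hzρ
    · exact hdiv i
  have hζ : ∀ x, ‖ζ x‖ < 1 := fun x => (hζρ x).trans_lt hρ1
  have hveq : evalAt ζ hζ ∘ upar n h u π = v N := by
    funext i
    rw [Function.comp_apply, upar, map_add, evalAt_apply, evalMv_C hζ]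
    split_ifs with hi
    · rw [map_mul, evalAt_apply, evalAt_apply, evalMv_C hζ, evalMv_X hζ]
      refine Subtype.ext ?_
      have hidx : (⟨h - 1 + ((i : ℕ) + 1 - h), by omega⟩ : Fin (n - 1)) = i :=
        Fin.ext (by simp; omega)
      simp only [ζ, Sum.elim_inl, zs, orbitPoint, hidx]
      push_cast
      field_simp
      ring
    · rw [map_zero, add_zero, hu0 i (by omega), hvz i (by omega)]
  have hd : ∀ i, ‖u i - v N i‖ ≤ ‖zs N‖ := fun i => by
    rw [← hveq, Function.comp_apply, upar, map_add, evalAt_apply, evalMv_C hζ, sub_add_cancel_left,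
      norm_neg]
    split_ifs with hi
    · rw [map_mul, evalAt_apply, evalAt_apply, evalMv_C hζ, evalMv_X hζ]
      exact (norm_mul_le_right _ _).trans (hle (Sum.inl _))
    · rw [map_zero, norm_zero]; exact norm_nonneg _
  obtain ⟨g, hg, hga⟩ := hmov
  have hrel := moved_relation p n u hn hu hvs ha.hom.1 ha.fixed N hg hga (hz j) (hz0 j)
  have hB : ‖(mulP p n u)^[N + 1 - M] (phiK p n u (evalP a (z j)))‖ <
      ‖PowerSeries.coeff 1 ι‖ := by
    refine (norm_iterate_mulP_pow_le p n u π ι hπ hn hu hh hhn hu0 hι hι1 _ hxu).trans_lt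
      (lt_of_le_of_lt (pow_le_pow_of_le_one (norm_nonneg _) hxu.le ?_) hk)
    exact ((show k ≤ N + 1 - M by omega).trans (Nat.le_mul_of_pos_left _ hh)).trans
      (Nat.lt_pow_self (Fact.out : p.Prime).one_lt).le
  have hX : hondaScale p h ι M ^ 2 * (π * ζ (Sum.inr j)) =
      evalP ι (phiK p n u (evalP a (z j))) ^ p ^ (h * (N + 1)) := by
    rw [← mul_assoc, ← hsB]
    refine Subtype.ext ?_
    simp only [ζ, Sum.elim_inr, zs, orbitPoint, ω, Subring.coe_mul, Subring.coe_pow]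
    rw [mul_div_cancel₀ _ hsK]
  have hval := norm_evalAt_eqn_le p n u π ι z hπ hn hu hz hh hhn hu0 hι hι1 j ζ hζ hveq hvs
    hz1.le (norm_nonneg _) hd hvz hxlt (show M ≤ N + 1 by omega) hrel hB hX
  refine (norm_eval_truncTotal_eForm_le p n u π ι z hπ hn hu hz hh hhn hu0 hι hι1 hπ0 j M (zs N)
    ζ hζ (fun i => rfl) (fun i => ?_) hρ0 hρ1.le hζρ).trans ?_
  · simp only [ζ, Sum.elim_inr, Subring.coe_mul, ← hsB]
    rw [mul_div_cancel₀ _ hsK]
  · refine (max_le ?_ le_rfl).trans_eq (show ρ ^ M = (1 / r) ^ M * ‖zs N‖ ^ M by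
      rw [← mul_pow]; congr 1; simp only [ρ]; ring)
    refine hval.trans ((pow_le_pow_left₀ (norm_nonneg _) hzρ _).trans
      (pow_le_pow_of_le_one hρ0 hρ1.le ?_))
    exact (Nat.le_mul_of_pos_left M hh).trans (Nat.lt_pow_self (Fact.out : p.Prime).one_lt).le

/-- A series vanishing at the moved points vanishes to all orders along the orbit. -/
theorem upar_value_mem_asympIdeal {f : MvPowerSeries (Fin (n - 1)) (Ball K)}
    (hfv : ∀ N, N₀ ≤ N → evalMv f (v N) = 0) :
    (evalMv (f.map C) (upar n h u π)).map (Ball K).subtype ∈ asympIdeal hT := by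
  classical
  intro M
  set ω : Fin (n - h) → Ball K := fun j => evalP ι (phiK p n u (evalP a (z j)))
  set zs := orbitPoint p n u π hh ω v with hzs
  have hπK : (π : K) ≠ 0 := fun h0 => hπ0 (Subtype.ext h0)
  have hsmall : ∀ᶠ N in atTop, ‖zs N‖ < 1 :=
    (tendsto_zero_iff_norm_tendsto_zero.1 hT).eventually (Iio_mem_nhds one_pos)
  refine ⟨1, ?_⟩
  filter_upwards [hsmall, eventually_ge_atTop N₀] with N hN hN0
  obtain ⟨-, -, hvz, -⟩ := hv N hN0
  let ζ : Fin (n - h) ⊕ Fin (n - h) → Ball K :=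
    fun x => ⟨zs N x, (norm_le_pi_norm (zs N) x).trans hN.le⟩
  have hζρ : ∀ x, ‖ζ x‖ ≤ ‖zs N‖ := fun x => norm_le_pi_norm (zs N) x
  have hζ : ∀ x, ‖ζ x‖ < 1 := fun x => (hζρ x).trans_lt hN
  have hveq : evalAt ζ hζ ∘ upar n h u π = v N := by
    funext i
    rw [Function.comp_apply, upar, map_add, evalAt_apply, evalMv_C hζ]
    split_ifs with hi
    · rw [map_mul, evalAt_apply, evalAt_apply, evalMv_C hζ, evalMv_X hζ]
      refine Subtype.ext ?_
      have hidx : (⟨h - 1 + ((i : ℕ) + 1 - h), by omega⟩ : Fin (n - 1)) = i :=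
        Fin.ext (by simp; omega)
      simp only [ζ, zs, orbitPoint, Sum.elim_inl, hidx]
      push_cast
      field_simp
      ring
    · rw [map_zero, add_zero, hu0 i (by omega), hvz i (by omega)]
  set G := evalMv (f.map C) (upar n h u π)
  have hU : ∀ i, ‖upar n h u π i‖ < 1 := fun i =>
    (norm_upar_le n u π hu i).trans_lt (max_lt hu.2.1 hπ)
  have hG : evalAt ζ hζ G = 0 := by
    rw [map_evalMv (evalAt ζ hζ) (continuous_evalAt ζ hζ) hU
      fun i => (norm_evalAt_le ζ hζ _).trans_lt (hU i)]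
    rw [← hfv N hN0, ← hveq]
    congr 1
    refine MvPowerSeries.ext fun d => ?_
    rw [coeff_map, coeff_map]
    exact DFunLike.congr_fun (evalAt_comp_C ζ hζ) _
  have htail : ‖evalMv (G - (truncTotal M G : MvPowerSeries _ (Ball K))) ζ‖ ≤ ‖zs N‖ ^ M :=
    norm_evalMv_le_pow hζ _ (fun d hd => by
      rw [map_sub, MvPolynomial.coeff_coe, coeff_truncTotal _ hd, sub_self]) (norm_nonneg _) hN.le
      hζρ
  rw [evalMv_sub hζ, evalMv_coe hζ, ← evalAt_apply ζ hζ, hG, zero_sub, norm_neg] at htail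
  rw [one_mul, show zs N = fun x => ((ζ x : Ball K) : K) from rfl, eval_truncTotal_map, norm_coe]
  exact htail

end Orbit

/-- If a series vanishes on the moved points of `u`, in the stratum of height `h < n`, then its
derivatives along the stratum vanish at `u`. -/
theorem pderiv_eq_zero_of_orbit (u : Fin (n - 1) → Ball K) {ε : ℝ} (hu : SmallParam n u ε)
    {h : ℕ} (hh : 1 ≤ h) (hhn : h < n) (hu0 : ∀ i : Fin (n - 1), (i : ℕ) + 1 < h → u i = 0)
    (huh : uvar n u h ≠ 0)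
    (v : PowerSeries (Ball K) → ℕ → Fin (n - 1) → Ball K) (N₀ : ℕ) (_hN₀ : 1 ≤ N₀)
    (hv : ∀ a, FixedEndo p n a → ∀ N, N₀ ≤ N →
      SmallParam n (v a N) ε ∧ IsMovedPoint p n u (v a N) ε a N ∧
        (∀ i : Fin (n - 1), (i : ℕ) + 1 < h → v a N i = 0) ∧
        ∀ i, ‖v a N i - u i‖ ≤ ε ^ N)
    (f : MvPowerSeries (Fin (n - 1)) (Ball K)) (hfu : evalMv f u = 0)
    (hfv : ∀ a, FixedEndo p n a → ∀ N, N₀ ≤ N → evalMv f (v a N) = 0)
    (i : Fin (n - 1)) (hi : h ≤ (i : ℕ) + 1) :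
    evalMv (MvPowerSeries.pderiv (Ball K) i f) u = 0 := by
  classical
  have hn : 1 ≤ n := by omega
  obtain ⟨zP, hz0, ⟨δ, hδ, hind⟩, hdet⟩ := exists_torsion_basis p n u hu hh hhn hu0 huh
  obtain ⟨ι, hι, hι1⟩ := exists_hondaMap p n u hu hh hhn.le hu0 huh
  obtain ⟨π, hπε, hπ⟩ := exists_norm_between (K := K) hu.2.1 hu.1
  have hπ0 : π ≠ 0 := fun h0 => by
    rw [h0, norm_zero] at hπε
    exact absurd hπε (not_lt.2 hu.1)
  set z : Fin (n - h) → Ball K := fun j => (zP j).val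
  have hz : ∀ j, ‖z j‖ < 1 := fun j => (zP j).norm_lt
  set U := upar n h u π
  set E := eForm p n u π ι z
  -- the Jacobian
  set D : Matrix (Fin (n - h)) (Fin (n - h)) (Ball K) := Matrix.of fun j i =>
    evalP (dMul p n u ⟨h - 1 + (i : ℕ), by omega⟩) (phiK p n u (zP j).val) with hD
  set Mt : Matrix (Fin (n - h)) (Fin (n - h)) K :=
    Matrix.of fun j k => coeff (Finsupp.single (Sum.inl k) 1) (E j) with hMt
  have hdetM : IsUnit Mt.det := by
    have e : Mt = (Ball K).subtype.mapMatrix (π • D) := Matrix.ext fun j k => by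
      rw [hMt, Matrix.of_apply, coeff_eForm_inl p n u π ι z hπ hn hu hz hh hhn.le hu0 hι hι1 j k]
      rfl
    rw [e, ← RingHom.map_det, Matrix.det_smul, isUnit_iff_ne_zero]
    exact fun h0 => mul_ne_zero (pow_ne_zero _ hπ0) hdet
      (Subtype.ext h0)
  set Φ : Fin (n - h) → MvPowerSeries (Fin (n - h) ⊕ Fin (n - h)) K :=
    fun i => X (Sum.inl i) - ∑ j, C (Mt⁻¹ i j) * E j with hΦdef
  have hE0 : ∀ j, constantCoeff (E j) = 0 := fun j => by
    have h1 := congrArg constantCoeff (rescale_zero_eqn p n u π ι z hπ hn hu hz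
      (a := Sum.elim (fun _ => 1) fun _ => 0) (fun _ => rfl) (fun _ => rfl) 0 j)
    rw [← coeff_zero_eq_constantCoeff_apply, coeff_rescale, constantCoeff_pSer p n u π hn hu hπ
      (hz j), hz0 j, Finsupp.prod_zero_index, one_mul] at h1
    rw [← coeff_zero_eq_constantCoeff_apply,
      coeff_eForm p n u π ι z hπ hn hu hz hh hhn.le hu0 hι hι1 j 0 (l := 0) (by simp), h1]
    simp
  have hΦ : IsContracting Φ := by
    refine ⟨fun i => by simp [hΦdef, hE0], fun i k => ?_⟩
    simp only [hΦdef, map_sub, map_sum, coeff_C_mul]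
    have h1 := congrFun (congrFun (Matrix.nonsing_inv_mul Mt hdetM) i) k
    rw [Matrix.mul_apply] at h1
    simp only [hMt, Matrix.of_apply] at h1
    rw [h1, coeff_X]
    by_cases hik : i = k
    · subst hik; simp
    · rw [Matrix.one_apply_ne hik, if_neg, sub_zero]
      intro he
      exact hik (Sum.inl.inj ((Finsupp.single_left_inj one_ne_zero).1 he)).symm
  set F := (evalMv (f.map C) U).map (Ball K).subtype with hF
  set H := subst (Sum.elim (fixSol Φ) X) F
  have hH : H = 0 := by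
    refine rigidity p h hh (orbitGroup p n hn hu hι zP)
      (noRelation_orbitGroup p n hn hu hι zP hh hι1 (by omega) hδ hind) H ?_
    intro w hw
    obtain ⟨a, ha, hwa⟩ := (mem_orbitGroup p n hn hu hι zP).1 hw
    have hwv : ∀ j, (w j).val = evalP ι (phiK p n u (evalP a (z j))) := fun j => by
      rw [hwa j]; rfl
    have hω : ∀ j, ‖evalP ι (phiK p n u (evalP a (z j)))‖ < 1 := fun j => by
      rw [← hwv]; exact (w j).norm_lt
    have hT := tendsto_orbitPoint p n u π hh hω (v a) hu.1 hu.2.1 (N₀ := N₀)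
      fun N hN => (hv a ha N hN).2.2.2
    have hmemE := eForm_mem_asympIdeal p n hπ hπ0 hn hu hz hz0 hh hhn.le hu0 hι hι1 ha
      (v := v a) (hv a ha) hT
    have hmemF := upar_value_mem_asympIdeal p n hπ hπ0 hn hu hz hz0 hh hhn.le hu0 hι hι1 ha
      (v := v a) (hv a ha) hT (hfv a ha)
    have hDi := sub_fixSol_mem hΦ (isBelowClosed_asympIdeal hT) fun i => by
      rw [hΦdef, sub_sub_cancel]
      exact Ideal.sum_mem _ fun j _ => Ideal.mul_mem_left _ _ (hmemE j)
    have hAZ := asympZero_elim hT (fixSol_mem_below hΦ) hDi hmemF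
    intro M
    obtain ⟨B, hB⟩ := hAZ M
    obtain ⟨N₁, hN₁⟩ := eventually_atTop.1 hB
    refine ⟨|B|, N₁ + 1, fun N hN => ?_⟩
    obtain ⟨N', rfl⟩ : ∃ N', N = N' + 1 := ⟨N - 1, by omega⟩
    have e : orbitPoint p n u π hh (fun j => evalP ι (phiK p n u (evalP a (z j)))) (v a) N' ∘
        Sum.inr = fun j => ((w j).val : K) ^ p ^ (h * (N' + 1)) := by
      funext j
      simp [orbitPoint, hwv]
    have h1 := hN₁ N' (by omega)
    simp only [e] at h1
    refine h1.trans (mul_le_mul (le_abs_self B) ?_ (by positivity) (abs_nonneg B))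
    rw [pow_mul (‖fun j => ((w j).val : K)‖)]
    refine pow_le_pow_left₀ (by positivity) ?_ M
    refine (pi_norm_le_iff_of_nonneg (by positivity)).2 fun j => ?_
    rw [norm_pow]
    exact pow_le_pow_left₀ (norm_nonneg _) (norm_le_pi_norm (fun j => ((w j).val : K)) j) _
  -- the linear terms of `H`
  have hUsmall : ∀ i, ‖U i‖ < 1 := fun i =>
    (norm_upar_le n u π hu i).trans_lt (max_lt hu.2.1 hπ)
  have hF0 : constantCoeff F = 0 := by
    rw [hF, constantCoeff_map, map_evalMv (constantCoeff (σ := Fin (n - h) ⊕ Fin (n - h)))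
      continuous_constantCoeff hUsmall fun i => (norm_constantCoeff_le _).trans_lt (hUsmall i)]
    have e1 : (f.map C).map (constantCoeff (σ := Fin (n - h) ⊕ Fin (n - h)) (R := Ball K)) = f :=
      MvPowerSeries.ext fun d => by simp
    have e2 : (fun i => constantCoeff (U i)) = u := funext fun i => constantCoeff_upar n u π i
    rw [e1, e2, hfu, map_zero]
  set g : Fin (n - h) → K := fun k =>
    ((π * evalMv (MvPowerSeries.pderiv (Ball K) ⟨h - 1 + k, by omega⟩ f) u : Ball K) : K)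
  have ha1 : ((PowerSeries.coeff 1 ι : Ball K) : K) ≠ 0 := fun h0 => hι1 (Subtype.ext h0)
  have hg : Matrix.vecMul g Mt⁻¹ = 0 := by
    funext k
    have h1 := congrArg (coeff (Finsupp.single k 1)) hH
    simp only [H] at h1
    rw [coeff_single_subst (elim_mem_below (fixSol_mem_below hΦ) X_mem_below) hF0, map_zero,
      Fintype.sum_sum_type] at h1
    simp only [Sum.elim_inl, Sum.elim_inr, hF, coeff_map] at h1
    rw [Finset.sum_eq_zero (s := Finset.univ) (f := fun x : Fin (n - h) =>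
      (Ball K).subtype (coeff (Finsupp.single (Sum.inr x) 1) (evalMv (f.map C) U)) *
        coeff (Finsupp.single k 1) (X x : MvPowerSeries (Fin (n - h)) K)) (fun x _ => by
      rw [coeff_single_evalMv _ f hUsmall]
      simp [U, coeff_upar_inr]), add_zero] at h1
    have h2 : ∀ i, coeff (Finsupp.single k 1) (fixSol Φ i) =
        -(Mt⁻¹ i k * ((PowerSeries.coeff 1 ι : Ball K) : K)⁻¹) := fun i => by
      rw [coeff_single_fixSol hΦ, hΦdef, map_sub, map_sum, coeff_X,
        if_neg (fun he => by simpa using (Finsupp.single_left_inj one_ne_zero).1 he), zero_sub,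
        neg_inj]
      simp only [coeff_C_mul, E,
        coeff_eForm_inr p n u π ι z hπ hn hu hz hh hhn.le hu0 hι hι1 hπ0 hz0, mul_ite, mul_zero,
        Finset.sum_ite_eq, Finset.mem_univ, if_true]
    simp only [U, coeff_evalMv_upar n u π hh hu hπ f, h2, mul_neg, Finset.sum_neg_distrib,
      neg_eq_zero, ← mul_assoc, ← Finset.sum_mul, mul_eq_zero, _root_.inv_eq_zero, ha1,
      or_false] at h1
    rw [Pi.zero_apply, ← h1]
    rfl
  have hg0 : g = 0 := by
    rw [← Matrix.vecMul_one g, ← Matrix.nonsing_inv_mul Mt hdetM, ← Matrix.vecMul_vecMul, hg,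
      Matrix.zero_vecMul]
  have hk := congrFun hg0 ⟨(i : ℕ) + 1 - h, by omega⟩
  have hidx : (⟨h - 1 + ((i : ℕ) + 1 - h), by omega⟩ : Fin (n - 1)) = i :=
    Fin.ext (by simp; omega)
  simp only [g, hidx, Pi.zero_apply] at hk
  exact (mul_eq_zero.1 (Subtype.ext hk : π * _ = (0 : Ball K))).resolve_left hπ0

end Vale.P217

end
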