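import Vale.Agent.P217.ExpansionOrbit

/-!
The equations of the orbit in the formal variables `(Δ, X)`, level by level, their consistency, and
the formal limit equation.
-/

noncomputable section

set_option linter.unusedSectionVars false

namespace Vale.P217

open SeriesNorm MvPowerSeries

theorem leftDeg_single_inl {σ₁ σ₂ : Type*} [Fintype σ₁] (i : σ₁) :
    SeriesNorm.leftDeg (Finsupp.single (Sum.inl i : σ₁ ⊕ σ₂) 1) = 1 := by
  classical
  simp [leftDeg, Finsupp.single_apply]

theorem leftDeg_single_inr {σ₁ σ₂ : Type*} [Fintype σ₁] (i : σ₂) :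
    SeriesNorm.leftDeg (Finsupp.single (Sum.inr i : σ₁ ⊕ σ₂) 1) = 0 := by
  classical
  simp [leftDeg]

/-- The degree in the variables of the second kind. -/
def rightDeg {σ₁ σ₂ : Type*} [Fintype σ₂] (d : σ₁ ⊕ σ₂ →₀ ℕ) : ℕ := ∑ j, d (Sum.inr j)

theorem leftDeg_le_degree {σ₁ σ₂ : Type*} [Fintype σ₁] [Fintype σ₂] (d : σ₁ ⊕ σ₂ →₀ ℕ) :
    SeriesNorm.leftDeg d ≤ d.degree := by
  rw [Finsupp.degree_eq_sum, Fintype.sum_sum_type]
  exact Nat.le_add_right _ _

theorem prod_elim_one {σ₁ σ₂ : Type*} [Fintype σ₁] [Fintype σ₂] {R : Type*} [CommMonoid R]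
    (c : R) (d : σ₁ ⊕ σ₂ →₀ ℕ) :
    (d.prod fun x e => Sum.elim (fun _ : σ₁ => (1 : R)) (fun _ : σ₂ => c) x ^ e) =
      c ^ rightDeg d := by
  rw [Finsupp.prod_fintype _ _ (fun x => pow_zero _), Fintype.prod_sum_type]
  simp only [Sum.elim_inl, Sum.elim_inr, one_pow, Finset.prod_const_one, one_mul, rightDeg]
  rw [Finset.prod_pow_eq_pow_sum]

theorem eval_truncTotal_eq_sum {σ : Type*} [Fintype σ] {R : Type*} [CommSemiring R] (M : ℕ)
    (G : MvPowerSeries σ R) (x : σ → R) :
    MvPolynomial.eval x (truncTotal M G) =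
      ∑ d ∈ (Finsupp.finite_of_degree_lt (σ := σ) M).toFinset,
        coeff d G * ∏ i, x i ^ d i := by
  classical
  rw [MvPolynomial.eval_eq']
  refine (Finset.sum_subset (fun d hd => ?_) fun d _ hd => ?_).trans
    (Finset.sum_congr rfl fun d hd => ?_)
  · simp only [Set.Finite.mem_toFinset, Set.mem_ofPred_eq]
    by_contra hlt
    exact MvPolynomial.mem_support_iff.1 hd (coeff_truncTotal_eq_zero _ (not_lt.1 hlt))
  · rw [MvPolynomial.notMem_support_iff.1 hd, zero_mul]
  · simp only [Set.Finite.mem_toFinset, Set.mem_ofPred_eq] at hd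
    rw [coeff_truncTotal _ hd]

theorem evalMv_coe {σ : Type*} [Finite σ] {O : Type*} [NormedCommRing O] [IsUltrametricDist O]
    [UnitNormed O] [CompleteSpace O] {x : σ → O} (hx : ∀ i, ‖x i‖ < 1)
    (P : MvPolynomial σ O) : evalMv (P : MvPowerSeries σ O) x = MvPolynomial.eval x P := by
  rw [← evalHom_apply hx]
  change ((evalHom x hx).comp MvPolynomial.coeToMvPowerSeries.ringHom) P = _
  congr 1
  refine MvPolynomial.ringHom_ext (fun a => ?_) fun i => ?_
  · simp [evalHom_apply, evalMv_C hx]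
  · simp [evalHom_apply, evalMv_X hx]

variable (p : ℕ) [Fact p.Prime] (n : ℕ) {h : ℕ} {K : Type} [NontriviallyNormedField K]
  [IsUltrametricDist K] [CompleteSpace K] [CharP K p] [IsAlgClosed K]

/-- `ι'(0) ^ (q ^ l)`. -/
def hondaScale (h : ℕ) (ι : PowerSeries (Ball K)) (l : ℕ) : Ball K :=
  PowerSeries.coeff 1 ι ^ p ^ (h * l)

/-- The factor between two consecutive normalisations of the orbit coordinates. -/
def hondaRatio (h : ℕ) (ι : PowerSeries (Ball K)) (l : ℕ) : Ball K :=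
  hondaScale p h ι l ^ (2 * (p ^ h - 1))

theorem hondaScale_succ_sq (h : ℕ) (ι : PowerSeries (Ball K)) (l : ℕ) :
    hondaScale p h ι (l + 1) ^ 2 = hondaRatio p h ι l * hondaScale p h ι l ^ 2 := by
  have h1 : 1 ≤ p ^ h := Nat.one_le_pow _ _ (Fact.out : p.Prime).pos
  rw [hondaRatio, ← pow_add, show 2 * (p ^ h - 1) + 2 = p ^ h * 2 by omega, pow_mul]
  congr 1
  rw [hondaScale, hondaScale, ← pow_mul, ← pow_add]
  ring_nf

theorem norm_hondaScale_pos {ι : PowerSeries (Ball K)} (hι1 : PowerSeries.coeff 1 ι ≠ 0) (l : ℕ) :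
    0 < ‖hondaScale p h ι l‖ := by
  rw [hondaScale, norm_pow_Ball]
  exact pow_pos (norm_pos_iff.2 hι1) _

theorem norm_hondaScale_succ_le (ι : PowerSeries (Ball K)) (l : ℕ) :
    ‖hondaScale p h ι (l + 1)‖ ≤ ‖hondaScale p h ι l‖ := by
  rw [hondaScale, hondaScale, norm_pow_Ball, norm_pow_Ball]
  exact pow_le_pow_of_le_one (norm_nonneg _) (UnitNormed.norm_le_one _)
    (Nat.pow_le_pow_right (Fact.out : p.Prime).pos (by rw [Nat.mul_succ]; omega))

variable (u : Fin (n - 1) → Ball K) (π : Ball K) (ι : PowerSeries (Ball K))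
  (z : Fin (n - h) → Ball K)

/-- The variable of the `j`-th orbit coordinate, scaled by `π`. -/
def orbVar (j : Fin (n - h)) : OrbSeries n h K := C π * X (Sum.inr j)

/-- The point with Honda coordinate `c_l ^ 2 π X_j` at level `l`. -/
def sectPt (l : ℕ) (j : Fin (n - h)) : OrbSeries n h K :=
  evalP ((frobS p h l (sectS ι)).map C) (orbVar n π j)

/-- The displacement at level `l` as a series. -/
def theta (l : ℕ) (j : Fin (n - h)) : OrbSeries n h K :=
  evalP (gIter p n h (upar n h u π) l) (sectPt p n π ι l j)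

/-- The equation at level `l`. -/
def eqn (l : ℕ) (j : Fin (n - h)) : OrbSeries n h K :=
  fadd (fg p n (upar n h u π)) (pSer p n u π h (z j)) (theta p n u π ι l j)

theorem norm_orbVar_le (j : Fin (n - h)) : ‖orbVar n π j‖ ≤ ‖π‖ := norm_C_mul_X_le π _

theorem rescale_orbVar (a : Fin (n - h) ⊕ Fin (n - h) → Ball K) (j : Fin (n - h)) :
    rescale a (orbVar n π j) = C π * (C (a (Sum.inr j)) * X (Sum.inr j)) := by
  rw [orbVar, map_mul, SeriesNorm.rescale_C, SeriesNorm.rescale_X]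

theorem map_rescale_map_C (a : Fin (n - h) ⊕ Fin (n - h) → Ball K) (f : PowerSeries (Ball K)) :
    PowerSeries.map (rescale a) (PowerSeries.map (C : Ball K →+* OrbSeries n h K) f) =
      PowerSeries.map C f :=
  PowerSeries.ext fun d => by
    simp only [PowerSeries.coeff_map, SeriesNorm.rescale_C]

variable (hπ : ‖π‖ < 1)
include hπ

theorem norm_orbVar_lt (j : Fin (n - h)) : ‖orbVar n π j‖ < 1 :=
  (norm_orbVar_le n π j).trans_lt hπ

theorem norm_sectPt_le (l : ℕ) (j : Fin (n - h)) :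
    ‖sectPt p n π ι l j‖ ≤ ‖hondaScale p h ι l‖ * ‖π‖ :=
  (norm_evalP_sectS_le p C norm_C_mul h l ι (norm_orbVar_lt n π hπ j)).trans
    (mul_le_mul_of_nonneg_left (norm_orbVar_le n π j) (norm_nonneg _))

theorem norm_sectPt_lt_one (l : ℕ) (j : Fin (n - h)) : ‖sectPt p n π ι l j‖ < 1 :=
  (norm_sectPt_le p n π ι hπ l j).trans_lt
    ((mul_le_of_le_one_left (norm_nonneg _) (UnitNormed.norm_le_one _)).trans_lt hπ)

theorem norm_theta_lt_one (l : ℕ) (j : Fin (n - h)) : ‖theta p n u π ι l j‖ < 1 :=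
  norm_evalP_lt_one (norm_sectPt_lt_one p n π ι hπ l j) _ (constantCoeff_gIter p n h _ l)

theorem map_theta {O' : Type} [NormedCommRing O'] [IsUltrametricDist O'] [UnitNormed O']
    [CompleteSpace O'] [CharP O' p] (φ : OrbSeries n h K →+* O') (hφ : ∀ x, ‖φ x‖ ≤ ‖x‖)
    (l : ℕ) (j : Fin (n - h)) :
    φ (theta p n u π ι l j) = evalP (gIter p n h (φ ∘ upar n h u π) l)
      (evalP (PowerSeries.map (φ.comp C) (frobS p h l (sectS ι))) (φ (orbVar n π j))) := by
  rw [theta, map_evalP φ hφ _ (norm_sectPt_lt_one p n π ι hπ l j), map_gIter, sectPt,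
    map_evalP φ hφ _ (norm_orbVar_lt n π hπ j)]
  congr 1

variable (hn : 1 ≤ n) {ε : ℝ} (hu : SmallParam n u ε) (hz : ∀ j, ‖z j‖ < 1)
include hn hu hz

theorem map_eqn {O' : Type} [NormedCommRing O'] [IsUltrametricDist O'] [UnitNormed O']
    [CompleteSpace O'] [CharP O' p] (φ : OrbSeries n h K →+* O') (hφ : ∀ x, ‖φ x‖ ≤ ‖x‖)
    (l : ℕ) (j : Fin (n - h)) :
    φ (eqn p n u π ι z l j) = fadd (fg p n (φ ∘ upar n h u π)) (φ (pSer p n u π h (z j)))
      (φ (theta p n u π ι l j)) := by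
  rw [eqn, map_fadd φ hφ _ (norm_pSer_lt p n u π hn hu hπ (hz j))
    (norm_theta_lt_one p n u π ι hπ l j), fg_map]

/-- Without orbit coordinates the equation is the lift itself. -/
theorem rescale_zero_eqn {a : Fin (n - h) ⊕ Fin (n - h) → Ball K} (ha : ∀ k, a (Sum.inl k) = 1)
    (ha' : ∀ k, a (Sum.inr k) = 0) (l : ℕ) (j : Fin (n - h)) :
    rescale a (eqn p n u π ι z l j) = pSer p n u π h (z j) := by
  rw [map_eqn p n u π ι z hπ hn hu hz _ (norm_rescale_le a),
    map_theta p n u π ι hπ _ (norm_rescale_le a),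
    rescale_pSer p n u π hn hu hπ (hz j) ha, rescale_orbVar, ha', map_zero, zero_mul, mul_zero,
    evalP_at_zero, constantCoeff_map', constantCoeff_frobS p h l (constantCoeff_sectS ι), map_zero,
    evalP_at_zero, constantCoeff_gIter, fadd_zero_right' _ (norm_pSer_lt p n u π hn hu hπ (hz j))]

variable (hh : 1 ≤ h) (hhn : h ≤ n) (hu0 : ∀ i : Fin (n - 1), (i : ℕ) + 1 < h → u i = 0)
  (hι : IsHomSeries (fg p n u) (fg p h (0 : Fin (h - 1) → Ball K)) ι)
  (hι1 : PowerSeries.coeff 1 ι ≠ 0)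
include hh hhn hu0 hι hι1

omit hz in
theorem evalP_honda_sect {σ : Type} (l : ℕ) {x : MvPowerSeries σ (Ball K)} (hx : ‖x‖ < 1) :
    evalP ((frobS p h l ι).map C) (evalP ((frobS p h l (sectS ι)).map C) x) =
      C (hondaScale p h ι l ^ 2) * x := by
  rw [← evalP_subst hx _ (by rw [constantCoeff_map', constantCoeff_frobS p h l
      (constantCoeff_sectS ι), map_zero]),
    ← map_subst_one (constantCoeff_frobS p h l (constantCoeff_sectS ι)),
    frobS_subst_sectS p h l hι.1, map_mul, PowerSeries.map_C, PowerSeries.map_X, evalP_mul hx,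
    evalP_C hx, evalP_X hx, hondaScale, ← pow_mul, mul_comm (p ^ (h * l))]

/-- Consecutive levels agree up to the scaling, modulo high powers of `Δ`. -/
theorem eqn_succ_sub_mem (l : ℕ) (j : Fin (n - h)) :
    eqn p n u π ι z (l + 1) j -
      rescale (Sum.elim (fun _ => 1) fun _ => hondaRatio p h ι l) (eqn p n u π ι z l j) ∈
      lowLeft (p ^ (h * l)) := by
  classical
  set R : OrbSeries n h K →+* OrbSeries n h K :=
    rescale (Sum.elim (fun _ => 1) fun _ => hondaRatio p h ι l) with hR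
  have hRn : ∀ x, ‖R x‖ ≤ ‖x‖ := norm_rescale_le _
  have hRU : R ∘ upar n h u π = upar n h u π :=
    funext fun i => rescale_upar n u π (fun _ => rfl) i
  have hJ := isClosed_lowLeft (K := K) (σ₁ := Fin (n - h)) (σ₂ := Fin (n - h)) (p ^ (h * l))
  set y1 := sectPt p n π ι (l + 1) j
  have hy1 : ‖y1‖ < 1 := norm_sectPt_lt_one p n π ι hπ (l + 1) j
  -- replace the parameters by `u`
  set y' := evalP ((frobS p h l (gStrat p n h u)).map (C : Ball K →+* OrbSeries n h K)) y1
  have hg0 : PowerSeries.constantCoeff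
      ((frobS p h l (gStrat p n h u)).map (C : Ball K →+* OrbSeries n h K)) = 0 := by
    rw [constantCoeff_map', constantCoeff_frobS p h l (constantCoeff_gStrat p n h u), map_zero]
  have hA : evalP (frobS p h l (gStrat p n h (upar n h u π))) y1 - y' ∈ lowLeft (p ^ (h * l)) := by
    refine evalP_sub_mem hJ hy1 hy1 (fun m => ?_) (by rw [sub_self]; exact Ideal.zero_mem _)
    rw [PowerSeries.coeff_map, coeff_frobS, coeff_frobS, map_pow]
    refine pow_sub_pow_mem_lowLeft p ?_ _
    obtain ⟨φ, hφX, hφ⟩ := exists_ringHom_fg p n (upar n h u π)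
    obtain ⟨ψ, hψX, hψ⟩ := exists_ringHom_fg p n u
    rw [gStrat, gStrat, PowerSeries.coeff_mk, PowerSeries.coeff_mk, hφ, hψ]
    have e : (Ideal.Quotient.mk (lowLeft 1)).comp φ =
        (Ideal.Quotient.mk (lowLeft (σ₁ := Fin (n - h)) (σ₂ := Fin (n - h)) (K := K) 1)).comp
          ((C : Ball K →+* OrbSeries n h K).comp ψ) :=
      MvPolynomial.ringHom_ext (fun c => by simp) fun i => by
        simp only [RingHom.comp_apply, hφX, hψX]
        exact Ideal.Quotient.eq.2 (upar_sub_mem n u π i)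
    exact Ideal.Quotient.eq.1 (DFunLike.congr_fun e _)
  -- the Honda map identifies the two sections
  have hy'le : ‖y'‖ ≤ ‖y1‖ := norm_evalP_le hy1 _ hg0
  have hyl : ∀ m (x : OrbSeries n h K), ‖x‖ ≤ ‖hondaScale p h ι m‖ * ‖π‖ →
      ‖hondaScale p h ι m‖ ≤ ‖hondaScale p h ι l‖ →
      ‖x‖ < ‖PowerSeries.coeff 1 (frobS p h l ι)‖ := fun m x hx hm => by
    rw [coeff_frobS]
    calc ‖x‖ ≤ ‖hondaScale p h ι m‖ * ‖π‖ := hx
      _ ≤ ‖hondaScale p h ι l‖ * ‖π‖ := mul_le_mul_of_nonneg_right hm (norm_nonneg _)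
      _ < ‖hondaScale p h ι l‖ := mul_lt_of_lt_one_right (norm_hondaScale_pos p hι1 l) hπ
  have hy'eq : y' = R (sectPt p n π ι l j) := by
    refine evalP_injective C norm_C_mul (f := frobS p h l ι) (hy'le.trans_lt hy1)
      ((hRn _).trans_lt (norm_sectPt_lt_one p n π ι hπ l j))
      (hyl (l + 1) y' (hy'le.trans (norm_sectPt_le p n π ι hπ (l + 1) j))
        (norm_hondaScale_succ_le p ι l))
      (hyl l _ ((hRn _).trans (norm_sectPt_le p n π ι hπ l j)) le_rfl) ?_
    rw [← evalP_subst hy1 _ hg0,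
      ← map_subst_one (constantCoeff_frobS p h l (constantCoeff_gStrat p n h u)),
      honda_gStrat_frobS p n hh hhn u hu0 hι l]
    simp only [y1, sectPt]
    rw [evalP_honda_sect p n u π ι hπ hn hu hh hhn hu0 hι hι1 (l + 1) (norm_orbVar_lt n π hπ j),
      map_evalP R hRn _ (norm_orbVar_lt n π hπ j), map_rescale_map_C,
      evalP_honda_sect p n u π ι hπ hn hu hh hhn hu0 hι hι1 l
        ((hRn _).trans_lt (norm_orbVar_lt n π hπ j)),
      hR, rescale_orbVar, Sum.elim_inr, hondaScale_succ_sq, map_mul, orbVar]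
    ring
  have hθ : theta p n u π ι (l + 1) j - R (theta p n u π ι l j) ∈ lowLeft (p ^ (h * l)) := by
    have e1 : theta p n u π ι (l + 1) j = evalP (gIter p n h (upar n h u π) l)
        (evalP (frobS p h l (gStrat p n h (upar n h u π))) y1) := by
      rw [theta, gIter, evalP_subst hy1 _ (constantCoeff_frobS p h l
        (constantCoeff_gStrat p n h _))]
    have e2 : R (theta p n u π ι l j) =
        evalP (gIter p n h (upar n h u π) l) (R (sectPt p n π ι l j)) := by
      rw [theta, map_evalP R hRn _ (norm_sectPt_lt_one p n π ι hπ l j), map_gIter, hRU]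
    rw [e1, e2, ← hy'eq]
    exact evalP_sub_mem hJ
      (norm_evalP_lt_one hy1 _ (constantCoeff_frobS p h l (constantCoeff_gStrat p n h _)))
      (hy'le.trans_lt hy1) (fun d => by rw [sub_self]; exact Ideal.zero_mem _) hA
  rw [map_eqn p n u π ι z hπ hn hu hz R hRn, hRU,
    rescale_pSer p n u π hn hu hπ (hz j) (fun _ => rfl), eqn, fadd, fadd]
  refine evalMv_sub_mem hJ (fun i => ?_) (fun i => ?_)
    (fun d => by rw [sub_self]; exact Ideal.zero_mem _) fun i => ?_
  · fin_cases i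
    · exact norm_pSer_lt p n u π hn hu hπ (hz j)
    · exact norm_theta_lt_one p n u π ι hπ (l + 1) j
  · fin_cases i
    · exact norm_pSer_lt p n u π hn hu hπ (hz j)
    · exact (hRn _).trans_lt (norm_theta_lt_one p n u π ι hπ l j)
  · fin_cases i
    · simp
    · exact hθ

end Vale.P217

end
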