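import Vale.Agent.P217.Ball
import Vale.Agent.P217.Order
import Mathlib.Algebra.MvPolynomial.PDeriv
import Mathlib.RingTheory.MvPowerSeries.Derivative
import Mathlib.Algebra.CharP.Lemmas
import Mathlib.Analysis.Normed.Group.Continuity

/-!
The Gauss norm on power series over the valuation ring, first order terms of evaluations, and
closed ideals.
-/

noncomputable section

set_option linter.unusedSectionVars false

namespace Vale.P217

namespace SeriesNorm

open MvPowerSeries Filter Topology Finset

variable {σ : Type*} {K : Type*} [NontriviallyNormedField K] [IsUltrametricDist K]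

/-- The Gauss norm. -/
def gnorm (f : MvPowerSeries σ (Ball K)) : ℝ := ⨆ d, ‖coeff d f‖

theorem norm_coeff_le_gnorm (f : MvPowerSeries σ (Ball K)) (d : σ →₀ ℕ) :
    ‖coeff d f‖ ≤ gnorm f :=
  le_ciSup (f := fun d => ‖coeff d f‖)
    ⟨1, by rintro _ ⟨e, rfl⟩; exact UnitNormed.norm_le_one _⟩ d

theorem gnorm_le {f : MvPowerSeries σ (Ball K)} {B : ℝ} (h : ∀ d, ‖coeff d f‖ ≤ B) :
    gnorm f ≤ B :=
  ciSup_le h

/-- The Gauss norm as a group norm. -/
def gaussGroupNorm : AddGroupNorm (MvPowerSeries σ (Ball K)) where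
  toFun := gnorm
  map_zero' := by simp [gnorm]
  add_le' f g := gnorm_le fun d => by
    rw [map_add]
    exact (norm_add_le _ _).trans
      (add_le_add (norm_coeff_le_gnorm f d) (norm_coeff_le_gnorm g d))
  neg' f := by simp [gnorm]
  eq_zero_of_map_eq_zero' f hf := MvPowerSeries.ext fun d => by
    rw [map_zero, ← norm_le_zero_iff]
    exact (norm_coeff_le_gnorm f d).trans_eq hf

/-- The normed ring of power series over the valuation ring with the Gauss norm. -/
scoped instance instNormedCommRing : NormedCommRing (MvPowerSeries σ (Ball K)) :=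
  { (gaussGroupNorm (σ := σ) (K := K)).toNormedAddCommGroup,
    (inferInstance : CommRing (MvPowerSeries σ (Ball K))) with
    norm_mul_le := fun f g => by
      classical
      refine gnorm_le fun d => ?_
      rw [coeff_mul]
      refine IsUltrametricDist.norm_sum_le_of_forall_le_of_nonneg
        (mul_nonneg ((norm_nonneg _).trans (norm_coeff_le_gnorm f 0))
          ((norm_nonneg _).trans (norm_coeff_le_gnorm g 0))) fun e _ => ?_
      exact (norm_mul_le _ _).trans (mul_le_mul (norm_coeff_le_gnorm f _)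
        (norm_coeff_le_gnorm g _) (norm_nonneg _)
        ((norm_nonneg _).trans (norm_coeff_le_gnorm f 0))) }

theorem norm_coeff_le (f : MvPowerSeries σ (Ball K)) (d : σ →₀ ℕ) : ‖coeff d f‖ ≤ ‖f‖ :=
  norm_coeff_le_gnorm f d

theorem norm_le_of_coeff {f : MvPowerSeries σ (Ball K)} {B : ℝ} (h : ∀ d, ‖coeff d f‖ ≤ B) :
    ‖f‖ ≤ B :=
  gnorm_le h

scoped instance instUltrametric : IsUltrametricDist (MvPowerSeries σ (Ball K)) :=
  IsUltrametricDist.isUltrametricDist_of_forall_norm_add_le_max_norm fun f g =>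
    norm_le_of_coeff fun d => by
      rw [map_add]
      exact (IsUltrametricDist.norm_add_le_max _ _).trans
        (max_le_max (norm_coeff_le f d) (norm_coeff_le g d))

scoped instance instUnitNormed : UnitNormed (MvPowerSeries σ (Ball K)) :=
  ⟨fun _ => norm_le_of_coeff fun _ => UnitNormed.norm_le_one _⟩

scoped instance instCharP (p : ℕ) [CharP K p] : CharP (MvPowerSeries σ (Ball K)) p :=
  charP_of_injective_ringHom
    (fun a b h => by simpa using congrArg (constantCoeff (σ := σ)) h :
      Function.Injective (C : Ball K →+* MvPowerSeries σ (Ball K))) p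

theorem continuous_coeff (d : σ →₀ ℕ) :
    Continuous (fun f : MvPowerSeries σ (Ball K) => coeff d f) :=
  AddMonoidHomClass.continuous_of_bound (coeff (R := Ball K) d) 1 fun f => by
    simpa using norm_coeff_le f d

theorem hasSum_coeff {ι : Type*} {g : ι → MvPowerSeries σ (Ball K)}
    {x : MvPowerSeries σ (Ball K)} (h : HasSum g x) (d : σ →₀ ℕ) :
    HasSum (fun i => coeff d (g i)) (coeff d x) :=
  h.map (coeff (R := Ball K) d) (continuous_coeff d)

scoped instance instCompleteSpace [CompleteSpace K] :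
    CompleteSpace (MvPowerSeries σ (Ball K)) := by
  refine UniformSpace.complete_of_cauchySeq_tendsto fun u hu => ?_
  have hd : ∀ d, CauchySeq fun k => coeff d (u k) := fun d => by
    rw [Metric.cauchySeq_iff] at hu ⊢
    intro ε hε
    obtain ⟨N, hN⟩ := hu ε hε
    refine ⟨N, fun a ha b hb => lt_of_le_of_lt ?_ (hN a ha b hb)⟩
    rw [dist_eq_norm, dist_eq_norm, ← map_sub]
    exact norm_coeff_le _ d
  choose L hL using fun d => cauchySeq_tendsto_of_complete (hd d)
  obtain ⟨F, hF⟩ : ∃ F : MvPowerSeries σ (Ball K), ∀ d, coeff d F = L d :=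
    ⟨fun d => L d, fun d => rfl⟩
  refine ⟨F, Metric.tendsto_atTop.2 fun ε hε => ?_⟩
  obtain ⟨N, hN⟩ := Metric.cauchySeq_iff.1 hu (ε / 2) (half_pos hε)
  refine ⟨N, fun a ha => lt_of_le_of_lt ?_ (half_lt_self hε)⟩
  rw [dist_eq_norm]
  refine norm_le_of_coeff fun d => ?_
  rw [map_sub, hF]
  refine le_of_tendsto (((tendsto_const_nhds (x := coeff d (u a))).sub (hL d)).norm) ?_
  filter_upwards [eventually_ge_atTop N] with b hb
  rw [← map_sub]
  exact (norm_coeff_le _ d).trans (by rw [← dist_eq_norm]; exact (hN a ha b hb).le)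

theorem norm_C (a : Ball K) : ‖(C a : MvPowerSeries σ (Ball K))‖ = ‖a‖ := by
  classical
  refine le_antisymm (norm_le_of_coeff fun d => ?_) ?_
  · rw [coeff_C]; split_ifs <;> simp
  · simpa using norm_coeff_le (C a : MvPowerSeries σ (Ball K)) 0

theorem norm_C_mul (a : Ball K) (f : MvPowerSeries σ (Ball K)) :
    ‖C a * f‖ = ‖a‖ * ‖f‖ := by
  change gnorm (C a * f) = ‖a‖ * gnorm f
  rw [gnorm, gnorm, Real.mul_iSup_of_nonneg (norm_nonneg a)]
  exact iSup_congr fun d => by rw [coeff_C_mul, norm_mul_Ball]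

theorem norm_X_le (i : σ) : ‖(X i : MvPowerSeries σ (Ball K))‖ ≤ 1 := UnitNormed.norm_le_one _

theorem norm_C_mul_X_le (a : Ball K) (i : σ) :
    ‖(C a * X i : MvPowerSeries σ (Ball K))‖ ≤ ‖a‖ := by
  rw [norm_C_mul]
  exact mul_le_of_le_one_right (norm_nonneg a) (norm_X_le i)

theorem norm_constantCoeff_le (f : MvPowerSeries σ (Ball K)) : ‖constantCoeff f‖ ≤ ‖f‖ := by
  simpa using norm_coeff_le f 0

theorem continuous_constantCoeff :
    Continuous (constantCoeff : MvPowerSeries σ (Ball K) →+* Ball K) :=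
  AddMonoidHomClass.continuous_of_bound _ 1 fun f => by simpa using norm_constantCoeff_le f

theorem continuous_C : Continuous (C : Ball K →+* MvPowerSeries σ (Ball K)) :=
  AddMonoidHomClass.continuous_of_bound _ 1 fun a => by rw [norm_C, one_mul]

theorem norm_rescale_le (a : σ → Ball K) (f : MvPowerSeries σ (Ball K)) :
    ‖rescale a f‖ ≤ ‖f‖ :=
  norm_le_of_coeff fun d => by
    rw [coeff_rescale, norm_mul_Ball]
    exact (mul_le_of_le_one_left (norm_nonneg _) (UnitNormed.norm_le_one _)).trans
      (norm_coeff_le f d)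

theorem continuous_rescale (a : σ → Ball K) :
    Continuous (rescale a : MvPowerSeries σ (Ball K) →+* MvPowerSeries σ (Ball K)) :=
  AddMonoidHomClass.continuous_of_bound _ 1 fun f => by simpa using norm_rescale_le a f

theorem rescale_C (a : σ → Ball K) (c : Ball K) :
    rescale a (C c : MvPowerSeries σ (Ball K)) = C c := by
  classical
  ext d
  rw [coeff_rescale, coeff_C]
  split_ifs with h
  · simp [h]
  · simp

theorem rescale_X (a : σ → Ball K) (i : σ) :
    rescale a (X i : MvPowerSeries σ (Ball K)) = C (a i) * X i := by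
  classical
  ext d
  rw [coeff_rescale, coeff_C_mul, coeff_X]
  split_ifs with h
  · simp [h]
  · simp

section Eval

variable [Finite σ] [CompleteSpace K]

/-- Evaluation at a small point. -/
def evalAt (x : σ → Ball K) (hx : ∀ i, ‖x i‖ < 1) : MvPowerSeries σ (Ball K) →+* Ball K :=
  evalHom x hx

theorem evalAt_apply (x : σ → Ball K) (hx : ∀ i, ‖x i‖ < 1) (f : MvPowerSeries σ (Ball K)) :
    evalAt x hx f = evalMv f x :=
  evalHom_apply hx f

theorem norm_evalAt_le (x : σ → Ball K) (hx : ∀ i, ‖x i‖ < 1) (f : MvPowerSeries σ (Ball K)) :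
    ‖evalAt x hx f‖ ≤ ‖f‖ := by
  rw [evalAt_apply]
  exact norm_evalMv_le_of_coeff hx f (norm_nonneg _) fun d => norm_coeff_le f d

theorem continuous_evalAt (x : σ → Ball K) (hx : ∀ i, ‖x i‖ < 1) : Continuous (evalAt x hx) :=
  AddMonoidHomClass.continuous_of_bound _ 1 fun f => by simpa using norm_evalAt_le x hx f

theorem evalAt_comp_C (x : σ → Ball K) (hx : ∀ i, ‖x i‖ < 1) :
    (evalAt x hx).comp C = RingHom.id (Ball K) :=
  RingHom.ext fun a => by simp [evalAt_apply, evalMv_C hx]

end Eval

section Ideals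

theorem isClosed_below (M : ℕ) :
    IsClosed ((below M : Ideal (MvPowerSeries σ (Ball K))) : Set (MvPowerSeries σ (Ball K))) := by
  have h : ((below M : Ideal (MvPowerSeries σ (Ball K))) : Set (MvPowerSeries σ (Ball K))) =
      ⋂ d ∈ {d : σ →₀ ℕ | d.degree < M}, {f | coeff d f = 0} := by
    ext f; simp [mem_below]
  rw [h]
  exact isClosed_biInter fun d _ => isClosed_eq (continuous_coeff d) continuous_const

variable {σ₁ σ₂ : Type*} [Fintype σ₁]

/-- The degree in the variables of the first kind. -/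
def leftDeg : (σ₁ ⊕ σ₂ →₀ ℕ) →+ ℕ where
  toFun d := ∑ i, d (Sum.inl i)
  map_zero' := by simp
  map_add' a b := by simp [Finset.sum_add_distrib]

/-- Series whose coefficients of degree `< M` in the variables of the first kind vanish. -/
def lowLeft (M : ℕ) : Ideal (MvPowerSeries (σ₁ ⊕ σ₂) (Ball K)) where
  carrier := {f | ∀ d, leftDeg d < M → coeff d f = 0}
  add_mem' := fun hf hg d hd => by rw [map_add, hf d hd, hg d hd, add_zero]
  zero_mem' := fun d _ => map_zero _
  smul_mem' := fun c f hf d hd => by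
    classical
    rw [smul_eq_mul, coeff_mul]
    refine Finset.sum_eq_zero fun x hx => ?_
    rw [Finset.mem_antidiagonal] at hx
    rw [hf x.2, mul_zero]
    rw [← hx, map_add] at hd
    omega

theorem mem_lowLeft {M : ℕ} {f : MvPowerSeries (σ₁ ⊕ σ₂) (Ball K)} :
    f ∈ lowLeft M ↔ ∀ d, leftDeg d < M → coeff d f = 0 := Iff.rfl

theorem isClosed_lowLeft (M : ℕ) :
    IsClosed (lowLeft (K := K) (σ₁ := σ₁) (σ₂ := σ₂) M :
      Set (MvPowerSeries (σ₁ ⊕ σ₂) (Ball K))) := by
  have h : (lowLeft (K := K) (σ₁ := σ₁) (σ₂ := σ₂) M : Set (MvPowerSeries (σ₁ ⊕ σ₂) (Ball K))) =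
      ⋂ d ∈ {d : σ₁ ⊕ σ₂ →₀ ℕ | leftDeg d < M}, {f | coeff d f = 0} := by
    ext f; simp [mem_lowLeft]
  rw [h]
  exact isClosed_biInter fun d _ => isClosed_eq (continuous_coeff d) continuous_const

theorem mul_mem_lowLeft {a b : ℕ} {f g : MvPowerSeries (σ₁ ⊕ σ₂) (Ball K)} (hf : f ∈ lowLeft a)
    (hg : g ∈ lowLeft b) : f * g ∈ lowLeft (a + b) := by
  classical
  intro d hd
  rw [coeff_mul]
  refine Finset.sum_eq_zero fun x hx => ?_
  rw [Finset.mem_antidiagonal] at hx
  rw [← hx, map_add] at hd
  rcases lt_or_ge (leftDeg x.1) a with h | h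
  · rw [hf x.1 h, zero_mul]
  · rw [hg x.2 (by omega), mul_zero]

theorem pow_mem_lowLeft {f : MvPowerSeries (σ₁ ⊕ σ₂) (Ball K)} (hf : f ∈ lowLeft 1) :
    ∀ m : ℕ, f ^ m ∈ lowLeft m
  | 0 => fun d hd => absurd hd (Nat.not_lt_zero _)
  | m + 1 => by rw [pow_succ]; exact mul_mem_lowLeft (pow_mem_lowLeft hf m) hf

/-- Frobenius moves congruent series deeper. -/
theorem pow_sub_pow_mem_lowLeft (p : ℕ) [Fact p.Prime] [CharP K p]
    {f g : MvPowerSeries (σ₁ ⊕ σ₂) (Ball K)} (h : f - g ∈ lowLeft 1) (k : ℕ) :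
    f ^ p ^ k - g ^ p ^ k ∈ lowLeft (p ^ k) := by
  rw [← sub_pow_char_pow]
  exact pow_mem_lowLeft h _

theorem X_inl_mem_lowLeft (i : σ₁) :
    (X (Sum.inl i) : MvPowerSeries (σ₁ ⊕ σ₂) (Ball K)) ∈ lowLeft 1 := by
  classical
  intro d hd
  rw [coeff_X, if_neg]
  rintro rfl
  have h : (1 : ℕ) ≤ leftDeg (Finsupp.single (Sum.inl i : σ₁ ⊕ σ₂) 1) := by
    simp only [leftDeg, AddMonoidHom.coe_mk, ZeroHom.coe_mk]
    refine le_trans ?_ (Finset.single_le_sum (fun j _ => Nat.zero_le _) (Finset.mem_univ i))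
    simp
  omega

end Ideals

end SeriesNorm

section Congruence

variable {O : Type*} [NormedCommRing O] [IsUltrametricDist O] [UnitNormed O] [CompleteSpace O]

theorem mem_of_hasSum {ι : Type*} {I : Ideal O} (hI : IsClosed (I : Set O)) {g : ι → O} {x : O}
    (h : HasSum g x) (hg : ∀ i, g i ∈ I) : x ∈ I :=
  hI.mem_of_tendsto h (Filter.Eventually.of_forall fun _ => Ideal.sum_mem I fun i _ => hg i)

theorem evalMv_sub_mem {σ : Type*} [Finite σ] {I : Ideal O} (hI : IsClosed (I : Set O))
    {f g : MvPowerSeries σ O} {x y : σ → O} (hx : ∀ i, ‖x i‖ < 1) (hy : ∀ i, ‖y i‖ < 1)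
    (hfg : ∀ d, MvPowerSeries.coeff d f - MvPowerSeries.coeff d g ∈ I)
    (hxy : ∀ i, x i - y i ∈ I) : evalMv f x - evalMv g y ∈ I := by
  refine mem_of_hasSum hI ((hasSum_evalMv hx f).sub (hasSum_evalMv hy g)) fun d => ?_
  rw [← Ideal.Quotient.eq, map_mul, map_mul, Finsupp.prod, Finsupp.prod, map_prod, map_prod,
    Ideal.Quotient.eq.2 (hfg d)]
  congr 1
  exact Finset.prod_congr rfl fun i _ => by rw [map_pow, map_pow, Ideal.Quotient.eq.2 (hxy i)]

theorem evalP_sub_mem {I : Ideal O} (hI : IsClosed (I : Set O)) {f g : PowerSeries O} {x y : O}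
    (hx : ‖x‖ < 1) (hy : ‖y‖ < 1)
    (hfg : ∀ d, PowerSeries.coeff d f - PowerSeries.coeff d g ∈ I) (hxy : x - y ∈ I) :
    evalP f x - evalP g y ∈ I := by
  refine evalMv_sub_mem hI (fun _ => hx) (fun _ => hy) (fun d => ?_) fun _ => hxy
  have h : d = Finsupp.single () (d ()) := Finsupp.ext fun u => by simp
  rw [h]
  exact hfg (d ())

end Congruence

namespace SeriesNorm

open MvPowerSeries Finset

variable {σ : Type*} {K : Type*} [NontriviallyNormedField K] [IsUltrametricDist K]

theorem coeff_single_mul (i : σ) (f g : MvPowerSeries σ (Ball K)) :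
    coeff (Finsupp.single i 1) (f * g) = coeff (Finsupp.single i 1) f * constantCoeff g +
      constantCoeff f * coeff (Finsupp.single i 1) g := by
  classical
  rw [coeff_mul, Finsupp.antidiagonal_single, sum_map,
    show antidiagonal (1 : ℕ) = {(0, 1), (1, 0)} from rfl,
    sum_pair (by decide : ((0 : ℕ), (1 : ℕ)) ≠ (1, 0))]
  simp [add_comm]

/-- The linear coefficient of a polynomial expression. -/
theorem coeff_single_aeval {τ : Type*} [Fintype τ] (i : σ) (P : MvPolynomial τ ℤ)
    (a : τ → MvPowerSeries σ (Ball K)) :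
    coeff (Finsupp.single i 1) (MvPolynomial.aeval a P) =
      ∑ s, MvPolynomial.aeval (fun t => constantCoeff (a t)) (MvPolynomial.pderiv s P) *
        coeff (Finsupp.single i 1) (a s) := by
  classical
  have h0 : ∀ Q : MvPolynomial τ ℤ, constantCoeff (MvPolynomial.aeval a Q) =
      MvPolynomial.aeval (fun t => constantCoeff (a t)) Q := fun Q => by
    induction Q using MvPolynomial.induction_on with
    | C c => simp
    | add Q R hQ hR => simp [hQ, hR]
    | mul_X Q t hQ => simp [hQ]
  induction P using MvPolynomial.induction_on with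
  | C c =>
    have h : coeff (Finsupp.single i 1) ((c : MvPowerSeries σ (Ball K))) = 0 := by
      rw [← map_intCast (C : Ball K →+* MvPowerSeries σ (Ball K)) c, coeff_C, if_neg]
      simp
    simp [h]
  | add P Q hP hQ => simp only [map_add, add_mul, sum_add_distrib, hP, hQ]
  | mul_X P t hP =>
    rw [map_mul, MvPolynomial.aeval_X, coeff_single_mul, hP, h0]
    simp only [MvPolynomial.pderiv_mul, map_add, map_mul, MvPolynomial.aeval_X, add_mul,
      sum_add_distrib, MvPolynomial.pderiv_X]
    congr 1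
    · rw [Finset.sum_mul]
      exact sum_congr rfl fun s _ => by ring
    · rw [sum_eq_single t]
      · simp
      · intro s _ hs
        simp [Pi.single_eq_of_ne (Ne.symm hs)]
      · simp

variable [CompleteSpace K]

/-- The linear coefficient of a value of a series with constant coefficients. -/
theorem coeff_single_evalMv {τ : Type*} [Fintype τ] (i : σ) (f : MvPowerSeries τ (Ball K))
    {a : τ → MvPowerSeries σ (Ball K)} (ha : ∀ t, ‖a t‖ < 1) :
    coeff (Finsupp.single i 1) (evalMv (f.map C) a) =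
      ∑ s, evalMv (pderiv (Ball K) s f) (fun t => constantCoeff (a t)) *
        coeff (Finsupp.single i 1) (a s) := by
  classical
  set a0 : τ → Ball K := fun t => constantCoeff (a t) with ha0
  have ha0' : ∀ t, ‖a0 t‖ < 1 := fun t => (norm_constantCoeff_le _).trans_lt (ha t)
  set L : τ → Ball K := fun s => coeff (Finsupp.single i 1) (a s)
  have h1 := hasSum_coeff (hasSum_evalMv ha (f.map C)) (Finsupp.single i 1)
  have h2 : HasSum (fun d : τ →₀ ℕ => ∑ s, coeff d f * ((d s : Ball K) *
      ((d - Finsupp.single s 1).prod fun t e => a0 t ^ e)) * L s)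
      (∑ s, evalMv (pderiv (Ball K) s f) a0 * L s) := by
    refine hasSum_sum fun s _ => ?_
    have h := (hasSum_evalMv ha0' (pderiv (Ball K) s f)).mul_right (L s)
    rw [← Function.Injective.hasSum_iff (add_left_injective (Finsupp.single s 1)) ?_]
    · refine h.congr_fun fun d => ?_
      simp only [Function.comp_apply, coeff_pderiv, add_tsub_cancel_right, Finsupp.add_apply,
        Finsupp.single_eq_same, Nat.cast_add, Nat.cast_one]
      ring
    · intro d hd
      have hs : d s = 0 := by
        by_contra hne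
        exact hd ⟨d - Finsupp.single s 1,
          tsub_add_cancel_of_le (Finsupp.single_le_iff.2 (Nat.one_le_iff_ne_zero.2 hne))⟩
      simp [hs]
  refine (h1.unique (h2.congr_fun fun d => ?_))
  rw [coeff_map, coeff_C_mul]
  have hmono := coeff_single_aeval i (MvPolynomial.monomial d (1 : ℤ)) a
  simp only [MvPolynomial.pderiv_monomial, MvPolynomial.aeval_monomial, map_one, one_mul,
    map_natCast] at hmono
  rw [hmono, Finset.mul_sum]
  exact sum_congr rfl fun s _ => by ring

end SeriesNorm

end Vale.P217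

end
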