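import Vale.Agent.P217.Coord
import Vale.Agent.P217.Ball
import Mathlib.RingTheory.MvPowerSeries.Derivative
import Mathlib.FieldTheory.Finite.Basic

/-!
Ring maps from the Lubin-Tate ring to complete unit-normed rings as evaluations.
-/

noncomputable section

set_option linter.unusedSectionVars false

namespace Vale.P217

open MvPowerSeries IsLocalRing

section General

variable {R S : Type*} [CommRing R] [CommRing S]

theorem constantCoeff_subst_X (i : Fin 2) {f : PowerSeries R}
    (hf : PowerSeries.constantCoeff f = 0) :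
    constantCoeff (PowerSeries.subst (MvPowerSeries.X i : MvPowerSeries (Fin 2) R) f) = 0 :=
  MvPowerSeries.constantCoeff_subst_eq_zero
    (a := fun _ : Unit => (MvPowerSeries.X i : MvPowerSeries (Fin 2) R))
    (hasSubst_of_constantCoeff_zero fun _ => MvPowerSeries.constantCoeff_X (R := R) i)
    (fun _ => MvPowerSeries.constantCoeff_X (R := R) i) hf

theorem hasSubst_pair {f : PowerSeries R} (hf : PowerSeries.constantCoeff f = 0) :
    MvPowerSeries.HasSubst
      (![PowerSeries.subst (MvPowerSeries.X (0 : Fin 2)) f,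
        PowerSeries.subst (MvPowerSeries.X (1 : Fin 2)) f] : Fin 2 → MvPowerSeries (Fin 2) R) :=
  hasSubst_of_constantCoeff_zero fun i => by
    fin_cases i
    · exact constantCoeff_subst_X 0 hf
    · exact constantCoeff_subst_X 1 hf

theorem IsHomSeries.map {F G : FormalGroup R} {f : PowerSeries R} (hf : IsHomSeries F G f)
    (φ : R →+* S) : IsHomSeries (F.map φ) (G.map φ) (PowerSeries.map φ f) := by
  refine ⟨by rw [← PowerSeries.coeff_zero_eq_constantCoeff_apply, PowerSeries.coeff_map,
    PowerSeries.coeff_zero_eq_constantCoeff_apply, hf.1, map_zero], ?_⟩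
  have hF : PowerSeries.HasSubst F.toPowerSeries :=
    PowerSeries.HasSubst.of_constantCoeff_zero F.zero_constantCoeff
  have hX : ∀ i : Fin 2, PowerSeries.HasSubst (MvPowerSeries.X i : MvPowerSeries (Fin 2) R) :=
    fun i => PowerSeries.HasSubst.of_constantCoeff_zero (by simp)
  have hs : MvPowerSeries.HasSubst
      ![PowerSeries.subst (MvPowerSeries.X (0 : Fin 2)) f,
        PowerSeries.subst (MvPowerSeries.X (1 : Fin 2)) f] :=
    hasSubst_pair hf.1
  have h := congrArg (MvPowerSeries.map φ) hf.2
  rw [PowerSeries.map_subst hF, MvPowerSeries.map_subst hs] at h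
  rw [FormalGroup.map_toPowerSeries, FormalGroup.map_toPowerSeries, h]
  congr 1
  funext i
  fin_cases i
  · simp only [Matrix.cons_val_zero, Fin.zero_eta]
    rw [PowerSeries.map_subst (hX 0), map_X]
  · simp only [Matrix.cons_val_one, Fin.mk_one, Matrix.cons_val_fin_one]
    rw [PowerSeries.map_subst (hX 1), map_X]

theorem IsHomSeries.of_map {F G : FormalGroup R} {f : PowerSeries R} (φ : R →+* S)
    (hφ : Function.Injective φ)
    (hf : IsHomSeries (F.map φ) (G.map φ) (PowerSeries.map φ f)) : IsHomSeries F G f := by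
  have hc : PowerSeries.constantCoeff f = 0 := hφ <| by
    have h := hf.1
    rw [← PowerSeries.coeff_zero_eq_constantCoeff_apply, PowerSeries.coeff_map,
      PowerSeries.coeff_zero_eq_constantCoeff_apply] at h
    rw [h, map_zero]
  refine ⟨hc, ?_⟩
  suffices h : MvPowerSeries.map φ (PowerSeries.subst F.toPowerSeries f) =
      MvPowerSeries.map φ (MvPowerSeries.subst ![PowerSeries.subst (MvPowerSeries.X (0 : Fin 2)) f,
        PowerSeries.subst (MvPowerSeries.X (1 : Fin 2)) f] G.toPowerSeries) by
    ext d
    exact hφ (by simpa [coeff_map] using congrArg (MvPowerSeries.coeff d) h)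
  have hF : PowerSeries.HasSubst F.toPowerSeries :=
    PowerSeries.HasSubst.of_constantCoeff_zero F.zero_constantCoeff
  have hX : ∀ i : Fin 2, PowerSeries.HasSubst (MvPowerSeries.X i : MvPowerSeries (Fin 2) R) :=
    fun i => PowerSeries.HasSubst.of_constantCoeff_zero (by simp)
  have hs : MvPowerSeries.HasSubst
      ![PowerSeries.subst (MvPowerSeries.X (0 : Fin 2)) f,
        PowerSeries.subst (MvPowerSeries.X (1 : Fin 2)) f] :=
    hasSubst_pair hc
  rw [PowerSeries.map_subst hF, MvPowerSeries.map_subst hs]
  rw [← FormalGroup.map_toPowerSeries, ← FormalGroup.map_toPowerSeries, hf.2]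
  congr 1
  funext i
  fin_cases i
  · simp only [Matrix.cons_val_zero, Fin.zero_eta]
    rw [PowerSeries.map_subst (hX 0), map_X]
  · simp only [Matrix.cons_val_one, Fin.mk_one, Matrix.cons_val_fin_one]
    rw [PowerSeries.map_subst (hX 1), map_X]

theorem map_pderiv {σ : Type*} (φ : R →+* S) (i : σ) (f : MvPowerSeries σ R) :
    MvPowerSeries.map φ (pderiv R i f) = pderiv S i (MvPowerSeries.map φ f) := by
  ext d
  simp [coeff_pderiv, coeff_map]

end General

section Eval

variable {p : ℕ} [Fact p.Prime] {n : ℕ}
variable {O : Type*} [NormedCommRing O] [IsUltrametricDist O] [UnitNormed O] [CompleteSpace O]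

/-- The restriction of `φ` to the coefficient ring. -/
def coefHom (φ : LTRing p n →+* O) : Coef p n →+* O := φ.comp MvPowerSeries.C

theorem norm_le_of_mem_maximalIdeal (φ : LTRing p n →+* O) {ε : ℝ} (hε : 0 ≤ ε)
    (hp : ‖φ (p : LTRing p n)‖ ≤ ε) (hX : ∀ i, ‖φ (MvPowerSeries.X i)‖ ≤ ε) {x : LTRing p n}
    (hx : x ∈ maximalIdeal (LTRing p n)) : ‖φ x‖ ≤ ε := by
  rcases Nat.eq_zero_or_pos n with hn | hn
  · have : maximalIdeal (LTRing p n) ≤ (ballIdeal (O := O) ε hε).comap φ := by
      rw [← ker_residueMap]
      intro y hy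
      rw [RingHom.mem_ker] at hy
      have hy' : y = MvPowerSeries.C (constantCoeff y) := by
        ext e
        have : IsEmpty (Fin (n - 1)) := ⟨fun i => by have := i.2; omega⟩
        rw [Subsingleton.elim e 0, coeff_zero_eq_constantCoeff_apply,
          coeff_zero_eq_constantCoeff_apply, constantCoeff_C]
      obtain ⟨w, hw⟩ := dvd_of_constantCoeff_eq_zero p n (show
        WittVector.constantCoeff (constantCoeff y) = 0 from hy)
      rw [hy', hw, map_mul, map_natCast]
      exact Ideal.mul_mem_right _ _ hp
    exact this hx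
  · rw [maximalIdeal_eq_coordIdeal p n hn] at hx
    have : coordIdeal p n n ≤ (ballIdeal (O := O) ε hε).comap φ := by
      refine Ideal.span_le.2 ?_
      rintro a (rfl | ⟨i, -, rfl⟩)
      · exact hp
      · exact hX i
    exact this hx

theorem norm_le_pow_of_mem (φ : LTRing p n →+* O) {ε : ℝ} (hε : 0 ≤ ε)
    (hm : ∀ x ∈ maximalIdeal (LTRing p n), ‖φ x‖ ≤ ε) :
    ∀ (N : ℕ) {x : LTRing p n}, x ∈ maximalIdeal (LTRing p n) ^ N → ‖φ x‖ ≤ ε ^ N
  | 0, x, _ => by simpa using UnitNormed.norm_le_one (φ x)
  | N + 1, x, hx => by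
    rw [pow_succ'] at hx ⊢
    refine Submodule.mul_induction_on hx (fun a ha b hb => ?_) fun a b ha hb => ?_
    · rw [map_mul]
      exact (norm_mul_le _ _).trans (mul_le_mul (hm a ha) (norm_le_pow_of_mem φ hε hm N hb)
        (norm_nonneg _) hε)
    · rw [map_add]
      exact (IsUltrametricDist.norm_add_le_max _ _).trans (max_le ha hb)

/-- A ring map sending the maximal ideal to small elements is evaluation. -/
theorem hom_eq_evalMv (φ : LTRing p n →+* O) {ε : ℝ} (hε : 0 ≤ ε) (hε1 : ε < 1)
    (hm : ∀ x ∈ maximalIdeal (LTRing p n), ‖φ x‖ ≤ ε) (f : LTRing p n) :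
    φ f = evalMv (MvPowerSeries.map (coefHom φ) f) fun i => φ (MvPowerSeries.X i) := by
  set x : Fin (n - 1) → O := fun i => φ (MvPowerSeries.X i)
  have hxle : ∀ i, ‖x i‖ ≤ ε := fun i => hm _ (X_mem_maximalIdeal p n i)
  have hx : ∀ i, ‖x i‖ < 1 := fun i => (hxle i).trans_lt hε1
  refine sub_eq_zero.mp (norm_le_zero_iff.mp ?_)
  refine ge_of_tendsto' (tendsto_pow_atTop_nhds_zero_of_lt_one hε hε1) fun M => ?_
  set P : MvPolynomial (Fin (n - 1)) (Coef p n) := truncTotal M f
  have hPf : ∀ d : Fin (n - 1) →₀ ℕ, d.degree < M →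
      MvPowerSeries.coeff d (f - (P : LTRing p n)) = 0 := fun d hd => by
    rw [map_sub, MvPolynomial.coeff_coe, coeff_truncTotal _ hd, sub_self]
  have hP : φ (P : LTRing p n) =
      evalMv (MvPowerSeries.map (coefHom φ) (P : LTRing p n)) x := by
    rw [← evalHom_apply hx]
    have : φ.comp (MvPolynomial.coeToMvPowerSeries.ringHom) =
        ((evalHom x hx).comp (MvPowerSeries.map (coefHom φ))).comp
          MvPolynomial.coeToMvPowerSeries.ringHom := by
      refine MvPolynomial.ringHom_ext (fun r => ?_) fun t => ?_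
      · simp [evalHom_apply, evalMv_C hx, coefHom]
      · simp [evalHom_apply, evalMv_X hx, x]
    simpa using DFunLike.congr_fun this P
  have e1 : φ f - evalMv (MvPowerSeries.map (coefHom φ) f) x =
      φ (f - (P : LTRing p n)) -
        evalMv (MvPowerSeries.map (coefHom φ) (f - (P : LTRing p n))) x := by
    rw [map_sub φ, map_sub (MvPowerSeries.map (coefHom φ)), evalMv_sub hx, hP]
    ring
  rw [e1, sub_eq_add_neg]
  refine (IsUltrametricDist.norm_add_le_max _ _).trans (max_le ?_ ?_)
  · exact norm_le_pow_of_mem φ hε hm M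
      (mem_pow_of_coeff_eq_zero _ (X_mem_maximalIdeal p n) M _ hPf)
  · rw [norm_neg]
    exact norm_evalMv_le_pow hx _ (fun d hd => by rw [coeff_map, hPf d hd, map_zero]) hε hε1.le hxle

end Eval

section Residue

variable {p : ℕ} [Fact p.Prime] {n : ℕ} {O : Type*} [CommRing O]

/-- In characteristic `p` a map on the coefficient ring factors through the residue field. -/
def residueHom (ψ : Coef p n →+* O) (hp : ψ (p : Coef p n) = 0) : GaloisField p n →+* O where
  toFun a := ψ (WittVector.teichmuller p a)
  map_one' := by rw [map_one, map_one]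
  map_mul' a b := by rw [map_mul, map_mul]
  map_zero' := by rw [WittVector.teichmuller_zero, map_zero]
  map_add' a b := by
    have h : WittVector.constantCoeff
        (WittVector.teichmuller p (a + b) - WittVector.teichmuller p a -
          WittVector.teichmuller p b) = 0 := by
      simp only [map_sub]
      simp [WittVector.constantCoeff]
    obtain ⟨v, hv⟩ := dvd_of_constantCoeff_eq_zero p n h
    have := congrArg ψ hv
    rw [map_sub, map_sub, map_mul, hp, zero_mul, sub_sub, sub_eq_zero] at this
    exact this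

theorem residueHom_comp (ψ : Coef p n →+* O) (hp : ψ (p : Coef p n) = 0) (w : Coef p n) :
    residueHom ψ hp (WittVector.constantCoeff w) = ψ w := by
  have h : WittVector.constantCoeff
      (w - WittVector.teichmuller p (WittVector.constantCoeff w)) = 0 := by
    rw [map_sub, sub_eq_zero]
    exact (WittVector.teichmuller_coeff_zero (p := p) _).symm
  obtain ⟨v, hv⟩ := dvd_of_constantCoeff_eq_zero p n h
  have := congrArg ψ hv
  rw [map_sub, map_mul, hp, zero_mul, sub_eq_zero] at this
  exact this.symm

end Residue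

/-- All roots of `X ^ Q = X` in a domain come from a field with `Q` elements. -/
theorem exists_preimage_of_pow_card {F : Type*} [Field F] [Fintype F] {Q : ℕ}
    (hQ : Fintype.card F = Q) {O : Type*} [CommRing O]
    [IsDomain O] (φ : F →+* O) {x : O} (hx : x ^ Q = x) : ∃ a, φ a = x := by
  classical
  have hinj : Function.Injective φ := φ.injective
  by_contra hne
  push Not at hne
  set P : Polynomial O := Polynomial.X ^ Q - Polynomial.X with hPdef
  have h1 : 1 < Q := hQ ▸ Fintype.one_lt_card
  have h4 : P.natDegree = Q := by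
    rw [hPdef, Polynomial.natDegree_sub_eq_left_of_natDegree_lt] <;> simp [h1]
  have hP : P ≠ 0 := by
    intro h0
    rw [h0, Polynomial.natDegree_zero] at h4
    omega
  have hsub : insert x (Finset.univ.image φ) ⊆ P.roots.toFinset := by
    intro y hy
    rw [Multiset.mem_toFinset, Polynomial.mem_roots hP, hPdef, Polynomial.IsRoot,
      Polynomial.eval_sub, Polynomial.eval_pow, Polynomial.eval_X, sub_eq_zero]
    rcases Finset.mem_insert.1 hy with rfl | hy
    · exact hx
    · obtain ⟨a, -, rfl⟩ := Finset.mem_image.1 hy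
      rw [← map_pow, ← hQ, FiniteField.pow_card]
  have h2 := Finset.card_le_card hsub
  rw [Finset.card_insert_of_notMem (fun hm => by
      obtain ⟨a, -, ha⟩ := Finset.mem_image.1 hm
      exact hne a ha),
    Finset.card_image_of_injective _ hinj, Finset.card_univ, hQ] at h2
  have h3 := (Multiset.toFinset_card_le _).trans (Polynomial.card_roots' P)
  omega

theorem exists_galois_preimage {p : ℕ} [Fact p.Prime] {n : ℕ} (hn : 1 ≤ n) {O : Type*} [CommRing O]
    [IsDomain O] (φ : GaloisField p n →+* O) {x : O} (hx : x ^ p ^ n = x) : ∃ a, φ a = x := by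
  have : Fintype (GaloisField p n) := Fintype.ofFinite _
  exact exists_preimage_of_pow_card
    (by rw [← Nat.card_eq_fintype_card]; exact GaloisField.card p n (by omega)) φ hx

end Vale.P217

end
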