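import Vale.Agent.P217.Cocycle
import Vale.Agent.P217.Ball
import Vale.Agent.P217.Cover
import Vale.Agent.P217.PointTools
import Mathlib.RingTheory.PowerSeries.Expand

/-!
The homomorphism to the Honda law of height `h` on a stratum.
-/

noncomputable section

namespace Vale.P217

section Series

variable {R : Type*} [CommRing R]

/-- A homomorphism commutes with multiplication by integers. -/
theorem IsHomSeries.subst_mulSeries {F G : FormalGroup R} {f : PowerSeries R}
    (hf : IsHomSeries F G f) (m : ℕ) :
    PowerSeries.subst (mulSeries F m) f = PowerSeries.subst f (mulSeries G m) := by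
  have hsf : PowerSeries.HasSubst f := PowerSeries.HasSubst.of_constantCoeff_zero' hf.1
  induction m with
  | zero =>
    simp only [mulSeries]
    rw [← PowerSeries.coe_substAlgHom hsf, map_zero]
    ext d
    rw [PowerSeries.coeff_subst' (PowerSeries.HasSubst.of_constantCoeff_zero' (map_zero _))]
    rw [finsum_eq_zero_of_forall_eq_zero, map_zero]
    intro e
    rcases Nat.eq_zero_or_pos e with rfl | he
    · simp [hf.1]
    · simp [zero_pow he.ne']
  | succ m ih =>
    have hFm := constantCoeff_mulSeries F m
    have hs : MvPowerSeries.HasSubst ![mulSeries F m, PowerSeries.X] :=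
      hasSubst_one_var F.toPowerSeries _ _ hFm PowerSeries.constantCoeff_X
    have hsG : MvPowerSeries.HasSubst ![mulSeries G m, PowerSeries.X] :=
      hasSubst_one_var G.toPowerSeries _ _ (constantCoeff_mulSeries G m) PowerSeries.constantCoeff_X
    have hX : ∀ i : Fin 2, PowerSeries.HasSubst (MvPowerSeries.X i : MvPowerSeries (Fin 2) R) :=
      fun i => PowerSeries.HasSubst.of_constantCoeff_zero (MvPowerSeries.constantCoeff_X i)
    have hsX : MvPowerSeries.HasSubst ![PowerSeries.subst (MvPowerSeries.X (0 : Fin 2)) f,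
        PowerSeries.subst (MvPowerSeries.X (1 : Fin 2)) f] :=
      MvPowerSeries.hasSubst_of_constantCoeff_zero fun i => by
        fin_cases i <;>
          exact MvPowerSeries.constantCoeff_subst_eq_zero (hX _).const
            (fun _ => MvPowerSeries.constantCoeff_X _) hf.1
    have h1 := congrArg (MvPowerSeries.subst ![mulSeries F m, PowerSeries.X]) hf.2
    rw [PowerSeries.subst, MvPowerSeries.subst_comp_subst_apply
      (PowerSeries.HasSubst.of_constantCoeff_zero F.zero_constantCoeff).const hs,
      MvPowerSeries.subst_comp_subst_apply hsX hs] at h1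
    simp only [mulSeries]
    rw [PowerSeries.subst, PowerSeries.subst, MvPowerSeries.subst_comp_subst_apply hsG hsf.const]
    refine h1.trans ?_
    congr 1
    funext i
    fin_cases i
    · simp only [Fin.zero_eta, Fin.isValue, Matrix.cons_val_zero]
      rw [PowerSeries.subst, MvPowerSeries.subst_comp_subst_apply (hX 0).const hs]
      refine Eq.trans ?_ ih
      rw [PowerSeries.subst]
      congr 1
      funext _
      rw [MvPowerSeries.subst_X hs]
      rfl
    · simp only [Fin.mk_one, Fin.isValue, Matrix.cons_val_one, Matrix.cons_val_zero]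
      rw [PowerSeries.subst, MvPowerSeries.subst_comp_subst_apply (hX 1).const hs]
      rw [show (PowerSeries.X : PowerSeries R) = MvPowerSeries.X () from rfl,
        MvPowerSeries.subst_X hsf.const]
      refine Eq.trans ?_ (PowerSeries.X_subst f)
      rw [PowerSeries.subst]
      congr 1
      funext _
      exact (MvPowerSeries.subst_X hs 1).trans rfl

/-- `coeff i (g ^ d)` vanishes above the diagonal. -/
theorem coeff_pow_of_lt {g : PowerSeries R} (hg : PowerSeries.constantCoeff g = 0) {i d : ℕ}
    (hid : i < d) : PowerSeries.coeff i (g ^ d) = 0 :=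
  PowerSeries.X_pow_dvd_iff.1 (pow_dvd_pow_of_dvd (PowerSeries.X_dvd_iff.2 hg) d) i hid

theorem coeff_pow_self {g : PowerSeries R} (hg : PowerSeries.constantCoeff g = 0) (i : ℕ) :
    PowerSeries.coeff i (g ^ i) = PowerSeries.coeff 1 g ^ i := by
  obtain ⟨r, rfl⟩ := PowerSeries.X_dvd_iff.2 hg
  have h := PowerSeries.coeff_X_pow_mul (r ^ i) i 0
  rw [zero_add] at h
  rw [mul_pow, h, PowerSeries.coeff_zero_eq_constantCoeff, map_pow,
    show (1 : ℕ) = 0 + 1 from rfl, PowerSeries.coeff_succ_X_mul,
    PowerSeries.coeff_zero_eq_constantCoeff]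

/-- A polynomial form of the coefficients of a composition. -/
theorem coeff_subst_lt {g : PowerSeries R} (hg : PowerSeries.constantCoeff g = 0)
    (f : PowerSeries R) (i : ℕ) :
    PowerSeries.coeff i (PowerSeries.subst g f) =
      ∑ d ∈ Finset.range i, PowerSeries.coeff d f * PowerSeries.coeff i (g ^ d) +
        PowerSeries.coeff i f * PowerSeries.coeff 1 g ^ i := by
  rw [PowerSeries.coeff_subst' (PowerSeries.HasSubst.of_constantCoeff_zero' hg),
    finsum_eq_sum_of_support_subset _ (s := Finset.range (i + 1)) fun d hd => ?_,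
    Finset.sum_range_succ, coeff_pow_self hg]
  · rfl
  · rw [Finset.coe_range, Set.mem_Iio]
    by_contra hlt
    exact hd (by simp [coeff_pow_of_lt hg (show i < d by omega)])

theorem constantCoeff_map' {S : Type*} [CommRing S] (φ : R →+* S) (f : PowerSeries R) :
    PowerSeries.constantCoeff (f.map φ) = φ (PowerSeries.constantCoeff f) :=
  MvPowerSeries.constantCoeff_map φ f

end Series

variable (p : ℕ) [Fact p.Prime] (n : ℕ) {K : Type*} [NontriviallyNormedField K]
  [IsUltrametricDist K] [CompleteSpace K] [CharP K p] [IsAlgClosed K]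

omit [CompleteSpace K] [IsAlgClosed K] in
/-- Solutions of `f ∘ g = f ^ (q)` with `g` integral are integral. -/
theorem norm_coeff_le_one_of_subst_eq {q : ℕ} (hq : 1 < q) {g : PowerSeries (Ball K)}
    (hg : PowerSeries.constantCoeff g = 0) {f : PowerSeries K}
    (hfg : ∀ i, PowerSeries.coeff i (PowerSeries.subst (g.map (Ball K).subtype) f) =
      PowerSeries.coeff i f ^ q) (i : ℕ) : ‖PowerSeries.coeff i f‖ ≤ 1 := by
  induction i using Nat.strong_induction_on with
  | _ i IH =>
    have hg' : PowerSeries.constantCoeff (g.map (Ball K).subtype) = 0 := by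
      rw [constantCoeff_map', hg, map_zero]
    have h := hfg i
    rw [coeff_subst_lt hg'] at h
    have hint : ∀ d j, ‖PowerSeries.coeff j ((g.map (Ball K).subtype) ^ d)‖ ≤ 1 := fun d j => by
      rw [← map_pow, PowerSeries.coeff_map]
      exact (PowerSeries.coeff j (g ^ d)).2
    have h1 : ‖∑ d ∈ Finset.range i, PowerSeries.coeff d f *
        PowerSeries.coeff i ((g.map (Ball K).subtype) ^ d)‖ ≤ 1 :=
      IsUltrametricDist.norm_sum_le_of_forall_le_of_nonneg zero_le_one fun d hd => by
        rw [norm_mul]
        exact mul_le_one₀ (IH d (Finset.mem_range.1 hd)) (norm_nonneg _) (hint d i)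
    have h2 : ‖PowerSeries.coeff i f * PowerSeries.coeff 1 (g.map (Ball K).subtype) ^ i‖ ≤
        ‖PowerSeries.coeff i f‖ := by
      rw [norm_mul, norm_pow]
      exact mul_le_of_le_one_right (norm_nonneg _)
        (pow_le_one₀ (norm_nonneg _) (by simpa using hint 1 1))
    by_contra hlt
    rw [not_le] at hlt
    have h3 := (congrArg norm h).symm.trans_le ((IsUltrametricDist.norm_add_le_max _ _).trans
      (max_le (h1.trans hlt.le) h2))
    rw [norm_pow] at h3
    exact absurd h3 (not_le.2 (lt_self_pow₀ hlt hq))

/-- A homomorphism with integral coefficients to the height `h` Honda law, with nonzero linear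
coefficient. -/
theorem exists_hondaMap (u : Fin (n - 1) → Ball K) {ε : ℝ} (hu : SmallParam n u ε) {h : ℕ}
    (hh : 1 ≤ h) (hhn : h ≤ n) (hu0 : ∀ i : Fin (n - 1), (i : ℕ) + 1 < h → u i = 0)
    (huh : uvar n u h ≠ 0) :
    ∃ ι : PowerSeries (Ball K),
      IsHomSeries (fg p n u) (fg p h (0 : Fin (h - 1) → Ball K)) ι ∧
        PowerSeries.coeff 1 ι ≠ 0 := by
  clear hu
  classical
  obtain ⟨g, hg0, hg1, hg⟩ := mulSeries_fg_stratum p n u hh hhn hu0
  set φ := (Ball K).subtype with hφ
  have hp := (Fact.out : p.Prime)
  have hq : p ^ h ≠ 0 := pow_ne_zero h hp.ne_zero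
  have hmul : mulSeries ((fg p n u).map φ) p =
      PowerSeries.subst (PowerSeries.X ^ p ^ h) (g.map φ) := by
    rw [← mulSeries_map, hg]
    refine (PowerSeries.map_subst (PowerSeries.HasSubst.X_pow hq) g).trans ?_
    congr 1
    exact (map_pow (PowerSeries.map φ) PowerSeries.X _).trans (by rw [PowerSeries.map_X])
  obtain ⟨f, hf, hf1⟩ := exists_iso_honda p h hh ((fg p n u).map φ)
    (by rw [fg_map]; exact fg_isComm p n _) (g.map φ)
    (by rw [constantCoeff_map', hg0, map_zero])
    (by rw [PowerSeries.coeff_map, hg1]; exact fun e => huh (Subtype.ext e)) hmul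
  have hfq : ∀ i, PowerSeries.coeff i (PowerSeries.subst (g.map φ) f) =
      PowerSeries.coeff i f ^ p ^ h := fun i => by
    have h1 := hf.subst_mulSeries p
    rw [hmul, mulSeries_fg_zero p h hh] at h1
    have hX : PowerSeries.HasSubst ((PowerSeries.X : PowerSeries K) ^ p ^ h) :=
      PowerSeries.HasSubst.X_pow hq
    have hgs : PowerSeries.HasSubst (g.map φ) :=
      PowerSeries.HasSubst.of_constantCoeff_zero' (by
        rw [constantCoeff_map', hg0, map_zero])
    rw [← PowerSeries.subst_comp_subst_apply hgs hX, ← PowerSeries.coe_substAlgHom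
      (PowerSeries.HasSubst.of_constantCoeff_zero' hf.1), map_pow,
      PowerSeries.substAlgHom_X, ← PowerSeries.expand_apply _ hq,
      ← MvPowerSeries.map_iterateFrobenius_expand p hp.ne_zero f h] at h1
    have h2 := congrArg (PowerSeries.coeff (p ^ h * i)) h1
    rw [PowerSeries.coeff_expand_mul] at h2
    refine h2.trans ?_
    change iterateFrobenius K p h (PowerSeries.coeff (p ^ h * i)
      (PowerSeries.expand (p ^ h) hq f)) = _
    rw [PowerSeries.coeff_expand_mul, iterateFrobenius_def]
  have hint := norm_coeff_le_one_of_subst_eq (Nat.one_lt_pow (by omega) hp.one_lt) hg0 hfq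
  refine ⟨PowerSeries.mk fun i => ⟨PowerSeries.coeff i f, hint i⟩,
    IsHomSeries.of_map φ Subtype.val_injective ?_, fun e => hf1.ne_zero ?_⟩
  · have hι : (PowerSeries.mk fun i => (⟨PowerSeries.coeff i f, hint i⟩ : Ball K)).map φ = f := by
      refine PowerSeries.ext fun i => ?_
      rw [PowerSeries.coeff_map, PowerSeries.coeff_mk]
      rfl
    rw [hι, fg_map p h φ]
    convert hf
    funext i
    simp
  · rw [PowerSeries.coeff_mk] at e
    exact congrArg Subtype.val e

end Vale.P217

end
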