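import Vale.Agent.P217.CoverKernel
import Vale.Agent.P217.HondaMap

/-!
The series `g` with `[p] = g (X ^ q)` on a stratum, its iterates, and sections of the Honda map.
-/

noncomputable section

set_option linter.unusedSectionVars false

namespace Vale.P217

open Filter Topology

variable (p : ℕ) [Fact p.Prime] (n h : ℕ)

/-- The series `g` with `[p] = g (X ^ (p ^ h))` on the stratum of height `h`. -/
def gStrat {R : Type*} [CommRing R] (u : Fin (n - 1) → R) : PowerSeries R :=
  PowerSeries.mk fun m => PowerSeries.coeff (p ^ h * m) (mulSeries (fg p n u) p)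

/-- The series with coefficients raised to the power `p ^ (h l)`. -/
def frobS {R : Type*} [CommRing R] [CharP R p] (l : ℕ) (f : PowerSeries R) : PowerSeries R :=
  PowerSeries.map (iterateFrobenius R p (h * l)) f

/-- The series `G_l` with `[p ^ l] = G_l (X ^ (q ^ l))`. -/
def gIter {R : Type*} [CommRing R] [CharP R p] (u : Fin (n - 1) → R) : ℕ → PowerSeries R
  | 0 => PowerSeries.X
  | l + 1 => PowerSeries.subst (frobS p h l (gStrat p n h u)) (gIter u l)

section Algebra

variable {R : Type*} [CommRing R] [CharP R p]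

theorem coeff_frobS (l d : ℕ) (f : PowerSeries R) :
    PowerSeries.coeff d (frobS p h l f) = PowerSeries.coeff d f ^ p ^ (h * l) := by
  rw [frobS, PowerSeries.coeff_map, iterateFrobenius_def]

theorem constantCoeff_frobS (l : ℕ) {f : PowerSeries R} (hf : PowerSeries.constantCoeff f = 0) :
    PowerSeries.constantCoeff (frobS p h l f) = 0 := by
  rw [frobS, constantCoeff_map', hf, map_zero]

theorem coeff_gStrat (u : Fin (n - 1) → R) (m : ℕ) :
    PowerSeries.coeff m (gStrat p n h u) =
      MvPolynomial.aeval u (PowerSeries.coeff (p ^ h * m) (mulSeries (univFG p n) p)) := by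
  rw [gStrat, PowerSeries.coeff_mk, coeff_mulSeries_fg]

theorem constantCoeff_gStrat (u : Fin (n - 1) → R) :
    PowerSeries.constantCoeff (gStrat p n h u) = 0 := by
  rw [← PowerSeries.coeff_zero_eq_constantCoeff, gStrat, PowerSeries.coeff_mk, mul_zero,
    PowerSeries.coeff_zero_eq_constantCoeff, constantCoeff_mulSeries]

theorem constantCoeff_gIter (u : Fin (n - 1) → R) :
    ∀ l, PowerSeries.constantCoeff (gIter p n h u l) = 0
  | 0 => PowerSeries.constantCoeff_X
  | l + 1 => by
    have h0 : PowerSeries.constantCoeff (frobS p h l (gStrat p n h u)) = 0 :=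
      constantCoeff_frobS p h l (constantCoeff_gStrat p n h u)
    exact MvPowerSeries.constantCoeff_subst_eq_zero
      (PowerSeries.HasSubst.of_constantCoeff_zero' h0).const (fun _ => h0)
      (constantCoeff_gIter u l)

variable {S : Type*} [CommRing S] [CharP S p]

theorem map_subst_one {a : PowerSeries R} (ha : PowerSeries.constantCoeff a = 0) (φ : R →+* S)
    (f : PowerSeries R) :
    PowerSeries.map φ (PowerSeries.subst a f) = PowerSeries.subst (a.map φ) (f.map φ) :=
  PowerSeries.map_subst (PowerSeries.HasSubst.of_constantCoeff_zero' ha) f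

theorem map_frobS (φ : R →+* S) (l : ℕ) (f : PowerSeries R) :
    (frobS p h l f).map φ = frobS p h l (f.map φ) :=
  PowerSeries.ext fun d => by
    simp only [PowerSeries.coeff_map, coeff_frobS, map_pow]

theorem map_gStrat (φ : R →+* S) (u : Fin (n - 1) → R) :
    (gStrat p n h u).map φ = gStrat p n h (φ ∘ u) :=
  PowerSeries.ext fun m => by
    rw [PowerSeries.coeff_map, gStrat, gStrat, PowerSeries.coeff_mk, PowerSeries.coeff_mk,
      ← PowerSeries.coeff_map, mulSeries_map, fg_map]

theorem map_gIter (φ : R →+* S) (u : Fin (n - 1) → R) :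
    ∀ l, (gIter p n h u l).map φ = gIter p n h (φ ∘ u) l
  | 0 => PowerSeries.map_X φ
  | l + 1 => by
    have h0 : PowerSeries.constantCoeff (frobS p h l (gStrat p n h u)) = 0 :=
      constantCoeff_frobS p h l (constantCoeff_gStrat p n h u)
    rw [gIter, gIter, map_subst_one h0,
      ← map_gStrat p n h φ u, ← map_frobS, map_gIter φ u l]

variable {h} (hh : 1 ≤ h) (hhn : h ≤ n)
include hh hhn

theorem mulSeries_eq_expand_gStrat (u : Fin (n - 1) → R)
    (hu : ∀ i : Fin (n - 1), (i : ℕ) + 1 < h → u i = 0) :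
    mulSeries (fg p n u) p =
      PowerSeries.expand (p ^ h) (pow_ne_zero h (Fact.out : p.Prime).ne_zero) (gStrat p n h u) :=
  PowerSeries.ext fun d => by
    rw [PowerSeries.coeff_expand]
    split_ifs with hd
    · rw [gStrat, PowerSeries.coeff_mk, Nat.mul_div_cancel' hd]
    · exact coeff_mulSeries_not_dvd p n u hh hhn hu hd

end Algebra

section Eval

variable {h}
variable {O : Type*} [NormedCommRing O] [IsUltrametricDist O] [UnitNormed O] [CompleteSpace O]
  [CharP O p]

theorem norm_pow_lt_one {x : O} (hx : ‖x‖ < 1) {k : ℕ} (hk : k ≠ 0) : ‖x ^ k‖ < 1 :=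
  (norm_pow_le' x k).trans_lt (pow_lt_one₀ (norm_nonneg _) hx hk)

/-- Raising a value to a `p`-power. -/
theorem evalP_pow_p_pow (f : PowerSeries O) {x : O} (hx : ‖x‖ < 1) (k : ℕ) :
    evalP f x ^ p ^ k = evalP (f.map (iterateFrobenius O p k)) (x ^ p ^ k) := by
  have hcont : Continuous (iterateFrobenius O p k) := by
    rw [show (iterateFrobenius O p k : O → O) = fun y => y ^ p ^ k from
      funext fun y => iterateFrobenius_def p k y]
    exact continuous_pow _
  have h1 := (hasSum_evalP hx f).map (iterateFrobenius O p k) hcont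
  have h2 := hasSum_evalP (norm_pow_lt_one hx (pow_ne_zero k (Fact.out : p.Prime).ne_zero))
    (f.map (iterateFrobenius O p k))
  rw [← iterateFrobenius_def p k (evalP f x)]
  refine h1.unique (h2.congr_fun fun d => ?_)
  rw [Function.comp_apply, map_mul, map_pow, PowerSeries.coeff_map, iterateFrobenius_def p k x]

variable (hh : 1 ≤ h) (hhn : h ≤ n)
include hh hhn

theorem mulP_eq_evalP_gStrat (u : Fin (n - 1) → O)
    (hu : ∀ i : Fin (n - 1), (i : ℕ) + 1 < h → u i = 0) {x : O} (hx : ‖x‖ < 1) :
    mulP p n u x = evalP (gStrat p n h u) (x ^ p ^ h) := by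
  rw [mulP, mulSeries_eq_expand_gStrat p n hh hhn u hu, PowerSeries.expand_apply,
    evalP_subst hx _ (by simp [(Fact.out : p.Prime).ne_zero]), evalP_pow hx, evalP_X hx]

/-- `[p ^ l] = G_l (X ^ (q ^ l))`. -/
theorem iterate_mulP_eq (u : Fin (n - 1) → O)
    (hu : ∀ i : Fin (n - 1), (i : ℕ) + 1 < h → u i = 0) :
    ∀ (l : ℕ) {x : O}, ‖x‖ < 1 →
      (mulP p n u)^[l] x = evalP (gIter p n h u l) (x ^ p ^ (h * l))
  | 0, x, hx => by
    simp only [Function.iterate_zero, id, gIter, Nat.mul_zero, pow_zero, pow_one]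
    rw [evalP_X hx]
  | l + 1, x, hx => by
    have hp0 := (Fact.out : p.Prime).ne_zero
    have h1 : ‖x ^ p ^ h‖ < 1 := norm_pow_lt_one hx (pow_ne_zero _ hp0)
    have h2 : ‖x ^ p ^ (h * (l + 1))‖ < 1 := norm_pow_lt_one hx (pow_ne_zero _ hp0)
    rw [Function.iterate_succ_apply, iterate_mulP_eq u hu l (norm_mulP_lt p n u hx),
      mulP_eq_evalP_gStrat p n hh hhn u hu hx, evalP_pow_p_pow p _ h1, gIter,
      evalP_subst h2 _ (constantCoeff_frobS p h l (constantCoeff_gStrat p n h u)), frobS,
      ← pow_mul x, ← pow_add, show h + h * l = h * (l + 1) by ring]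

end Eval

section Honda

variable {h} {K : Type*} [NontriviallyNormedField K] [IsUltrametricDist K] [CompleteSpace K]
  [CharP K p] (hh : 1 ≤ h) (hhn : h ≤ n) (u : Fin (n - 1) → Ball K)
  (hu0 : ∀ i : Fin (n - 1), (i : ℕ) + 1 < h → u i = 0) {ι : PowerSeries (Ball K)}
  (hι : IsHomSeries (fg p n u) (fg p h (0 : Fin (h - 1) → Ball K)) ι)
include hh hhn hu0 hι

/-- The Honda map turns `[p]` into the `q`-th power. -/
theorem honda_mulP {x : Ball K} (hx : ‖x‖ < 1) :
    evalP ι (mulP p n u x) = evalP ι x ^ p ^ h := by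
  have h1 := congrArg Pt.val ((homPt hι).map_nsmul p (Pt.mk (fg p n u) x hx))
  rw [val_nsmul_p] at h1
  change evalP ι (p • Pt.mk (fg p n u) x hx).val = _ at h1
  rw [val_nsmul_p] at h1
  exact h1.trans (mulP_zero_param p h hh (norm_evalP_lt_one hx ι hι.1))

/-- `ι ∘ g = ι ^ (q)`. -/
theorem honda_gStrat : PowerSeries.subst (gStrat p n h u) ι = frobS p h 1 ι := by
  have hq := pow_ne_zero h (Fact.out : p.Prime).ne_zero
  have h1 := hι.subst_mulSeries p
  rw [mulSeries_fg_zero p h hh, mulSeries_eq_expand_gStrat p n hh hhn u hu0,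
    PowerSeries.expand_apply, ← PowerSeries.subst_comp_subst_apply
      (PowerSeries.HasSubst.of_constantCoeff_zero' (constantCoeff_gStrat p n h u))
      (PowerSeries.HasSubst.of_constantCoeff_zero' (by simp [(Fact.out : p.Prime).ne_zero])),
    ← PowerSeries.expand_apply _ hq,
    PowerSeries.subst_pow (PowerSeries.HasSubst.of_constantCoeff_zero' hι.1),
    PowerSeries.subst_X (PowerSeries.HasSubst.of_constantCoeff_zero' hι.1)] at h1
  have h2 : PowerSeries.expand (p ^ h) hq (frobS p h 1 ι) = ι ^ p ^ h := by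
    rw [frobS, mul_one, ← PowerSeries.map_expand]
    exact MvPowerSeries.map_iterateFrobenius_expand p (Fact.out : p.Prime).ne_zero ι h
  refine PowerSeries.ext fun m => ?_
  have h3 := congrArg (PowerSeries.coeff (p ^ h * m)) (h1.trans h2.symm)
  rwa [PowerSeries.coeff_expand_mul, PowerSeries.coeff_expand_mul] at h3

theorem honda_gStrat_frobS (l : ℕ) :
    PowerSeries.subst (frobS p h l (gStrat p n h u)) (frobS p h l ι) = frobS p h (l + 1) ι := by
  have h1 := congrArg (PowerSeries.map (iterateFrobenius (Ball K) p (h * l)))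
    (honda_gStrat p n hh hhn u hu0 hι)
  rw [map_subst_one (constantCoeff_gStrat p n h u)] at h1
  refine h1.trans (PowerSeries.ext fun d => ?_)
  simp only [PowerSeries.coeff_map, coeff_frobS, iterateFrobenius_def]
  rw [← pow_mul, ← pow_add, show h * 1 + h * l = h * (l + 1) by ring]

end Honda

section Section

variable {K : Type*} [NontriviallyNormedField K] [IsUltrametricDist K] [CharP K p]

/-- `f (a Y) / a ^ 2` for `a` the linear coefficient of `f`. -/
def normalized (f : PowerSeries (Ball K)) : PowerSeries (Ball K) :=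
  PowerSeries.mk fun k =>
    if k = 0 then 0 else if k = 1 then 1
    else PowerSeries.coeff k f * PowerSeries.coeff 1 f ^ (k - 2)

theorem coeff_one_normalized (f : PowerSeries (Ball K)) :
    IsUnit (PowerSeries.coeff 1 (normalized f)) := by
  simp [normalized]

theorem constantCoeff_normalized (f : PowerSeries (Ball K)) :
    PowerSeries.constantCoeff (normalized f) = 0 := by
  rw [← PowerSeries.coeff_zero_eq_constantCoeff, normalized, PowerSeries.coeff_mk, if_pos rfl]

/-- The inverse of `normalized f`. -/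
def normInv (f : PowerSeries (Ball K)) : PowerSeries (Ball K) :=
  (normalized f).substInvOfIsUnit (coeff_one_normalized f)

/-- A section: `a σ(X)` with `f (a σ(X)) = a ^ 2 X`. -/
def sectS (f : PowerSeries (Ball K)) : PowerSeries (Ball K) :=
  PowerSeries.C (PowerSeries.coeff 1 f) * normInv f

theorem constantCoeff_normInv (f : PowerSeries (Ball K)) :
    PowerSeries.constantCoeff (normInv f) = 0 :=
  PowerSeries.constantCoeff_substInvOfIsUnit _ _

theorem constantCoeff_sectS (f : PowerSeries (Ball K)) :
    PowerSeries.constantCoeff (sectS f) = 0 := by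
  rw [sectS, map_mul, constantCoeff_normInv, mul_zero]

theorem coeff_one_sectS (f : PowerSeries (Ball K)) :
    PowerSeries.coeff 1 (sectS f) = PowerSeries.coeff 1 f := by
  have h1 : ((coeff_one_normalized f).unit⁻¹ : (Ball K)ˣ) = 1 := by
    rw [inv_eq_one]
    exact Units.ext (by simp [normalized])
  rw [sectS, PowerSeries.coeff_C_mul, normInv, PowerSeries.coeff_one_substInvOfIsUnit, h1]
  simp

theorem subst_sectS {f : PowerSeries (Ball K)} (hf : PowerSeries.constantCoeff f = 0) :
    PowerSeries.subst (sectS f) f =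
      PowerSeries.C (PowerSeries.coeff 1 f ^ 2) * PowerSeries.X := by
  set a := PowerSeries.coeff 1 f
  have e : PowerSeries.rescale a f = PowerSeries.C (a ^ 2) * normalized f := by
    refine PowerSeries.ext fun k => ?_
    rw [PowerSeries.coeff_rescale, PowerSeries.coeff_C_mul, normalized, PowerSeries.coeff_mk]
    rcases k with _ | _ | k
    · simp [hf]
    · simp [a]
      ring
    · rw [if_neg (by omega), if_neg (by omega), show k + 1 + 1 - 2 = k by omega]
      simp only [a]
      ring
  have hσ : PowerSeries.HasSubst (normInv f) :=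
    PowerSeries.HasSubst.of_constantCoeff_zero' (constantCoeff_normInv f)
  have hr : PowerSeries.subst (normInv f) (normalized f) = PowerSeries.X :=
    PowerSeries.subst_substInvOfIsUnit_right _ (constantCoeff_normalized f) _
  have e2 := congrArg (PowerSeries.subst (normInv f)) e
  rw [PowerSeries.rescale_eq_subst, PowerSeries.subst_comp_subst_apply
    (PowerSeries.HasSubst.smul' _ PowerSeries.HasSubst.X') hσ, PowerSeries.subst_mul hσ,
    PowerSeries.subst_smul hσ, PowerSeries.subst_X hσ,
    hr] at e2
  rw [sectS, ← PowerSeries.smul_eq_C_mul, e2]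
  congr 1
  exact MvPowerSeries.subst_C _

theorem frobS_subst_sectS (h l : ℕ) {f : PowerSeries (Ball K)}
    (hf : PowerSeries.constantCoeff f = 0) :
    PowerSeries.subst (frobS p h l (sectS f)) (frobS p h l f) =
      PowerSeries.C (PowerSeries.coeff 1 f ^ (2 * p ^ (h * l))) * PowerSeries.X := by
  rw [frobS, frobS, ← map_subst_one (constantCoeff_sectS f), subst_sectS hf,
    map_mul, PowerSeries.map_C, PowerSeries.map_X, iterateFrobenius_def, ← pow_mul]

variable {O : Type*} [NormedCommRing O] [IsUltrametricDist O] [UnitNormed O] [CompleteSpace O]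
  (φ : Ball K →+* O) (hφ : ∀ c x, ‖φ c * x‖ = ‖c‖ * ‖x‖)
include hφ

/-- The section has small values. -/
theorem norm_evalP_sectS_le (h l : ℕ) (f : PowerSeries (Ball K)) {y : O} (hy : ‖y‖ < 1) :
    ‖evalP ((frobS p h l (sectS f)).map φ) y‖ ≤
      ‖PowerSeries.coeff 1 f ^ p ^ (h * l)‖ * ‖y‖ := by
  rw [sectS, frobS, map_mul, map_mul, PowerSeries.map_C, PowerSeries.map_C, evalP_mul hy,
    evalP_C hy, hφ, iterateFrobenius_def]
  refine mul_le_mul_of_nonneg_left (norm_evalP_le hy _ ?_) (norm_nonneg _)
  rw [constantCoeff_map', constantCoeff_map', constantCoeff_normInv, map_zero, map_zero]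

/-- A series is injective on the ball of radius the size of its linear coefficient. -/
theorem evalP_injective {f : PowerSeries (Ball K)} {y y' : O} (hy : ‖y‖ < 1) (hy' : ‖y'‖ < 1)
    (hc : ‖y‖ < ‖PowerSeries.coeff 1 f‖) (hc' : ‖y'‖ < ‖PowerSeries.coeff 1 f‖)
    (he : evalP (f.map φ) y = evalP (f.map φ) y') : y = y' := by
  classical
  set c := PowerSeries.coeff 1 f
  set r := max ‖y‖ ‖y'‖
  have hr0 : 0 ≤ r := le_max_of_le_left (norm_nonneg _)
  have hs := (hasSum_evalP hy (f.map φ)).sub (hasSum_evalP hy' (f.map φ))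
  rw [he, sub_self] at hs
  have hs' := hs.update 1 0
  have hpow : ∀ k, ‖y ^ (k + 2) - y' ^ (k + 2)‖ ≤ r * ‖y - y'‖ := fun k => by
    rw [← geom_sum₂_mul]
    refine (norm_mul_le _ _).trans (mul_le_mul_of_nonneg_right ?_ (norm_nonneg _))
    refine IsUltrametricDist.norm_sum_le_of_forall_le_of_nonneg hr0 fun i hi => ?_
    rcases Nat.eq_zero_or_pos i with rfl | hi0
    · rw [pow_zero, one_mul]
      exact (norm_pow_le' _ _).trans ((pow_le_of_le_one (norm_nonneg _) hy'.le (by omega)).trans
        (le_max_right _ _))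
    · exact (norm_mul_le_left _ _).trans ((norm_pow_le' _ _).trans
        ((pow_le_of_le_one (norm_nonneg _) hy.le (by omega)).trans (le_max_left _ _)))
  have hterm : ∀ k, ‖Function.update (fun d => PowerSeries.coeff d (f.map φ) * y ^ d -
      PowerSeries.coeff d (f.map φ) * y' ^ d) 1 0 k‖ ≤ r * ‖y - y'‖ := fun k => by
    rcases k with _ | _ | k
    · simp [mul_nonneg hr0 (norm_nonneg (y - y'))]
    · simp [mul_nonneg hr0 (norm_nonneg (y - y'))]
    · rw [Function.update_of_ne (by omega), ← mul_sub]
      exact (norm_mul_le_right _ _).trans (hpow k)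
  have hle := le_of_tendsto hs'.norm (Eventually.of_forall fun s =>
    IsUltrametricDist.norm_sum_le_of_forall_le_of_nonneg
      (mul_nonneg hr0 (norm_nonneg (y - y'))) fun d _ => hterm d)
  rw [pow_one, pow_one, ← mul_sub, zero_sub, add_zero, norm_neg, PowerSeries.coeff_map, hφ] at hle
  by_contra hne
  exact absurd hle (not_le.2 (mul_lt_mul_of_pos_right (max_lt hc hc')
    (norm_pos_iff.2 (sub_ne_zero.2 hne))))

end Section

end Vale.P217

end
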