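import Vale.Agent.P217.ExpansionGauss
import Vale.Agent.P217.ExpansionHonda
import Vale.Agent.P217.Cover
import Vale.Agent.P217.CoverLift
import Vale.Agent.P217.CoverDet

/-!
The torsion lifts as series in the displacement, and the equations satisfied by moved points.
-/

noncomputable section

set_option linter.unusedSectionVars false

namespace Vale.P217

open SeriesNorm MvPowerSeries

section Maps

variable {O : Type*} [NormedCommRing O] [IsUltrametricDist O] [UnitNormed O] [CompleteSpace O]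
  {O' : Type*} [NormedCommRing O'] [IsUltrametricDist O'] [UnitNormed O'] [CompleteSpace O']

theorem fadd_zero_right' (F : FormalGroup O) {b : O} (hb : ‖b‖ < 1) : fadd F b 0 = b :=
  congrArg Pt.val (Pt.add_zero' (Pt.mk F b hb))

theorem fadd_zero_left' (F : FormalGroup O) {b : O} (hb : ‖b‖ < 1) : fadd F 0 b = b :=
  congrArg Pt.val (Pt.zero_add' (Pt.mk F b hb))

theorem map_fadd (φ : O →+* O') (hφ : ∀ x, ‖φ x‖ ≤ ‖x‖) (F : FormalGroup O) {a b : O}
    (ha : ‖a‖ < 1) (hb : ‖b‖ < 1) : φ (fadd F a b) = fadd (F.map φ) (φ a) (φ b) := by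
  have hc : Continuous φ := AddMonoidHomClass.continuous_of_bound φ 1 (by simpa using hφ)
  rw [fadd, map_evalMv φ hc (fun i => by fin_cases i <;> assumption)
    (fun i => by fin_cases i <;> exact (hφ _).trans_lt (by assumption))]
  rw [fadd]
  congr 1
  funext i
  fin_cases i <;> rfl

theorem map_evalP (φ : O →+* O') (hφ : ∀ x, ‖φ x‖ ≤ ‖x‖) (f : PowerSeries O) {x : O}
    (hx : ‖x‖ < 1) : φ (evalP f x) = evalP (f.map φ) (φ x) :=
  map_evalMv φ (AddMonoidHomClass.continuous_of_bound φ 1 (by simpa using hφ)) (fun _ => hx)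
    (fun _ => (hφ x).trans_lt hx) f

theorem evalP_at_zero (f : PowerSeries O) : evalP f (0 : O) = PowerSeries.constantCoeff f := by
  refine (hasSum_evalP (by simp) f).unique ?_
  convert hasSum_single 0 (fun d (hd : d ≠ 0) => ?_) using 1
  · simp
  · simp [zero_pow hd]

end Maps

/-- The linear coefficient of a polynomial expression, for a map given as a ring homomorphism. -/
theorem coeff_single_ringHom {σ τ : Type*} [Fintype τ] {K : Type*} [NontriviallyNormedField K]
    [IsUltrametricDist K] (i : σ) (P : MvPolynomial τ ℤ)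
    (φ : MvPolynomial τ ℤ →+* MvPowerSeries σ (Ball K)) :
    coeff (Finsupp.single i 1) (φ P) =
      ∑ s, MvPolynomial.aeval (fun t => constantCoeff (φ (MvPolynomial.X t)))
          (MvPolynomial.pderiv s P) *
        coeff (Finsupp.single i 1) (φ (MvPolynomial.X s)) := by
  have h : φ = (MvPolynomial.aeval fun t => φ (MvPolynomial.X t)).toRingHom :=
    MvPolynomial.ringHom_ext (fun c => by simp) fun t => by simp
  refine Eq.trans ?_ (coeff_single_aeval i P fun t => φ (MvPolynomial.X t))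
  conv_lhs => rw [h]
  rfl

theorem exists_ringHom_fg (p : ℕ) [Fact p.Prime] (n : ℕ) {R : Type*} [CommRing R]
    (u : Fin (n - 1) → R) :
    ∃ φ : MvPolynomial (Fin (n - 1)) ℤ →+* R, (∀ i, φ (MvPolynomial.X i) = u i) ∧
      ∀ m d, PowerSeries.coeff d (mulSeries (fg p n u) m) =
        φ (PowerSeries.coeff d (mulSeries (univFG p n) m)) :=
  ⟨(MvPolynomial.aeval u).toRingHom, fun i => by simp, fun m d => coeff_mulSeries_fg p n u m d⟩

variable (p : ℕ) [Fact p.Prime] (n : ℕ) {h : ℕ} {K : Type} [NontriviallyNormedField K]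
  [IsUltrametricDist K] [CompleteSpace K] [CharP K p] [IsAlgClosed K]

/-- The two families of formal variables: displacement and orbit coordinates. -/
abbrev OrbSeries (n h : ℕ) (K : Type) [NontriviallyNormedField K] [IsUltrametricDist K] :=
  MvPowerSeries (Fin (n - h) ⊕ Fin (n - h)) (Ball K)

/-- The parameters `u + π Δ` along the stratum. -/
def upar (h : ℕ) (u : Fin (n - 1) → Ball K) (π : Ball K) (i : Fin (n - 1)) : OrbSeries n h K :=
  C (u i) + if hi : h ≤ (i : ℕ) + 1 then C π * X (Sum.inl ⟨(i : ℕ) + 1 - h, by omega⟩) else 0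

variable (u : Fin (n - 1) → Ball K) (π : Ball K)

theorem norm_upar_le {ε : ℝ} (hu : SmallParam n u ε) (i : Fin (n - 1)) :
    ‖upar n h u π i‖ ≤ max ε ‖π‖ := by
  refine (IsUltrametricDist.norm_add_le_max _ _).trans (max_le_max ?_ ?_)
  · rw [SeriesNorm.norm_C]; exact hu.2.2 i
  · split_ifs
    · exact norm_C_mul_X_le π _
    · simp

theorem smallParam_upar {ε : ℝ} (hu : SmallParam n u ε) (hπ : ‖π‖ < 1) :
    SmallParam n (upar n h u π) (max ε ‖π‖) :=
  ⟨le_max_of_le_right (norm_nonneg _), max_lt hu.2.1 hπ, norm_upar_le n u π hu⟩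

theorem upar_stratum (hu0 : ∀ i : Fin (n - 1), (i : ℕ) + 1 < h → u i = 0) (i : Fin (n - 1))
    (hi : (i : ℕ) + 1 < h) : upar n h u π i = 0 := by
  rw [upar, dif_neg (by omega), hu0 i hi, map_zero, add_zero]

theorem constantCoeff_upar (i : Fin (n - 1)) : constantCoeff (upar n h u π i) = u i := by
  rw [upar, map_add, constantCoeff_C]
  split_ifs <;> simp

theorem upar_sub_mem (i : Fin (n - 1)) : upar n h u π i - C (u i) ∈ lowLeft 1 := by
  rw [upar, add_sub_cancel_left]
  split_ifs
  · exact Ideal.mul_mem_left _ _ (X_inl_mem_lowLeft _)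
  · exact Ideal.zero_mem _

theorem rescale_upar {a : Fin (n - h) ⊕ Fin (n - h) → Ball K} (ha : ∀ k, a (Sum.inl k) = 1)
    (i : Fin (n - 1)) : rescale a (upar n h u π i) = upar n h u π i := by
  rw [upar, map_add, SeriesNorm.rescale_C]
  split_ifs
  · rw [map_mul, SeriesNorm.rescale_C, SeriesNorm.rescale_X, ha, map_one, one_mul]
  · rw [map_zero]

theorem rescale_upar_zero {a : Fin (n - h) ⊕ Fin (n - h) → Ball K} (ha : ∀ k, a (Sum.inl k) = 0)
    (i : Fin (n - 1)) : rescale a (upar n h u π i) = C (u i) := by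
  rw [upar, map_add, SeriesNorm.rescale_C]
  split_ifs
  · rw [map_mul, SeriesNorm.rescale_C, SeriesNorm.rescale_X, ha, map_zero, zero_mul, mul_zero,
      add_zero]
  · rw [map_zero, add_zero]

theorem coeff_upar (hh : 1 ≤ h) (k : Fin (n - h)) (i : Fin (n - 1)) :
    coeff (Finsupp.single (Sum.inl k) 1) (upar n h u π i) =
      if i = ⟨h - 1 + k, by omega⟩ then π else 0 := by
  classical
  rw [upar, map_add, coeff_C, if_neg (by simp), zero_add]
  split_ifs with hi hik hik
  · subst hik
    rw [coeff_C_mul, coeff_X, if_pos, mul_one]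
    congr 2
    exact Fin.ext (by simp; omega)
  · rw [coeff_C_mul, coeff_X, if_neg, mul_zero]
    intro he
    have h1 := congrArg Fin.val (Sum.inl.inj ((Finsupp.single_left_inj one_ne_zero).1 he))
    exact hik (Fin.ext (by simp at h1 ⊢; omega))
  · subst hik
    exact absurd (show h ≤ h - 1 + (k : ℕ) + 1 by omega) hi
  · rw [map_zero]

/-- The linear term of a value at the parameters `u + π Δ`. -/
theorem coeff_evalMv_upar (hh : 1 ≤ h) {ε : ℝ} (hu : SmallParam n u ε) (hπ : ‖π‖ < 1)
    (f : MvPowerSeries (Fin (n - 1)) (Ball K)) (k : Fin (n - h)) :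
    coeff (Finsupp.single (Sum.inl k) 1) (evalMv (f.map C) (upar n h u π)) =
      π * evalMv (MvPowerSeries.pderiv (Ball K) ⟨h - 1 + k, by omega⟩ f) u := by
  classical
  rw [coeff_single_evalMv _ f fun i => (norm_upar_le n u π hu i).trans_lt (max_lt hu.2.1 hπ)]
  rw [Finset.sum_eq_single (⟨h - 1 + k, by omega⟩ : Fin (n - 1))]
  · rw [coeff_upar n u π hh k, if_pos rfl, mul_comm]
    simp only [constantCoeff_upar]
  · intro i _ hi
    rw [coeff_upar n u π hh k, if_neg hi, mul_zero]
  · simp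

/-- The lift `φ (z ^ Q)` over the parameters `u + π Δ`. -/
def pSer (h : ℕ) (z : Ball K) : OrbSeries n h K :=
  phiSeq p n (upar n h u π) fun l => C (rootSeq p n (z ^ p ^ n) l)

variable {z : Ball K}

theorem norm_zQ_lt (hz : ‖z‖ < 1) : ‖z ^ p ^ n‖ < 1 :=
  norm_pow_ball_lt hz (pow_ne_zero n (Fact.out : p.Prime).ne_zero)

theorem norm_C_rootSeq_lt (hz : ‖z‖ < 1) (l : ℕ) :
    ‖(C (rootSeq p n z l) : OrbSeries n h K)‖ < 1 := by
  rw [SeriesNorm.norm_C]
  exact norm_rootSeq_lt p n hz l

theorem isRootSeq_C (hz : ‖z‖ < 1) :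
    IsRootSeq p n fun l => (C (rootSeq p n z l) : OrbSeries n h K) :=
  ⟨norm_C_rootSeq_lt p n hz 0, fun l => by rw [← map_pow, rootSeq_pow_succ]⟩

variable (hn : 1 ≤ n)
include hn

theorem norm_pSer_lt {ε : ℝ} (hu : SmallParam n u ε) (hπ : ‖π‖ < 1) (hz : ‖z‖ < 1) :
    ‖pSer p n u π h z‖ < 1 :=
  norm_phiSeq_lt_one p n hn (smallParam_upar n u π hu hπ)
    (norm_C_rootSeq_lt p n (norm_zQ_lt p n hz)) (isRootSeq_C p n (norm_zQ_lt p n hz))

/-- Specialisations of the lift. -/
theorem map_pSer {ε : ℝ} (hu : SmallParam n u ε) (hπ : ‖π‖ < 1) (hz : ‖z‖ < 1)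
    {O' : Type} [NormedCommRing O'] [IsUltrametricDist O'] [UnitNormed O'] [CompleteSpace O']
    [CharP O' p] (φ : OrbSeries n h K →+* O') (hφ : ∀ x, ‖φ x‖ ≤ ‖x‖) :
    φ (pSer p n u π h z) =
      phiSeq p n (φ ∘ upar n h u π) fun l => φ (C (rootSeq p n (z ^ p ^ n) l)) :=
  map_phiSeq p n φ hφ hn (smallParam_upar n u π hu hπ)
    (norm_C_rootSeq_lt p n (norm_zQ_lt p n hz)) (isRootSeq_C p n (norm_zQ_lt p n hz))

theorem evalAt_pSer {ε : ℝ} (hu : SmallParam n u ε) (hπ : ‖π‖ < 1) (hz : ‖z‖ < 1)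
    (ζ : Fin (n - h) ⊕ Fin (n - h) → Ball K) (hζ : ∀ x, ‖ζ x‖ < 1) :
    evalAt ζ hζ (pSer p n u π h z) =
      phiK p n (evalAt ζ hζ ∘ upar n h u π) (z ^ p ^ n) := by
  rw [map_pSer p n u π hn hu hπ hz _ (norm_evalAt_le ζ hζ), phiK]
  congr 1
  funext l
  simp [evalAt_apply, evalMv_C hζ]

theorem constantCoeff_pSer {ε : ℝ} (hu : SmallParam n u ε) (hπ : ‖π‖ < 1) (hz : ‖z‖ < 1) :
    constantCoeff (pSer p n u π h z) = phiK p n u (z ^ p ^ n) := by
  rw [map_pSer p n u π hn hu hπ hz _ norm_constantCoeff_le, phiK]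
  congr 1
  · funext i; exact constantCoeff_upar n u π i

theorem rescale_pSer {ε : ℝ} (hu : SmallParam n u ε) (hπ : ‖π‖ < 1) (hz : ‖z‖ < 1)
    {a : Fin (n - h) ⊕ Fin (n - h) → Ball K} (ha : ∀ k, a (Sum.inl k) = 1) :
    rescale a (pSer p n u π h z) = pSer p n u π h z := by
  rw [map_pSer p n u π hn hu hπ hz _ (norm_rescale_le a), pSer]
  congr 1
  · funext i; exact rescale_upar n u π ha i
  · funext l; rw [SeriesNorm.rescale_C]

theorem rescale_pSer_zero {ε : ℝ} (hu : SmallParam n u ε) (hπ : ‖π‖ < 1) (hz : ‖z‖ < 1)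
    {a : Fin (n - h) ⊕ Fin (n - h) → Ball K} (ha : ∀ k, a (Sum.inl k) = 0) :
    rescale a (pSer p n u π h z) = C (phiK p n u (z ^ p ^ n)) := by
  rw [map_pSer p n u π hn hu hπ hz _ (norm_rescale_le a), phiK,
    map_phiSeq p n (C : Ball K →+* OrbSeries n h K) (fun x => (SeriesNorm.norm_C x).le) hn hu
      (norm_rootSeq_lt p n (norm_zQ_lt p n hz)) (isRootSeq_rootSeq p n (norm_zQ_lt p n hz))]
  congr 1
  · funext i; exact rescale_upar_zero n u π ha i
  · funext l; rw [SeriesNorm.rescale_C]; rfl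

theorem coeff_single_pow {σ : Type*} (i : σ) (f : MvPowerSeries σ (Ball K)) : ∀ d : ℕ,
    coeff (Finsupp.single i 1) (f ^ d) =
      (d : Ball K) * constantCoeff f ^ (d - 1) * coeff (Finsupp.single i 1) f
  | 0 => by
    classical
    simp [coeff_one]
  | d + 1 => by
    rw [pow_succ, coeff_single_mul, coeff_single_pow i f d, map_pow]
    rcases d with _ | d
    · simp
    · simp only [Nat.cast_add, Nat.cast_one, Nat.add_sub_cancel]
      ring

/-- The linear terms of the lift are the entries of the Jacobian. -/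
theorem coeff_pSer (hh : 1 ≤ h) (hhn : h ≤ n)
    (hu0 : ∀ i : Fin (n - 1), (i : ℕ) + 1 < h → u i = 0) {ε : ℝ} (hu : SmallParam n u ε)
    (hπ : ‖π‖ < 1) (hz : ‖z‖ < 1) (k : Fin (n - h)) :
    coeff (Finsupp.single (Sum.inl k) 1) (pSer p n u π h z) =
      π * evalP (dMul p n u ⟨h - 1 + k, by omega⟩) (phiK p n u z) := by
  classical
  have hU := smallParam_upar (h := h) n u π hu hπ
  set r : OrbSeries n h K := phiSeq p n (upar n h u π) fun l => C (rootSeq p n z l) with hr
  have hroot : rootSeq p n (z ^ p ^ n) = fun l => rootSeq p n z l ^ p ^ n := by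
    have h1 := rootSeq_unique p n (IsRootSeq.shift p n hn (norm_rootSeq_lt p n hz)
      (isRootSeq_rootSeq p n hz))
    simpa only [rootSeq_zero] using h1
  have hP : pSer p n u π h z = evalP (mulSeries (fg p n (upar n h u π)) p) r := by
    rw [pSer, hroot]
    simp only [map_pow]
    exact phiSeq_shift p n hn hU (norm_C_rootSeq_lt p n hz) (isRootSeq_C p n hz)
  have hr1 : ‖r‖ < 1 :=
    norm_phiSeq_lt_one p n hn hU (norm_C_rootSeq_lt p n hz) (isRootSeq_C p n hz)
  have hr0 : constantCoeff r = phiK p n u z := by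
    rw [hr, map_phiSeq p n _ norm_constantCoeff_le hn hU (norm_C_rootSeq_lt p n hz)
      (isRootSeq_C p n hz), phiK]
    congr 1
    · funext i; exact constantCoeff_upar n u π i
  set i₀ : Fin (n - 1) := ⟨h - 1 + k, by omega⟩
  have h1 := hasSum_coeff (hasSum_evalP hr1 (mulSeries (fg p n (upar n h u π)) p))
    (Finsupp.single (Sum.inl k) 1)
  rw [← hP] at h1
  have h2 := (hasSum_evalP (norm_phiK_lt_one p n hn hu hz) (dMul p n u i₀)).mul_left π
  refine h1.unique (h2.congr_fun fun d => ?_)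
  have e1 : coeff (Finsupp.single (Sum.inl k) 1)
      (PowerSeries.coeff d (mulSeries (fg p n (upar n h u π)) p)) =
      π * PowerSeries.coeff d (dMul p n u i₀) := by
    obtain ⟨φ, hφX, hφ⟩ := exists_ringHom_fg p n (upar n h u π)
    rw [hφ, coeff_single_ringHom]
    simp only [hφX]
    rw [Finset.sum_eq_single i₀]
    · rw [coeff_upar n u π hh k, if_pos rfl, dMul, PowerSeries.coeff_mk, mul_comm]
      simp only [constantCoeff_upar]
    · intro i _ hi
      rw [coeff_upar n u π hh k, if_neg hi, mul_zero]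
    · simp
  have e2 : constantCoeff (PowerSeries.coeff d (mulSeries (fg p n (upar n h u π)) p)) *
      (d : Ball K) = 0 := by
    by_cases hd : p ^ h ∣ d
    · rw [(CharP.cast_eq_zero_iff (Ball K) p d).2 ((dvd_pow_self p (by omega)).trans hd), mul_zero]
    · rw [coeff_mulSeries_not_dvd p n _ hh hhn (upar_stratum n u π hu0) hd, map_zero, zero_mul]
  rw [coeff_single_mul, map_pow, hr0, e1, coeff_single_pow n hn, hr0,
    show ∀ a b c e : Ball K, a * (b * c * e) = a * b * (c * e) from fun a b c e => by ring, e2,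
    zero_mul, add_zero, mul_assoc]

/-! ### The equation of a moved point -/

theorem phiK_pow_pow {v : Fin (n - 1) → Ball K} {ε : ℝ} (hv : SmallParam n v ε) {x : Ball K}
    (hx : ‖x‖ < 1) : ∀ m : ℕ,
    phiK p n v (x ^ p ^ (n * m)) = (mulP p n v)^[m] (phiK p n v x)
  | 0 => by simp
  | m + 1 => by
    rw [Nat.mul_succ, pow_add, pow_mul, phiK_pow p n hn hv
      (norm_pow_ball_lt hx (pow_ne_zero _ (Fact.out : p.Prime).ne_zero)), phiK_pow_pow hv hx m,
      Function.iterate_succ_apply']

theorem evalP_nearOneBall (a : PowerSeries (Ball K)) (ha : PowerSeries.constantCoeff a = 0)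
    (N : ℕ) {x : Ball K} (hx : ‖x‖ < 1) :
    evalP (MvPowerSeries.subst ![PowerSeries.X,
        PowerSeries.subst (PowerSeries.X ^ p ^ (n * N)) a]
        (fg p n (0 : Fin (n - 1) → Ball K)).toPowerSeries : PowerSeries (Ball K)) x =
      fadd (fg p n (0 : Fin (n - 1) → Ball K)) x (evalP a (x ^ p ^ (n * N))) := by
  have hp : PowerSeries.constantCoeff
      ((PowerSeries.X : PowerSeries (Ball K)) ^ p ^ (n * N)) = 0 := by
    simp [(Fact.out : p.Prime).ne_zero]
  rw [evalP, evalMv_subst (fun _ => hx)]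
  · rw [fadd]
    congr 1
    funext i
    fin_cases i
    · exact evalP_X hx
    · show evalP (PowerSeries.subst (PowerSeries.X ^ p ^ (n * N)) a) x = _
      rw [evalP_subst hx _ hp, evalP_pow hx, evalP_X hx]
      rfl
  · intro i
    fin_cases i
    · exact PowerSeries.constantCoeff_X
    · exact MvPowerSeries.constantCoeff_subst_eq_zero
        (PowerSeries.HasSubst.of_constantCoeff_zero' hp).const (fun _ => hp) ha

/-- The torsion lift and its displacement cancel at the moved point. -/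
theorem moved_relation {v : Fin (n - 1) → Ball K} {ε : ℝ} (hu : SmallParam n u ε)
    (hv : SmallParam n v ε) {a : PowerSeries (Ball K)} (ha0 : PowerSeries.constantCoeff a = 0)
    (ha : FixedCoeff p n a) (N : ℕ) {f : PowerSeries (Ball K)}
    (hf : IsHomSeries (fg p n u) (fg p n v) f)
    (hfa : ∀ d, ‖PowerSeries.coeff d f - PowerSeries.coeff d
      (MvPowerSeries.subst ![PowerSeries.X, PowerSeries.subst (PowerSeries.X ^ p ^ (n * N)) a]
        (fg p n (0 : Fin (n - 1) → Ball K)).toPowerSeries : PowerSeries (Ball K))‖ ≤ ε)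
    (hz : ‖z‖ < 1) (hz0 : phiK p n u (z ^ p ^ n) = 0) :
    fadd (fg p n v) (phiK p n v (z ^ p ^ n))
      ((mulP p n v)^[N + 1] (phiK p n v (evalP a z))) = 0 := by
  set g : PowerSeries (Ball K) :=
    MvPowerSeries.subst ![PowerSeries.X, PowerSeries.subst (PowerSeries.X ^ p ^ (n * N)) a]
      (fg p n (0 : Fin (n - 1) → Ball K)).toPowerSeries with hg
  have hp0 := (Fact.out : p.Prime).ne_zero
  have hzQ := norm_zQ_lt p n hz
  have hg0 : PowerSeries.constantCoeff g = 0 := by
    have h1 := evalP_nearOneBall p n hn a ha0 N (x := 0) (by simp)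
    rw [evalP_at_zero] at h1
    rw [hg, h1, zero_pow (pow_ne_zero _ hp0), evalP_at_zero, ha0]
    exact fadd_zero_right' _ (by simp)
  have hev : ∀ x : Ball K, ‖x‖ < 1 →
      evalP g x = fadd (fg p n (0 : Fin (n - 1) → Ball K)) x (evalP a (x ^ p ^ (n * N))) :=
    fun x hx => evalP_nearOneBall p n hn a ha0 N hx
  have haz : evalP a ((z ^ p ^ n) ^ p ^ (n * N)) = evalP a z ^ p ^ (n * (N + 1)) := by
    rw [← pow_mul, ← pow_add, show n + n * N = n * (N + 1) by ring]
    have : ∀ m, evalP a (z ^ p ^ (n * m)) = evalP a z ^ p ^ (n * m) := by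
      intro m
      induction m with
      | zero => simp
      | succ m ih =>
        rw [show p ^ (n * (m + 1)) = p ^ (n * m) * p ^ n by rw [Nat.mul_succ, pow_add],
          pow_mul z, pow_mul (evalP a z), ← FixedCoeff.evalP_pow p n ha
          (norm_pow_ball_lt hz (pow_ne_zero _ hp0)), ih]
    exact this (N + 1)
  have hazl : ‖evalP a z‖ < 1 := norm_evalP_lt_one hz a ha0
  -- `g` is fixed by the `Q`-power map
  have hgfix : FixedCoeff p n g := by
    intro d
    rw [← iterateFrobenius_def p n, ← PowerSeries.coeff_map]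
    congr 1
    have ha' : a.map (iterateFrobenius (Ball K) p n) = a :=
      PowerSeries.ext fun e => by rw [PowerSeries.coeff_map, iterateFrobenius_def, ha e]
    rw [hg]
    have hpX : PowerSeries.constantCoeff
        ((PowerSeries.X : PowerSeries (Ball K)) ^ p ^ (n * N)) = 0 := by simp [hp0]
    have hs : MvPowerSeries.HasSubst ![(PowerSeries.X : PowerSeries (Ball K)),
        PowerSeries.subst (PowerSeries.X ^ p ^ (n * N)) a] :=
      MvPowerSeries.hasSubst_of_constantCoeff_zero fun i => by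
        fin_cases i
        · exact PowerSeries.constantCoeff_X
        · exact MvPowerSeries.constantCoeff_subst_eq_zero
            (PowerSeries.HasSubst.of_constantCoeff_zero' (by simp [hp0])).const
            (fun _ => hpX) ha0
    refine (MvPowerSeries.map_subst hs _).trans ?_
    have h0 : (fg p n (0 : Fin (n - 1) → Ball K)).map (iterateFrobenius (Ball K) p n) =
        fg p n (0 : Fin (n - 1) → Ball K) := by
      rw [fg_map]
      congr 1
      funext i
      simp
    congr 1
    · funext i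
      fin_cases i
      · exact PowerSeries.map_X _
      · show PowerSeries.map _ (PowerSeries.subst (PowerSeries.X ^ p ^ (n * N)) a) = _
        rw [map_subst_one (by simp [hp0]), ha', map_pow, PowerSeries.map_X]
        rfl
    · exact congrArg FormalGroup.toPowerSeries h0
  have h1 := phiSeq_hom p n hn hu hv hf hg0 hgfix hfa (norm_rootSeq_lt p n hzQ)
    (isRootSeq_rootSeq p n hzQ)
  change phiSeq p n v _ = evalP f (phiK p n u (z ^ p ^ n)) at h1
  rw [hz0, evalP_at_zero, hf.1] at h1
  have hroot : IsRootSeq p n fun l => evalP g (rootSeq p n (z ^ p ^ n) l) :=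
    ⟨norm_evalP_lt_one (norm_rootSeq_lt p n hzQ 0) g hg0, fun l => by
      rw [FixedCoeff.evalP_pow p n hgfix (norm_rootSeq_lt p n hzQ _), rootSeq_pow_succ]⟩
  rw [← rootSeq_unique p n hroot, rootSeq_zero, hev _ hzQ, haz] at h1
  change phiK p n v _ = 0 at h1
  rw [phiK_fadd p n hn hv hzQ (norm_pow_ball_lt hazl (pow_ne_zero _ hp0)),
    phiK_pow_pow p n hn hv hazl] at h1
  exact h1

end Vale.P217

end
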