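import Vale.Agent.P217.GaussLin
import Vale.Agent.P217.Cover

/-!
Gauss-normed completions of Witt vectors of a valuation ring and the big logarithm: the
interface. The proofs are in `GaussBigLog` and `GaussLin`.
-/

noncomputable section

namespace Vale.P217

variable (p : ℕ) [Fact p.Prime] (K : Type*) [NontriviallyNormedField K] [IsUltrametricDist K]
  [CompleteSpace K] [CharP K p] [PerfectRing K p]

variable {K} {B : Type} [NormedCommRing B] [Algebra ℚ B] {c : ℝ}

theorem summable_bigLog (D : GaussData p K B c) {m : ℕ} (hm : 1 ≤ m) {z : K} (hz : ‖z‖ < 1) :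
    Summable fun k : ℤ => algebraMap ℚ B ((p : ℚ) ^ (-k)) *
      D.T (((frobeniusEquiv K p : RingAut K) ^ ((m : ℤ) * k)) z) :=
  have := D.ultra
  have := D.complete
  have : NormOneClass B := ⟨D.norm_one⟩
  Gs.summable_blTerm D hm hz

theorem bigLog_pow (D : GaussData p K B c) {m : ℕ} (hm : 1 ≤ m) {z : K} (hz : ‖z‖ < 1) :
    bigLog p D m (z ^ p ^ m) = algebraMap ℚ B (p : ℚ) * bigLog p D m z :=
  have := D.ultra
  have := D.complete
  have : NormOneClass B := ⟨D.norm_one⟩
  Gs.bigLog_pow' D hm hz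

theorem bigLog_teich_mul (D : GaussData p K B c) {m : ℕ} (hm : 1 ≤ m) {z ζ : K} (hz : ‖z‖ < 1)
    (hζ : ζ ^ p ^ m = ζ) : bigLog p D m (ζ * z) = D.T ζ * bigLog p D m z :=
  have := D.ultra
  have := D.complete
  have : NormOneClass B := ⟨D.norm_one⟩
  Gs.bigLog_teich_mul' D hm hz hζ

theorem bigLog_fadd (D : GaussData p K B c) {m : ℕ} (hm : 1 ≤ m) (a b : Ball K) (ha : ‖a‖ < 1)
    (hb : ‖b‖ < 1) :
    bigLog p D m ((fadd (fg p m (0 : Fin (m - 1) → Ball K)) a b : Ball K) : K) =
      bigLog p D m (a : K) + bigLog p D m (b : K) :=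
  have := D.ultra
  have := D.complete
  have : NormOneClass B := ⟨D.norm_one⟩
  Gs.bigLog_fadd' D hm ha hb

theorem bigLog_eq_zero (D : GaussData p K B c) {m : ℕ} (hm : 1 ≤ m) {z : K} (hz : ‖z‖ < 1)
    (h0 : bigLog p D m z = 0) : z = 0 :=
  have := D.ultra
  have := D.complete
  have : NormOneClass B := ⟨D.norm_one⟩
  Gs.bigLog_eq_zero' D hm hz h0

variable (n : ℕ)

/-- Linearisation: a homomorphism to the height `h` Honda law, composed with the universal cover,
is linear in big logarithms. -/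
theorem linearisation (D : GaussData p K B c) (hn : 1 ≤ n) (u : Fin (n - 1) → Ball K) {ε : ℝ}
    (hu : SmallParam n u ε) {h : ℕ} (hh : 1 ≤ h) (Ψ : PowerSeries (Ball K))
    (hΨ : IsHomSeries (fg p n u) (fg p h (0 : Fin (h - 1) → Ball K)) Ψ) :
    ∃ d : Fin n → B, ∀ z : Ball K, ‖z‖ < 1 →
      bigLog p D h ((evalP Ψ (phiK p n u z) : Ball K) : K) =
        ∑ i : Fin n, d i * bigLog p D n ((z : K) ^ p ^ (i : ℕ)) :=
  have := D.ultra
  have := D.complete
  have : NormOneClass B := ⟨D.norm_one⟩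
  Gs.linearisation' D hn u hu hh Ψ hΨ

end Vale.P217

end
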