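import Vale.Agent.P217.GaussExpand
import Mathlib.Topology.Algebra.InfiniteSum.Nonarchimedean
import Mathlib.Topology.Algebra.InfiniteSum.NatInt
import Mathlib.Algebra.Ring.Aut

/-!
The big logarithm `∑_{k : ℤ} p ^ (-k) [z ^ (p ^ (m k))]` and its approximation by scaled
logarithms.
-/

noncomputable section

set_option linter.unusedSectionVars false

namespace Vale.P217

section Def

variable (p : ℕ) [Fact p.Prime] {K : Type*} [NontriviallyNormedField K] [IsUltrametricDist K]
  [CompleteSpace K] [CharP K p] [PerfectRing K p] {B : Type} [NormedCommRing B] [Algebra ℚ B]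
  {c : ℝ}

/-- `∑_{k : ℤ} p ^ (-k) [z ^ (p ^ (m k))]`. -/
def bigLog (D : GaussData p K B c) (m : ℕ) (z : K) : B :=
  ∑' k : ℤ, algebraMap ℚ B ((p : ℚ) ^ (-k)) *
    D.T (((frobeniusEquiv K p : RingAut K) ^ ((m : ℤ) * k)) z)

end Def

namespace Gs

open Filter Topology

variable {p : ℕ} [Fact p.Prime] {K : Type*} [NontriviallyNormedField K] [IsUltrametricDist K]
  [CompleteSpace K] [CharP K p] [PerfectRing K p]

section Frobenius

/-- The integral powers of the Frobenius. -/
def fr (p : ℕ) [Fact p.Prime] [CharP K p] [PerfectRing K p] (j : ℤ) (x : K) : K :=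
  ((frobeniusEquiv K p : RingAut K) ^ j) x

theorem fr_zero (x : K) : fr p 0 x = x := by simp [fr]

theorem fr_add (i j : ℤ) (x : K) : fr p (i + j) x = fr p i (fr p j x) := by
  rw [fr, zpow_add]; rfl

theorem fr_mul (j : ℤ) (x y : K) : fr p j (x * y) = fr p j x * fr p j y := map_mul _ x y

theorem fr_map_pow (j : ℤ) (x : K) (k : ℕ) : fr p j (x ^ k) = fr p j x ^ k := map_pow _ x k

theorem fr_natCast (i : ℕ) (x : K) : fr p (i : ℤ) x = x ^ p ^ i := by
  rw [fr, zpow_natCast, RingAut.coe_pow, coe_frobeniusEquiv, iterate_frobenius]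

theorem fr_add_natCast (j : ℤ) (i : ℕ) (x : K) : fr p (j + i) x = fr p j x ^ p ^ i := by
  rw [add_comm, fr_add, fr_natCast]

theorem fr_injective (j : ℤ) : Function.Injective (fr p j : K → K) :=
  RingEquiv.injective _

theorem fr_fix {m : ℕ} {ζ : K} (hζ : ζ ^ p ^ m = ζ) (k : ℤ) : fr p ((m : ℤ) * k) ζ = ζ := by
  induction k using Int.induction_on with
  | zero => rw [mul_zero, fr_zero]
  | succ k ih => rw [mul_add, mul_one, fr_add_natCast, ih, hζ]
  | pred k ih =>
    refine fr_injective (m : ℤ) ?_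
    rw [← fr_add, fr_natCast, hζ, show (m : ℤ) + m * (-(k : ℤ) - 1) = m * -(k : ℤ) by ring, ih]

theorem norm_fr_natCast (i : ℕ) (x : K) : ‖fr p (i : ℤ) x‖ = ‖x‖ ^ p ^ i := by
  rw [fr_natCast, norm_pow]

theorem norm_fr_lt_one {x : K} (hx : ‖x‖ < 1) (j : ℤ) : ‖fr p j x‖ < 1 := by
  obtain ⟨i, rfl | rfl⟩ := Int.eq_nat_or_neg j
  · rw [norm_fr_natCast]
    exact pow_lt_one₀ (norm_nonneg _) hx (pow_ne_zero _ (Fact.out : p.Prime).ne_zero)
  · have h : fr p (i : ℤ) (fr p (-(i : ℤ)) x) = x := by rw [← fr_add, add_neg_cancel, fr_zero]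
    refine (pow_lt_one_iff_of_nonneg (norm_nonneg _)
      (pow_ne_zero i (Fact.out : p.Prime).ne_zero)).1 ?_
    rwa [← norm_fr_natCast, h]

end Frobenius

section Sums

variable {B : Type*} [NormedCommRing B] [IsUltrametricDist B]

/-- A sum is bounded by the bound of its terms. -/
theorem norm_le_of_hasSum {ι : Type*} {f : ι → B} {a : B} (h : HasSum f a) {r : ℝ} (hr : 0 ≤ r)
    (hf : ∀ i, ‖f i‖ ≤ r) : ‖a‖ ≤ r :=
  le_of_tendsto h.norm (Eventually.of_forall fun _ =>
    IsUltrametricDist.norm_sum_le_of_forall_le_of_nonneg hr fun i _ => hf i)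

/-- Shifted sums against a convergent sequence. -/
theorem tendsto_shift_sum [CompleteSpace B] {t : ℤ → B} {T : B} (ht : HasSum t T) {E : ℕ → B}
    {d : B} (hE : Tendsto E atTop (𝓝 d)) :
    (∀ l : ℕ, Summable fun r : ℕ => E r * t ((r : ℤ) - l)) ∧
      Tendsto (fun l : ℕ => ∑' r : ℕ, E r * t ((r : ℤ) - l)) atTop (𝓝 (d * T)) := by
  obtain ⟨M, hM⟩ := hE.norm.bddAbove_range
  replace hM : ∀ r, ‖E r‖ ≤ M := fun r => hM (Set.mem_range_self r)
  have hM0 : 0 ≤ M := (norm_nonneg _).trans (hM 0)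
  have hts : Tendsto (fun k => ‖t k‖) cofinite (𝓝 0) := by
    simpa using ht.summable.tendsto_cofinite_zero.norm
  let F : ℕ → ℤ → B := fun l k => if -(l : ℤ) ≤ k then E (k + l).toNat * t k else 0
  have hF : ∀ l k, ‖F l k‖ ≤ M * ‖t k‖ := fun l k => by
    simp only [F]
    split
    · exact (norm_mul_le _ _).trans (mul_le_mul_of_nonneg_right (hM _) (norm_nonneg _))
    · rw [norm_zero]; positivity
  have hFs : ∀ l, Summable (F l) := fun l =>
    NonarchimedeanAddGroup.summable_of_tendsto_cofinite_zero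
      (squeeze_zero_norm (hF l) (by simpa using hts.const_mul M))
  have hg : ∀ l : ℕ, Function.Injective fun r : ℕ => (r : ℤ) - l := fun l a b h => by
    simpa using h
  have key : ∀ l : ℕ, HasSum (fun r : ℕ => E r * t ((r : ℤ) - l)) (∑' k, F l k) := fun l => by
    have h := ((hg l).hasSum_iff (f := F l) ?_).2 (hFs l).hasSum
    · refine h.congr_fun fun r => ?_
      simp [F]
    · intro k hk
      simp only [F]
      rw [if_neg]
      intro hle
      exact hk ⟨(k + l).toNat, by simp only; omega⟩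
  refine ⟨fun l => (key l).summable, ?_⟩
  rw [Metric.tendsto_atTop]
  intro η hη
  have hsmall : ∀ᶠ k in cofinite, (M + ‖d‖) * ‖t k‖ ≤ η / 2 :=
    (show Tendsto (fun k => (M + ‖d‖) * ‖t k‖) cofinite (𝓝 0) by
      simpa using hts.const_mul (M + ‖d‖)).eventually (eventually_le_nhds (half_pos hη))
  rw [Filter.eventually_cofinite] at hsmall
  have hev : ∀ᶠ l in atTop, ∀ k ∈ hsmall.toFinset,
      -((l : ℕ) : ℤ) ≤ k ∧ ‖E (k + l).toNat - d‖ * ‖t k‖ ≤ η / 2 := by
    rw [eventually_all_finset]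
    intro k _
    refine (eventually_ge_atTop (-k).toNat).mono (fun l hl => (by omega : -(l : ℤ) ≤ k)) |>.and ?_
    have h1 : Tendsto (fun l : ℕ => (k + l).toNat) atTop atTop :=
      tendsto_atTop.2 fun b => (eventually_ge_atTop (b + (-k).toNat)).mono fun l hl => by omega
    have h2 : Tendsto (fun l : ℕ => ‖E (k + l).toNat - d‖ * ‖t k‖) atTop (𝓝 0) := by
      simpa using ((hE.comp h1).sub_const d).norm.mul_const ‖t k‖
    exact h2.eventually (eventually_le_nhds (half_pos hη))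
  obtain ⟨L, hL⟩ := eventually_atTop.1 hev
  refine ⟨L, fun l hl => ?_⟩
  rw [dist_eq_norm, (key l).tsum_eq]
  refine lt_of_le_of_lt (norm_le_of_hasSum ((hFs l).hasSum.sub (ht.mul_left d)) (half_pos hη).le
    fun k => ?_) (half_lt_self hη)
  by_cases hk : k ∈ hsmall.toFinset
  · obtain ⟨h1, h2⟩ := hL l hl k hk
    simp only [F]
    rw [if_pos h1, ← sub_mul]
    exact (norm_mul_le _ _).trans h2
  · simp only [Set.Finite.mem_toFinset, Set.mem_ofPred_eq, not_not] at hk
    refine le_trans ?_ hk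
    rw [add_mul, sub_eq_add_neg]
    refine (norm_add_le _ _).trans (add_le_add (hF l k) ?_)
    rw [norm_neg]
    exact norm_mul_le _ _

end Sums

variable {B : Type} [NormedCommRing B] [IsUltrametricDist B] [NormOneClass B] [Algebra ℚ B]
  [CompleteSpace B] {c : ℝ} (D : GaussData p K B c)

/-- A scalar power of `p`. -/
abbrev pz (p : ℕ) (k : ℤ) : B := algebraMap ℚ B ((p : ℚ) ^ k)

theorem pz_add (i j : ℤ) : (pz p (i + j) : B) = pz p i * pz p j := by
  have : (p : ℚ) ≠ 0 := Nat.cast_ne_zero.2 (Fact.out : p.Prime).ne_zero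
  rw [pz, pz, pz, zpow_add₀ this, map_mul]

theorem norm_pz_mul (D : GaussData p K B c) (k : ℤ) (x : B) : ‖pz p k * x‖ = c ^ k * ‖x‖ :=
  D.norm_zpow_mul k x

/-- The terms of the big logarithm. -/
def blTerm (D : GaussData p K B c) (m : ℕ) (z : K) (k : ℤ) : B :=
  pz p (-k) * D.T (fr p ((m : ℤ) * k) z)

theorem bigLog_eq_tsum (m : ℕ) (z : K) : bigLog p D m z = ∑' k, blTerm D m z k := rfl

theorem norm_blTerm (m : ℕ) (z : K) (k : ℤ) :
    ‖blTerm D m z k‖ = c ^ (-k) * ‖fr p ((m : ℤ) * k) z‖ := by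
  rw [blTerm, norm_pz_mul D, norm_T D]

theorem summable_blTerm {m : ℕ} (hm : 1 ≤ m) {z : K} (hz : ‖z‖ < 1) :
    Summable (blTerm D m z) := by
  have hp : p.Prime := Fact.out
  refine Summable.of_nat_of_neg_add_one
    (NonarchimedeanAddGroup.summable_of_tendsto_cofinite_zero ?_)
    (NonarchimedeanAddGroup.summable_of_tendsto_cofinite_zero ?_)
  · rw [Nat.cofinite_eq_atTop]
    refine squeeze_zero_norm (fun a => ?_)
      (tendsto_bound hp.two_le D.c_pos (norm_nonneg z) hz)
    rw [norm_blTerm, zpow_neg, zpow_natCast, ← inv_pow, ← Nat.cast_mul, norm_fr_natCast]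
    refine mul_le_mul_of_nonneg_left (pow_le_pow_of_le_one (norm_nonneg _) hz.le ?_)
      (pow_nonneg (inv_nonneg.2 D.c_pos.le) _)
    exact Nat.pow_le_pow_right hp.pos (Nat.le_mul_of_pos_left a hm)
  · rw [Nat.cofinite_eq_atTop]
    refine squeeze_zero_norm (fun a => ?_)
      ((tendsto_pow_atTop_nhds_zero_of_lt_one D.c_pos.le D.c_lt).comp (tendsto_add_atTop_nat 1))
    rw [norm_blTerm, neg_neg]
    refine (mul_le_of_le_one_right (zpow_nonneg D.c_pos.le _) (norm_fr_lt_one hz _).le).trans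
      (le_of_eq ?_)
    rw [← Nat.cast_one, ← Nat.cast_add, zpow_natCast]; rfl

theorem hasSum_blTerm {m : ℕ} (hm : 1 ≤ m) {z : K} (hz : ‖z‖ < 1) :
    HasSum (blTerm D m z) (bigLog p D m z) :=
  (summable_blTerm D hm hz).hasSum

theorem bigLog_pow' {m : ℕ} (hm : 1 ≤ m) {z : K} (hz : ‖z‖ < 1) :
    bigLog p D m (z ^ p ^ m) = algebraMap ℚ B (p : ℚ) * bigLog p D m z := by
  rw [bigLog_eq_tsum, bigLog_eq_tsum, ← (summable_blTerm D hm hz).tsum_mul_left]
  rw [← (Equiv.addRight (1 : ℤ)).tsum_eq fun k => algebraMap ℚ B (p : ℚ) * blTerm D m z k]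
  refine tsum_congr fun k => ?_
  rw [Equiv.coe_addRight, blTerm, blTerm, ← mul_assoc, mul_add, mul_one, fr_add_natCast,
    fr_map_pow]
  congr 1
  conv_rhs => rw [show algebraMap ℚ B (p : ℚ) = pz p 1 by rw [pz, zpow_one], ← pz_add]
  congr 1
  ring

theorem bigLog_teich_mul' {m : ℕ} (hm : 1 ≤ m) {z ζ : K} (hz : ‖z‖ < 1)
    (hζ : ζ ^ p ^ m = ζ) : bigLog p D m (ζ * z) = D.T ζ * bigLog p D m z := by
  refine (((hasSum_blTerm D hm hz).mul_left (D.T ζ)).congr_fun fun k => ?_).tsum_eq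
  show blTerm D m (ζ * z) k = D.T ζ * blTerm D m z k
  rw [blTerm, blTerm, fr_mul, fr_fix hζ, map_mul]
  ring

theorem bigLog_eq_zero' {m : ℕ} (hm : 1 ≤ m) {z : K} (hz : ‖z‖ < 1)
    (h0 : bigLog p D m z = 0) : z = 0 := by
  have h := (hasSum_blTerm D hm hz).norm
  rw [h0, norm_zero] at h
  have hle : ‖z‖ ≤ 0 := by
    refine ge_of_tendsto h ((eventually_ge_atTop {(0 : ℤ)}).mono fun s hs => ?_)
    have h0s : (0 : ℤ) ∈ s := hs (Finset.mem_singleton_self _)
    have hd := D.norm_digits (s.map (Equiv.neg ℤ).toEmbedding)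
      (fun j => fr p ((m : ℤ) * -j) z) 0 (Finset.mem_map.2 ⟨0, h0s, by simp⟩)
    rw [Finset.sum_map] at hd
    simpa [blTerm, fr_zero, pz, zpow_neg] using hd
  exact norm_le_zero_iff.1 hle

/-- The one-variable evaluation as a sum over exponents. -/
theorem hasSum_psum1 {f : PowerSeries B} {C : ℝ} (hC : 0 ≤ C) (hf : Growth p c f C)
    (D : GaussData p K B c) {A : UB B} (hA : ‖A‖ < 1) :
    HasSum (fun d : ℕ => PowerSeries.coeff d f * (A : B) ^ d) (psum1 f A) := by
  have h := hasSum_psum (x := fun _ : Unit => A) D.c_pos hC hf (Fact.out : p.Prime).two_le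
    fun _ => hA
  have e := (Finsupp.uniqueLinearEquiv ℕ ℕ ()).toEquiv.symm.hasSum_iff.mpr h
  refine e.congr_fun fun d => ?_
  have hd : (Finsupp.uniqueLinearEquiv ℕ ℕ ()).toEquiv.symm d = Finsupp.single () d := by
    ext; simp
  simp [PowerSeries.coeff]

/-- Scaled values of a series supported, up to a bounded error, on powers of `p` tend to
combinations of big logarithms. -/
theorem tendsto_scaled {n : ℕ} (hn : 1 ≤ n) {f : PowerSeries B} {C r0 : ℝ} (hC : 0 ≤ C)
    (hf : Growth p c f C) (hr0 : 0 ≤ r0)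
    (hsmall : ∀ d, (∀ j, d ≠ p ^ j) → ‖PowerSeries.coeff d f‖ ≤ r0) {d : Fin n → B}
    (hd : ∀ i : Fin n, Tendsto
      (fun r : ℕ => pz p (r : ℤ) * PowerSeries.coeff (p ^ (n * r + i)) f) atTop (𝓝 (d i)))
    {z : K} (hz : ‖z‖ < 1) {A : ℕ → UB B}
    (hA : ∀ l : ℕ, (A l : B) = D.T (fr p (-((n * l : ℕ) : ℤ)) z)) :
    Tendsto (fun l : ℕ => pz p (l : ℤ) * psum1 f (A l)) atTop
      (𝓝 (∑ i, d i * bigLog p D n (z ^ p ^ (i : ℕ)))) := by
  have hp : p.Prime := Fact.out
  have hA1 : ∀ l, ‖A l‖ < 1 := fun l => by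
    rw [← norm_coe_UB, hA, norm_T D]; exact norm_fr_lt_one hz _
  let g : ℕ → ℕ → B := fun l j => PowerSeries.coeff (p ^ j) f * (A l : B) ^ p ^ j
  let t : Fin n → ℤ → B := fun i => blTerm D n (z ^ p ^ (i : ℕ))
  have hz' : ∀ i : Fin n, ‖z ^ p ^ (i : ℕ)‖ < 1 := fun i => by
    rw [norm_pow]; exact pow_lt_one₀ (norm_nonneg _) hz (pow_ne_zero _ hp.ne_zero)
  have hlim := fun i : Fin n => tendsto_shift_sum (hasSum_blTerm D hn (hz' i)) (hd i)
  have hterm : ∀ (l : ℕ) (i : Fin n) (r : ℕ), pz p (r : ℤ) *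
      PowerSeries.coeff (p ^ (n * r + i)) f * t i ((r : ℤ) - l) =
        pz p (l : ℤ) * g l (n * r + i) := by
    intro l i r
    simp only [t, g, blTerm]
    rw [hA, ← map_pow D.T, ← fr_natCast (p := p) (n * r + i) (fr p _ z), ← fr_add,
      fr_map_pow, ← fr_add_natCast]
    have e : ((n * r + i : ℕ) : ℤ) + -((n * l : ℕ) : ℤ) =
        (n : ℤ) * ((r : ℤ) - l) + (i : ℕ) := by
      push_cast; ring
    rw [e]
    have e2 : (pz p (l : ℤ) : B) = pz p (r : ℤ) * pz p (-((r : ℤ) - l)) := by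
      rw [← pz_add]; congr 1; ring
    rw [e2]; ring
  have hpow : Function.Injective fun j : ℕ => p ^ j := Nat.pow_right_injective hp.two_le
  have hgs : ∀ l, Summable (g l) := fun l =>
    ((hasSum_psum1 hC hf D (hA1 l)).summable.comp_injective hpow)
  have herr : ∀ l, ‖psum1 f (A l) - ∑' j, g l j‖ ≤ r0 := fun l => by
    let term : ℕ → B := fun e => PowerSeries.coeff e f * (A l : B) ^ e
    have h1 : HasSum (Set.indicator (Set.range fun j : ℕ => p ^ j) term) (∑' j, g l j) := by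
      refine (hpow.hasSum_iff fun e he => Set.indicator_of_notMem he _).1 ?_
      refine (hgs l).hasSum.congr_fun fun j => ?_
      exact Set.indicator_of_mem (show p ^ j ∈ Set.range fun j : ℕ => p ^ j from ⟨j, rfl⟩) _
    refine norm_le_of_hasSum ((hasSum_psum1 hC hf D (hA1 l)).sub h1) hr0 fun e => ?_
    by_cases he : e ∈ Set.range fun j : ℕ => p ^ j
    · rw [Set.indicator_of_mem he, sub_self, norm_zero]; exact hr0
    · rw [Set.indicator_of_notMem he, sub_zero]
      refine (norm_mul_le _ _).trans (le_trans ?_ (hsmall e fun j hj => he ⟨j, hj.symm⟩))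
      exact mul_le_of_le_one_right (norm_nonneg _)
        ((norm_pow_le _ _).trans (pow_le_one₀ (norm_nonneg _) (hA1 l).le))
  have hsplit : ∀ l : ℕ, pz p (l : ℤ) * ∑' j, g l j =
      ∑ i : Fin n, ∑' r : ℕ, pz p (r : ℤ) * PowerSeries.coeff (p ^ (n * r + i)) f *
        t i ((r : ℤ) - l) := fun l => by
    have hinj : ∀ i : Fin n, Function.Injective fun r : ℕ => n * r + i := fun i a b h => by
      simp only [add_left_inj] at h
      exact Nat.eq_of_mul_eq_mul_left (by omega) h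
    have hi : ∀ i : Fin n, HasSum (fun j => if j % n = i then g l j else 0)
        (∑' r, g l (n * r + i)) := fun i => by
      refine ((hinj i).hasSum_iff fun j hj => if_neg fun h => hj ⟨j / n, ?_⟩).1
        ((((hgs l).comp_injective (hinj i)).hasSum).congr_fun fun r => ?_)
      · simp only; rw [← h, Nat.div_add_mod]
      · exact if_pos (by rw [Nat.mul_add_mod_self_left, Nat.mod_eq_of_lt i.2])
    have hall := hasSum_sum (s := Finset.univ) fun i _ => hi i
    have hj : HasSum (g l) (∑ i : Fin n, ∑' r, g l (n * r + i)) := hall.congr_fun fun j => by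
      rw [Finset.sum_eq_single (⟨j % n, Nat.mod_lt _ (by omega)⟩ : Fin n)]
      · exact (if_pos rfl).symm
      · intro i _ hne
        exact if_neg fun h => hne (Fin.ext h.symm)
      · intro h; exact absurd (Finset.mem_univ _) h
    rw [hj.tsum_eq, Finset.mul_sum]
    refine Finset.sum_congr rfl fun i _ => ?_
    have hs : Summable fun r => g l (n * r + i) := (hgs l).comp_injective (hinj i)
    rw [← Summable.tsum_mul_left _ hs]
    exact tsum_congr fun r => (hterm l i r).symm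
  have h1 : Tendsto (fun l : ℕ => pz p (l : ℤ) * ∑' j, g l j) atTop
      (𝓝 (∑ i, d i * bigLog p D n (z ^ p ^ (i : ℕ)))) := by
    simp only [hsplit]
    exact tendsto_finsetSum _ fun i _ => (hlim i).2
  have h2 : Tendsto (fun l : ℕ => pz p (l : ℤ) * (psum1 f (A l) - ∑' j, g l j)) atTop (𝓝 0) := by
    refine squeeze_zero_norm (fun l => ?_) (show Tendsto (fun l : ℕ => c ^ l * r0) atTop (𝓝 0) by
      simpa using (tendsto_pow_atTop_nhds_zero_of_lt_one D.c_pos.le D.c_lt).mul_const r0)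
    rw [norm_pz_mul D, zpow_natCast]
    exact mul_le_mul_of_nonneg_left (herr l) (pow_nonneg D.c_pos.le l)
  simpa [mul_sub] using h2.add h1

end Gs

end Vale.P217

end
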