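import Vale.Agent.P217.Ball
import Mathlib.RingTheory.WittVector.Teichmuller
import Mathlib.Algebra.Algebra.Rat

/-!
Gauss-normed completions of Witt vectors of a valuation ring: the interface.
-/

noncomputable section

namespace Vale.P217

variable (p : ℕ) [Fact p.Prime] (K : Type*) [NontriviallyNormedField K] [IsUltrametricDist K]
  [CompleteSpace K] [CharP K p] [PerfectRing K p]

/-- A complete normed `ℚ`-algebra receiving the Witt vectors of the valuation ring, normed by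
`‖∑ p ^ k [a_k]‖ = max c ^ k ‖a_k‖`. -/
structure GaussData (B : Type) [NormedCommRing B] [Algebra ℚ B] (c : ℝ) where
  /-- The map on Witt vectors. -/
  W : WittVector p (Ball K) →+* B
  /-- The multiplicative lift. -/
  T : K →* B
  ultra : IsUltrametricDist B
  complete : CompleteSpace B
  c_pos : 0 < c
  c_lt : c < 1
  T_zero : T 0 = 0
  W_teich : ∀ a : Ball K, W (WittVector.teichmuller p a) = T (a : K)
  norm_W_le : ∀ x, ‖W x‖ ≤ 1
  norm_T_mul : ∀ (a : K) (x : B), ‖T a * x‖ = ‖a‖ * ‖x‖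
  norm_one : ‖(1 : B)‖ = 1
  norm_zpow_mul : ∀ (k : ℤ) (x : B), ‖algebraMap ℚ B ((p : ℚ) ^ k) * x‖ = c ^ k * ‖x‖
  norm_digits : ∀ (s : Finset ℤ) (a : ℤ → K), ∀ k ∈ s,
    c ^ k * ‖a k‖ ≤ ‖∑ j ∈ s, algebraMap ℚ B ((p : ℚ) ^ j) * T (a j)‖
  T_add : ∀ a b : K, ‖T (a + b) - T a - T b‖ ≤ c * max ‖a‖ ‖b‖

end Vale.P217

end
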