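import Vale.Agent.P217.Ball
import Mathlib.RingTheory.WittVector.TeichmullerSeries
import Mathlib.RingTheory.WittVector.Domain

/-!
The Gauss norm `sup c ^ k * ‖digit_k‖` on the Witt vectors of the valuation ring of a perfect
ultrametric field of characteristic `p`.
-/

noncomputable section

namespace Vale.P217.GaussWitt

open WittVector Finset

variable {p : ℕ} [Fact p.Prime] {K : Type*} [NontriviallyNormedField K] [IsUltrametricDist K]
  [CharP K p] [PerfectRing K p]

/-- The `k`-th Teichmüller digit. -/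
def digit (x : WittVector p (Ball K)) (k : ℕ) : Ball K :=
  (((frobeniusEquiv (Ball K) p).symm : RingAut (Ball K)) ^ k) (x.coeff k)

theorem pow_frob_symm (a : Ball K) : ∀ k : ℕ,
    ((((frobeniusEquiv (Ball K) p).symm : RingAut (Ball K)) ^ k) a) ^ p ^ k = a := by
  intro k
  induction k generalizing a with
  | zero => simp
  | succ k ih =>
    rw [pow_succ, RingAut.mul_apply, pow_succ p k, pow_mul, ih]
    exact frobeniusEquiv_symm_pow_p (Ball K) p a

theorem digit_pow (x : WittVector p (Ball K)) (k : ℕ) : digit x k ^ p ^ k = x.coeff k :=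
  pow_frob_symm _ k

theorem pow_p_pow_inj {a b : Ball K} (k : ℕ) (h : a ^ p ^ k = b ^ p ^ k) : a = b := by
  have := (iterateFrobeniusEquiv (Ball K) p k).injective (a₁ := a) (a₂ := b)
  exact this (by simpa [iterateFrobeniusEquiv_apply, iterateFrobenius_def] using h)

theorem digit_eq_iff (x : WittVector p (Ball K)) (k : ℕ) (a : Ball K) :
    digit x k = a ↔ x.coeff k = a ^ p ^ k :=
  ⟨fun h => by rw [← h, digit_pow], fun h => pow_p_pow_inj k (by rw [digit_pow, h])⟩

/-- Congruence modulo `p ^ (k + 1)` determines the coefficient `k`. -/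
theorem coeff_eq_of_dvd {x y : WittVector p (Ball K)} {k : ℕ}
    (h : (p : WittVector p (Ball K)) ^ (k + 1) ∣ x - y) : x.coeff k = y.coeff k := by
  rw [← Ideal.mem_span_singleton, mem_span_p_pow_iff_le_coeff_eq_zero,
    ← le_coeff_eq_iff_le_sub_coeff_eq_zero] at h
  exact h k k.lt_succ_self

theorem digit_eq_of_dvd {x y : WittVector p (Ball K)} {k : ℕ}
    (h : (p : WittVector p (Ball K)) ^ (k + 1) ∣ x - y) : digit x k = digit y k := by
  rw [digit, digit, coeff_eq_of_dvd h]

/-- Finite Teichmüller series. -/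
def series (S : Finset ℕ) (b : ℕ → Ball K) : WittVector p (Ball K) :=
  ∑ i ∈ S, teichmuller p (b i) * (p : WittVector p (Ball K)) ^ i

theorem digit_series (S : Finset ℕ) (b : ℕ → Ball K) (k : ℕ) :
    digit (series (p := p) S b) k = if k ∈ S then b k else 0 := by
  rw [digit_eq_iff, series, sum_coeff_eq_coeff_sum]
  · by_cases hk : k ∈ S
    · rw [if_pos hk, sum_eq_single_of_mem k hk
        fun i _ hik => teichmuller_mul_pow_coeff_of_ne _ hik.symm]
      exact teichmuller_mul_pow_coeff _ _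
    · rw [if_neg hk, zero_pow (pow_ne_zero _ (Fact.out : p.Prime).ne_zero)]
      exact sum_eq_zero fun i hi => teichmuller_mul_pow_coeff_of_ne _ (by rintro rfl; exact hk hi)
  · refine fun n => ⟨fun ⟨a, _, ha⟩ ⟨b', _, hb⟩ => ?_⟩
    ext
    dsimp only [ne_eq, Set.mem_ofPred_eq]
    rw [← Not.imp_symm (teichmuller_mul_pow_coeff_of_ne _) ha]
    exact Not.imp_symm (teichmuller_mul_pow_coeff_of_ne _) hb

/-- `x` is its truncated series modulo `p ^ (k + 1)`. -/
theorem dvd_sub_series (x : WittVector p (Ball K)) (k : ℕ) :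
    (p : WittVector p (Ball K)) ^ (k + 1) ∣ x - series (Iic k) (digit x) :=
  dvd_sub_sum_teichmuller_iterateFrobeniusEquiv_coeff x k

theorem norm_digit_le_one (x : WittVector p (Ball K)) (k : ℕ) : ‖digit x k‖ ≤ 1 :=
  UnitNormed.norm_le_one _

/-- The Gauss norm. -/
def wnorm (c : ℝ) (x : WittVector p (Ball K)) : ℝ := ⨆ k : ℕ, c ^ k * ‖digit x k‖

variable {c : ℝ}

theorem term_le_one (hc0 : 0 < c) (hc1 : c < 1) (x : WittVector p (Ball K)) (k : ℕ) :
    c ^ k * ‖digit x k‖ ≤ 1 :=
  mul_le_one₀ (pow_le_one₀ hc0.le hc1.le) (norm_nonneg _) (norm_digit_le_one x k)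

theorem le_wnorm (hc0 : 0 < c) (hc1 : c < 1) (x : WittVector p (Ball K)) (k : ℕ) :
    c ^ k * ‖digit x k‖ ≤ wnorm c x :=
  le_ciSup (f := fun k => c ^ k * ‖digit x k‖)
    ⟨1, by rintro _ ⟨j, rfl⟩; exact term_le_one hc0 hc1 x j⟩ k

theorem wnorm_le {x : WittVector p (Ball K)} {M : ℝ} (h : ∀ k, c ^ k * ‖digit x k‖ ≤ M) :
    wnorm c x ≤ M :=
  ciSup_le h

theorem wnorm_nonneg (hc0 : 0 < c) (hc1 : c < 1) (x : WittVector p (Ball K)) : 0 ≤ wnorm c x :=
  le_trans (by positivity) (le_wnorm hc0 hc1 x 0)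

theorem wnorm_le_one (hc0 : 0 < c) (hc1 : c < 1) (x : WittVector p (Ball K)) : wnorm c x ≤ 1 :=
  wnorm_le (term_le_one hc0 hc1 x)

theorem digit_zero (k : ℕ) : digit (0 : WittVector p (Ball K)) k = 0 := by
  rw [digit_eq_iff, zero_coeff, zero_pow (pow_ne_zero _ (Fact.out : p.Prime).ne_zero)]

theorem wnorm_zero : wnorm c (0 : WittVector p (Ball K)) = 0 := by
  simp [wnorm, digit_zero]

theorem eq_zero_of_wnorm (hc0 : 0 < c) (hc1 : c < 1) {x : WittVector p (Ball K)}
    (h : wnorm c x = 0) : x = 0 := by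
  ext1 k
  have h1 := le_wnorm hc0 hc1 x k
  rw [h] at h1
  have h2 : ‖digit x k‖ = 0 :=
    le_antisymm (nonpos_of_mul_nonpos_right h1 (pow_pos hc0 k)) (norm_nonneg _)
  rw [zero_coeff, ← digit_pow x k, norm_eq_zero.1 h2,
    zero_pow (pow_ne_zero _ (Fact.out : p.Prime).ne_zero)]

omit [CharP K p] [PerfectRing K p] in
theorem series_eq_smul (S : Finset ℕ) (a : Ball K) (b : ℕ → Ball K) :
    series (p := p) S (fun i => a * b i) = teichmuller p a * series S b := by
  simp only [series, mul_sum, map_mul, mul_assoc]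

theorem digit_teich_mul (a : Ball K) (x : WittVector p (Ball K)) (k : ℕ) :
    digit (teichmuller p a * x) k = a * digit x k := by
  have h : (p : WittVector p (Ball K)) ^ (k + 1) ∣
      teichmuller p a * x - series (Iic k) (fun i => a * digit x i) := by
    rw [series_eq_smul, ← mul_sub]
    exact (dvd_sub_series x k).mul_left _
  rw [digit_eq_of_dvd h, digit_series, if_pos (mem_Iic.2 le_rfl)]

theorem wnorm_teich_mul (a : Ball K) (x : WittVector p (Ball K)) :
    wnorm c (teichmuller p a * x) = ‖a‖ * wnorm c x := by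
  simp only [wnorm, digit_teich_mul, norm_mul_Ball]
  rw [Real.mul_iSup_of_nonneg (norm_nonneg a)]
  exact iSup_congr fun k => by ring

theorem digit_mul_p (x : WittVector p (Ball K)) (k : ℕ) :
    digit (x * (p : WittVector p (Ball K))) (k + 1) = digit x k := by
  rw [digit_eq_iff, mul_charP_coeff_succ, pow_succ, pow_mul, digit_pow]

theorem digit_mul_p_zero (x : WittVector p (Ball K)) : digit (x * (p : WittVector p (Ball K))) 0 = 0 := by
  rw [digit_eq_iff, mul_charP_coeff_zero, pow_zero, pow_one]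

theorem wnorm_mul_p (hc0 : 0 < c) (hc1 : c < 1) (x : WittVector p (Ball K)) :
    wnorm c (x * (p : WittVector p (Ball K))) = c * wnorm c x := by
  refine le_antisymm (wnorm_le fun k => ?_) ?_
  · cases k with
    | zero =>
      rw [digit_mul_p_zero, norm_zero, mul_zero]
      exact mul_nonneg hc0.le (wnorm_nonneg hc0 hc1 x)
    | succ k =>
      rw [digit_mul_p, pow_succ', mul_assoc]
      exact mul_le_mul_of_nonneg_left (le_wnorm hc0 hc1 x k) hc0.le
  · rw [wnorm, Real.mul_iSup_of_nonneg hc0.le]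
    refine ciSup_le fun k => le_trans (le_of_eq ?_) (le_wnorm hc0 hc1 (x * (p : WittVector p (Ball K))) (k + 1))
    rw [digit_mul_p, pow_succ', mul_assoc]

theorem wnorm_mul_p_pow (hc0 : 0 < c) (hc1 : c < 1) (x : WittVector p (Ball K)) (m : ℕ) :
    wnorm c (x * (p : WittVector p (Ball K)) ^ m) = c ^ m * wnorm c x := by
  induction m with
  | zero => simp
  | succ m ih => rw [pow_succ, ← mul_assoc, wnorm_mul_p hc0 hc1, ih, pow_succ']; ring

theorem wnorm_one (hc0 : 0 < c) (hc1 : c < 1) : wnorm c (1 : WittVector p (Ball K)) = 1 := by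
  refine le_antisymm (wnorm_le_one hc0 hc1 1) ?_
  have h := le_wnorm hc0 hc1 (1 : WittVector p (Ball K)) 0
  have : digit (1 : WittVector p (Ball K)) 0 = 1 := by
    rw [digit_eq_iff, one_coeff_zero, one_pow]
  rw [this, pow_zero, one_mul] at h
  simpa using h

theorem wnorm_teich (hc0 : 0 < c) (hc1 : c < 1) (a : Ball K) :
    wnorm c (teichmuller p a) = ‖a‖ := by
  have h := wnorm_teich_mul (p := p) (c := c) a 1
  rwa [mul_one, wnorm_one hc0 hc1, mul_one] at h

/-- Division inside the valuation ring. -/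
def bdiv (x a : Ball K) (h : ‖x‖ ≤ ‖a‖) : Ball K :=
  ⟨(x : K) / (a : K), by
    rw [mem_Ball, norm_div]
    exact div_le_one_of_le₀ h (norm_nonneg _)⟩

theorem mul_bdiv (x a : Ball K) (h : ‖x‖ ≤ ‖a‖) : a * bdiv x a h = x := by
  apply Subtype.ext
  rcases eq_or_ne (a : K) 0 with ha | ha
  · have : x = 0 := norm_le_zero_iff.1 (by rw [← norm_coe a, ha, norm_zero] at h; exact h)
    simp [this, ha]
  · show (a : K) * ((x : K) / (a : K)) = (x : K)
    field_simp

theorem wnorm_add_le (hc0 : 0 < c) (hc1 : c < 1) (x y : WittVector p (Ball K)) :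
    wnorm c (x + y) ≤ max (wnorm c x) (wnorm c y) := by
  refine wnorm_le fun k => ?_
  -- the largest of the relevant digits
  obtain ⟨a, ha, hmax, hle⟩ : ∃ a : Ball K, c ^ k * ‖a‖ ≤ max (wnorm c x) (wnorm c y) ∧
      (∀ i ∈ Iic k, ‖digit x i‖ ≤ ‖a‖) ∧ ∀ i ∈ Iic k, ‖digit y i‖ ≤ ‖a‖ := by
    obtain ⟨i, hi, h1⟩ := (Iic k).exists_max_image (fun i => ‖digit x i‖) nonempty_Iic
    obtain ⟨j, hj, h2⟩ := (Iic k).exists_max_image (fun i => ‖digit y i‖) nonempty_Iic
    have hpow : ∀ i ∈ Iic k, c ^ k ≤ c ^ i := fun i hi =>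
      pow_le_pow_of_le_one hc0.le hc1.le (mem_Iic.1 hi)
    rcases le_total ‖digit x i‖ ‖digit y j‖ with h | h
    · exact ⟨digit y j, ((mul_le_mul_of_nonneg_right (hpow j hj) (norm_nonneg _)).trans
        (le_wnorm hc0 hc1 y j)).trans (le_max_right _ _), fun t ht => (h1 t ht).trans h,
        fun t ht => h2 t ht⟩
    · exact ⟨digit x i, ((mul_le_mul_of_nonneg_right (hpow i hi) (norm_nonneg _)).trans
        (le_wnorm hc0 hc1 x i)).trans (le_max_left _ _), fun t ht => h1 t ht,
        fun t ht => (h2 t ht).trans h⟩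
  classical
  let x' : ℕ → Ball K := fun i => if h : i ∈ Iic k then bdiv (digit x i) a (hmax i h) else 0
  let y' : ℕ → Ball K := fun i => if h : i ∈ Iic k then bdiv (digit y i) a (hle i h) else 0
  have ex : series (p := p) (Iic k) (digit x) = teichmuller p a * series (Iic k) x' := by
    rw [← series_eq_smul]
    exact sum_congr rfl fun i hi => by simp only [x', dif_pos hi, mul_bdiv]
  have ey : series (p := p) (Iic k) (digit y) = teichmuller p a * series (Iic k) y' := by
    rw [← series_eq_smul]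
    exact sum_congr rfl fun i hi => by simp only [y', dif_pos hi, mul_bdiv]
  have h : (p : WittVector p (Ball K)) ^ (k + 1) ∣
      (x + y) - teichmuller p a * (series (Iic k) x' + series (Iic k) y') := by
    rw [mul_add, ← ex, ← ey, add_sub_add_comm]
    exact (dvd_sub_series x k).add (dvd_sub_series y k)
  rw [digit_eq_of_dvd h, digit_teich_mul, norm_mul_Ball]
  refine le_trans ?_ ha
  exact mul_le_mul_of_nonneg_left
    (mul_le_of_le_one_right (norm_nonneg _) (norm_digit_le_one _ _)) (pow_nonneg hc0.le k)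

theorem wnorm_sum_le (hc0 : 0 < c) (hc1 : c < 1) {ι : Type*} (S : Finset ι)
    (x : ι → WittVector p (Ball K)) {M : ℝ} (hM : 0 ≤ M) (h : ∀ i ∈ S, wnorm c (x i) ≤ M) :
    wnorm c (∑ i ∈ S, x i) ≤ M := by
  classical
  induction S using Finset.induction with
  | empty => simpa [wnorm_zero] using hM
  | insert a S ha ih =>
    rw [sum_insert ha]
    exact (wnorm_add_le hc0 hc1 _ _).trans
      (max_le (h a (mem_insert_self a S)) (ih fun i hi => h i (mem_insert_of_mem hi)))

theorem wnorm_mul_le (hc0 : 0 < c) (hc1 : c < 1) (x y : WittVector p (Ball K)) :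
    wnorm c (x * y) ≤ wnorm c x * wnorm c y := by
  refine wnorm_le fun k => ?_
  have h : (p : WittVector p (Ball K)) ^ (k + 1) ∣
      x * y - series (Iic k) (digit x) * series (Iic k) (digit y) := by
    rw [show x * y - series (Iic k) (digit x) * series (Iic k) (digit y) =
      (x - series (Iic k) (digit x)) * y +
        series (Iic k) (digit x) * (y - series (Iic k) (digit y)) by ring]
    exact ((dvd_sub_series x k).mul_right _).add ((dvd_sub_series y k).mul_left _)
  rw [digit_eq_of_dvd h]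
  refine (le_wnorm hc0 hc1 _ k).trans ?_
  have hM := mul_nonneg (wnorm_nonneg hc0 hc1 x) (wnorm_nonneg hc0 hc1 y)
  simp only [series, sum_mul_sum]
  refine wnorm_sum_le hc0 hc1 _ _ hM fun i _ => wnorm_sum_le hc0 hc1 _ _ hM fun j _ => ?_
  rw [show teichmuller p (digit x i) * (p : WittVector p (Ball K)) ^ i *
      (teichmuller p (digit y j) * (p : WittVector p (Ball K)) ^ j) =
      teichmuller p (digit x i * digit y j) * (p : WittVector p (Ball K)) ^ (i + j) by
        rw [map_mul, pow_add]; ring,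
    wnorm_mul_p_pow hc0 hc1, wnorm_teich hc0 hc1, norm_mul_Ball, pow_add]
  calc c ^ i * c ^ j * (‖digit x i‖ * ‖digit y j‖)
      = (c ^ i * ‖digit x i‖) * (c ^ j * ‖digit y j‖) := by ring
    _ ≤ _ := mul_le_mul (le_wnorm hc0 hc1 x i) (le_wnorm hc0 hc1 y j) (by positivity)
        (wnorm_nonneg hc0 hc1 x)

theorem wnorm_neg (hc0 : 0 < c) (hc1 : c < 1) (x : WittVector p (Ball K)) :
    wnorm c (-x) = wnorm c x := by
  have h : ∀ y : WittVector p (Ball K), wnorm c (-y) ≤ wnorm c y := fun y => by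
    have h1 := wnorm_mul_le hc0 hc1 (-1) y
    rw [neg_one_mul] at h1
    exact h1.trans (mul_le_of_le_one_left (wnorm_nonneg hc0 hc1 y) (wnorm_le_one hc0 hc1 _))
  exact le_antisymm (h x) (by simpa using h (-x))

theorem wnorm_le_of_digit_zero (hc0 : 0 < c) (hc1 : c < 1) {x : WittVector p (Ball K)}
    (h : digit x 0 = 0) : wnorm c x ≤ c := by
  refine wnorm_le fun k => ?_
  cases k with
  | zero => rw [h, norm_zero, mul_zero]; exact hc0.le
  | succ k =>
    rw [pow_succ', mul_assoc]
    exact mul_le_of_le_one_right hc0.le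
      (mul_le_one₀ (pow_le_one₀ hc0.le hc1.le) (norm_nonneg _) (norm_digit_le_one _ _))

end Vale.P217.GaussWitt

end
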