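import Vale.Agent.P217.Gauss
import Vale.Agent.P217.GaussWitt
import Mathlib.RingTheory.WittVector.DiscreteValuationRing
import Mathlib.RingTheory.Localization.FractionRing
import Mathlib.Analysis.Normed.Unbundled.RingSeminorm
import Mathlib.Analysis.Normed.Module.Completion

/-!
Existence of the Gauss-normed completion: localise `W (Ball K)` at `p` and the nonzero
Teichmüller elements, extend the Gauss norm, complete.
-/

noncomputable section

namespace Vale.P217

namespace GaussWitt

open WittVector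

variable {p : ℕ} [Fact p.Prime] {K : Type} [NontriviallyNormedField K] [IsUltrametricDist K]
  [CharP K p] [PerfectRing K p] {c : ℝ}

variable (p K) in
/-- The products `[a] p ^ k`, `a ≠ 0`. -/
def denoms : Submonoid (WittVector p (Ball K)) where
  carrier := {x | ∃ (k : ℕ) (a : Ball K), a ≠ 0 ∧
    x = teichmuller p a * (p : WittVector p (Ball K)) ^ k}
  one_mem' := ⟨0, 1, one_ne_zero, by simp⟩
  mul_mem' := by
    rintro _ _ ⟨k, a, ha, rfl⟩ ⟨l, b, hb, rfl⟩
    exact ⟨k + l, a * b, mul_ne_zero ha hb, by rw [map_mul, pow_add]; ring⟩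

variable (p K) in
/-- The localisation. -/
abbrev Loc : Type := Localization (denoms p K)

theorem wnorm_mul_denom (hc0 : 0 < c) (hc1 : c < 1) (x : WittVector p (Ball K))
    (s : denoms p K) : wnorm c (x * (s : WittVector p (Ball K))) = wnorm c x * wnorm c (s : WittVector p (Ball K)) := by
  obtain ⟨k, a, _, hs⟩ := s.2
  rw [hs, ← mul_assoc, wnorm_mul_p_pow hc0 hc1, wnorm_mul_p_pow hc0 hc1, mul_comm x,
    wnorm_teich_mul, wnorm_teich hc0 hc1]
  ring

theorem wnorm_denom_pos (hc0 : 0 < c) (hc1 : c < 1) (s : denoms p K) :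
    0 < wnorm c (s : WittVector p (Ball K)) := by
  obtain ⟨k, a, ha, hs⟩ := s.2
  rw [hs, wnorm_mul_p_pow hc0 hc1, wnorm_teich hc0 hc1]
  exact mul_pos (pow_pos hc0 k) (norm_pos_iff.2 ha)

theorem denoms_le : denoms p K ≤ nonZeroDivisors (WittVector p (Ball K)) := fun x hx =>
  mem_nonZeroDivisors_of_ne_zero fun h => by
    have := wnorm_denom_pos (c := 1 / 2) (by norm_num) (by norm_num) ⟨x, hx⟩
    simp only [h, wnorm_zero, lt_self_iff_false] at this

/-- The extension of the Gauss norm. -/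
def lnorm (c : ℝ) (q : Loc p K) : ℝ :=
  wnorm c (IsLocalization.sec (denoms p K) q).1 /
    wnorm c ((IsLocalization.sec (denoms p K) q).2 : WittVector p (Ball K))

theorem lnorm_mk' (hc0 : 0 < c) (hc1 : c < 1) (x : WittVector p (Ball K)) (s : denoms p K) :
    lnorm c (IsLocalization.mk' (Loc p K) x s) =
      wnorm c x / wnorm c (s : WittVector p (Ball K)) := by
  set q := IsLocalization.mk' (Loc p K) x s with hq
  have h1 : q = IsLocalization.mk' (Loc p K) (IsLocalization.sec (denoms p K) q).1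
      (IsLocalization.sec (denoms p K) q).2 := (IsLocalization.mk'_sec (Loc p K) q).symm
  rw [hq] at h1
  have h2 := IsLocalization.mk'_eq_iff_eq.1 h1
  have h3 := IsLocalization.injective (Loc p K) denoms_le h2
  rw [lnorm, div_eq_div_iff (wnorm_denom_pos hc0 hc1 _).ne' (wnorm_denom_pos hc0 hc1 s).ne',
    ← wnorm_mul_denom hc0 hc1, ← wnorm_mul_denom hc0 hc1, mul_comm _ (s : WittVector p (Ball K)),
    mul_comm x]
  rw [hq]
  exact congrArg _ h3.symm

theorem lnorm_algebraMap (hc0 : 0 < c) (hc1 : c < 1) (x : WittVector p (Ball K)) :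
    lnorm c (algebraMap _ (Loc p K) x) = wnorm c x := by
  rw [← IsLocalization.mk'_one (M := denoms p K) (Loc p K) x, lnorm_mk' hc0 hc1]
  simp [wnorm_one hc0 hc1]

theorem lnorm_add_le (hc0 : 0 < c) (hc1 : c < 1) (q r : Loc p K) :
    lnorm c (q + r) ≤ max (lnorm c q) (lnorm c r) := by
  obtain ⟨x, s, rfl⟩ := IsLocalization.exists_mk'_eq (denoms p K) q
  obtain ⟨y, t, rfl⟩ := IsLocalization.exists_mk'_eq (denoms p K) r
  have hs := wnorm_denom_pos (p := p) hc0 hc1 s
  have ht := wnorm_denom_pos (p := p) hc0 hc1 t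
  rw [← IsLocalization.mk'_add, lnorm_mk' hc0 hc1, lnorm_mk' hc0 hc1, lnorm_mk' hc0 hc1,
    Submonoid.coe_mul, wnorm_mul_denom hc0 hc1, div_le_iff₀ (mul_pos hs ht)]
  refine (wnorm_add_le hc0 hc1 _ _).trans (max_le ?_ ?_)
  · rw [wnorm_mul_denom hc0 hc1]
    refine le_trans (le_of_eq ?_) (mul_le_mul_of_nonneg_right (le_max_left _ _) (mul_pos hs ht).le)
    field_simp
  · rw [wnorm_mul_denom hc0 hc1]
    refine le_trans (le_of_eq ?_) (mul_le_mul_of_nonneg_right (le_max_right _ _) (mul_pos hs ht).le)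
    field_simp

theorem lnorm_mul_le (hc0 : 0 < c) (hc1 : c < 1) (q r : Loc p K) :
    lnorm c (q * r) ≤ lnorm c q * lnorm c r := by
  obtain ⟨x, s, rfl⟩ := IsLocalization.exists_mk'_eq (denoms p K) q
  obtain ⟨y, t, rfl⟩ := IsLocalization.exists_mk'_eq (denoms p K) r
  rw [← IsLocalization.mk'_mul, lnorm_mk' hc0 hc1, lnorm_mk' hc0 hc1, lnorm_mk' hc0 hc1,
    Submonoid.coe_mul, wnorm_mul_denom hc0 hc1, div_mul_div_comm]
  exact div_le_div_of_nonneg_right (wnorm_mul_le hc0 hc1 x y)
    (mul_pos (wnorm_denom_pos hc0 hc1 s) (wnorm_denom_pos hc0 hc1 t)).le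

theorem lnorm_denom_mul (hc0 : 0 < c) (hc1 : c < 1) (s : denoms p K) (q : Loc p K) :
    lnorm c (algebraMap _ (Loc p K) (s : WittVector p (Ball K)) * q) =
      wnorm c (s : WittVector p (Ball K)) * lnorm c q := by
  obtain ⟨x, t, rfl⟩ := IsLocalization.exists_mk'_eq (denoms p K) q
  rw [IsLocalization.mul_mk'_eq_mk'_of_mul, lnorm_mk' hc0 hc1, lnorm_mk' hc0 hc1, mul_comm,
    wnorm_mul_denom hc0 hc1]
  ring

theorem lnorm_nonneg (hc0 : 0 < c) (hc1 : c < 1) (q : Loc p K) : 0 ≤ lnorm c q :=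
  div_nonneg (wnorm_nonneg hc0 hc1 _) (wnorm_nonneg hc0 hc1 _)

/-- The ring norm on the localisation. -/
def locNorm (hc0 : 0 < c) (hc1 : c < 1) : RingNorm (Loc p K) where
  toFun := lnorm c
  map_zero' := by
    rw [← map_zero (algebraMap (WittVector p (Ball K)) (Loc p K)), lnorm_algebraMap hc0 hc1,
      wnorm_zero]
  add_le' q r := (lnorm_add_le hc0 hc1 q r).trans
    (max_le_add_of_nonneg (lnorm_nonneg hc0 hc1 q) (lnorm_nonneg hc0 hc1 r))
  neg' q := by
    obtain ⟨x, s, rfl⟩ := IsLocalization.exists_mk'_eq (denoms p K) q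
    rw [← IsLocalization.mk'_neg, lnorm_mk' hc0 hc1, lnorm_mk' hc0 hc1, wnorm_neg hc0 hc1]
  mul_le' := lnorm_mul_le hc0 hc1
  eq_zero_of_map_eq_zero' q hq := by
    obtain ⟨x, s, rfl⟩ := IsLocalization.exists_mk'_eq (denoms p K) q
    rw [lnorm_mk' hc0 hc1, div_eq_zero_iff] at hq
    rcases hq with hq | hq
    · rw [eq_zero_of_wnorm hc0 hc1 hq, IsLocalization.mk'_zero]
    · exact absurd hq (wnorm_denom_pos hc0 hc1 s).ne'

omit [PerfectRing K p] in
theorem isUnit_natCast_loc {m : ℕ} (hm : m ≠ 0) : IsUnit (m : Loc p K) := by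
  obtain ⟨k, m', hm', rfl⟩ :=
    Nat.exists_eq_pow_mul_and_not_dvd hm p (Fact.out : p.Prime).ne_one
  rw [Nat.cast_mul, Nat.cast_pow]
  refine IsUnit.mul (IsUnit.pow k ?_) ?_
  · have h := IsLocalization.map_units (Loc p K)
      (⟨(p : WittVector p (Ball K)), 1, 1, one_ne_zero, by simp⟩ : denoms p K)
    rwa [map_natCast] at h
  · have h0 : (m' : ZMod p) ≠ 0 := by rwa [Ne, ZMod.natCast_eq_zero_iff]
    have h1 : IsUnit (m' : WittVector p (ZMod p)) := by
      refine isUnit_of_coeff_zero_ne_zero _ ?_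
      rw [← constantCoeff_apply, map_natCast]
      exact h0
    have h2 := (h1.map (WittVector.map (p := p) (ZMod.castHom (dvd_refl p) (Ball K)))).map
      (algebraMap (WittVector p (Ball K)) (Loc p K))
    rwa [map_natCast, map_natCast] at h2

variable (p K) in
/-- `ℚ` maps to the localisation. -/
def ratHom : ℚ →+* Loc p K :=
  IsLocalization.lift (M := nonZeroDivisors ℤ) (g := Int.castRingHom (Loc p K)) fun y => by
    obtain ⟨m, hm⟩ := Int.eq_nat_or_neg (y : ℤ)
    have h0 : (y : ℤ) ≠ 0 := nonZeroDivisors.coe_ne_zero y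
    rcases hm with hm | hm <;> rw [hm] at h0 ⊢ <;>
      simpa using isUnit_natCast_loc (p := p) (K := K) (m := m) (by omega)

/-- Numerator of an element of `K`. -/
def num (a : K) : Ball K := if h : ‖a‖ ≤ 1 then ⟨a, h⟩ else 1

/-- Denominator of an element of `K`. -/
def den (a : K) : Ball K :=
  if h : ‖a‖ ≤ 1 then 1 else ⟨a⁻¹, by
    rw [mem_Ball, norm_inv]; exact inv_le_one_of_one_le₀ (not_le.1 h).le⟩

theorem den_ne_zero (a : K) : den a ≠ 0 := by
  unfold den
  split_ifs with h
  · exact one_ne_zero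
  · intro h0
    have h0' : a⁻¹ = 0 := congrArg Subtype.val h0
    simp only [inv_eq_zero] at h0'
    simp [h0'] at h

theorem mul_den (a : K) : a * (den a : K) = (num a : K) := by
  unfold num den
  split_ifs with h
  · simp
  · have : a ≠ 0 := by rintro rfl; simp at h
    simp [this]

omit [CharP K p] [PerfectRing K p] in
theorem teich_mem {a : Ball K} (ha : a ≠ 0) : teichmuller p a ∈ denoms p K :=
  ⟨0, a, ha, by simp⟩

/-- The multiplicative lift to the localisation. -/
def liftT (a : K) : Loc p K :=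
  IsLocalization.mk' (Loc p K) (teichmuller p (num a)) ⟨_, teich_mem (den_ne_zero a)⟩

omit [CharP K p] [PerfectRing K p] in
theorem liftT_spec {a : K} {x y : Ball K} (hy : y ≠ 0) (h : a * (y : K) = x) :
    liftT (p := p) a = IsLocalization.mk' (Loc p K) (teichmuller p x)
      ⟨_, teich_mem (p := p) hy⟩ := by
  refine IsLocalization.mk'_eq_iff_eq.2 (congrArg _ ?_)
  rw [← map_mul, ← map_mul]
  refine congrArg _ (Subtype.ext ?_)
  show (y : K) * (num a : K) = (den a : K) * (x : K)
  rw [← mul_den, ← h]; ring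

theorem liftT_ball (x : Ball K) :
    liftT (p := p) (x : K) = algebraMap _ (Loc p K) (teichmuller p x) := by
  rw [liftT_spec one_ne_zero (by simp : (x : K) * ((1 : Ball K) : K) = x)]
  have : (⟨_, teich_mem (p := p) (one_ne_zero : (1 : Ball K) ≠ 0)⟩ : denoms p K) = 1 :=
    Subtype.ext (map_one _)
  rw [this, IsLocalization.mk'_one]

theorem liftT_mul (a b : K) : liftT (p := p) (a * b) = liftT a * liftT b := by
  rw [liftT_spec (mul_ne_zero (den_ne_zero a) (den_ne_zero b))
    (x := num a * num b) (by push_cast; rw [← mul_den a, ← mul_den b]; ring)]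
  simp only [liftT, ← IsLocalization.mk'_mul, map_mul]
  rfl

theorem lnorm_liftT_mul (hc0 : 0 < c) (hc1 : c < 1) (a : K) (q : Loc p K) :
    lnorm c (liftT a * q) = ‖a‖ * lnorm c q := by
  obtain ⟨x, t, rfl⟩ := IsLocalization.exists_mk'_eq (denoms p K) q
  simp only [liftT, ← IsLocalization.mk'_mul, lnorm_mk' hc0 hc1, Submonoid.coe_mul]
  rw [wnorm_teich_mul, wnorm_teich_mul]
  have hd : ‖den a‖ ≠ 0 := norm_ne_zero_iff.2 (den_ne_zero a)
  have : ‖a‖ * ‖den a‖ = ‖num a‖ := by rw [← norm_coe, ← norm_coe, ← norm_mul, mul_den]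
  rw [← this]
  field_simp

theorem lnorm_p_pow_mul (hc0 : 0 < c) (hc1 : c < 1) (m : ℕ) (q : Loc p K) :
    lnorm c ((p : Loc p K) ^ m * q) = c ^ m * lnorm c q := by
  have h := lnorm_denom_mul hc0 hc1
    (⟨(p : WittVector p (Ball K)) ^ m, m, 1, one_ne_zero, by simp⟩ : denoms p K) q
  have e : wnorm c ((p : WittVector p (Ball K)) ^ m) = c ^ m := by
    have := wnorm_mul_p_pow hc0 hc1 (1 : WittVector p (Ball K)) m
    rwa [one_mul, wnorm_one hc0 hc1, mul_one] at this
  simpa [e] using h

theorem ratHom_p_pow (m : ℕ) : ratHom p K ((p : ℚ) ^ m) = (p : Loc p K) ^ m := by simp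

theorem lnorm_zpow_mul (hc0 : 0 < c) (hc1 : c < 1) (k : ℤ) (q : Loc p K) :
    lnorm c (ratHom p K ((p : ℚ) ^ k) * q) = c ^ k * lnorm c q := by
  obtain ⟨m, rfl | rfl⟩ := k.eq_nat_or_neg
  · rw [zpow_natCast, zpow_natCast, ratHom_p_pow, lnorm_p_pow_mul hc0 hc1]
  · have hp : (p : ℚ) ^ m ≠ 0 := pow_ne_zero _ (Nat.cast_ne_zero.2 (Fact.out : p.Prime).ne_zero)
    have h := lnorm_p_pow_mul hc0 hc1 m (ratHom p K ((p : ℚ) ^ (-(m : ℤ))) * q)
    rw [← mul_assoc, ← ratHom_p_pow, ← map_mul, zpow_neg, zpow_natCast, mul_inv_cancel₀ hp,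
      map_one, one_mul] at h
    rw [zpow_neg, zpow_natCast, zpow_neg, zpow_natCast, h]
    field_simp

theorem lnorm_digits (hc0 : 0 < c) (hc1 : c < 1) (s : Finset ℤ) (a : ℤ → K) :
    ∀ k ∈ s, c ^ k * ‖a k‖ ≤
      lnorm c (∑ j ∈ s, ratHom p K ((p : ℚ) ^ j) * liftT (p := p) (a j)) := by
  classical
  intro k hk
  set N : ℕ := s.sup fun j => (-j).toNat with hN
  have hNj : ∀ j ∈ s, 0 ≤ j + N := fun j hj => by
    have : (-j).toNat ≤ N := Finset.le_sup (f := fun j : ℤ => (-j).toNat) hj
    omega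
  set e : Ball K := ∏ j ∈ s, den (a j) with he
  have he0 : e ≠ 0 := Finset.prod_ne_zero_iff.2 fun j _ => den_ne_zero _
  set b : ℕ → Ball K := fun i =>
    num (a ((i : ℤ) - N)) * ∏ j ∈ s.erase ((i : ℤ) - N), den (a j) with hb
  set idx : ℤ → ℕ := fun j => (j + N).toNat with hidx
  have hback : ∀ j ∈ s, ((idx j : ℕ) : ℤ) - N = j := fun j hj => by
    have := hNj j hj; simp only [hidx]; omega
  have hbj : ∀ j ∈ s, a j * (e : K) = (b (idx j) : K) := fun j hj => by
    simp only [hb, hback j hj, he, ← Finset.mul_prod_erase s _ hj, Subring.coe_mul]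
    rw [← mul_assoc, mul_den]
  set d : denoms p K :=
    ⟨teichmuller p e * (p : WittVector p (Ball K)) ^ N, N, e, he0, rfl⟩ with hd
  have hinj : Set.InjOn idx s := fun i hi j hj h => by rw [← hback i hi, ← hback j hj, h]
  have key : algebraMap _ (Loc p K) (d : WittVector p (Ball K)) *
      (∑ j ∈ s, ratHom p K ((p : ℚ) ^ j) * liftT (p := p) (a j)) =
      algebraMap _ (Loc p K) (series (p := p) (s.image idx) b) := by
    rw [series, Finset.sum_image hinj, map_sum, Finset.mul_sum]
    refine Finset.sum_congr rfl fun j hj => ?_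
    simp only [hd, map_mul, map_pow, map_natCast, ← liftT_ball, ← hbj j hj, liftT_mul]
    have e1 : ratHom p K ((p : ℚ) ^ j) * (p : Loc p K) ^ N = (p : Loc p K) ^ idx j := by
      rw [← ratHom_p_pow, ← ratHom_p_pow, ← map_mul, ← zpow_natCast, ← zpow_natCast,
        ← zpow_add₀ (Nat.cast_ne_zero.2 (Fact.out : p.Prime).ne_zero)]
      congr 2
      have := hNj j hj
      simp only [hidx]; omega
    rw [← e1]; ring
  have h1 : c ^ idx k * ‖b (idx k)‖ ≤ wnorm c (series (p := p) (s.image idx) b) := by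
    have := le_wnorm hc0 hc1 (series (p := p) (s.image idx) b) (idx k)
    rwa [digit_series, if_pos (Finset.mem_image_of_mem idx hk)] at this
  have h2 := congrArg (lnorm c) key
  rw [lnorm_denom_mul hc0 hc1, lnorm_algebraMap hc0 hc1] at h2
  rw [← h2] at h1
  have h3 : wnorm c (d : WittVector p (Ball K)) = c ^ N * ‖e‖ := by
    simp only [hd, wnorm_mul_p_pow hc0 hc1, wnorm_teich hc0 hc1]
  have h4 : c ^ idx k * ‖b (idx k)‖ = (c ^ N * ‖e‖) * (c ^ k * ‖a k‖) := by
    rw [← norm_coe (b (idx k)), ← hbj k hk, norm_mul, norm_coe, ← zpow_natCast, ← zpow_natCast]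
    have e2 : (idx k : ℤ) = (N : ℤ) + k := by
      have := hNj k hk; simp only [hidx]; omega
    rw [e2, zpow_add₀ hc0.ne']; ring
  rw [h3, h4] at h1
  exact le_of_mul_le_mul_left h1 (mul_pos (pow_pos hc0 N) (norm_pos_iff.2 he0))

theorem lnorm_T_add (hc0 : 0 < c) (hc1 : c < 1) (a b : K) :
    lnorm c (liftT (p := p) (a + b) - liftT a - liftT b) ≤ c * max ‖a‖ ‖b‖ := by
  wlog h : ‖b‖ ≤ ‖a‖ generalizing a b
  · rw [add_comm a b, max_comm, sub_right_comm]
    exact this b a (not_le.1 h).le
  rcases eq_or_ne a 0 with rfl | ha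
  · have hb : b = 0 := norm_le_zero_iff.1 (by simpa using h)
    have h0 : liftT (p := p) (0 : K) = 0 := by
      simpa using liftT_ball (p := p) (0 : Ball K)
    subst hb
    rw [add_zero, h0, sub_zero, sub_zero,
      ← map_zero (algebraMap (WittVector p (Ball K)) (Loc p K)), lnorm_algebraMap hc0 hc1,
      wnorm_zero]
    positivity
  · set r : Ball K := ⟨b / a, by
      rw [mem_Ball, norm_div]; exact div_le_one_of_le₀ h (norm_nonneg _)⟩ with hr
    have e1 : a + b = a * ((1 + r : Ball K) : K) := by simp [hr]; field_simp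
    have e2 : b = a * (r : K) := by simp [hr]; field_simp
    have e3 : liftT (p := p) (a + b) - liftT a - liftT b = liftT a *
        algebraMap _ (Loc p K) (teichmuller p (1 + r) - 1 - teichmuller p r) := by
      conv_lhs => rw [e1, e2, liftT_mul, liftT_mul, liftT_ball, liftT_ball]
      simp only [map_sub, map_one]; ring
    rw [e3, lnorm_liftT_mul hc0 hc1, lnorm_algebraMap hc0 hc1, mul_comm c, max_eq_left h]
    refine mul_le_mul_of_nonneg_left (wnorm_le_of_digit_zero hc0 hc1 ?_) (norm_nonneg a)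
    rw [digit_eq_iff, pow_zero, pow_one, ← constantCoeff_apply, map_sub, map_sub, map_one]
    simp

end GaussWitt

open GaussWitt

variable (p : ℕ) [Fact p.Prime]

open UniformSpace in
/-- Such rings exist for every `c`. -/
theorem exists_gaussData (K : Type) [NontriviallyNormedField K] [IsUltrametricDist K]
    [CompleteSpace K] [CharP K p] [PerfectRing K p] {c : ℝ} (hc0 : 0 < c) (hc1 : c < 1) :
    ∃ (B : Type) (i1 : NormedCommRing B) (_ : @Algebra ℚ B _ i1.toCommRing.toSemiring),
      Nonempty (GaussData p K B c) := by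
  let _ : NormedCommRing (Loc p K) :=
    { (locNorm (p := p) (K := K) hc0 hc1).toNormedRing, (inferInstance : CommRing (Loc p K)) with }
  have hnorm : ∀ q : Loc p K, ‖q‖ = lnorm c q := fun _ => rfl
  let _ : Algebra ℚ (Completion (Loc p K)) :=
    (Completion.coeRingHom.comp (ratHom p K)).toAlgebra
  have hmap : ∀ r : ℚ, algebraMap ℚ (Completion (Loc p K)) r =
      ((ratHom p K r : Loc p K) : Completion (Loc p K)) := fun _ => rfl
  have hscale : ∀ (s : Loc p K) (t : ℝ), (∀ q, ‖s * q‖ = t * ‖q‖) →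
      ∀ x : Completion (Loc p K), ‖(s : Completion (Loc p K)) * x‖ = t * ‖x‖ := by
    intro s t h x
    induction x using Completion.induction_on with
    | hp => exact isClosed_eq (by fun_prop) (by fun_prop)
    | ih q => rw [← Completion.coe_mul, Completion.norm_coe, Completion.norm_coe, h]
  refine ⟨Completion (Loc p K), inferInstance, inferInstance, ⟨?_⟩⟩
  refine
    { W := Completion.coeRingHom.comp (algebraMap _ (Loc p K))
      T :=
        { toFun := fun a => ((liftT a : Loc p K) : Completion (Loc p K))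
          map_one' := ?_
          map_mul' := fun a b => by rw [liftT_mul, Completion.coe_mul] }
      ultra := ?_
      complete := inferInstance
      c_pos := hc0
      c_lt := hc1
      T_zero := ?_
      W_teich := ?_
      norm_W_le := ?_
      norm_T_mul := fun a => hscale _ _ fun q => lnorm_liftT_mul hc0 hc1 a q
      norm_one := ?_
      norm_zpow_mul := fun k => hscale _ _ fun q => lnorm_zpow_mul hc0 hc1 k q
      norm_digits := ?_
      T_add := ?_ }
  · have := liftT_ball (p := p) (1 : Ball K)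
    simp only [map_one] at this
    rw [show (1 : K) = ((1 : Ball K) : K) from rfl, this, Completion.coe_one]
  · refine IsUltrametricDist.isUltrametricDist_of_forall_norm_add_le_max_norm fun x y => ?_
    induction x, y using Completion.induction_on₂ with
    | hp => exact isClosed_le (by fun_prop) (by fun_prop)
    | ih q r =>
      rw [← Completion.coe_add, Completion.norm_coe, Completion.norm_coe, Completion.norm_coe]
      exact lnorm_add_le hc0 hc1 q r
  · show ((liftT (0 : K) : Loc p K) : Completion (Loc p K)) = 0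
    rw [show (0 : K) = ((0 : Ball K) : K) from rfl, liftT_ball, WittVector.teichmuller_zero,
      map_zero, Completion.coe_zero]
  · intro a
    show ((algebraMap _ (Loc p K) (WittVector.teichmuller p a) : Loc p K) :
      Completion (Loc p K)) = ((liftT (a : K) : Loc p K) : Completion (Loc p K))
    rw [liftT_ball]
  · intro x
    show ‖((algebraMap _ (Loc p K) x : Loc p K) : Completion (Loc p K))‖ ≤ 1
    rw [Completion.norm_coe, hnorm, lnorm_algebraMap hc0 hc1]
    exact wnorm_le_one hc0 hc1 x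
  · rw [← Completion.coe_one, Completion.norm_coe, hnorm,
      ← map_one (algebraMap (WittVector p (Ball K)) (Loc p K)), lnorm_algebraMap hc0 hc1,
      wnorm_one hc0 hc1]
  · intro s a k hk
    have e : ∑ j ∈ s, algebraMap ℚ (Completion (Loc p K)) ((p : ℚ) ^ j) *
        ((liftT (a j) : Loc p K) : Completion (Loc p K)) =
        ((∑ j ∈ s, ratHom p K ((p : ℚ) ^ j) * liftT (p := p) (a j) : Loc p K) : Completion (Loc p K)) := by
      simp only [hmap, ← Completion.coe_mul]
      exact (map_sum Completion.coeRingHom _ _).symm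
    show c ^ k * ‖a k‖ ≤ ‖∑ j ∈ s, algebraMap ℚ (Completion (Loc p K)) ((p : ℚ) ^ j) *
      ((liftT (a j) : Loc p K) : Completion (Loc p K))‖
    rw [e, Completion.norm_coe, hnorm]
    exact lnorm_digits hc0 hc1 s a k hk
  · intro a b
    show ‖((liftT (a + b) : Loc p K) : Completion (Loc p K)) - (liftT a : Loc p K) -
      (liftT b : Loc p K)‖ ≤ c * max ‖a‖ ‖b‖
    rw [← Completion.coe_sub, ← Completion.coe_sub, Completion.norm_coe, hnorm]
    exact lnorm_T_add hc0 hc1 a b

end Vale.P217

end
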