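import Vale.Agent.P217.GaussForm

/-!
Reduction of `GaussData` modulo the ball of radius `c`, and the expansion of the logarithm of a
lifted homomorphism.
-/

noncomputable section

set_option linter.unusedSectionVars false

namespace Vale.P217.Gs

open MvPowerSeries

variable {p : ℕ} [Fact p.Prime] {K : Type*} [NontriviallyNormedField K] [IsUltrametricDist K]
  [CompleteSpace K] [CharP K p] [PerfectRing K p] {B : Type} [NormedCommRing B]
  [IsUltrametricDist B] [NormOneClass B] [Algebra ℚ B] [CompleteSpace B] {c : ℝ} (D : GaussData p K B c)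

theorem scaleP (D : GaussData p K B c) : ScaleP B p c := ⟨D.c_pos, D.c_lt, D.norm_zpow_mul⟩

theorem norm_T (a : K) : ‖D.T a‖ = ‖a‖ := by
  have := D.norm_T_mul a 1
  rwa [mul_one, norm_one, mul_one] at this

/-- The Teichmüller lift into the unit ball. -/
def tB (a : Ball K) : UB B := ⟨D.T (a : K), by
  show ‖D.T (a : K)‖ ≤ 1
  rw [norm_T D]; exact a.2⟩

@[simp]
theorem coe_tB (a : Ball K) : (tB D a : B) = D.T (a : K) := rfl

theorem norm_tB (a : Ball K) : ‖tB D a‖ = ‖a‖ := norm_T D (a : K)

/-- The ball of radius `c`. -/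
abbrev Jc : Ideal (UB B) := ballIdeal c D.c_pos.le

/-- Reduction modulo the ball of radius `c`. -/
abbrev red : UB B →+* UB B ⧸ Jc D := Ideal.Quotient.mk _

theorem red_eq_iff {a b : UB B} : red D a = red D b ↔ ‖(a : B) - (b : B)‖ ≤ c :=
  (Ideal.Quotient.mk_eq_mk_iff_sub_mem a b).trans Iff.rfl

theorem red_tB_add (a b : Ball K) : red D (tB D (a + b)) = red D (tB D a) + red D (tB D b) := by
  rw [← map_add, red_eq_iff]
  have h := D.T_add (a : K) (b : K)
  have hm : max ‖(a : K)‖ ‖(b : K)‖ ≤ 1 := max_le a.2 b.2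
  have e : (tB D (a + b) : B) - ((tB D a + tB D b : UB B) : B) =
      D.T ((a : K) + b) - D.T (a : K) - D.T (b : K) := by simp [sub_sub]
  rw [e]
  exact h.trans (mul_le_of_le_one_right D.c_pos.le hm)

/-- The Teichmüller lift modulo `c` is a ring homomorphism. -/
def tau : Ball K →+* UB B ⧸ Jc D where
  toFun a := red D (tB D a)
  map_one' := by
    have : tB D 1 = 1 := Subtype.ext (map_one D.T)
    simp [this]
  map_zero' := by
    have : tB D 0 = 0 := Subtype.ext D.T_zero
    simp [this]
  map_mul' a b := by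
    have : tB D (a * b) = tB D a * tB D b := Subtype.ext (map_mul D.T (a : K) (b : K))
    simp [this]
  map_add' := red_tB_add D

theorem tau_apply (a : Ball K) : tau D a = red D (tB D a) := rfl

theorem bdd_sub_of_red {σ : Type*} {P Q : MvPowerSeries σ (UB B)}
    (h : MvPowerSeries.map (red D) P = MvPowerSeries.map (red D) Q) :
    Bdd (MvPowerSeries.map inc P - MvPowerSeries.map inc Q) c := fun d => by
  have := congrArg (MvPowerSeries.coeff d) h
  simp only [coeff_map] at this
  rw [map_sub, coeff_map, coeff_map]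
  exact (red_eq_iff D).1 this

theorem red_natCast_p : red D (p : UB B) = 0 := by
  rw [Ideal.Quotient.eq_zero_iff_mem]
  show ‖((p : UB B) : B)‖ ≤ c
  rw [show ((p : UB B) : B) = (p : B) from map_natCast (inc (B := B)) p]
  exact (scaleP D).norm_p.le

theorem charP_quot : CharP (UB B ⧸ Jc D) p := by
  have : Nontrivial (UB B ⧸ Jc D) := by
    refine Ideal.Quotient.nontrivial_iff.2 ?_
    intro h
    have : ‖((1 : UB B) : B)‖ ≤ c := (Ideal.eq_top_iff_one _).1 h
    simp at this
    exact absurd this (not_le.2 D.c_lt)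
  refine (CharP.charP_iff_prime_eq_zero Fact.out).2 ?_
  rw [← map_natCast (red D), red_natCast_p]

section Expansion

variable {n h : ℕ} (u : Fin (n - 1) → Ball K) (Ψ : PowerSeries (Ball K))

/-- The lifted parameters. -/
def liftU : Fin (n - 1) → UB B := fun i => tB D (u i)

/-- The parameters twisted by the `k`-th Frobenius. -/
def twistU (k : ℕ) : Fin (n - 1) → UB B := fun i => liftU D u i ^ p ^ k

/-- The coefficientwise lift of a series. -/
def liftS : PowerSeries (UB B) := PowerSeries.mk fun d => tB D (PowerSeries.coeff d Ψ)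

theorem constantCoeff_liftS (h0 : PowerSeries.constantCoeff Ψ = 0) :
    PowerSeries.constantCoeff (liftS D Ψ) = 0 := by
  rw [← PowerSeries.coeff_zero_eq_constantCoeff, liftS, PowerSeries.coeff_mk,
    PowerSeries.coeff_zero_eq_constantCoeff, h0]
  exact Subtype.ext D.T_zero

theorem map_red_liftS : PowerSeries.map (red D) (liftS D Ψ) = PowerSeries.map (tau D) Ψ := by
  ext d; simp [liftS, tau_apply]

theorem map_red_fg :
    (fg p n (liftU D u)).map (red D) = (fg p n u).map (tau D) := by
  rw [fg_map, fg_map]; rfl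

/-- The logarithm of the lifted homomorphism. -/
def logHom (h : ℕ) : PowerSeries B :=
  PowerSeries.subst (MvPowerSeries.map inc (liftS D Ψ : MvPowerSeries Unit (UB B)))
    (logSeries p h (0 : Fin (h - 1) → B))

/-- The twisted logarithms. -/
def logTw (k : ℕ) : PowerSeries B :=
  PowerSeries.subst (PowerSeries.X ^ p ^ k) (logSeries p n (inc ∘ twistU D u k))

/-- Defect of additivity for the lifted law. -/
def addDefect (f : PowerSeries B) : MvPowerSeries (Fin 2) B :=
  PowerSeries.subst (MvPowerSeries.map inc (fg p n (liftU D u)).toPowerSeries) f -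
    PowerSeries.subst (MvPowerSeries.X (0 : Fin 2)) f -
      PowerSeries.subst (MvPowerSeries.X (1 : Fin 2)) f

/-- Substitution into a substituted series. -/
theorem subst_psubst {R : Type*} [CommRing R] {σ τ : Type*} {a : MvPowerSeries σ R}
    (ha : PowerSeries.HasSubst a) {b : σ → MvPowerSeries τ R} (hb : MvPowerSeries.HasSubst b)
    (f : PowerSeries R) :
    MvPowerSeries.subst b (PowerSeries.subst a f) =
      PowerSeries.subst (MvPowerSeries.subst b a) f :=
  MvPowerSeries.subst_comp_subst_apply ha.const hb f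

/-- Composition of substitutions of one variable. -/
theorem psubst_psubst {R : Type*} [CommRing R] {τ : Type*} {a : PowerSeries R}
    (ha : PowerSeries.HasSubst (a : MvPowerSeries Unit R)) {b : MvPowerSeries τ R}
    (hb : PowerSeries.HasSubst b) (f : PowerSeries R) :
    PowerSeries.subst b (PowerSeries.subst (a : MvPowerSeries Unit R) f) =
      PowerSeries.subst (PowerSeries.subst b a) f :=
  MvPowerSeries.subst_comp_subst_apply ha.const hb.const f

/-- The logarithm turns the law into addition, at any pair of series. -/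
theorem log_pair {m : ℕ} (U : Fin (m - 1) → UB B) {σ : Type*} [Finite σ]
    (a : Fin 2 → MvPowerSeries σ (UB B)) (ha : ∀ i, MvPowerSeries.constantCoeff (a i) = 0) :
    PowerSeries.subst
        (MvPowerSeries.map inc (MvPowerSeries.subst a (fg p m U).toPowerSeries))
        (logSeries p m (inc ∘ U)) =
      PowerSeries.subst (MvPowerSeries.map inc (a 0)) (logSeries p m (inc ∘ U)) +
        PowerSeries.subst (MvPowerSeries.map inc (a 1)) (logSeries p m (inc ∘ U)) := by
  have hs : MvPowerSeries.HasSubst a := MvPowerSeries.hasSubst_of_constantCoeff_zero ha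
  have hs' : MvPowerSeries.HasSubst fun i => MvPowerSeries.map inc (a i) :=
    MvPowerSeries.hasSubst_of_constantCoeff_zero fun i => by rw [constantCoeff_map, ha, map_zero]
  have hF : PowerSeries.HasSubst (fg p m (inc ∘ U)).toPowerSeries :=
    PowerSeries.HasSubst.of_constantCoeff_zero (fg p m (inc ∘ U)).zero_constantCoeff
  have key := congrArg (MvPowerSeries.subst fun i => MvPowerSeries.map inc (a i))
    (log_fg p m (inc ∘ U))
  rw [MvPowerSeries.subst_add hs', subst_psubst hF hs',
    subst_psubst (PowerSeries.HasSubst.X _) hs',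
    subst_psubst (PowerSeries.HasSubst.X _) hs',
    MvPowerSeries.subst_X hs', MvPowerSeries.subst_X hs'] at key
  rw [MvPowerSeries.map_subst hs]
  rw [← fg_map p m inc U] at key
  exact key

theorem addDefect_logHom (hΨ : IsHomSeries (fg p n u) (fg p h (0 : Fin (h - 1) → Ball K)) Ψ) :
    Bdd (addDefect D u (logHom D Ψ h)) c := by
  set F : MvPowerSeries (Fin 2) (UB B) := (fg p n (liftU D u)).toPowerSeries with hF
  have hF0 : MvPowerSeries.constantCoeff F = 0 := (fg p n (liftU D u)).zero_constantCoeff
  set a : Fin 2 → MvPowerSeries (Fin 2) (UB B) := fun i =>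
    PowerSeries.subst (MvPowerSeries.X i) (liftS D Ψ) with ha
  have h0 := constantCoeff_liftS D Ψ hΨ.1
  have ha0 : ∀ i, MvPowerSeries.constantCoeff (a i) = 0 := fun i =>
    PowerSeries.constantCoeff_subst_eq_zero (by simp) _ h0
  have hsF : PowerSeries.HasSubst F := PowerSeries.HasSubst.of_constantCoeff_zero hF0
  have hsM : PowerSeries.HasSubst (MvPowerSeries.map inc (liftS D Ψ : MvPowerSeries Unit (UB B))) :=
    PowerSeries.HasSubst.of_constantCoeff_zero (by
      rw [constantCoeff_map]
      show inc (PowerSeries.constantCoeff (liftS D Ψ)) = 0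
      rw [h0, map_zero])
  have hcomp : ∀ (G : MvPowerSeries (Fin 2) (UB B)), MvPowerSeries.constantCoeff G = 0 →
      PowerSeries.subst (MvPowerSeries.map inc G) (logHom D Ψ h) =
        PowerSeries.subst (MvPowerSeries.map inc (PowerSeries.subst G (liftS D Ψ)))
          (logSeries p h (0 : Fin (h - 1) → B)) := by
    intro G hG
    have hG' : PowerSeries.HasSubst (MvPowerSeries.map inc G) :=
      PowerSeries.HasSubst.of_constantCoeff_zero (by rw [constantCoeff_map, hG, map_zero])
    rw [logHom, psubst_psubst hsM hG',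
      PowerSeries.map_subst (PowerSeries.HasSubst.of_constantCoeff_zero hG)]
    rfl
  have hX : ∀ i : Fin 2, PowerSeries.subst (MvPowerSeries.X i) (logHom D Ψ h) =
      PowerSeries.subst (MvPowerSeries.map inc (a i)) (logSeries p h (0 : Fin (h - 1) → B)) := by
    intro i
    have := hcomp (MvPowerSeries.X i) (by simp)
    rwa [MvPowerSeries.map_X] at this
  have hzero : (inc ∘ (0 : Fin (h - 1) → UB B)) = (0 : Fin (h - 1) → B) := by ext i; simp
  have hpair := log_pair (p := p) (0 : Fin (h - 1) → UB B) a ha0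
  rw [hzero] at hpair
  rw [addDefect, hcomp F hF0, hX, hX, sub_sub, ← hpair]
  refine log_congr (scaleP D) _ (fun i => by simp)
    (PowerSeries.constantCoeff_subst_eq_zero hF0 _ h0)
    (MvPowerSeries.constantCoeff_subst_eq_zero (MvPowerSeries.hasSubst_of_constantCoeff_zero ha0)
      ha0 (fg p h (0 : Fin (h - 1) → UB B)).zero_constantCoeff)
    (bdd_sub_of_red D ?_)
  rw [PowerSeries.map_subst hsF, MvPowerSeries.map_subst
    (MvPowerSeries.hasSubst_of_constantCoeff_zero ha0)]
  have e1 : MvPowerSeries.map (red D) F =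
      MvPowerSeries.map (tau D) (fg p n u).toPowerSeries := by
    have := congrArg FormalGroup.toPowerSeries (map_red_fg D u)
    exact this
  have e2 : MvPowerSeries.map (red D) (fg p h (0 : Fin (h - 1) → UB B)).toPowerSeries =
      MvPowerSeries.map (tau D) (fg p h (0 : Fin (h - 1) → Ball K)).toPowerSeries := by
    have : (fg p h (0 : Fin (h - 1) → UB B)).map (red D) =
        (fg p h (0 : Fin (h - 1) → Ball K)).map (tau D) := by
      rw [fg_map, fg_map]; congr 1; ext i; simp
    exact congrArg FormalGroup.toPowerSeries this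
  have hh2 := congrArg (MvPowerSeries.map (tau D)) hΨ.2
  rw [PowerSeries.map_subst
      (PowerSeries.HasSubst.of_constantCoeff_zero (fg p n u).zero_constantCoeff),
    MvPowerSeries.map_subst (MvPowerSeries.hasSubst_of_constantCoeff_zero fun i => by
      fin_cases i <;> exact PowerSeries.constantCoeff_subst_eq_zero (by simp) _ hΨ.1)] at hh2
  rw [map_red_liftS, e1, e2, hh2]
  congr 1
  funext i
  fin_cases i <;>
    simp [ha, PowerSeries.map_subst (PowerSeries.HasSubst.X _), map_red_liftS]

theorem addDefect_logTw (k : ℕ) : Bdd (addDefect D u (logTw D u k)) c := by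
  set F : MvPowerSeries (Fin 2) (UB B) := (fg p n (liftU D u)).toPowerSeries with hF
  have hq : p ^ k ≠ 0 := pow_ne_zero k (Fact.out : p.Prime).ne_zero
  have hF0 : MvPowerSeries.constantCoeff F = 0 := (fg p n (liftU D u)).zero_constantCoeff
  set a : Fin 2 → MvPowerSeries (Fin 2) (UB B) := fun i => MvPowerSeries.X i ^ p ^ k with ha
  have ha0 : ∀ i, MvPowerSeries.constantCoeff (a i) = 0 := fun i => by simp [ha, zero_pow hq]
  have hcomp : ∀ (G : MvPowerSeries (Fin 2) (UB B)), MvPowerSeries.constantCoeff G = 0 →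
      PowerSeries.subst (MvPowerSeries.map inc G) (logTw D u k) =
        PowerSeries.subst (MvPowerSeries.map inc (G ^ p ^ k))
          (logSeries p n (inc ∘ twistU D u k)) := by
    intro G hG
    have hG' : PowerSeries.HasSubst (MvPowerSeries.map inc G) :=
      PowerSeries.HasSubst.of_constantCoeff_zero (by rw [constantCoeff_map, hG, map_zero])
    rw [logTw, psubst_psubst (PowerSeries.HasSubst.X_pow hq) hG']
    congr 1
    rw [map_pow, PowerSeries.subst_pow hG', PowerSeries.subst_X hG']
  have hX : ∀ i : Fin 2, PowerSeries.subst (MvPowerSeries.X i) (logTw D u k) =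
      PowerSeries.subst (MvPowerSeries.map inc (a i)) (logSeries p n (inc ∘ twistU D u k)) := by
    intro i
    have := hcomp (MvPowerSeries.X i) (by simp)
    rwa [MvPowerSeries.map_X] at this
  rw [addDefect, hcomp F hF0, hX, hX, sub_sub, ← log_pair (p := p) (twistU D u k) a ha0]
  refine log_congr (scaleP D) _ (fun i => (twistU D u k i).2)
    (by rw [map_pow, hF0, zero_pow hq])
    (MvPowerSeries.constantCoeff_subst_eq_zero (MvPowerSeries.hasSubst_of_constantCoeff_zero ha0)
      ha0 (fg p n (twistU D u k)).zero_constantCoeff)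
    (bdd_sub_of_red D ?_)
  have := charP_quot D
  have : ExpChar (UB B ⧸ Jc D) p := ExpChar.prime Fact.out
  rw [map_pow, MvPowerSeries.map_subst (MvPowerSeries.hasSubst_of_constantCoeff_zero ha0),
    ← MvPowerSeries.map_iterateFrobenius_expand p (Fact.out : p.Prime).ne_zero
      (MvPowerSeries.map (red D) F) k, MvPowerSeries.map_expand]
  have e1 : MvPowerSeries.map (iterateFrobenius (UB B ⧸ Jc D) p k)
      (MvPowerSeries.map (red D) F) =
      MvPowerSeries.map (red D) (fg p n (twistU D u k)).toPowerSeries := by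
    have : ((fg p n (liftU D u)).map (red D)).map (iterateFrobenius (UB B ⧸ Jc D) p k) =
        (fg p n (twistU D u k)).map (red D) := by
      rw [fg_map, fg_map, fg_map]; congr 1
    exact congrArg FormalGroup.toPowerSeries this
  rw [e1, MvPowerSeries.expand, MvPowerSeries.coe_substAlgHom]
  congr 1
  funext i
  simp [ha]

theorem coeff_addDefect (f : PowerSeries B) {N i : ℕ} (hi : 0 < i) (hiN : i < N) :
    ‖PowerSeries.coeff N f * (Nat.choose N i : B)‖ ≤ max
      ‖MvPowerSeries.coeff (Finsupp.single 0 i + Finsupp.single 1 (N - i)) (addDefect D u f)‖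
      (⨆ e : Fin N, ‖PowerSeries.coeff (e : ℕ) f‖) := by
  set F : MvPowerSeries (Fin 2) (UB B) := (fg p n (liftU D u)).toPowerSeries with hF
  set d : Fin 2 →₀ ℕ := Finsupp.single 0 i + Finsupp.single 1 (N - i) with hd
  have hdeg : d.degree = N := by
    rw [hd, map_add, Finsupp.degree_single, Finsupp.degree_single]; omega
  have hF0 : MvPowerSeries.constantCoeff F = 0 := (fg p n (liftU D u)).zero_constantCoeff
  have hs : PowerSeries.HasSubst (MvPowerSeries.map inc F) :=
    PowerSeries.HasSubst.of_constantCoeff_zero (by rw [constantCoeff_map, hF0, map_zero])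
  have hpure : ∀ t : Fin 2, MvPowerSeries.coeff d
      (PowerSeries.subst (MvPowerSeries.X t : MvPowerSeries (Fin 2) B) f) = 0 := by
    intro t
    rw [PowerSeries.coeff_subst (PowerSeries.HasSubst.X t)]
    refine finsum_eq_zero_of_forall_eq_zero fun e => ?_
    rw [MvPowerSeries.coeff_X_pow, if_neg, smul_zero]
    intro h
    fin_cases t
    · have := DFunLike.congr_fun h 1
      simp [hd] at this; omega
    · have := DFunLike.congr_fun h 0
      simp [hd] at this; omega
  set term : ℕ → B := fun e =>
    PowerSeries.coeff e f * MvPowerSeries.coeff d (MvPowerSeries.map inc F ^ e) with hterm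
  have hsum : MvPowerSeries.coeff d (addDefect D u f) = ∑ e ∈ Finset.range (N + 1), term e := by
    rw [addDefect, map_sub, map_sub, hpure, hpure, sub_zero, sub_zero,
      PowerSeries.coeff_subst hs]
    simp only [smul_eq_mul]
    refine finsum_eq_sum_of_support_subset _ fun e he => ?_
    simp only [Finset.coe_range, Set.mem_Iio]
    by_contra hne
    refine he ?_
    simp only
    rw [← map_pow, coeff_map, coeff_pow_eq_zero hF0 (by omega), map_zero, mul_zero]
  rw [Finset.sum_range_succ] at hsum
  have hlast : term N = PowerSeries.coeff N f * (Nat.choose N i : B) := by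
    simp only [hterm]
    rw [← map_pow, coeff_map, hd, coeff_pow_of_linear hF0
      (by rw [hF]; exact (fg p n (liftU D u)).lin_coeff_X)
      (by rw [hF]; exact (fg p n (liftU D u)).lin_coeff_Y) hiN.le, map_natCast]
  have e : PowerSeries.coeff N f * (Nat.choose N i : B) =
      MvPowerSeries.coeff d (addDefect D u f) - ∑ e ∈ Finset.range N, term e := by
    rw [← hlast, hsum]; ring
  rw [e, sub_eq_add_neg]
  refine (IsUltrametricDist.norm_add_le_max _ _).trans (max_le_max le_rfl ?_)
  rw [norm_neg]
  refine IsUltrametricDist.norm_sum_le_of_forall_le_of_nonneg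
    (Real.iSup_nonneg fun e => norm_nonneg _) fun e he => ?_
  refine (norm_mul_le _ _).trans (le_trans (mul_le_of_le_one_right (norm_nonneg _) ?_)
    (le_ciSup (f := fun e : Fin N => ‖PowerSeries.coeff (e : ℕ) f‖)
      (Set.finite_range _).bddAbove ⟨e, Finset.mem_range.1 he⟩))
  rw [← map_pow, coeff_map]
  exact (MvPowerSeries.coeff d (F ^ e)).2

theorem addDefect_sub (f g : PowerSeries B) :
    addDefect D u (f - g) = addDefect D u f - addDefect D u g := by
  have hs : PowerSeries.HasSubst (MvPowerSeries.map inc (fg p n (liftU D u)).toPowerSeries) :=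
    PowerSeries.HasSubst.of_constantCoeff_zero (by
      rw [constantCoeff_map, (fg p n (liftU D u)).zero_constantCoeff, map_zero])
  simp only [addDefect, PowerSeries.subst_sub hs,
    PowerSeries.subst_sub (PowerSeries.HasSubst.X _)]
  abel

theorem addDefect_C_mul (b : B) (f : PowerSeries B) :
    addDefect D u (PowerSeries.C b * f) = MvPowerSeries.C b * addDefect D u f := by
  have hs : PowerSeries.HasSubst (MvPowerSeries.map inc (fg p n (liftU D u)).toPowerSeries) :=
    PowerSeries.HasSubst.of_constantCoeff_zero (by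
      rw [constantCoeff_map, (fg p n (liftU D u)).zero_constantCoeff, map_zero])
  simp only [addDefect, PowerSeries.subst_mul hs, PowerSeries.subst_C,
    PowerSeries.subst_mul (PowerSeries.HasSubst.X _)]
  ring

theorem coeff_logTw_pow {k K : ℕ} (h : k ≤ K) :
    PowerSeries.coeff (p ^ K) (logTw D u k) = cLog p n (inc ∘ twistU D u k) (K - k) := by
  have hp : p.Prime := Fact.out
  rw [logTw, PowerSeries.coeff_subst_X_pow (pow_ne_zero k hp.ne_zero), if_pos (pow_dvd_pow p h),
    Nat.pow_div h hp.pos, coeff_logSeries_pow]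
  rfl

theorem coeff_logTw_pow_lt {k K : ℕ} (h : K < k) :
    PowerSeries.coeff (p ^ K) (logTw D u k) = 0 := by
  have hp : p.Prime := Fact.out
  rw [logTw, PowerSeries.coeff_subst_X_pow (pow_ne_zero k hp.ne_zero), if_neg]
  intro hd
  exact absurd ((Nat.pow_dvd_pow_iff_le_right hp.one_lt).1 hd) (not_le.2 h)

theorem coeff_logTw_eq_zero {k e : ℕ} (he : ∀ K, e ≠ p ^ K) :
    PowerSeries.coeff e (logTw D u k) = 0 := by
  have hp : p.Prime := Fact.out
  rw [logTw, PowerSeries.coeff_subst_X_pow (pow_ne_zero k hp.ne_zero)]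
  split_ifs with hd
  · rw [coeff_logSeries_eq_zero, map_zero]
    intro K hK
    refine he (k + K) ?_
    rw [pow_add, ← hK, Nat.mul_div_cancel' hd]
  · rfl

theorem constantCoeff_logHom (h0 : PowerSeries.constantCoeff Ψ = 0) :
    PowerSeries.coeff 0 (logHom D Ψ h) = 0 := by
  have hp : p.Prime := Fact.out
  rw [PowerSeries.coeff_zero_eq_constantCoeff]
  refine PowerSeries.constantCoeff_subst_eq_zero ?_ _ ?_
  · rw [constantCoeff_map]
    show inc (PowerSeries.constantCoeff (liftS D Ψ)) = 0
    rw [constantCoeff_liftS D Ψ h0, map_zero]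
  · rw [← PowerSeries.coeff_zero_eq_constantCoeff, coeff_logSeries_eq_zero]
    exact fun K => (pow_ne_zero K hp.ne_zero).symm

theorem growth_logHom (h0 : PowerSeries.constantCoeff Ψ = 0) :
    Growth p c (logHom D Ψ h) 1 :=
  Growth.subst D.c_pos D.c_lt zero_le_one
    (growth_logSeries (scaleP D) (0 : Fin (h - 1) → B) fun i => by simp)
    (show MvPowerSeries.constantCoeff (liftS D Ψ : MvPowerSeries Unit (UB B)) = 0 from
      constantCoeff_liftS D Ψ h0)

/-- The coefficient of `X ^ (p ^ K)`. -/
def eCoef (h K : ℕ) : B := PowerSeries.coeff (p ^ K) (logHom D Ψ h)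

/-- The coordinates of the logarithm in the twisted logarithms. -/
def delta (h : ℕ) : ℕ → B
  | K => eCoef D Ψ h K - ∑ j : Fin K, delta h j * cLog p n (inc ∘ twistU D u j) (K - j)
termination_by K => K
decreasing_by exact j.2

theorem eCoef_eq (K : ℕ) : eCoef D Ψ h K =
    ∑ j ∈ Finset.range (K + 1), delta D u Ψ h j * cLog p n (inc ∘ twistU D u j) (K - j) := by
  rw [Finset.sum_range_succ, Nat.sub_self, ← Fin.sum_univ_eq_sum_range
    (fun j => delta D u Ψ h j * cLog p n (inc ∘ twistU D u j) (K - j)) K]
  conv_rhs => arg 2; rw [delta]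
  simp [cLog]

/-- The logarithm minus its first twisted components. -/
def rest (h : ℕ) : ℕ → PowerSeries B
  | 0 => logHom D Ψ h
  | N + 1 => rest h N - PowerSeries.C (delta D u Ψ h N) * logTw D u N

theorem coeff_rest_eq_zero_sub (N e : ℕ) :
    PowerSeries.coeff e (rest D u Ψ h N) = PowerSeries.coeff e (logHom D Ψ h) -
      ∑ j ∈ Finset.range N, delta D u Ψ h j * PowerSeries.coeff e (logTw D u j) := by
  induction N with
  | zero => simp [rest]
  | succ N ih =>
    rw [rest, map_sub, ih, PowerSeries.coeff_C_mul, Finset.sum_range_succ]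
    ring

theorem coeff_rest_pow {N K : ℕ} (hK : K < N) :
    PowerSeries.coeff (p ^ K) (rest D u Ψ h N) = 0 := by
  rw [coeff_rest_eq_zero_sub, sub_eq_zero]
  refine (eCoef_eq D u Ψ K).trans ?_
  rw [← Finset.sum_subset (Finset.range_mono (show K + 1 ≤ N by omega))]
  · refine Finset.sum_congr rfl fun j hj => ?_
    rw [coeff_logTw_pow D u (by simpa [Nat.lt_succ_iff] using hj)]
  · intro j _ hj
    rw [coeff_logTw_pow_lt D u (by simpa [Nat.lt_succ_iff] using hj), mul_zero]

theorem coeff_rest_pow_self (M : ℕ) :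
    PowerSeries.coeff (p ^ M) (rest D u Ψ h M) = delta D u Ψ h M := by
  rw [coeff_rest_eq_zero_sub, ← Fin.sum_univ_eq_sum_range]
  conv_rhs => rw [delta]
  congr 1
  exact Finset.sum_congr rfl fun j _ => by rw [coeff_logTw_pow D u j.2.le]

theorem bdd_addDefect_rest
    (hΨ : IsHomSeries (fg p n u) (fg p h (0 : Fin (h - 1) → Ball K)) Ψ) :
    ∀ N, (∀ j < N, ‖delta D u Ψ h j‖ ≤ 1) → Bdd (addDefect D u (rest D u Ψ h N)) c := by
  intro N
  induction N with
  | zero => exact fun _ => addDefect_logHom D u Ψ hΨ
  | succ N ih =>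
    intro hd d
    rw [rest, addDefect_sub, addDefect_C_mul, map_sub, MvPowerSeries.coeff_C_mul, sub_eq_add_neg]
    refine (IsUltrametricDist.norm_add_le_max _ _).trans
      (max_le (ih (fun j hj => hd j (by omega)) d) ?_)
    rw [norm_neg]
    exact (norm_mul_le _ _).trans
      ((mul_le_of_le_one_left (norm_nonneg _) (hd N (by omega))).trans (addDefect_logTw D u N d))

/-- The coordinates are integral and the other coefficients are small. -/
theorem delta_spec (hΨ : IsHomSeries (fg p n u) (fg p h (0 : Fin (h - 1) → Ball K)) Ψ) :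
    ∀ d : ℕ, (∀ M, d = p ^ M → ‖delta D u Ψ h M‖ ≤ 1) ∧
      ((∀ M, d ≠ p ^ M) → ‖PowerSeries.coeff d (logHom D Ψ h)‖ ≤ c) := by
  intro d
  induction d using Nat.strong_induction_on with
  | _ d ih =>
  have hp : p.Prime := Fact.out
  rcases Nat.lt_or_ge d 2 with hd2 | hd2
  · interval_cases d
    · exact ⟨fun M hM => absurd hM.symm (pow_ne_zero M hp.ne_zero), fun _ => by
        rw [constantCoeff_logHom D Ψ hΨ.1, norm_zero]; exact D.c_pos.le⟩
    · refine ⟨fun M hM => ?_, fun hM => absurd (pow_zero p).symm (hM 0)⟩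
      obtain rfl : M = 0 := by
        rcases Nat.eq_zero_or_pos M with h' | h'
        · exact h'
        · exact absurd hM.symm (Nat.one_lt_pow h'.ne' hp.one_lt).ne'
      have h1 := growth_logHom D Ψ hΨ.1 (h := h) (Finsupp.single () 1)
      rw [Finsupp.degree_single, Nat.log_one_right, pow_zero, mul_one] at h1
      rw [delta, eCoef]
      simpa [PowerSeries.coeff] using h1
  set N := Nat.log p (d - 1) + 1 with hN
  have hlow : ∀ j < N, p ^ j < d := fun j hj =>
    lt_of_le_of_lt (Nat.pow_le_of_le_log (by omega) (by omega)) (by omega : d - 1 < d)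
  have hhigh : ∀ j, p ^ j < d → j < N := fun j hj => by
    have := Nat.le_log_of_pow_le hp.one_lt (show p ^ j ≤ d - 1 by omega)
    omega
  have hR := bdd_addDefect_rest D u Ψ hΨ N fun j hj => (ih _ (hlow j hj)).1 j rfl
  have hsmall : ∀ e : Fin d, ‖PowerSeries.coeff (e : ℕ) (rest D u Ψ h N)‖ ≤ c := fun e => by
    by_cases he : ∃ M, (e : ℕ) = p ^ M
    · obtain ⟨M, hM⟩ := he
      rw [hM, coeff_rest_pow D u Ψ (hhigh M (hM ▸ e.2)), norm_zero]
      exact D.c_pos.le
    · push Not at he
      rw [coeff_rest_eq_zero_sub, Finset.sum_eq_zero fun j _ => by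
        rw [coeff_logTw_eq_zero D u he, mul_zero], sub_zero]
      exact (ih _ e.2).2 he
  have hkey : ∀ i, 0 < i → i < d →
      ‖PowerSeries.coeff d (rest D u Ψ h N) * (Nat.choose d i : B)‖ ≤ c := fun i hi hid => by
    refine (coeff_addDefect D u _ hi hid).trans (max_le (hR _) ?_)
    have : Nonempty (Fin d) := ⟨⟨0, by omega⟩⟩
    exact ciSup_le hsmall
  constructor
  · intro M hM
    obtain ⟨M', rfl⟩ : ∃ M', M = M' + 1 := by
      refine ⟨M - 1, (Nat.sub_add_cancel ?_).symm⟩
      rcases Nat.eq_zero_or_pos M with rfl | h'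
      · simp at hM; omega
      · exact h'
    have hNM : N = M' + 1 := by
      have h1 : M' < N := hhigh M' (by rw [hM]; exact Nat.pow_lt_pow_right hp.one_lt (by omega))
      by_contra hne
      have h2 := hlow (M' + 1) (by omega)
      omega
    obtain ⟨m, hm, hc⟩ := choose_pow_succ (p := p) M'
    have h3 := hkey (p ^ M') (pow_pos hp.pos _)
      (by rw [hM]; exact Nat.pow_lt_pow_right hp.one_lt (by omega))
    rw [hM, hNM, coeff_rest_pow_self, hc, Nat.cast_mul, mul_left_comm, (scaleP D).p_mul] at h3
    refine (scaleP D).le_of_mul hm ?_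
    rw [mul_comm]
    exact le_of_mul_le_mul_left (h3.trans (mul_one c).ge) D.c_pos
  · intro hM
    obtain ⟨v, m, hm, hdm⟩ :=
      Nat.exists_eq_pow_mul_and_not_dvd (show d ≠ 0 by omega) p hp.ne_one
    have hm1 : 1 < m := by
      rcases Nat.lt_or_ge 1 m with h' | h'
      · exact h'
      · interval_cases m
        · simp at hm
        · exact absurd (by rw [hdm, mul_one]) (hM v)
    have h3 := hkey (p ^ v) (pow_pos hp.pos _)
      (by rw [hdm]; exact lt_mul_of_one_lt_right (pow_pos hp.pos _) hm1)
    rw [coeff_rest_eq_zero_sub, Finset.sum_eq_zero fun j _ => by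
      rw [coeff_logTw_eq_zero D u hM, mul_zero], sub_zero, mul_comm] at h3
    refine (scaleP D).le_of_mul ?_ h3
    rw [hdm]; exact not_dvd_choose hm

theorem norm_delta_le (hΨ : IsHomSeries (fg p n u) (fg p h (0 : Fin (h - 1) → Ball K)) Ψ)
    (M : ℕ) : ‖delta D u Ψ h M‖ ≤ 1 :=
  (delta_spec D u Ψ hΨ (p ^ M)).1 M rfl

theorem norm_coeff_logHom_le (hΨ : IsHomSeries (fg p n u) (fg p h (0 : Fin (h - 1) → Ball K)) Ψ)
    {d : ℕ} (hd : ∀ M, d ≠ p ^ M) : ‖PowerSeries.coeff d (logHom D Ψ h)‖ ≤ c :=
  (delta_spec D u Ψ hΨ d).2 hd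

end Expansion

end Vale.P217.Gs

end
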