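import Vale.Agent.P217.Eval
import Mathlib.Analysis.SpecificLimits.Normed
import Mathlib.Data.Nat.Log

/-!
Sums of power series over an ultrametric `ℚ`-algebra whose coefficients grow at most like a power
of the degree, at points of norm less than one.
-/

noncomputable section

set_option linter.unusedSectionVars false

namespace Vale.P217.Gs

open Filter Topology MvPowerSeries

variable {B : Type*} [NormedCommRing B] [IsUltrametricDist B] [NormOneClass B]

/-- The closed unit ball of an ultrametric normed ring. -/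
def UB (B : Type*) [NormedCommRing B] [IsUltrametricDist B] [NormOneClass B] : Subring B where
  carrier := {x | ‖x‖ ≤ 1}
  mul_mem' {a b} ha hb := (norm_mul_le a b).trans (mul_le_one₀ ha (norm_nonneg b) hb)
  one_mem' := by simp
  add_mem' {a b} ha hb := (IsUltrametricDist.norm_add_le_max a b).trans (max_le ha hb)
  zero_mem' := by simp
  neg_mem' {a} ha := by simpa using ha

instance : UnitNormed (UB B) := ⟨fun x => x.2⟩

instance [CompleteSpace B] : CompleteSpace (UB B) :=
  (show IsClosed (UB B : Set B) from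
    isClosed_le continuous_norm continuous_const).completeSpace_coe

theorem norm_coe_UB (x : UB B) : ‖(x : B)‖ = ‖x‖ := rfl

/-- The inclusion of the unit ball. -/
abbrev inc : UB B →+* B := (UB B).subtype

/-- All coefficients have norm at most `r`. -/
def Bdd {σ : Type*} (f : MvPowerSeries σ B) (r : ℝ) : Prop := ∀ d, ‖coeff d f‖ ≤ r

theorem bdd_map_inc {σ : Type*} (f : MvPowerSeries σ (UB B)) :
    Bdd (MvPowerSeries.map inc f) 1 := fun d => by
  rw [coeff_map]; exact (coeff d f).2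

variable {σ : Type*}

theorem Bdd.add {f g : MvPowerSeries σ B} {r : ℝ} (hf : Bdd f r) (hg : Bdd g r) :
    Bdd (f + g) r := fun d => by
  rw [map_add]
  exact (IsUltrametricDist.norm_add_le_max _ _).trans (max_le (hf d) (hg d))

theorem Bdd.mul {f g : MvPowerSeries σ B} {r s : ℝ} (hr : 0 ≤ r) (hs : 0 ≤ s) (hf : Bdd f r)
    (hg : Bdd g s) : Bdd (f * g) (r * s) := fun d => by
  classical
  rw [coeff_mul]
  exact IsUltrametricDist.norm_sum_le_of_forall_le_of_nonneg (mul_nonneg hr hs) fun q _ =>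
    (norm_mul_le _ _).trans (mul_le_mul (hf _) (hg _) (norm_nonneg _) hr)

/-- A finsum is bounded by the bound of its terms. -/
theorem norm_finsum_le {ι : Type*} (f : ι → B) {r : ℝ} (hr : 0 ≤ r) (h : ∀ i, ‖f i‖ ≤ r) :
    ‖∑ᶠ i, f i‖ ≤ r :=
  finsum_induction (fun x : B => ‖x‖ ≤ r) (by simpa using hr)
    (fun _ _ hx hy => (IsUltrametricDist.norm_add_le_max _ _).trans (max_le hx hy)) h

variable {p : ℕ} {c : ℝ}

/-- Coefficient growth at most `c ^ (-log_p (degree))`. -/
def Growth (p : ℕ) (c : ℝ) (f : MvPowerSeries σ B) (C : ℝ) : Prop :=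
  ∀ d, ‖coeff d f‖ ≤ C * (c⁻¹) ^ Nat.log p d.degree

theorem Growth.of_bdd (hc0 : 0 < c) (hc1 : c < 1) {f : MvPowerSeries σ B} {r : ℝ} (hr : 0 ≤ r)
    (h : Bdd f r) : Growth p c f r := fun d =>
  (h d).trans (le_mul_of_one_le_right hr (one_le_pow₀ ((one_le_inv₀ hc0).2 hc1.le)))

/-- The terms `c ^ (-K) ρ ^ (p ^ K)` tend to zero. -/
theorem tendsto_bound (hp : 2 ≤ p) (hc0 : 0 < c) {ρ : ℝ} (hρ0 : 0 ≤ ρ) (hρ1 : ρ < 1) :
    Tendsto (fun K : ℕ => (c⁻¹) ^ K * ρ ^ p ^ K) atTop (𝓝 0) := by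
  have h : Tendsto (fun K : ℕ => ρ ^ K) atTop (𝓝 0) :=
    tendsto_pow_atTop_nhds_zero_of_lt_one hρ0 hρ1
  obtain ⟨M, hM⟩ := eventually_atTop.1 (h.eventually (eventually_le_nhds
    (show (0 : ℝ) < c / 2 by positivity)))
  have h2 : Tendsto (fun K : ℕ => (1 / 2 : ℝ) ^ K) atTop (𝓝 0) :=
    tendsto_pow_atTop_nhds_zero_of_lt_one (by norm_num) (by norm_num)
  refine squeeze_zero' (Eventually.of_forall fun K => by positivity) ?_ h2
  filter_upwards [eventually_ge_atTop (4 * M + 4)] with K hK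
  have h1 : M * K ≤ p ^ K := by
    have ha : (K / 2 + 1) * (K / 2 + 1) ≤ 2 ^ (K / 2) * 2 ^ (K / 2) :=
      Nat.mul_le_mul Nat.lt_two_pow_self Nat.lt_two_pow_self
    have hb : 2 ^ (K / 2) * 2 ^ (K / 2) ≤ 2 ^ K := by
      rw [← pow_add]; exact Nat.pow_le_pow_right (by norm_num) (by omega)
    have hc : 2 ^ K ≤ p ^ K := Nat.pow_le_pow_left hp K
    have hd : M * K ≤ (K / 2 + 1) * (K / 2 + 1) := by
      calc M * K ≤ M * (2 * (K / 2 + 1)) := Nat.mul_le_mul le_rfl (by omega)
        _ = (2 * M) * (K / 2 + 1) := by ring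
        _ ≤ _ := Nat.mul_le_mul (by omega) le_rfl
    exact hd.trans (ha.trans (hb.trans hc))
  calc (c⁻¹) ^ K * ρ ^ p ^ K ≤ (c⁻¹) ^ K * (ρ ^ M) ^ K := by
        rw [← pow_mul]
        exact mul_le_mul_of_nonneg_left (pow_le_pow_of_le_one hρ0 hρ1.le h1) (by positivity)
    _ ≤ (c⁻¹) ^ K * (c / 2) ^ K := by
        gcongr
        exact hM M le_rfl
    _ = (1 / 2) ^ K := by rw [← mul_pow]; congr 1; field_simp

/-- The evaluation of a series of bounded growth. -/
def psum (f : MvPowerSeries σ B) (x : σ → UB B) : B :=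
  ∑' d : σ →₀ ℕ, coeff d f * ((d.prod fun i e => x i ^ e : UB B) : B)

variable [Finite σ] [CompleteSpace B]

theorem norm_term_le {f : MvPowerSeries σ B} {C : ℝ} (hc0 : 0 < c) (hC : 0 ≤ C)
    (hf : Growth p c f C) (hp : 2 ≤ p) {x : σ → UB B} {ρ : ℝ} (hρ0 : 0 ≤ ρ) (hρ1 : ρ ≤ 1)
    (hx : ∀ i, ‖x i‖ ≤ ρ) {d : σ →₀ ℕ} (hd : d.degree ≠ 0) :
    ‖coeff d f * ((d.prod fun i e => x i ^ e : UB B) : B)‖ ≤
      C * ((c⁻¹) ^ Nat.log p d.degree * ρ ^ p ^ Nat.log p d.degree) := by
  refine (norm_mul_le _ _).trans ?_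
  rw [← mul_assoc]
  refine mul_le_mul (hf d) ?_ (norm_nonneg _) (by positivity)
  rw [norm_coe_UB]
  exact (norm_prod_pow_le hx d).trans
    (pow_le_pow_of_le_one hρ0 hρ1 (Nat.pow_log_le_self p hd))

/-- Uniform tail: beyond some degree all terms are small. -/
theorem exists_tail (hc0 : 0 < c) (hp : 2 ≤ p) {C : ℝ} (hC : 0 ≤ C) {ρ : ℝ} (hρ0 : 0 ≤ ρ)
    (hρ1 : ρ < 1) {η : ℝ} (hη : 0 < η) :
    ∃ N : ℕ, ∀ K : ℕ, N ≤ p ^ (K + 1) → C * ((c⁻¹) ^ K * ρ ^ p ^ K) ≤ η := by
  have h : Tendsto (fun K : ℕ => C * ((c⁻¹) ^ K * ρ ^ p ^ K)) atTop (𝓝 0) := by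
    simpa using (tendsto_bound hp hc0 hρ0 hρ1).const_mul C
  obtain ⟨K0, hK0⟩ := eventually_atTop.1 (h.eventually (eventually_le_nhds hη))
  refine ⟨p ^ (K0 + 1), fun K hK => hK0 K ?_⟩
  have := (Nat.pow_le_pow_iff_right (by omega : 1 < p)).1 hK
  omega

theorem norm_term_le_of_degree {f : MvPowerSeries σ B} {C : ℝ} (hc0 : 0 < c) (hC : 0 ≤ C)
    (hf : Growth p c f C) (hp : 2 ≤ p) {x : σ → UB B} {ρ η : ℝ} (hρ0 : 0 ≤ ρ) (hρ1 : ρ ≤ 1)
    (hx : ∀ i, ‖x i‖ ≤ ρ) {N : ℕ}
    (hN : ∀ K : ℕ, N ≤ p ^ (K + 1) → C * ((c⁻¹) ^ K * ρ ^ p ^ K) ≤ η) {d : σ →₀ ℕ}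
    (hd : N + 1 ≤ d.degree) :
    ‖coeff d f * ((d.prod fun i e => x i ^ e : UB B) : B)‖ ≤ η :=
  (norm_term_le hc0 hC hf hp hρ0 hρ1 hx (by omega)).trans <| hN _ <|
    le_of_lt (lt_of_le_of_lt (by omega : N ≤ d.degree) (Nat.lt_pow_succ_log_self (by omega) _))

theorem hasSum_psum {f : MvPowerSeries σ B} {C : ℝ} (hc0 : 0 < c) (hC : 0 ≤ C)
    (hf : Growth p c f C) (hp : 2 ≤ p) {x : σ → UB B} (hx : ∀ i, ‖x i‖ < 1) :
    HasSum (fun d => coeff d f * ((d.prod fun i e => x i ^ e : UB B) : B)) (psum f x) := by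
  obtain ⟨ρ, hρ0, hρ1, hρ⟩ := exists_radius hx
  refine (NonarchimedeanAddGroup.summable_of_tendsto_cofinite_zero ?_).hasSum
  rw [Metric.tendsto_nhds]
  intro η hη
  obtain ⟨N, hN⟩ := exists_tail hc0 hp hC hρ0 hρ1 (half_pos hη)
  refine Filter.eventually_cofinite.2 ((Finsupp.finite_of_degree_le (σ := σ) N).subset ?_)
  intro d hd
  show d.degree ≤ N
  by_contra h
  refine hd ?_
  rw [dist_zero_right]
  exact (norm_term_le_of_degree hc0 hC hf hp hρ0 hρ1.le hρ hN (by omega)).trans_lt (half_lt_self hη)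

theorem norm_psum_le (f : MvPowerSeries σ B) (x : σ → UB B) {M : ℝ} (hM : 0 ≤ M)
    (h : ∀ d, ‖coeff d f * ((d.prod fun i e => x i ^ e : UB B) : B)‖ ≤ M) :
    ‖psum f x‖ ≤ M := by
  by_cases hs : Summable fun d => coeff d f * ((d.prod fun i e => x i ^ e : UB B) : B)
  · exact le_of_tendsto hs.hasSum.norm (Eventually.of_forall fun s =>
      IsUltrametricDist.norm_sum_le_of_forall_le_of_nonneg hM fun d _ => h d)
  · rw [psum, tsum_eq_zero_of_not_summable hs, norm_zero]; exact hM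

theorem norm_psum_le_bdd {f : MvPowerSeries σ B} {r : ℝ} (hr : 0 ≤ r) (h : Bdd f r)
    (x : σ → UB B) : ‖psum f x‖ ≤ r :=
  norm_psum_le f x hr fun d => (norm_mul_le _ _).trans
    ((mul_le_of_le_one_right (norm_nonneg _) ((d.prod fun i e => x i ^ e : UB B)).2).trans (h d))

theorem psum_map_inc {x : σ → UB B} (hx : ∀ i, ‖x i‖ < 1) (f : MvPowerSeries σ (UB B)) :
    psum (MvPowerSeries.map inc f) x = ((evalMv f x : UB B) : B) := by
  have h := (hasSum_evalMv hx f).map inc continuous_subtype_val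
  refine HasSum.tsum_eq (h.congr_fun fun d => ?_)
  simp [coeff_map]

theorem Growth.mono {f : MvPowerSeries σ B} {C C' : ℝ} (hc0 : 0 < c) (hf : Growth p c f C)
    (h : C ≤ C') : Growth p c f C' := fun d =>
  (hf d).trans (mul_le_mul_of_nonneg_right h (by positivity))

theorem Growth.add {f g : MvPowerSeries σ B} {C : ℝ}
    (hf : Growth p c f C) (hg : Growth p c g C) : Growth p c (f + g) C := fun d => by
  rw [map_add]
  exact (IsUltrametricDist.norm_add_le_max _ _).trans (max_le (hf d) (hg d))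

theorem psum_add {f g : MvPowerSeries σ B} {C : ℝ} (hc0 : 0 < c) (hC : 0 ≤ C)
    (hf : Growth p c f C) (hg : Growth p c g C) (hp : 2 ≤ p) {x : σ → UB B}
    (hx : ∀ i, ‖x i‖ < 1) : psum (f + g) x = psum f x + psum g x :=
  HasSum.tsum_eq (((hasSum_psum hc0 hC hf hp hx).add (hasSum_psum hc0 hC hg hp hx)).congr_fun
    fun d => by rw [map_add, add_mul])

theorem psum_sum {ι : Type*} (S : Finset ι) (f : ι → MvPowerSeries σ B) {C : ι → ℝ} (hc0 : 0 < c)
    (hC : ∀ i ∈ S, 0 ≤ C i) (hf : ∀ i ∈ S, Growth p c (f i) (C i)) (hp : 2 ≤ p) {x : σ → UB B}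
    (hx : ∀ i, ‖x i‖ < 1) : psum (∑ i ∈ S, f i) x = ∑ i ∈ S, psum (f i) x :=
  HasSum.tsum_eq ((hasSum_sum fun i hi => hasSum_psum hc0 (hC i hi) (hf i hi) hp hx).congr_fun
    fun d => by rw [map_sum, Finset.sum_mul])

theorem hasSum_C_mul (b : B) (f : MvPowerSeries σ (UB B)) {x : σ → UB B} (hx : ∀ i, ‖x i‖ < 1) :
    HasSum (fun d => coeff d (MvPowerSeries.C b * MvPowerSeries.map inc f) *
      ((d.prod fun i e => x i ^ e : UB B) : B)) (b * ((evalMv f x : UB B) : B)) := by
  have h := ((hasSum_evalMv hx f).map inc continuous_subtype_val).mul_left b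
  exact h.congr_fun fun d => by simp [coeff_map, mul_assoc]

theorem psum_C_mul (b : B) (f : MvPowerSeries σ (UB B)) {x : σ → UB B} (hx : ∀ i, ‖x i‖ < 1) :
    psum (MvPowerSeries.C b * MvPowerSeries.map inc f) x = b * ((evalMv f x : UB B) : B) :=
  (hasSum_C_mul b f hx).tsum_eq

theorem coeff_pow_eq_zero {R : Type*} [CommRing R] {a : MvPowerSeries σ R}
    (ha : MvPowerSeries.constantCoeff a = 0) {d : σ →₀ ℕ} {e : ℕ} (h : d.degree < e) :
    coeff d (a ^ e) = 0 := by
  refine coeff_of_lt_order (lt_of_lt_of_le (Nat.cast_lt.mpr h) ?_)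
  refine le_trans ?_ (le_order_pow (f := a) e)
  have h1 : (1 : ℕ∞) ≤ a.order :=
    Order.one_le_iff_pos.mpr (pos_iff_ne_zero.mpr (order_ne_zero_iff_constCoeff_eq_zero.mpr ha))
  calc (e : ℕ∞) = e • (1 : ℕ∞) := by simp
    _ ≤ e • a.order := nsmul_le_nsmul_right h1 e

/-- Substitution of an integral series into a series of bounded growth. -/
theorem Growth.subst {g : PowerSeries B} {C : ℝ} (hc0 : 0 < c) (hc1 : c < 1) (hC : 0 ≤ C)
    (hg : Growth p c g C) {a : MvPowerSeries σ (UB B)}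
    (ha : MvPowerSeries.constantCoeff a = 0) :
    Growth p c (PowerSeries.subst (MvPowerSeries.map inc a) g) C := fun d => by
  have hs : PowerSeries.HasSubst (MvPowerSeries.map inc a) :=
    PowerSeries.HasSubst.of_constantCoeff_zero (by rw [constantCoeff_map, ha, map_zero])
  rw [PowerSeries.coeff_subst hs]
  refine norm_finsum_le _ (by positivity) fun e => ?_
  rw [← map_pow, coeff_map, smul_eq_mul]
  rcases lt_or_ge d.degree e with he | he
  · simp [coeff_pow_eq_zero ha he]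
    positivity
  · refine (norm_mul_le _ _).trans ((mul_le_of_le_one_right (norm_nonneg _) (coeff d (a ^ e)).2).trans
      ((hg _).trans (mul_le_mul_of_nonneg_left (pow_le_pow_right₀ ((one_le_inv₀ hc0).2 hc1.le)
        (Nat.log_mono_right ?_)) hC)))
    simpa using he

/-- The one-variable evaluation. -/
def psum1 (g : PowerSeries B) (A : UB B) : B := psum g fun _ : Unit => A

/-- Composition: evaluating a substituted series. -/
theorem psum_subst {g : PowerSeries B} {C : ℝ} (hc0 : 0 < c) (hc1 : c < 1) (hC : 0 ≤ C)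
    (hg : Growth p c g C) (hp : 2 ≤ p) {a : MvPowerSeries σ (UB B)}
    (ha : MvPowerSeries.constantCoeff a = 0) {x : σ → UB B} (hx : ∀ i, ‖x i‖ < 1) :
    psum (PowerSeries.subst (MvPowerSeries.map inc a) g) x = psum1 g (evalMv a x) := by
  obtain ⟨ρ, hρ0, hρ1, hρ⟩ := exists_radius hx
  have hy : ∀ _ : Unit, ‖evalMv a x‖ ≤ ρ := fun _ => norm_evalMv_le_coords hx _ ha hρ0 hρ
  have hy1 : ∀ _ : Unit, ‖evalMv a x‖ < 1 := fun u => (hy u).trans_lt hρ1
  refine sub_eq_zero.1 (norm_le_zero_iff.1 (le_of_forall_gt_imp_ge_of_dense fun η hη => ?_))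
  obtain ⟨N, hN⟩ := exists_tail hc0 hp hC hρ0 hρ1 hη
  set R : PowerSeries B := PowerSeries.mk fun e => if e ≤ N then 0 else PowerSeries.coeff e g
    with hR
  set P : ℕ → PowerSeries B := fun e =>
    PowerSeries.C (PowerSeries.coeff e g) * PowerSeries.X ^ e with hP
  have hsplit : g = (∑ e ∈ Finset.range (N + 1), P e) + R := by
    ext e
    simp [hP, hR, PowerSeries.coeff_X_pow]
    split <;> simp
  have hRg : Growth p c R C := fun d => by
    have : (MvPowerSeries.coeff d (R : MvPowerSeries Unit B) : B) =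
        if d () ≤ N then 0 else MvPowerSeries.coeff d (g : MvPowerSeries Unit B) := by
      have hd : d = Finsupp.single () (d ()) := by ext; simp
      have h1 : ∀ n : ℕ, PowerSeries.coeff n R = if n ≤ N then 0 else PowerSeries.coeff n g :=
        fun n => PowerSeries.coeff_mk n _
      have h2 := h1 (d ())
      simp only [PowerSeries.coeff] at h2
      rwa [← hd] at h2
    rw [this]
    split
    · rw [norm_zero]; positivity
    · exact hg d
  have hPg : ∀ e, Growth p c (P e) (‖PowerSeries.coeff e g‖) := fun e =>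
    Growth.of_bdd hc0 hc1 (norm_nonneg _) fun d => by
      have hd : d = Finsupp.single () (d ()) := by ext; simp
      rw [hd]
      show ‖PowerSeries.coeff (d ()) (P e)‖ ≤ _
      simp only [hP, PowerSeries.coeff_C_mul, PowerSeries.coeff_X_pow]
      split <;> simp
  have hs : PowerSeries.HasSubst (MvPowerSeries.map inc a) :=
    PowerSeries.HasSubst.of_constantCoeff_zero (by rw [constantCoeff_map, ha, map_zero])
  have hPs : ∀ e, PowerSeries.subst (MvPowerSeries.map inc a) (P e) =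
      MvPowerSeries.C (PowerSeries.coeff e g) * MvPowerSeries.map inc (a ^ e) := fun e => by
    simp [hP, PowerSeries.subst_mul hs, PowerSeries.subst_pow hs, PowerSeries.subst_X hs,
      PowerSeries.subst_C]
  set C' : ℝ := max C (∑ e ∈ Finset.range (N + 1), ‖PowerSeries.coeff e g‖) with hC'
  have hC'0 : 0 ≤ C' := hC.trans (le_max_left _ _)
  have hPle : ∀ e ∈ Finset.range (N + 1), ‖PowerSeries.coeff e g‖ ≤ C' := fun e he =>
    (Finset.single_le_sum (fun i _ => norm_nonneg (PowerSeries.coeff i g)) he).trans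
      (le_max_right _ _)
  have hsum : Growth p c (∑ e ∈ Finset.range (N + 1), P e) C' := fun d => by
    rw [map_sum]
    exact IsUltrametricDist.norm_sum_le_of_forall_le_of_nonneg (by positivity) fun e he =>
      (hPg e).mono hc0 (hPle e he) d
  -- left hand side
  have hL : psum (PowerSeries.subst (MvPowerSeries.map inc a) g) x =
      (∑ e ∈ Finset.range (N + 1), PowerSeries.coeff e g * ((evalMv a x ^ e : UB B) : B)) +
        psum (PowerSeries.subst (MvPowerSeries.map inc a) R) x := by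
    rw [hsplit, PowerSeries.subst_add hs,
      psum_add hc0 hC'0 (hsum.subst hc0 hc1 hC'0 ha)
        ((hRg.subst hc0 hc1 hC ha).mono hc0 (le_max_left _ _)) hp hx, ← hsplit,
      ← PowerSeries.coe_substAlgHom hs, map_sum, PowerSeries.coe_substAlgHom hs,
      psum_sum _ _ hc0 (fun e _ => norm_nonneg (PowerSeries.coeff e g))
        (fun e _ => (hPg e).subst hc0 hc1 (norm_nonneg _) ha) hp hx]
    congr 1
    exact Finset.sum_congr rfl fun e _ => by rw [hPs, psum_C_mul _ _ hx, evalMv_pow hx]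
  -- right hand side
  have hR' : psum1 g (evalMv a x) =
      (∑ e ∈ Finset.range (N + 1), PowerSeries.coeff e g * ((evalMv a x ^ e : UB B) : B)) +
        psum1 R (evalMv a x) := by
    unfold psum1
    conv_lhs => rw [hsplit]
    rw [psum_add hc0 hC'0 hsum (hRg.mono hc0 (le_max_left _ _)) hp hy1,
      psum_sum _ _ hc0 (fun e _ => norm_nonneg _) (fun e _ => hPg e) hp hy1]
    congr 1
    refine Finset.sum_congr rfl fun e _ => ?_
    have : P e = MvPowerSeries.C (PowerSeries.coeff e g) *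
        MvPowerSeries.map inc ((MvPowerSeries.X () : MvPowerSeries Unit (UB B)) ^ e) := by
      simp [hP, PowerSeries.X, PowerSeries.C]
    rw [this, psum_C_mul _ _ hy1, evalMv_pow hy1, evalMv_X hy1]
  rw [hL, hR', add_sub_add_left_eq_sub, sub_eq_add_neg]
  refine (IsUltrametricDist.norm_add_le_max _ _).trans (max_le ?_ ?_)
  · refine norm_psum_le _ _ hη.le fun d => ?_
    by_cases hd : d.degree ≤ N
    · rw [PowerSeries.coeff_subst hs, finsum_eq_zero_of_forall_eq_zero, zero_mul, norm_zero]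
      · exact hη.le
      intro e
      rcases le_or_gt e N with he | he
      · simp [hR, he]
      · rw [← map_pow, coeff_map, coeff_pow_eq_zero ha (by omega), map_zero, smul_zero]
    · exact norm_term_le_of_degree hc0 hC (hRg.subst hc0 hc1 hC ha) hp hρ0 hρ1.le hρ hN (by omega)
  · rw [norm_neg]
    refine norm_psum_le _ _ hη.le fun d => ?_
    by_cases hd : d.degree ≤ N
    · have : (MvPowerSeries.coeff d (R : MvPowerSeries Unit B) : B) = 0 := by
        have hd' : d = Finsupp.single () (d ()) := by ext; simp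
        have hdd : d () ≤ N := by
          rw [hd', Finsupp.degree_single] at hd; exact hd
        have h1 : PowerSeries.coeff (d ()) R = 0 :=
          (PowerSeries.coeff_mk (d ()) _).trans (if_pos hdd)
        simp only [PowerSeries.coeff] at h1
        rwa [← hd'] at h1
      rw [this, zero_mul, norm_zero]; exact hη.le
    · exact norm_term_le_of_degree hc0 hC hRg hp hρ0 hρ1.le hy hN (by omega)

end Vale.P217.Gs

end
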