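import Vale.Agent.P217.UniversalLog

/-!
The functional equation lemma: existence of Hazewinkel's law over `ℤ[u]`.
-/

noncomputable section

namespace Vale.P217

open MvPowerSeries Finsupp

variable (p n : ℕ) [hp : Fact p.Prime]

/-- The logarithm over `ℚ[u]`. -/
abbrev univLog : PowerSeries (MvPolynomial (Fin (n - 1)) ℚ) :=
  logSeries p n fun j => MvPolynomial.X j

/-- The series `l⁻¹(l X + l Y)` over `ℚ[u]`. -/
def ratFG : MvPowerSeries (Fin 2) (MvPolynomial (Fin (n - 1)) ℚ) :=
  PowerSeries.subst
    (PowerSeries.subst (X (0 : Fin 2)) (univLog p n) +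
      PowerSeries.subst (X (1 : Fin 2)) (univLog p n))
    (PowerSeries.substInvOfIsUnit (univLog p n)
      (by rw [coeff_one_logSeries]; exact isUnit_one))

theorem ratFG_spec : ratFG p n ∈ below 1 ∧ HasLog (univLog p n) (ratFG p n) := by
  have h0 := constantCoeff_logSeries p n (fun j => (MvPolynomial.X j :
    MvPolynomial (Fin (n - 1)) ℚ))
  have hl : univLog p n ∈ below (σ := Unit) 1 := mem_below_one_iff'.2 h0
  have hs : PowerSeries.subst (X (0 : Fin 2)) (univLog p n) +
      PowerSeries.subst (X (1 : Fin 2)) (univLog p n) ∈ below 1 :=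
    Ideal.add_mem _ (subst_single_mem_below (X_mem_below _) hl)
      (subst_single_mem_below (X_mem_below _) hl)
  set li := PowerSeries.substInvOfIsUnit (univLog p n)
      (by rw [coeff_one_logSeries]; exact isUnit_one) with hli
  have hi : li ∈ below (σ := Unit) 1 :=
    mem_below_one_iff'.2 (PowerSeries.constantCoeff_substInvOfIsUnit _ _)
  refine ⟨subst_single_mem_below hs hi, ?_⟩
  unfold HasLog ratFG
  rw [← hli, ← PowerSeries.subst_comp_subst_apply (PowerSeries.HasSubst.substInvOfIsUnit _ _)
    (hasSubst_single_of_below hs), PowerSeries.subst_substInvOfIsUnit_right _ h0,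
    PowerSeries.subst_X (hasSubst_single_of_below hs)]

omit hp in
theorem map_expand_eq_subst {S : Type*} [CommRing S] {m : ℕ} (hm : m ≠ 0)
    (f : MvPowerSeries (Fin 2) S) :
    expand m hm f = subst ![(X 0 : MvPowerSeries (Fin 2) S) ^ m, X 1 ^ m] f := by
  rw [expand, substAlgHom_apply]
  congr 1
  ext i : 1
  fin_cases i <;> rfl

/-- Integrality, by induction on the degree. -/
theorem exists_int_ratFG (D : ℕ) : ∀ d : Fin 2 →₀ ℕ, d.degree < D →
    ∃ a, intToRat n a = coeff d (ratFG p n) := by
  induction D with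
  | zero => intro d hd; omega
  | succ D ih =>
    intro d hd
    rcases lt_or_eq_of_le (Nat.lt_succ_iff.1 hd) with hd' | hdD
    · exact ih d hd'
    obtain ⟨hF1, hFlog⟩ := ratFG_spec p n
    set F := ratFG p n with hFdef
    set uQ : Fin (n - 1) → MvPolynomial (Fin (n - 1)) ℚ := fun j => MvPolynomial.X j with huQ
    have hlog := congrArg (coeff d) hFlog
    rw [map_add, coeff_log_subst p n uQ hF1 d hdD.le,
      coeff_log_subst p n uQ (X_mem_below _) d hdD.le,
      coeff_log_subst p n uQ (X_mem_below _) d hdD.le, Finset.sum_range_succ',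
      Finset.sum_range_succ', Finset.sum_range_succ', cLog_zero] at hlog
    simp only [pow_zero, pow_one, one_mul] at hlog
    obtain ⟨Ft, hFt0, hFt⟩ := exists_lift_below (intToRat n) F ih
    rcases Nat.eq_zero_or_pos D with rfl | hD1
    · refine ⟨0, ?_⟩
      rw [map_zero]
      exact (hF1 d (by omega)).symm
    have hFt1 : Ft ∈ below 1 := by
      intro e he
      have h1 := coeff_eq_of_below hFt (d := e) (by omega)
      rw [coeff_map, hF1 e he] at h1
      exact intToRat_injective n (by rw [h1, map_zero])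
    have hιFt1 : MvPowerSeries.map (intToRat n) Ft ∈ below 1 := map_mem_below _ hFt1
    set H : ℕ → MvPolynomial (Fin (n - 1)) ℤ := fun K =>
      coeff d (Ft ^ p ^ K) - coeff d ((X 0 : MvPowerSeries (Fin 2) _) ^ p ^ K)
        - coeff d ((X 1 : MvPowerSeries (Fin 2) _) ^ p ^ K) with hH
    have hHhigh : ∀ K, D < p ^ K → H K = 0 := by
      intro K hK
      have hlt : d.degree < 1 * p ^ K := by omega
      simp only [hH]
      rw [pow_mem_below hFt1 _ d hlt, pow_mem_below (X_mem_below _) _ d hlt,
        pow_mem_below (X_mem_below _) _ d hlt]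
      simp
    have hmappow : ∀ (a : MvPowerSeries (Fin 2) (MvPolynomial (Fin (n - 1)) ℤ)) (m : ℕ),
        intToRat n (coeff d (a ^ m)) = coeff d (MvPowerSeries.map (intToRat n) a ^ m) :=
      fun a m => by rw [← map_pow (MvPowerSeries.map (intToRat n)), coeff_map]
    have hιH : ∀ K, intToRat n (H (K + 1)) = coeff d (F ^ p ^ (K + 1))
        - coeff d ((X 0 : MvPowerSeries (Fin 2) _) ^ p ^ (K + 1))
        - coeff d ((X 1 : MvPowerSeries (Fin 2) _) ^ p ^ (K + 1)) := by
      intro K
      have h2 : 2 ≤ p ^ (K + 1) :=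
        le_trans hp.1.two_le (Nat.le_self_pow (by omega) p)
      have he := coeff_eq_of_below
        (pow_sub_pow_mem_below hιFt1 hF1 hFt (p ^ (K + 1))) (d := d) (by omega)
      simp only [hH, map_sub, hmappow, map_X, he]
    have hFd : coeff d F =
        coeff d (X 0 : MvPowerSeries (Fin 2) (MvPolynomial (Fin (n - 1)) ℚ)) +
          coeff d (X 1 : MvPowerSeries (Fin 2) (MvPolynomial (Fin (n - 1)) ℚ)) -
          ∑ K ∈ Finset.range D, cLog p n uQ (K + 1) * intToRat n (H (K + 1)) := by
      simp only [hιH, mul_sub, Finset.sum_sub_distrib]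
      linear_combination hlog
    -- the twisted sums are divisible by `p`
    have key : ∀ i : ℕ, ∃ w, (∑ k ∈ Finset.range (D + 1),
        cLog p n (fun j => uQ j ^ p ^ (i + 1)) k * intToRat n (H (i + 1 + k))) =
          (p : MvPolynomial (Fin (n - 1)) ℚ) * intToRat n w := by
      intro i
      set m := p ^ (i + 1) with hm
      have hm0 : m ≠ 0 := pow_ne_zero _ hp.1.ne_zero
      have hm2 : 2 ≤ m := le_trans hp.1.two_le (Nat.le_self_pow (by omega) p)
      let φ : MvPolynomial (Fin (n - 1)) ℚ →+* MvPolynomial (Fin (n - 1)) ℚ :=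
        (MvPolynomial.aeval fun j => MvPolynomial.X (R := ℚ) j ^ m).toRingHom
      have hφι : φ.comp (intToRat n) = (intToRat n).comp (powVar n m) := by
        refine MvPolynomial.ringHom_ext (fun r => ?_) fun j => ?_
        · simp [φ, powVar]
        · simp [φ, powVar]
      have hlφ : PowerSeries.map φ (univLog p n) = logSeries p n (fun j => uQ j ^ m) := by
        rw [map_logSeries]
        congr 1
        funext j
        simp [φ, huQ]
      set G := MvPowerSeries.map φ F with hG
      have hG1 : G ∈ below 1 := map_mem_below _ hF1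
      have hGlog : HasLog (logSeries p n fun j => uQ j ^ m) G := by
        have := hFlog.map φ hF1
        rwa [hlφ] at this
      have hXm : ∀ s : Fin 2,
          (X s : MvPowerSeries (Fin 2) (MvPolynomial (Fin (n - 1)) ℚ)) ^ m ∈ below 1 :=
        fun s => below_antitone (by omega) (pow_mem_below (X_mem_below s) m)
      set b := expand m hm0 G with hb
      have hb1 : b ∈ below 1 := below_antitone (by omega) (expand_mem_below hm0 hG1)
      set bt := expand m hm0 (MvPowerSeries.map (powVar n m) Ft) with hbt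
      have hbt1 : bt ∈ below 1 :=
        below_antitone (by omega) (expand_mem_below hm0 (map_mem_below _ hFt1))
      have hdiff : MvPowerSeries.map (intToRat n) bt - b ∈ below (D + 1) := by
        have e : MvPowerSeries.map (intToRat n) bt =
            expand m hm0 (MvPowerSeries.map φ (MvPowerSeries.map (intToRat n) Ft)) := by
          rw [hbt, map_expand]
          congr 1
          ext x : 1
          rw [coeff_map, coeff_map, coeff_map, coeff_map, ← RingHom.comp_apply, ← hφι]
          rfl
        rw [e, hb, hG, ← map_sub, ← map_sub]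
        refine below_antitone ?_ (expand_mem_below hm0 (map_mem_below _ hFt))
        have : 2 * D ≤ m * D := Nat.mul_le_mul_right D hm2
        omega
      have hlogb := congrArg (coeff d) (hGlog.subst₂ hG1 (hXm 0) (hXm 1))
      rw [← map_expand_eq_subst hm0, ← hb, map_add,
        coeff_log_subst p n _ hb1 d hdD.le, coeff_log_subst p n _ (hXm 0) d hdD.le,
        coeff_log_subst p n _ (hXm 1) d hdD.le, ← Finset.sum_add_distrib] at hlogb
      choose w hw using fun k => exists_int_cLog_mul_sub p n
        (fun j => (MvPolynomial.X j : MvPolynomial (Fin (n - 1)) ℤ) ^ m)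
        (dvd_pow_sub_expand p n (i + 1) Ft) k d
      refine ⟨∑ k ∈ Finset.range (D + 1), w k, ?_⟩
      rw [map_sum, Finset.mul_sum]
      have hvec : intToRat n ∘ (fun j => (MvPolynomial.X j : MvPolynomial (Fin (n - 1)) ℤ) ^ m)
          = fun j => uQ j ^ m := by
        funext j; simp [huQ]
      simp only [hvec, ← hm, ← hbt] at hw
      simp only [← hw]
      have hbk : ∀ k, intToRat n (coeff d (bt ^ p ^ k)) = coeff d (b ^ p ^ k) := fun k => by
        rw [← coeff_map, map_pow]
        refine coeff_eq_of_below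
          (pow_sub_pow_mem_below (map_mem_below _ hbt1) hb1 hdiff (p ^ k)) ?_
        have := Nat.one_le_pow k p hp.1.pos
        omega
      have hz : ∀ k, intToRat n (H (i + 1 + k)) =
          intToRat n (coeff d ((Ft ^ m) ^ p ^ k)) -
            coeff d (((X 0 : MvPowerSeries (Fin 2) _) ^ m) ^ p ^ k) -
            coeff d (((X 1 : MvPowerSeries (Fin 2) _) ^ m) ^ p ^ k) := fun k => by
        simp only [hH, map_sub, hm, ← pow_mul, ← pow_add]
        congr 1
        · congr 1
          rw [← coeff_map, map_pow, map_X]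
        · rw [← coeff_map, map_pow, map_X]
      simp only [hz, map_sub, hbk, mul_sub, Finset.sum_sub_distrib]
      rw [hlogb, Finset.sum_add_distrib]
      ring
    choose w hw using key
    -- reindex
    have hexp : ∀ K ∈ Finset.range D, cLog p n uQ (K + 1) * intToRat n (H (K + 1)) =
        algebraMap ℚ _ (p : ℚ)⁻¹ * ∑ i ∈ Finset.range (K + 1), uvar n uQ (i + 1) *
          (cLog p n (fun j => uQ j ^ p ^ (i + 1)) (K - i) * intToRat n (H (K + 1))) := by
      intro K _
      rw [eq_inv_mul p (cLog_left p n uQ K), mul_assoc, Finset.sum_mul]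
      congr 1
      exact Finset.sum_congr rfl fun i _ => mul_assoc _ _ _
    have hext : ∀ i ∈ Finset.range D,
        ∑ k ∈ Finset.range (D - i), uvar n uQ (i + 1) *
          (cLog p n (fun j => uQ j ^ p ^ (i + 1)) k * intToRat n (H (i + 1 + k))) =
        uvar n uQ (i + 1) * ((p : MvPolynomial (Fin (n - 1)) ℚ) * intToRat n (w i)) := by
      intro i _
      rw [← hw i, Finset.mul_sum]
      refine Finset.sum_subset (fun k hk => ?_) (fun k _ hk2 => ?_)
      · simp only [Finset.mem_range] at hk ⊢; omega
      · simp only [Finset.mem_range] at hk2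
        rw [hHhigh, map_zero, mul_zero, mul_zero]
        exact lt_of_lt_of_le (by omega : D < i + 1 + k) (Nat.lt_pow_self hp.1.one_lt).le
    refine ⟨coeff d (X 0 : MvPowerSeries (Fin 2) (MvPolynomial (Fin (n - 1)) ℤ)) +
      coeff d (X 1 : MvPowerSeries (Fin 2) (MvPolynomial (Fin (n - 1)) ℤ)) -
        ∑ i ∈ Finset.range D, uvar n (fun j => MvPolynomial.X j) (i + 1) * w i, ?_⟩
    rw [hFd, map_sub, map_add, ← coeff_map, ← coeff_map, map_X, map_X, map_sum]
    congr 1
    rw [Finset.sum_congr rfl hexp, ← Finset.mul_sum,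
      Finset.sum_comm' (t' := Finset.range D) (s' := fun i => Finset.Ico i D)
        (fun K i => by simp only [Finset.mem_range, Finset.mem_Ico]; omega)]
    have hIco : ∀ i ∈ Finset.range D,
        ∑ K ∈ Finset.Ico i D, uvar n uQ (i + 1) *
          (cLog p n (fun j => uQ j ^ p ^ (i + 1)) (K - i) * intToRat n (H (K + 1))) =
        uvar n uQ (i + 1) * ((p : MvPolynomial (Fin (n - 1)) ℚ) * intToRat n (w i)) := by
      intro i hi
      rw [Finset.sum_Ico_eq_sum_range, ← hext i hi]
      refine Finset.sum_congr rfl fun k _ => ?_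
      rw [Nat.add_sub_cancel_left, show i + k + 1 = i + 1 + k by omega]
    rw [Finset.sum_congr rfl hIco, Finset.mul_sum]
    refine Finset.sum_congr rfl fun i _ => ?_
    rw [map_mul, uvar_map, show intToRat n ∘ (fun j => MvPolynomial.X j) = uQ by
      funext j; simp [huQ]]
    linear_combination (-(uvar n uQ (i + 1) * intToRat n (w i))) *
      p_mul_inv p (B := MvPolynomial (Fin (n - 1)) ℚ)

/-- The law over `ℤ[u]`. -/
theorem exists_univFG_aux : ∃ F : FormalGroup (MvPolynomial (Fin (n - 1)) ℤ), F.IsComm ∧
    MvPowerSeries.map (intToRat n) F.toPowerSeries = ratFG p n := by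
  obtain ⟨hF1, hFlog⟩ := ratFG_spec p n
  choose a ha using fun d : Fin 2 →₀ ℕ => exists_int_ratFG p n (d.degree + 1) d (by omega)
  obtain ⟨f, hf⟩ : ∃ f : MvPowerSeries (Fin 2) (MvPolynomial (Fin (n - 1)) ℤ),
      ∀ d, coeff d f = a d := ⟨a, fun d => rfl⟩
  have hmap : MvPowerSeries.map (intToRat n) f = ratFG p n := by
    ext d : 1
    rw [coeff_map, hf, ha]
  have hinj : ∀ {τ : Type} {x y : MvPowerSeries τ (MvPolynomial (Fin (n - 1)) ℤ)},
      MvPowerSeries.map (intToRat n) x = MvPowerSeries.map (intToRat n) y → x = y :=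
    fun {τ x y} h => MvPowerSeries.ext fun d => intToRat_injective n (by
      rw [← coeff_map, ← coeff_map, h])
  set u : Fin (n - 1) → MvPolynomial (Fin (n - 1)) ℚ := fun j => MvPolynomial.X j
  have hl0 := constantCoeff_logSeries p n u
  have hl1 := coeff_one_logSeries p n u
  have hlin : ratFG p n - (X 0 + X 1) ∈ below 2 := by
    have h1 := subst_single_sub_linear hF1 (Ideal.zero_mem _) (e := 1) (by simpa using hF1) hl0
    have h2 : ∀ s : Fin 2, PowerSeries.subst (X s) (logSeries p n u) -
        PowerSeries.subst (0 : MvPowerSeries (Fin 2) (MvPolynomial (Fin (n - 1)) ℚ))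
          (logSeries p n u)
        - C (PowerSeries.coeff 1 (logSeries p n u)) * (X s - 0) ∈ below 2 := fun s =>
      subst_single_sub_linear (X_mem_below s) (Ideal.zero_mem _) (e := 1)
        (by simpa using X_mem_below s) hl0
    rw [PowerSeries.subst_zero_of_constantCoeff_zero hl0] at h1
    simp only [PowerSeries.subst_zero_of_constantCoeff_zero hl0] at h2
    rw [hl1, map_one, one_mul, sub_zero, sub_zero, hFlog] at h1
    have h20 := h2 0
    have h21 := h2 1
    rw [hl1, map_one, one_mul, sub_zero, sub_zero] at h20 h21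
    have := Ideal.sub_mem _ (Ideal.add_mem _ h20 h21) h1
    convert this using 1
    ring
  have h0 : constantCoeff f = 0 := intToRat_injective n (by
    rw [map_zero, ← constantCoeff_map, hmap, mem_below_one_iff.1 hF1])
  have hX : coeff (single 0 1) f = 1 := intToRat_injective n (by
    rw [map_one, ← coeff_map, hmap, coeff_eq_of_below hlin (by simp [Finsupp.degree_single]),
      map_add, coeff_index_single_X, coeff_index_single_X]
    simp)
  have hY : coeff (single 1 1) f = 1 := intToRat_injective n (by
    rw [map_one, ← coeff_map, hmap, coeff_eq_of_below hlin (by simp [Finsupp.degree_single]),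
      map_add, coeff_index_single_X, coeff_index_single_X]
    simp)
  have hf1 : f ∈ below 1 := mem_below_one_iff.2 h0
  have hp2 : ∀ {τ : Type} {a b : MvPowerSeries τ (MvPolynomial (Fin (n - 1)) ℚ)},
      a ∈ below 1 → b ∈ below 1 → subst ![a, b] (ratFG p n) ∈ below 1 := fun ha hb =>
    subst_mem_below_one (fun s => by fin_cases s <;> assumption) hF1
  have hmp : ∀ {τ : Type} {a b : MvPowerSeries τ (MvPolynomial (Fin (n - 1)) ℤ)},
      a ∈ below 1 → b ∈ below 1 → MvPowerSeries.map (intToRat n) (subst ![a, b] f) =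
        subst ![MvPowerSeries.map (intToRat n) a, MvPowerSeries.map (intToRat n) b] (ratFG p n) := by
    intro τ a b ha hb
    rw [map_subst (hasSubst_pair_below ha hb), hmap]
    congr 1
    ext i : 1
    fin_cases i <;> rfl
  have hp2' : ∀ {τ : Type} {a b : MvPowerSeries τ (MvPolynomial (Fin (n - 1)) ℤ)},
      a ∈ below 1 → b ∈ below 1 → subst ![a, b] f ∈ below 1 := fun ha hb =>
    subst_mem_below_one (fun s => by fin_cases s <;> assumption) hf1
  refine ⟨⟨f, h0, hX, hY, hinj ?_⟩, ⟨hinj ?_⟩ , hmap⟩
  · rw [hmp (hp2' (X_mem_below _) (X_mem_below _)) (X_mem_below _),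
      hmp (X_mem_below _) (X_mem_below _), hmp (X_mem_below _) (hp2' (X_mem_below _) (X_mem_below _)),
      hmp (X_mem_below _) (X_mem_below _)]
    simp only [map_X]
    have hXs : ∀ i : Fin 3,
        (X i : MvPowerSeries (Fin 3) (MvPolynomial (Fin (n - 1)) ℚ)) ∈ below 1 := X_mem_below
    refine eq_of_subst_eq hl0 hl1 (hp2 (hp2 (hXs _) (hXs _)) (hXs _))
      (hp2 (hXs _) (hp2 (hXs _) (hXs _))) ?_
    rw [hFlog.subst₂ hF1 (hp2 (hXs _) (hXs _)) (hXs _), hFlog.subst₂ hF1 (hXs _) (hXs _),
      hFlog.subst₂ hF1 (hXs _) (hp2 (hXs _) (hXs _)), hFlog.subst₂ hF1 (hXs _) (hXs _), add_assoc]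
  · show MvPowerSeries.map (intToRat n) f = MvPowerSeries.map (intToRat n) (subst ![X 1, X 0] f)
    rw [hmp (X_mem_below _) (X_mem_below _), hmap, map_X, map_X]
    refine eq_of_subst_eq hl0 hl1 hF1 (hp2 (X_mem_below _) (X_mem_below _)) ?_
    rw [hFlog.subst₂ hF1 (X_mem_below _) (X_mem_below _), hFlog, add_comm]

end Vale.P217

end
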