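import Vale.Agent.P217.Basics
import Vale.Agent.P217.UniversalExist
import Mathlib.RingTheory.PowerSeries.Expand
import Mathlib.RingTheory.RootsOfUnity.Complex
import Mathlib.Data.Nat.Choose.Basic

/-!
Hazewinkel's universal `p`-typical formal group law of height at most `n`, in the variables
`u_1, …, u_{n-1}` (`u_n = 1`), by its logarithm.
-/

noncomputable section

namespace Vale.P217

open MvPowerSeries Finsupp

variable (p n : ℕ)

/-- `((X + Y) ^ q - X ^ q - Y ^ q) / p` for `q = p ^ k`, by its integer coefficients. -/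
def Cpow {R : Type*} [CommRing R] (k : ℕ) : MvPowerSeries (Fin 2) R :=
  fun d => if d 0 + d 1 = p ^ k ∧ d 0 ≠ 0 ∧ d 1 ≠ 0
    then ((Nat.choose (p ^ k) (d 0) / p : ℕ) : R) else 0

theorem coeff_Cpow {R : Type*} [CommRing R] (k : ℕ) (d : Fin 2 →₀ ℕ) :
    coeff d (Cpow p k : MvPowerSeries (Fin 2) R) =
      if d 0 + d 1 = p ^ k ∧ d 0 ≠ 0 ∧ d 1 ≠ 0
        then ((Nat.choose (p ^ k) (d 0) / p : ℕ) : R) else 0 := rfl

theorem map_Cpow {R S : Type*} [CommRing R] [CommRing S] (f : R →+* S) (k : ℕ) :
    MvPowerSeries.map f (Cpow p k) = Cpow p k := by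
  ext d : 1
  rw [coeff_map, coeff_Cpow, coeff_Cpow]
  split_ifs <;> simp

variable [Fact p.Prime]

theorem natCast_mul_coeff_Cpow {R : Type*} [CommRing R] (k : ℕ) (d : Fin 2 →₀ ℕ) :
    (p : R) * coeff d (Cpow p k : MvPowerSeries (Fin 2) R) =
      coeff d (((X 0 : MvPowerSeries (Fin 2) R) + X 1) ^ p ^ k) -
        coeff d ((X 0 : MvPowerSeries (Fin 2) R) ^ p ^ k) -
        coeff d ((X 1 : MvPowerSeries (Fin 2) R) ^ p ^ k) := by
  have hpp : p.Prime := Fact.out
  have hq : 1 ≤ p ^ k := Nat.one_le_pow _ _ hpp.pos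
  rw [coeff_Cpow, coeff_add_pow, coeff_X_zero_pow, coeff_X_one_pow]
  by_cases hd : d 0 + d 1 = p ^ k
  · by_cases h0 : d 0 = 0
    · rw [if_neg (by omega), if_pos hd, if_neg (by omega), if_pos (by omega), h0]
      simp
    · by_cases h1 : d 1 = 0
      · rw [if_neg (by omega), if_pos hd, if_pos (by omega), if_neg (by omega),
          show d 0 = p ^ k by omega]
        simp
      · rw [if_pos ⟨hd, h0, h1⟩, if_pos hd, if_neg (by omega), if_neg (by omega), ← Nat.cast_mul,
          Nat.mul_div_cancel' (hpp.dvd_choose_pow h0 (by omega)), sub_zero, sub_zero]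
  · rw [if_neg (by omega), if_neg hd, if_neg (by omega), if_neg (by omega)]
    simp

theorem coeff_logSeries_pow {B : Type*} [CommRing B] [Algebra ℚ B] (u : Fin (n - 1) → B) (K : ℕ) :
    PowerSeries.coeff (p ^ K) (logSeries p n u) = cLog p n u K :=
  coeff_logSeries_pow' p n u K

omit [Fact p.Prime] in
theorem coeff_logSeries_eq_zero {B : Type*} [CommRing B] [Algebra ℚ B] (u : Fin (n - 1) → B)
    {d : ℕ} (hd : ∀ K, d ≠ p ^ K) : PowerSeries.coeff d (logSeries p n u) = 0 :=
  coeff_logSeries_eq_zero' p n u hd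

omit [Fact p.Prime] in
theorem cLog_map {B B' : Type*} [CommRing B] [Algebra ℚ B] [CommRing B'] [Algebra ℚ B']
    (f : B →+* B') (u : Fin (n - 1) → B) (K : ℕ) :
    f (cLog p n u K) = cLog p n (f ∘ u) K :=
  cLog_map' p n u f K

/-- Functional equation lemma: the formal group law with this logarithm has integral
coefficients. -/
theorem exists_univFG : ∃ F : FormalGroup (MvPolynomial (Fin (n - 1)) ℤ), F.IsComm ∧
    ∀ (B : Type) [CommRing B] [Algebra ℚ B] (u : Fin (n - 1) → B),
      PowerSeries.subst (F.map (MvPolynomial.aeval u).toRingHom).toPowerSeries (logSeries p n u) =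
        PowerSeries.subst (MvPowerSeries.X (0 : Fin 2)) (logSeries p n u) +
          PowerSeries.subst (MvPowerSeries.X (1 : Fin 2)) (logSeries p n u) := by
  obtain ⟨F, hc, hF⟩ := exists_univFG_aux p n
  refine ⟨F, hc, fun B _ _ u => ?_⟩
  obtain ⟨hF1, hFlog⟩ := ratFG_spec p n
  set φ : MvPolynomial (Fin (n - 1)) ℚ →+* B := (MvPolynomial.aeval u).toRingHom with hφ
  have hφι : φ.comp (intToRat n) = (MvPolynomial.aeval u).toRingHom := by
    refine MvPolynomial.ringHom_ext (fun r => ?_) fun j => ?_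
    · simp [φ]
    · simp [φ]
  have hmap : (F.map (MvPolynomial.aeval u).toRingHom).toPowerSeries =
      MvPowerSeries.map φ (ratFG p n) := by
    rw [FormalGroup.map_toPowerSeries, ← hF, ← hφι]
    ext d : 1
    simp only [coeff_map]
    rfl
  have h := hFlog.map φ hF1
  rw [map_logSeries, show φ ∘ (fun j => MvPolynomial.X j) = u by funext j; simp [φ]] at h
  rw [hmap]
  exact h

/-- The universal formal group law. -/
def univFG : FormalGroup (MvPolynomial (Fin (n - 1)) ℤ) := (exists_univFG p n).choose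

/-- The formal group law with parameters `u`. -/
def fg {R : Type*} [CommRing R] (u : Fin (n - 1) → R) : FormalGroup R :=
  (univFG p n).map (MvPolynomial.aeval u).toRingHom

theorem isComm_map {R S : Type*} [CommRing R] [CommRing S] (F : FormalGroup R) [F.IsComm]
    (f : R →+* S) : (F.map f).IsComm := by
  constructor
  have h := congrArg (MvPowerSeries.map f) (FormalGroup.IsComm.comm (F := F))
  rw [map_subst (hasSubst_pair_below (X_mem_below _) (X_mem_below _))] at h
  rw [FormalGroup.map_toPowerSeries]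
  refine h.trans ?_
  congr 1
  ext i : 1
  fin_cases i <;> simp

instance fg_isComm {R : Type*} [CommRing R] (u : Fin (n - 1) → R) : (fg p n u).IsComm :=
  haveI : (univFG p n).IsComm := (exists_univFG p n).choose_spec.1
  isComm_map _ _

theorem fg_map {R S : Type*} [CommRing R] [CommRing S] (f : R →+* S) (u : Fin (n - 1) → R) :
    (fg p n u).map f = fg p n (f ∘ u) := by
  have hfu : f.comp (MvPolynomial.aeval (R := ℤ) u).toRingHom =
      (MvPolynomial.aeval (R := ℤ) (f ∘ u)).toRingHom := by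
    refine MvPolynomial.ringHom_ext (fun r => ?_) fun j => ?_
    · simp
    · simp
  refine FormalGroup.ext ?_
  simp only [fg, FormalGroup.map_toPowerSeries]
  ext d : 1
  simp only [coeff_map]
  rw [← hfu]
  rfl

theorem mulSeries_map {R S : Type*} [CommRing R] [CommRing S] (f : R →+* S) (F : FormalGroup R)
    (m : ℕ) : PowerSeries.map f (mulSeries F m) = mulSeries (F.map f) m := by
  induction m with
  | zero => simp [mulSeries]
  | succ m ih =>
    rw [mulSeries, mulSeries, FormalGroup.map_toPowerSeries]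
    refine (map_subst (hasSubst_pair_below (mem_below_one_iff.2 (constantCoeff_mulSeries F m))
      (X_mem_below _)) F.toPowerSeries).trans ?_
    congr 1
    ext i : 1
    fin_cases i
    · exact ih
    · exact PowerSeries.map_X f

theorem log_fg {B : Type} [CommRing B] [Algebra ℚ B] (u : Fin (n - 1) → B) :
    PowerSeries.subst (fg p n u).toPowerSeries (logSeries p n u) =
      PowerSeries.subst (MvPowerSeries.X (0 : Fin 2)) (logSeries p n u) +
        PowerSeries.subst (MvPowerSeries.X (1 : Fin 2)) (logSeries p n u) :=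
  (exists_univFG p n).choose_spec.2 B u

/-- The logarithm turns `[m]` into multiplication by `m`. -/
theorem subst_mulSeries_logSeries {B : Type} [CommRing B] [Algebra ℚ B] (u : Fin (n - 1) → B)
    (m : ℕ) : PowerSeries.subst (mulSeries (fg p n u) m) (logSeries p n u) =
      (m : PowerSeries B) * logSeries p n u := by
  induction m with
  | zero =>
    rw [mulSeries, Nat.cast_zero, zero_mul]
    exact PowerSeries.subst_zero_of_constantCoeff_zero (constantCoeff_logSeries p n u)
  | succ m ih =>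
    rw [mulSeries]
    refine (HasLog.subst₂ (fg_mem_below_one _) (log_fg p n u)
      (mem_below_one_iff.2 (constantCoeff_mulSeries _ m)) (X_mem_below _)).trans ?_
    rw [Nat.cast_succ, add_mul, one_mul]
    exact congrArg₂ (· + ·) ih (PowerSeries.X_subst _)

section Vanishing

variable {B : Type*} [CommRing B] [Algebra ℚ B]

theorem cLog_eq_zero_of_lt (u : Fin (n - 1) → B) {h : ℕ} (hhn : h ≤ n)
    (hu : ∀ i : Fin (n - 1), (i : ℕ) + 1 < h → u i = 0) {K : ℕ} (hK1 : 1 ≤ K) (hKh : K < h) :
    cLog p n u K = 0 := by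
  obtain ⟨K, rfl⟩ : ∃ k, K = k + 1 := ⟨K - 1, by omega⟩
  rw [cLog_succ_range, Finset.sum_eq_zero, mul_zero]
  intro i hi
  simp only [Finset.mem_range] at hi
  rw [uvar_eq_zero_of_lt n u hhn hu (by omega) (by omega),
    zero_pow (pow_ne_zero _ (Fact.out : p.Prime).ne_zero), mul_zero]

theorem p_mul_cLog_eq_uvar (u : Fin (n - 1) → B) {h : ℕ} (hh : 1 ≤ h) (hhn : h ≤ n)
    (hu : ∀ i : Fin (n - 1), (i : ℕ) + 1 < h → u i = 0) :
    (p : B) * cLog p n u h = uvar n u h := by
  obtain ⟨k, rfl⟩ : ∃ k, h = k + 1 := ⟨h - 1, by omega⟩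
  rw [cLog_succ_range, ← mul_assoc, p_mul_inv, one_mul, Finset.sum_range_succ,
    Finset.sum_eq_zero, Nat.sub_self, cLog_zero, zero_add, one_mul, pow_zero, pow_one]
  intro i hi
  simp only [Finset.mem_range] at hi
  rw [uvar_eq_zero_of_lt n u hhn hu (by omega) (by omega),
    zero_pow (pow_ne_zero _ (Fact.out : p.Prime).ne_zero), mul_zero]

theorem p_mul_cLog_zero_vec (hn : 1 ≤ n) {L : ℕ} (hL : 1 ≤ L) :
    (p : B) * cLog p n (0 : Fin (n - 1) → B) L =
      if n ≤ L then cLog p n (0 : Fin (n - 1) → B) (L - n) else 0 := by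
  obtain ⟨k, rfl⟩ : ∃ k, L = k + 1 := ⟨L - 1, by omega⟩
  rw [cLog_succ_range, ← mul_assoc, p_mul_inv, one_mul]
  simp only [uvar_zero_vec]
  by_cases hnk : n ≤ k + 1
  · rw [if_pos hnk, Finset.sum_eq_single (n - 1)]
    · rw [if_pos (by omega), one_pow, mul_one]
      congr 1
      omega
    · intro i _ hi
      rw [if_neg (by omega), zero_pow (pow_ne_zero _ (Fact.out : p.Prime).ne_zero), mul_zero]
    · intro hmem
      simp only [Finset.mem_range] at hmem
      omega
  · rw [if_neg hnk]
    refine Finset.sum_eq_zero fun i hi => ?_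
    simp only [Finset.mem_range] at hi
    rw [if_neg (by omega), zero_pow (pow_ne_zero _ (Fact.out : p.Prime).ne_zero), mul_zero]

theorem cLog_mul_pow_of_pow_eq (hn : 1 ≤ n) {ζ : B} (hζ : ζ ^ p ^ n = ζ) (K : ℕ) :
    cLog p n (0 : Fin (n - 1) → B) K * ζ ^ p ^ K = ζ * cLog p n (0 : Fin (n - 1) → B) K := by
  induction K using Nat.strong_induction_on with
  | _ K ih =>
    rcases Nat.eq_zero_or_pos K with rfl | hK
    · simp [cLog_zero]
    · rw [eq_inv_mul p (p_mul_cLog_zero_vec p n hn hK)]
      split_ifs with hnK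
      · obtain ⟨j, rfl⟩ := Nat.exists_eq_add_of_le hnK
        rw [Nat.add_sub_cancel_left, pow_add, pow_mul, hζ, mul_assoc, ih j (by omega),
          mul_left_comm]
      · simp

theorem coeff_fg_of_le_rat {B : Type} [CommRing B] [Algebra ℚ B] (u : Fin (n - 1) → B) {h : ℕ}
    (hh : 1 ≤ h) (hhn : h ≤ n) (hu : ∀ i : Fin (n - 1), (i : ℕ) + 1 < h → u i = 0)
    (d : Fin 2 →₀ ℕ) (hd : d.degree ≤ p ^ h) :
    coeff d (fg p n u).toPowerSeries =
      coeff d (X 0 + X 1 - C (uvar n u h) * Cpow p h) := by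
  have hpp : p.Prime := Fact.out
  set F := (fg p n u).toPowerSeries with hF
  have hF1 : F ∈ below 1 := fg_mem_below_one _
  have hlog := congrArg (coeff d) (log_fg p n u)
  have hh' : h ∈ Finset.range (p ^ h + 1) :=
    Finset.mem_range.2 (Nat.lt_succ_of_lt (Nat.lt_pow_self hpp.one_lt))
  rw [map_add, coeff_log_subst p n u hF1 d hd, coeff_log_subst p n u (X_mem_below _) d hd,
    coeff_log_subst p n u (X_mem_below _) d hd] at hlog
  have hsum : ∀ f : MvPowerSeries (Fin 2) B, f ∈ below 1 →
      ∑ K ∈ Finset.range (p ^ h + 1), cLog p n u K * coeff d (f ^ p ^ K) =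
        coeff d f + cLog p n u h * coeff d (f ^ p ^ h) := by
    intro f hf
    rw [Finset.sum_eq_add_of_mem 0 h (by simp) hh' (by omega)]
    · simp [cLog_zero]
    · intro K _ hK
      rcases lt_or_gt_of_ne hK.2 with hlt | hgt
      · rw [cLog_eq_zero_of_lt p n u hhn hu (by omega) hlt, zero_mul]
      · rw [pow_mem_below hf _ d ?_, mul_zero]
        have := Nat.pow_lt_pow_right hpp.one_lt hgt
        omega
  rw [hsum F hF1, hsum _ (X_mem_below _), hsum _ (X_mem_below _)] at hlog
  have hpow : coeff d (F ^ p ^ h) =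
      coeff d (((X 0 : MvPowerSeries (Fin 2) B) + X 1) ^ p ^ h) :=
    coeff_eq_of_below (pow_sub_pow_mem_below hF1 X_add_X_mem_below (fg_sub_linear_mem_below _)
      (p ^ h)) (by omega)
  rw [hpow] at hlog
  have hC := natCast_mul_coeff_Cpow (R := B) p h d
  rw [map_sub, map_add, coeff_C_mul, ← p_mul_cLog_eq_uvar p n u hh hhn hu]
  linear_combination hlog + cLog p n u h * hC

end Vanishing

omit [Fact p.Prime] in
theorem map_lowLaw {A B : Type*} [CommRing A] [CommRing B] (f : A →+* B) (w : A) (h : ℕ) :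
    MvPowerSeries.map f (X 0 + X 1 - C w * Cpow p h) = X 0 + X 1 - C (f w) * Cpow p h := by
  rw [map_sub, map_add, map_mul, map_X, map_X, MvPowerSeries.map_C, map_Cpow]

/-- The universal vector on the locus `u_i = 0` for `i < h`. -/
def locVec (h : ℕ) : Fin (n - 1) → MvPolynomial (Fin (n - 1)) ℤ :=
  fun j => if (j : ℕ) + 1 < h then 0 else MvPolynomial.X j

theorem locVec_eq_zero (h : ℕ) (i : Fin (n - 1)) (hi : (i : ℕ) + 1 < h) : locVec n h i = 0 :=
  if_pos hi

theorem aeval_comp_locVec {R : Type*} [CommRing R] (u : Fin (n - 1) → R) {h : ℕ}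
    (hu : ∀ i : Fin (n - 1), (i : ℕ) + 1 < h → u i = 0) :
    (MvPolynomial.aeval (R := ℤ) u).toRingHom ∘ locVec n h = u := by
  funext j
  by_cases hj : (j : ℕ) + 1 < h
  · simp [locVec, hj, hu j hj]
  · simp [locVec, hj]

/-- On the locus `u_i = 0` for `i < h`, the law in degrees `≤ p ^ h`. -/
theorem coeff_fg_of_le {R : Type*} [CommRing R] (u : Fin (n - 1) → R) {h : ℕ} (hh : 1 ≤ h)
    (hhn : h ≤ n) (hu : ∀ i : Fin (n - 1), (i : ℕ) + 1 < h → u i = 0) (d : Fin 2 →₀ ℕ)
    (hd : d.degree ≤ p ^ h) :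
    MvPowerSeries.coeff d (fg p n u).toPowerSeries =
      MvPowerSeries.coeff d (MvPowerSeries.X 0 + MvPowerSeries.X 1
        - MvPowerSeries.C (uvar n u h) * Cpow p h) := by
  have key : coeff d (fg p n (locVec n h)).toPowerSeries =
      coeff d (X 0 + X 1 - C (uvar n (locVec n h) h) * Cpow p h) := by
    apply intToRat_injective n
    rw [← coeff_map, ← FormalGroup.map_toPowerSeries, fg_map,
      coeff_fg_of_le_rat p n _ hh hhn (fun i hi => by simp [locVec, hi]) d hd, ← uvar_map,
      ← coeff_map, map_lowLaw]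
  have := congrArg (MvPolynomial.aeval (R := ℤ) u).toRingHom key
  rw [← coeff_map, ← FormalGroup.map_toPowerSeries, fg_map, ← coeff_map, map_lowLaw,
    uvar_map, aeval_comp_locVec n u hu] at this
  exact this

theorem eq_single_unit (e : Unit →₀ ℕ) : e = single () (e ()) := Finsupp.ext fun ⟨⟩ => by simp

theorem mem_below_of_coeff {R : Type*} [CommRing R] {D : ℕ} {f : PowerSeries R}
    (h : ∀ E < D, PowerSeries.coeff E f = 0) : f ∈ below (σ := Unit) D := fun e he => by
  rw [eq_single_unit e] at he ⊢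
  rw [Finsupp.degree_single] at he
  exact h _ he

/-- The coefficient recursion for `[p]`, modulo `p`. -/
theorem exists_coeff_mulSeries_step (v : Fin (n - 1) → MvPolynomial (Fin (n - 1)) ℤ)
    {f0 : PowerSeries (MvPolynomial (Fin (n - 1)) ℤ)} (hf0 : PowerSeries.constantCoeff f0 = 0)
    {D : ℕ}
    (hIH : ∀ E < D, (p : MvPolynomial (Fin (n - 1)) ℤ) ∣
      PowerSeries.coeff E (mulSeries (fg p n v) p) - PowerSeries.coeff E f0) :
    ∃ w, intToRat n (PowerSeries.coeff D (mulSeries (fg p n v) p)) +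
      ∑ K ∈ Finset.range D, cLog p n (intToRat n ∘ v) (K + 1) *
        intToRat n (PowerSeries.coeff D (f0 ^ p ^ (K + 1))) =
      (p : MvPolynomial (Fin (n - 1)) ℚ) *
        (PowerSeries.coeff D (logSeries p n (intToRat n ∘ v)) + intToRat n w) := by
  classical
  have hpp : p.Prime := Fact.out
  set f := mulSeries (fg p n v) p with hf
  have hf1 : f ∈ below (σ := Unit) 1 := mem_below_one_iff'.2 (constantCoeff_mulSeries _ _)
  have hf01 : f0 ∈ below (σ := Unit) 1 := mem_below_one_iff'.2 hf0
  set b : PowerSeries (MvPolynomial (Fin (n - 1)) ℤ) :=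
    PowerSeries.mk fun E => if E < D then PowerSeries.coeff E f else PowerSeries.coeff E f0
    with hb
  have hb1 : b ∈ below (σ := Unit) 1 := by
    refine mem_below_one_iff'.2 ?_
    rw [← PowerSeries.coeff_zero_eq_constantCoeff, hb, PowerSeries.coeff_mk]
    split_ifs
    · rw [PowerSeries.coeff_zero_eq_constantCoeff, hf, constantCoeff_mulSeries]
    · rw [PowerSeries.coeff_zero_eq_constantCoeff, hf0]
  have hbf : f - b ∈ below (σ := Unit) D := mem_below_of_coeff fun E hE => by
    rw [map_sub, sub_eq_zero, hb, PowerSeries.coeff_mk, if_pos hE]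
  have hdvd : (p : PowerSeries (MvPolynomial (Fin (n - 1)) ℤ)) ∣ b - f0 := by
    have : ∀ E, (p : MvPolynomial (Fin (n - 1)) ℤ) ∣ PowerSeries.coeff E (b - f0) := by
      intro E
      rw [map_sub, hb, PowerSeries.coeff_mk]
      split_ifs with hE
      · exact hIH E hE
      · simp
    choose c hc using this
    refine ⟨PowerSeries.mk c, PowerSeries.ext fun E => ?_⟩
    rw [← map_natCast (PowerSeries.C (R := MvPolynomial (Fin (n - 1)) ℤ)),
      PowerSeries.coeff_C_mul, PowerSeries.coeff_mk, hc]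
  choose w hw using fun K => exists_int_cLog_mul_sub p n v (σ := Unit) hdvd (K + 1)
    (single () D)
  refine ⟨-∑ K ∈ Finset.range D, w K, ?_⟩
  have hlog := congrArg (coeff (single () D)) (subst_mulSeries_logSeries p n (intToRat n ∘ v) p)
  have hιf1 : PowerSeries.map (intToRat n) f ∈ below (σ := Unit) 1 := map_mem_below _ hf1
  rw [← fg_map, ← mulSeries_map, ← hf, coeff_log_subst p n _ hιf1 _
    (N := D) (by simp [Finsupp.degree_single]), Finset.sum_range_succ', cLog_zero, one_mul,
    pow_zero, pow_one] at hlog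
  have hC : coeff (single () D) ((p : PowerSeries (MvPolynomial (Fin (n - 1)) ℚ)) *
      logSeries p n (intToRat n ∘ v)) =
      (p : MvPolynomial (Fin (n - 1)) ℚ) *
        PowerSeries.coeff D (logSeries p n (intToRat n ∘ v)) := by
    change PowerSeries.coeff D _ = _
    rw [← map_natCast (PowerSeries.C (R := MvPolynomial (Fin (n - 1)) ℚ)),
      PowerSeries.coeff_C_mul]
  rw [hC] at hlog
  have hpow : ∀ K ∈ Finset.range D, cLog p n (intToRat n ∘ v) (K + 1) *
      coeff (single () D) (PowerSeries.map (intToRat n) f ^ p ^ (K + 1)) =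
      cLog p n (intToRat n ∘ v) (K + 1) * intToRat n (PowerSeries.coeff D (f0 ^ p ^ (K + 1))) +
        (p : MvPolynomial (Fin (n - 1)) ℚ) * intToRat n (w K) := by
    intro K _
    have h2 : 2 ≤ p ^ (K + 1) := le_trans hpp.two_le (Nat.le_self_pow (by omega) p)
    have e : coeff (single () D) (PowerSeries.map (intToRat n) f ^ p ^ (K + 1)) =
        intToRat n (coeff (single () D) (b ^ p ^ (K + 1))) := by
      rw [← coeff_eq_of_below (pow_sub_pow_mem_below hf1 hb1 hbf (p ^ (K + 1)))
        (by rw [Finsupp.degree_single]; omega), ← map_pow]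
      rfl
    rw [e, ← hw K, map_sub, mul_sub]
    simp only [PowerSeries.coeff]
    ring
  rw [Finset.sum_congr rfl hpow, Finset.sum_add_distrib, ← Finset.mul_sum] at hlog
  have hfD : coeff (single () D) (PowerSeries.map (intToRat n) f) =
      intToRat n (PowerSeries.coeff D f) := PowerSeries.coeff_map _ _ _
  rw [hfD] at hlog
  rw [map_neg, map_sum, mul_add, mul_neg, ← hlog]
  ring

omit [Fact p.Prime] in
theorem dvd_of_map_eq_mul {x : MvPolynomial (Fin (n - 1)) ℤ}
    {y : MvPolynomial (Fin (n - 1)) ℤ}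
    (h : intToRat n x = (p : MvPolynomial (Fin (n - 1)) ℚ) * intToRat n y) :
    (p : MvPolynomial (Fin (n - 1)) ℤ) ∣ x :=
  ⟨y, intToRat_injective n (by rw [h, map_mul, map_natCast])⟩

theorem dvd_coeff_mulSeries_locVec {h : ℕ} (hhn : h ≤ n) (D : ℕ) :
    (p : MvPolynomial (Fin (n - 1)) ℤ) ∣
      PowerSeries.coeff D (mulSeries (fg p n (locVec n h)) p) -
        PowerSeries.coeff D (PowerSeries.expand (p ^ h) (pow_ne_zero h (Fact.out : p.Prime).ne_zero)
          (PowerSeries.mk fun m =>
            PowerSeries.coeff (p ^ h * m) (mulSeries (fg p n (locVec n h)) p))) := by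
  induction D using Nat.strong_induction_on with
  | _ D ih =>
    have hpp : p.Prime := Fact.out
    by_cases hD : p ^ h ∣ D
    · obtain ⟨m, rfl⟩ := hD
      rw [PowerSeries.coeff_expand_mul, PowerSeries.coeff_mk, sub_self]
      exact dvd_zero _
    rw [PowerSeries.coeff_expand_of_not_dvd _ _ _ hD, sub_zero]
    have hf0 : PowerSeries.constantCoeff (PowerSeries.expand (p ^ h)
        (pow_ne_zero h hpp.ne_zero) (PowerSeries.mk fun m =>
          PowerSeries.coeff (p ^ h * m) (mulSeries (fg p n (locVec n h)) p))) = 0 := by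
      rw [PowerSeries.constantCoeff_expand, ← PowerSeries.coeff_zero_eq_constantCoeff,
        PowerSeries.coeff_mk, mul_zero, PowerSeries.coeff_zero_eq_constantCoeff,
        constantCoeff_mulSeries]
    obtain ⟨w, hw⟩ := exists_coeff_mulSeries_step p n (locVec n h) hf0 ih
    rw [Finset.sum_eq_zero fun K _ => by
      rw [← map_pow, PowerSeries.coeff_expand_of_not_dvd _ _ _ hD, map_zero, mul_zero],
      add_zero] at hw
    by_cases hD1 : D = 1
    · subst hD1
      rw [coeff_one_logSeries, ← map_one (intToRat n), ← map_add] at hw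
      exact dvd_of_map_eq_mul p n hw
    · rw [show PowerSeries.coeff D (logSeries p n (intToRat n ∘ locVec n h)) = 0 from ?_,
        zero_add] at hw
      · exact dvd_of_map_eq_mul p n hw
      by_cases hpw : ∃ K, D = p ^ K
      · obtain ⟨K, rfl⟩ := hpw
        rw [coeff_logSeries_pow']
        refine cLog_eq_zero_of_lt p n _ hhn (fun i hi => by simp [locVec, hi]) ?_ ?_
        · refine Nat.one_le_iff_ne_zero.2 ?_
          rintro rfl
          exact hD1 (pow_zero p)
        · by_contra hK
          exact hD (pow_dvd_pow p (not_lt.1 hK))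
      · exact coeff_logSeries_eq_zero' p n _ fun K hK => hpw ⟨K, hK⟩

theorem coeff_mulSeries_locVec {h : ℕ} (hh : 1 ≤ h) (hhn : h ≤ n) :
    PowerSeries.coeff (p ^ h) (mulSeries (fg p n (locVec n h)) p) =
      uvar n (locVec n h) h * (1 - (p : MvPolynomial (Fin (n - 1)) ℤ) ^ (p ^ h - 1)) := by
  have hpp : p.Prime := Fact.out
  apply intToRat_injective n
  set v := intToRat n ∘ locVec n h with hv
  have hu : ∀ i : Fin (n - 1), (i : ℕ) + 1 < h → v i = 0 := fun i hi => by simp [v, locVec, hi]
  rw [map_mul, map_sub, map_one, map_pow, map_natCast, uvar_map, ← hv, ← PowerSeries.coeff_map,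
    mulSeries_map, fg_map, ← hv]
  set f := mulSeries (fg p n v) p with hf
  have hf1 : f ∈ below (σ := Unit) 1 := mem_below_one_iff'.2 (constantCoeff_mulSeries _ _)
  have hlog := fun D : ℕ => congrArg (coeff (single () D)) (subst_mulSeries_logSeries p n v p)
  have h1 : PowerSeries.coeff 1 f = p := by
    have := hlog 1
    rw [coeff_log_subst p n v hf1 _ (N := 1) (by simp [Finsupp.degree_single]),
      Finset.sum_range_succ, Finset.sum_range_one, cLog_zero, one_mul, pow_zero, pow_one,
      pow_mem_below hf1 (p ^ 1) _ (by simp [Finsupp.degree_single, hpp.one_lt]), mul_zero,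
      add_zero] at this
    rw [PowerSeries.coeff, this]
    change PowerSeries.coeff 1 _ = _
    rw [← map_natCast (PowerSeries.C (R := MvPolynomial (Fin (n - 1)) ℚ)),
      PowerSeries.coeff_C_mul, coeff_one_logSeries, mul_one]
  have hq := hlog (p ^ h)
  have hh' : h ∈ Finset.range (p ^ h + 1) :=
    Finset.mem_range.2 (Nat.lt_succ_of_lt (Nat.lt_pow_self hpp.one_lt))
  rw [coeff_log_subst p n v hf1 _ (N := p ^ h) (by simp [Finsupp.degree_single]),
    Finset.sum_eq_add_of_mem 0 h (by simp) hh' (by omega)] at hq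
  swap
  · intro K _ hK
    rcases lt_or_gt_of_ne hK.2 with hlt | hgt
    · rw [cLog_eq_zero_of_lt p n v hhn hu (by omega) hlt, zero_mul]
    · rw [pow_mem_below hf1 _ _ ?_, mul_zero]
      have := Nat.pow_lt_pow_right hpp.one_lt hgt
      simp [Finsupp.degree_single]
      omega
  set b : PowerSeries (MvPolynomial (Fin (n - 1)) ℚ) :=
    PowerSeries.C (p : MvPolynomial (Fin (n - 1)) ℚ) * PowerSeries.X with hb
  have hb1 : b ∈ below (σ := Unit) 1 := mem_below_one_iff'.2 (by simp [b])
  have hfb : f - b ∈ below (σ := Unit) 2 := mem_below_of_coeff fun E hE => by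
    rcases Nat.eq_zero_or_pos E with rfl | h0
    · rw [PowerSeries.coeff_zero_eq_constantCoeff, map_sub, hf, constantCoeff_mulSeries]
      simp [b]
    · rw [show E = 1 by omega, map_sub, h1]
      simp [b]
  have hpw : coeff (single () (p ^ h)) (f ^ p ^ h) =
      (p : MvPolynomial (Fin (n - 1)) ℚ) ^ p ^ h := by
    rw [coeff_eq_of_below (pow_sub_pow_mem_below hf1 hb1 hfb (p ^ h))
      (by rw [Finsupp.degree_single]; omega), hb, mul_pow, ← map_pow]
    change PowerSeries.coeff (p ^ h) _ = _
    rw [PowerSeries.coeff_C_mul, PowerSeries.coeff_X_pow_self, mul_one]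
  rw [hpw, cLog_zero, one_mul, pow_zero, pow_one] at hq
  have hR : coeff (single () (p ^ h)) ((p : PowerSeries (MvPolynomial (Fin (n - 1)) ℚ)) *
      logSeries p n v) = (p : MvPolynomial (Fin (n - 1)) ℚ) * cLog p n v h := by
    change PowerSeries.coeff (p ^ h) _ = _
    rw [← map_natCast (PowerSeries.C (R := MvPolynomial (Fin (n - 1)) ℚ)),
      PowerSeries.coeff_C_mul, coeff_logSeries_pow']
  rw [hR] at hq
  have hU := p_mul_cLog_eq_uvar p n v hh hhn hu
  obtain ⟨k, hk⟩ : ∃ k, p ^ h = k + 1 := ⟨p ^ h - 1, by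
    have := Nat.one_le_pow h p hpp.pos
    omega⟩
  rw [hk, Nat.add_sub_cancel]
  rw [hk, pow_succ] at hq
  simp only [PowerSeries.coeff] at hq ⊢
  linear_combination hq + (1 - (p : MvPolynomial (Fin (n - 1)) ℚ) ^ k) * hU

/-- In characteristic `p`, on the locus `u_i = 0` for `i < h`, `[p]` is a series in `X ^ (p ^ h)`
with linear coefficient `U_h`. -/
theorem mulSeries_fg_stratum {R : Type*} [CommRing R] [CharP R p] (u : Fin (n - 1) → R) {h : ℕ}
    (hh : 1 ≤ h) (hhn : h ≤ n) (hu : ∀ i : Fin (n - 1), (i : ℕ) + 1 < h → u i = 0) :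
    ∃ g : PowerSeries R, PowerSeries.constantCoeff g = 0 ∧
      PowerSeries.coeff 1 g = uvar n u h ∧
      mulSeries (fg p n u) p = PowerSeries.subst (PowerSeries.X ^ p ^ h) g := by
  have hpp : p.Prime := Fact.out
  set φ := (MvPolynomial.aeval (R := ℤ) u).toRingHom with hφ
  set ft := mulSeries (fg p n (locVec n h)) p with hft
  have hfu : mulSeries (fg p n u) p = PowerSeries.map φ ft := by
    rw [hft, mulSeries_map, fg_map, hφ, aeval_comp_locVec n u hu]
  refine ⟨PowerSeries.mk fun m => φ (PowerSeries.coeff (p ^ h * m) ft), ?_, ?_, ?_⟩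
  · rw [← PowerSeries.coeff_zero_eq_constantCoeff, PowerSeries.coeff_mk, mul_zero,
      PowerSeries.coeff_zero_eq_constantCoeff, hft, constantCoeff_mulSeries, map_zero]
  · obtain ⟨k, hk⟩ : ∃ k, p ^ h - 1 = k + 1 := ⟨p ^ h - 2, by
      have : 2 ≤ p ^ h := le_trans hpp.two_le (Nat.le_self_pow (by omega) p)
      omega⟩
    rw [PowerSeries.coeff_mk, mul_one, hft, coeff_mulSeries_locVec p n hh hhn, map_mul, map_sub,
      map_one, map_pow, map_natCast, CharP.cast_eq_zero, uvar_map, hφ,
      aeval_comp_locVec n u hu, hk, zero_pow (Nat.succ_ne_zero k), sub_zero, mul_one]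
  · rw [hfu, ← PowerSeries.expand_apply (p ^ h) (pow_ne_zero h hpp.ne_zero)]
    ext D
    obtain ⟨c, hc⟩ := dvd_coeff_mulSeries_locVec p n hhn D
    have h0 := congrArg φ hc
    rw [map_sub, map_mul, map_natCast, CharP.cast_eq_zero, zero_mul, sub_eq_zero,
      ← PowerSeries.coeff_map, ← PowerSeries.coeff_map, PowerSeries.map_expand] at h0
    refine h0.trans ?_
    congr 1

theorem dvd_coeff_mulSeries_zero (hn : 1 ≤ n) (D : ℕ) :
    (p : MvPolynomial (Fin (n - 1)) ℤ) ∣
      PowerSeries.coeff D (mulSeries (fg p n (0 : Fin (n - 1) → MvPolynomial (Fin (n - 1)) ℤ)) p) -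
        PowerSeries.coeff D (PowerSeries.X ^ p ^ n) := by
  induction D using Nat.strong_induction_on with
  | _ D ih =>
    have hpp : p.Prime := Fact.out
    have hQ : 1 ≤ p ^ n := Nat.one_le_pow _ _ hpp.pos
    obtain ⟨w, hw⟩ := exists_coeff_mulSeries_step p n 0
      (by simp [hpp.ne_zero]) ih
    have hv : intToRat n ∘ (0 : Fin (n - 1) → MvPolynomial (Fin (n - 1)) ℤ) = 0 := by
      funext j; simp
    set c : ℕ → MvPolynomial (Fin (n - 1)) ℚ :=
      cLog p n (0 : Fin (n - 1) → MvPolynomial (Fin (n - 1)) ℚ) with hc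
    have hl : ∃ e, (p : MvPolynomial (Fin (n - 1)) ℚ) * PowerSeries.coeff D
          (logSeries p n (0 : Fin (n - 1) → MvPolynomial (Fin (n - 1)) ℚ)) =
        (p : MvPolynomial (Fin (n - 1)) ℚ) * intToRat n e +
          ∑ K ∈ Finset.range (D + 1), c K * (if D = p ^ n * p ^ K then 1 else 0) := by
      by_cases hpw : ∃ L, D = p ^ L
      · obtain ⟨L, rfl⟩ := hpw
        rw [coeff_logSeries_pow', ← hc]
        rcases Nat.eq_zero_or_pos L with rfl | hL
        · refine ⟨1, ?_⟩
          rw [map_one, mul_one, hc, cLog_zero, mul_one, Finset.sum_eq_zero, add_zero]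
          intro K _
          rw [if_neg, mul_zero]
          rw [pow_zero, ← pow_add]
          exact ne_of_lt (Nat.one_lt_pow (by omega) hpp.one_lt)
        refine ⟨0, ?_⟩
        rw [map_zero, mul_zero, zero_add, hc, p_mul_cLog_zero_vec p n hn hL]
        have hiff : ∀ K, p ^ L = p ^ n * p ^ K ↔ L = n + K := fun K => by
          rw [← pow_add, Nat.pow_right_injective hpp.two_le |>.eq_iff]
        simp only [hiff]
        split_ifs with hnL
        · rw [Finset.sum_eq_single (L - n)]
          · rw [if_pos (by omega), mul_one]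
          · intro K _ hK
            rw [if_neg (by omega), mul_zero]
          · intro hmem
            simp only [Finset.mem_range] at hmem
            have := (Nat.lt_pow_self hpp.one_lt : L < p ^ L)
            omega
        · refine (Finset.sum_eq_zero fun K _ => ?_).symm
          rw [if_neg (by omega), mul_zero]
      · refine ⟨0, ?_⟩
        rw [coeff_logSeries_eq_zero' p n _ (fun K hK => hpw ⟨K, hK⟩), map_zero, mul_zero,
          zero_add]
        refine (Finset.sum_eq_zero fun K _ => ?_).symm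
        rw [if_neg (fun hK => hpw ⟨n + K, by rw [pow_add]; exact hK⟩), mul_zero]
    obtain ⟨e, he⟩ := hl
    rw [Finset.sum_range_succ', hc, cLog_zero, one_mul, pow_zero, mul_one] at he
    rw [hv, mul_add, he] at hw
    simp only [← pow_mul, PowerSeries.coeff_X_pow, apply_ite (intToRat n), map_one, map_zero] at hw
    refine ⟨e + w, intToRat_injective n ?_⟩
    rw [map_sub, map_mul, map_add, map_natCast, PowerSeries.coeff_X_pow, apply_ite (intToRat n),
      map_one, map_zero]
    linear_combination hw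

/-- The Honda formal group law: `[p] = X ^ (p ^ n)`. -/
theorem mulSeries_fg_zero {R : Type*} [CommRing R] [CharP R p] (hn : 1 ≤ n) :
    mulSeries (fg p n (0 : Fin (n - 1) → R)) p = PowerSeries.X ^ p ^ n := by
  set φ := (MvPolynomial.aeval (R := ℤ) (0 : Fin (n - 1) → R)).toRingHom with hφ
  have h0 : φ ∘ (0 : Fin (n - 1) → MvPolynomial (Fin (n - 1)) ℤ) = 0 := by
    funext j; simp
  rw [← h0, ← fg_map, ← mulSeries_map]
  ext D
  obtain ⟨c, hc⟩ := dvd_coeff_mulSeries_zero p n hn D
  have h1 := congrArg φ hc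
  rw [map_sub, map_mul, map_natCast, CharP.cast_eq_zero, zero_mul, sub_eq_zero] at h1
  rw [PowerSeries.coeff_map, h1, PowerSeries.coeff_X_pow, PowerSeries.coeff_X_pow,
    apply_ite φ, map_one, map_zero]

/-- Frobenius is an endomorphism of the Honda formal group law. -/
theorem isHomSeries_frobenius {R : Type*} [CommRing R] [CharP R p] (hn : 1 ≤ n) :
    IsHomSeries (fg p n (0 : Fin (n - 1) → R)) (fg p n 0) (PowerSeries.X ^ p) := by
  have hpp : p.Prime := Fact.out
  have : ExpChar R p := ExpChar.prime hpp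
  refine ⟨by simp [hpp.ne_zero], ?_⟩
  set F := fg p n (0 : Fin (n - 1) → R) with hF
  have hFF : F.map (frobenius R p) = F := by
    rw [hF, fg_map]
    congr 1
    funext j
    simp [frobenius_def, hpp.ne_zero]
  have e : ∀ {a : MvPowerSeries (Fin 2) R}, a ∈ below 1 →
      PowerSeries.subst a (PowerSeries.X ^ p : PowerSeries R) = a ^ p := fun ha => by
    rw [PowerSeries.subst_pow (hasSubst_single_of_below ha),
      PowerSeries.subst_X (hasSubst_single_of_below ha)]
  rw [e (fg_mem_below_one _), e (X_mem_below _), e (X_mem_below _),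
    ← map_expand_eq_subst hpp.ne_zero, ← map_frobenius_expand p hpp.ne_zero, map_expand,
    ← FormalGroup.map_toPowerSeries, hFF]

/-- The coefficients of the Honda law over `ℤ` sit in degrees `≡ 1` modulo `p ^ n - 1`. -/
theorem dvd_degree_sub_one (hn : 1 ≤ n) (d : Fin 2 →₀ ℕ)
    (hd : coeff d (fg p n (0 : Fin (n - 1) → ℤ)).toPowerSeries ≠ 0) :
    ∃ k, d.degree = 1 + (p ^ n - 1) * k := by
  have hpp : p.Prime := Fact.out
  have hQ : 2 ≤ p ^ n := le_trans hpp.two_le (Nat.le_self_pow (by omega) p)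
  have hdeg : 1 ≤ d.degree := by
    by_contra hcon
    exact hd (fg_mem_below_one _ d (lt_of_not_ge hcon))
  obtain ⟨ζ, hζ⟩ : ∃ ζ : ℂ, IsPrimitiveRoot ζ (p ^ n - 1) :=
    ⟨_, Complex.isPrimitiveRoot_exp (p ^ n - 1) (by omega)⟩
  have hζQ : ζ ^ p ^ n = ζ := by
    rw [show p ^ n = (p ^ n - 1) + 1 by omega, pow_succ, hζ.pow_eq_one, one_mul]
  set l := logSeries p n (0 : Fin (n - 1) → ℂ) with hl
  set F := (fg p n (0 : Fin (n - 1) → ℂ)).toPowerSeries with hF
  have hF1 : F ∈ below 1 := fg_mem_below_one _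
  have hscale : ∀ f : MvPowerSeries (Fin 2) ℂ, f ∈ below 1 →
      PowerSeries.subst (C ζ * f) l = C ζ * PowerSeries.subst f l := by
    intro f hf
    ext e : 1
    rw [coeff_C_mul, hl, coeff_log_subst p n _ (Ideal.mul_mem_left _ _ hf) e le_rfl,
      coeff_log_subst p n _ hf e le_rfl, Finset.mul_sum]
    refine Finset.sum_congr rfl fun K _ => ?_
    rw [mul_pow, ← map_pow, coeff_C_mul, ← mul_assoc, cLog_mul_pow_of_pow_eq p n hn hζQ,
      mul_assoc]
  have hζX : ∀ s : Fin 2, C ζ * X s ∈ below (1 : ℕ) :=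
    fun s => Ideal.mul_mem_left _ _ (X_mem_below s)
  have hlog : HasLog l F := log_fg p n 0
  have heq : subst ![C ζ * X 0, C ζ * X 1] F = C ζ * F := by
    refine eq_of_subst_eq (l := l) (constantCoeff_logSeries p n (0 : Fin (n - 1) → ℂ))
      (coeff_one_logSeries p n (0 : Fin (n - 1) → ℂ))
      (subst_mem_below_one (fun i => by fin_cases i <;> exact hζX _) hF1)
      (Ideal.mul_mem_left _ _ hF1) ?_
    rw [hlog.subst₂ hF1 (hζX 0) (hζX 1), hscale _ hF1, hlog, hscale _ (X_mem_below _),
      hscale _ (X_mem_below _), mul_add]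
  have hres : rescale (fun _ => ζ) F = subst ![C ζ * X 0, C ζ * X 1] F := by
    rw [rescale_eq_subst]
    congr 1
    ext i : 1
    fin_cases i <;> simp [smul_eq_C_mul]
  have hc := congrArg (coeff d) (hres.trans heq)
  rw [coeff_rescale, coeff_C_mul] at hc
  have hprod : (d.prod fun _ m => ζ ^ m) = ζ ^ d.degree := by
    rw [Finsupp.prod, Finset.prod_pow_eq_pow_sum, Finsupp.degree_apply]
  rw [hprod] at hc
  have hne : coeff d F ≠ 0 := by
    have e : F = MvPowerSeries.map (Int.castRingHom ℂ)
        (fg p n (0 : Fin (n - 1) → ℤ)).toPowerSeries := by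
      rw [hF, ← FormalGroup.map_toPowerSeries, fg_map]
      congr 3
      funext j
      simp
    rw [e, coeff_map]
    simpa using hd
  obtain ⟨m, hm⟩ : ∃ m, d.degree = m + 1 := ⟨d.degree - 1, by omega⟩
  rw [hm, pow_succ] at hc
  have h1 : ζ ^ m = 1 := by
    have hζ0 : ζ ≠ 0 := hζ.ne_zero (by omega)
    apply mul_right_cancel₀ (mul_ne_zero hne hζ0)
    linear_combination hc
  obtain ⟨k, hk⟩ := hζ.dvd_of_pow_eq_one m h1
  exact ⟨k, by omega⟩

/-- Roots of `ζ ^ (p ^ n) = ζ` act by multiplication on the Honda formal group law. -/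
theorem isHomSeries_teich {R : Type*} [CommRing R] (hn : 1 ≤ n) (ζ : R) (hζ : ζ ^ p ^ n = ζ) :
    IsHomSeries (fg p n (0 : Fin (n - 1) → R)) (fg p n 0)
      (PowerSeries.C ζ * PowerSeries.X) := by
  refine ⟨by simp, ?_⟩
  set F := (fg p n (0 : Fin (n - 1) → R)).toPowerSeries with hF
  have e : ∀ {a : MvPowerSeries (Fin 2) R}, a ∈ below 1 →
      PowerSeries.subst a (PowerSeries.C ζ * PowerSeries.X : PowerSeries R) = C ζ * a := fun ha => by
    rw [PowerSeries.subst_mul (hasSubst_single_of_below ha), PowerSeries.subst_C,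
      PowerSeries.subst_X (hasSubst_single_of_below ha)]
  rw [e (fg_mem_below_one _), e (X_mem_below _), e (X_mem_below _)]
  have hres : rescale (fun _ => ζ) F = subst ![C ζ * X 0, C ζ * X 1] F := by
    rw [rescale_eq_subst]
    congr 1
    ext i : 1
    fin_cases i <;> simp [smul_eq_C_mul]
  rw [← hF, ← hres]
  ext d : 1
  rw [coeff_C_mul, coeff_rescale]
  have hprod : (d.prod fun _ m => ζ ^ m) = ζ ^ d.degree := by
    rw [Finsupp.prod, Finset.prod_pow_eq_pow_sum, Finsupp.degree_apply]
  rw [hprod]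
  have eF : F = MvPowerSeries.map (Int.castRingHom R)
      (fg p n (0 : Fin (n - 1) → ℤ)).toPowerSeries := by
    rw [hF, ← FormalGroup.map_toPowerSeries, fg_map]
    congr 3
    funext j
    simp
  by_cases hz : coeff d (fg p n (0 : Fin (n - 1) → ℤ)).toPowerSeries = 0
  · rw [eF, coeff_map, hz, map_zero, mul_zero, mul_zero]
  obtain ⟨k, hk⟩ := dvd_degree_sub_one p n hn d hz
  congr 1
  rw [hk]
  have hQ : 1 ≤ p ^ n := Nat.one_le_pow _ _ (Fact.out : p.Prime).pos
  clear hk
  induction k with
  | zero => simp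
  | succ k ih =>
    rw [Nat.mul_succ, ← add_assoc, pow_add, ← ih, ← pow_succ', show p ^ n - 1 + 1 = p ^ n by omega,
      hζ]

end Vale.P217

end
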