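import Vale.Agent.P217.GaussData
import Vale.Agent.P217.GaussSum
import Vale.Agent.P217.Universal
import Mathlib.RingTheory.Ideal.Quotient.Basic
import Mathlib.RingTheory.MvPowerSeries.Expand
import Mathlib.Data.Nat.Choose.Lucas
import Mathlib.Data.Nat.Choose.Factorization
import Mathlib.Algebra.CharP.Lemmas

/-!
Formal congruences in the Gauss-normed ring: reduction modulo `p`, and the expansion of the
logarithm of a lifted homomorphism in twisted logarithms.
-/

noncomputable section

set_option linter.unusedSectionVars false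

namespace Vale.P217.Gs

open MvPowerSeries

section Combinatorics

/-- A multiple of a binomial coefficient that is prime to `p`. -/
theorem not_dvd_choose {p v m : ℕ} [hp : Fact p.Prime] (hm : ¬p ∣ m) :
    ¬p ∣ Nat.choose (p ^ v * m) (p ^ v) := by
  induction v with
  | zero => simpa using hm
  | succ v ih =>
    have h := Choose.choose_modEq_choose_mod_mul_choose_div_nat (p := p) (n := p ^ (v + 1) * m)
      (k := p ^ (v + 1))
    rw [pow_succ', mul_assoc, Nat.mul_mod_right, Nat.mul_mod_right, Nat.choose_self, one_mul,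
      Nat.mul_div_cancel_left _ hp.out.pos, Nat.mul_div_cancel_left _ hp.out.pos] at h
    intro hd
    rw [pow_succ', mul_assoc] at hd
    exact ih ((h.dvd_iff dvd_rfl).1 hd)

/-- `binom (p ^ (N + 1), p ^ N)` is `p` times a number prime to `p`. -/
theorem choose_pow_succ {p : ℕ} [hp : Fact p.Prime] (N : ℕ) :
    ∃ m, ¬p ∣ m ∧ Nat.choose (p ^ (N + 1)) (p ^ N) = p * m := by
  have hle : p ^ N ≤ p ^ (N + 1) := Nat.pow_le_pow_right hp.out.pos (Nat.le_succ N)
  have hf := Nat.factorization_choose_prime_pow hp.out hle (pow_ne_zero _ hp.out.ne_zero)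
  rw [hp.out.factorization_pow] at hf
  simp at hf
  have hne : Nat.choose (p ^ (N + 1)) (p ^ N) ≠ 0 := (Nat.choose_pos hle).ne'
  obtain ⟨m, hm⟩ : p ∣ Nat.choose (p ^ (N + 1)) (p ^ N) :=
    Nat.dvd_of_factorization_pos (by omega)
  refine ⟨m, fun hd => ?_, hm⟩
  have h2 : p ^ 2 ∣ Nat.choose (p ^ (N + 1)) (p ^ N) := by
    rw [hm, pow_two]; exact Nat.mul_dvd_mul_left p hd
  have := (hp.out.pow_dvd_iff_le_factorization hne).1 h2
  omega

/-- In `(X + Y + higher) ^ D` the coefficients of degree `D` are binomial. -/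
theorem coeff_pow_of_linear {R : Type*} [CommRing R] {F : MvPowerSeries (Fin 2) R}
    (h0 : MvPowerSeries.constantCoeff F = 0)
    (h10 : MvPowerSeries.coeff (Finsupp.single 0 1) F = 1)
    (h01 : MvPowerSeries.coeff (Finsupp.single 1 1) F = 1) {D i : ℕ} (hi : i ≤ D) :
    MvPowerSeries.coeff (Finsupp.single 0 i + Finsupp.single 1 (D - i)) (F ^ D) =
      (Nat.choose D i : R) := by
  classical
  set L : MvPowerSeries (Fin 2) R := MvPowerSeries.X 0 + MvPowerSeries.X 1 with hL
  set d : Fin 2 →₀ ℕ := Finsupp.single 0 i + Finsupp.single 1 (D - i) with hd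
  have hdeg : d.degree = D := by
    rw [hd, map_add, Finsupp.degree_single, Finsupp.degree_single]; omega
  have hH : ∀ e : Fin 2 →₀ ℕ, e.degree < 2 → MvPowerSeries.coeff e (F - L) = 0 := by
    intro e he
    have he0 : e.degree = e 0 + e 1 := by
      rw [Finsupp.degree_eq_sum]; simp [Fin.sum_univ_two]
    rcases Nat.lt_succ_iff_lt_or_eq.1 he with h | h
    · have : e = 0 := Finsupp.ext fun t => by
        fin_cases t <;> simp at * <;> omega
      subst this
      simp [hL, h0]
    · rcases Nat.eq_zero_or_pos (e 0) with h' | h'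
      · have : e = Finsupp.single 1 1 := Finsupp.ext fun t => by
          fin_cases t <;> simp at * <;> omega
        subst this
        simp [hL, h01, MvPowerSeries.coeff_X, Finsupp.single_eq_single_iff]
      · have : e = Finsupp.single 0 1 := Finsupp.ext fun t => by
          fin_cases t <;> simp at * <;> omega
        subst this
        simp [hL, h10, MvPowerSeries.coeff_X, Finsupp.single_eq_single_iff]
  have hsub : MvPowerSeries.coeff d (F ^ D - L ^ D) = 0 := by
    rw [← geom_sum₂_mul, Finset.sum_mul, map_sum]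
    refine Finset.sum_eq_zero fun j hj => ?_
    rw [Finset.mem_range] at hj
    refine coeff_of_lt_order ?_
    refine lt_of_lt_of_le (b := ((D + 1 : ℕ) : ℕ∞)) (by rw [hdeg]; exact_mod_cast D.lt_succ_self) ?_
    have hL0 : MvPowerSeries.constantCoeff L = 0 := by simp [hL]
    have o1 : ∀ (G : MvPowerSeries (Fin 2) R) (e : ℕ), MvPowerSeries.constantCoeff G = 0 →
        (e : ℕ∞) ≤ (G ^ e).order := fun G e hG =>
      MvPowerSeries.nat_le_order fun d' hd' => coeff_pow_eq_zero hG hd'
    have o2 : (2 : ℕ∞) ≤ (F - L).order := MvPowerSeries.nat_le_order hH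
    calc ((D + 1 : ℕ) : ℕ∞) = (j : ℕ∞) + ((D - 1 - j : ℕ) : ℕ∞) + 2 := by
          rw [← Nat.cast_add, show (2 : ℕ∞) = ((2 : ℕ) : ℕ∞) from rfl, ← Nat.cast_add]
          congr 1; omega
      _ ≤ (F ^ j).order + (L ^ (D - 1 - j)).order + (F - L).order :=
          add_le_add (add_le_add (o1 F j h0) (o1 L _ hL0)) o2
      _ ≤ (F ^ j * L ^ (D - 1 - j)).order + (F - L).order := by
          gcongr; exact MvPowerSeries.le_order_mul
      _ ≤ _ := MvPowerSeries.le_order_mul
  rw [map_sub, sub_eq_zero] at hsub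
  rw [hsub, hL, add_pow, map_sum]
  rw [Finset.sum_eq_single i]
  · rw [← map_natCast (MvPowerSeries.C : R →+* MvPowerSeries (Fin 2) R), mul_comm,
      MvPowerSeries.coeff_C_mul, MvPowerSeries.X_pow_eq, MvPowerSeries.X_pow_eq,
      MvPowerSeries.monomial_mul_monomial, MvPowerSeries.coeff_monomial_same]
    simp
  · intro b _ hb
    rw [← map_natCast (MvPowerSeries.C : R →+* MvPowerSeries (Fin 2) R), mul_comm,
      MvPowerSeries.coeff_C_mul, MvPowerSeries.X_pow_eq, MvPowerSeries.X_pow_eq,
      MvPowerSeries.monomial_mul_monomial, MvPowerSeries.coeff_monomial, if_neg, mul_zero]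
    intro h
    have := DFunLike.congr_fun h 0
    simp [hd] at this
    exact hb this.symm
  · intro h; simp at h; omega

end Combinatorics

section Ring

variable {B : Type} [NormedCommRing B] [IsUltrametricDist B] [NormOneClass B] [Algebra ℚ B]
  {p : ℕ} [Fact p.Prime] {c : ℝ} {n : ℕ}

/-- Multiplication by powers of `p` scales the norm. -/
def ScaleP (B : Type) [NormedCommRing B] [Algebra ℚ B] (p : ℕ) (c : ℝ) : Prop :=
  0 < c ∧ c < 1 ∧ ∀ (k : ℤ) (x : B), ‖algebraMap ℚ B ((p : ℚ) ^ k) * x‖ = c ^ k * ‖x‖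

theorem ScaleP.pos (S : ScaleP B p c) : 0 < c := S.1

theorem ScaleP.lt_one (S : ScaleP B p c) : c < 1 := S.2.1

theorem ScaleP.p_mul (S : ScaleP B p c) (x : B) : ‖(p : B) * x‖ = c * ‖x‖ := by
  have := S.2.2 1 x
  simpa using this

theorem ScaleP.norm_p (S : ScaleP B p c) : ‖(p : B)‖ = c := by
  simpa using S.p_mul (1 : B)

theorem norm_natCast_UB (m : ℕ) : ‖(m : B)‖ ≤ 1 := by
  have h : (m : B) ∈ UB B := natCast_mem _ m
  exact h

/-- Natural numbers prime to `p` do not shrink norms. -/
theorem ScaleP.le_of_mul (S : ScaleP B p c) {m : ℕ} (hm : ¬p ∣ m) {e : B} {r : ℝ}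
    (h : ‖(m : B) * e‖ ≤ r) : ‖e‖ ≤ r := by
  have hcop : Nat.Coprime m p :=
    Nat.Coprime.symm ((Nat.Prime.coprime_iff_not_dvd Fact.out).2 hm)
  obtain ⟨a, b, hab⟩ : ∃ a b : ℤ, a * m + b * p = 1 :=
    Int.isCoprime_iff_gcd_eq_one.2 hcop
  have he : e = (a : B) * ((m : B) * e) + (b : B) * ((p : B) * e) := by
    have : ((a : B) * m + b * p) = 1 := by exact_mod_cast congrArg (Int.cast : ℤ → B) hab
    linear_combination -e * this
  have hint : ∀ z : ℤ, ‖(z : B)‖ ≤ 1 := fun z =>
    (intCast_mem (UB B) z : (z : B) ∈ UB B)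
  have h1 : ‖e‖ ≤ max r (c * ‖e‖) := by
    conv_lhs => rw [he]
    refine (IsUltrametricDist.norm_add_le_max _ _).trans (max_le_max ?_ ?_)
    · exact (norm_mul_le _ _).trans ((mul_le_of_le_one_left (norm_nonneg _) (hint a)).trans h)
    · exact (norm_mul_le _ _).trans
        ((mul_le_of_le_one_left (norm_nonneg _) (hint b)).trans (S.p_mul e).le)
  rcases le_max_iff.1 h1 with h1 | h1
  · exact h1
  · have : ‖e‖ ≤ 0 := by nlinarith [S.lt_one, norm_nonneg e]
    exact this.trans ((norm_nonneg _).trans h)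

theorem norm_uvar_le (U : Fin (n - 1) → B) (hU : ∀ i, ‖U i‖ ≤ 1) (i : ℕ) : ‖uvar n U i‖ ≤ 1 := by
  unfold uvar
  split_ifs
  · exact hU _
  · simp
  · simp

theorem norm_cLog_le (S : ScaleP B p c) (U : Fin (n - 1) → B) (hU : ∀ i, ‖U i‖ ≤ 1) :
    ∀ K, ‖cLog p n U K‖ ≤ (c⁻¹) ^ K := by
  intro K
  induction K using Nat.strong_induction_on with
  | _ K ih =>
    cases K with
    | zero => simp [cLog]
    | succ K =>
      rw [cLog]
      have h1 := S.2.2 (-1)
      simp only [zpow_neg_one] at h1
      rw [h1, pow_succ']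
      refine mul_le_mul_of_nonneg_left ?_ (inv_nonneg.2 S.pos.le)
      refine IsUltrametricDist.norm_sum_le_of_forall_le_of_nonneg
        (pow_nonneg (inv_nonneg.2 S.pos.le) K) fun i _ => ?_
      refine (norm_mul_le _ _).trans ?_
      refine le_trans (mul_le_of_le_one_right (norm_nonneg _) ?_) ?_
      · exact (norm_pow_le _ _).trans (pow_le_one₀ (norm_nonneg _) (norm_uvar_le U hU _))
      · exact (ih _ (by omega)).trans
          (pow_le_pow_right₀ ((one_le_inv₀ S.pos).2 S.lt_one.le) (by omega))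

theorem growth_logSeries (S : ScaleP B p c) (U : Fin (n - 1) → B) (hU : ∀ i, ‖U i‖ ≤ 1) :
    Growth p c (logSeries p n U) 1 := by
  intro d
  have hd : d = Finsupp.single () (d ()) := by ext; simp
  have hdeg : d.degree = d () := by rw [hd]; simp
  have e : (MvPowerSeries.coeff d (logSeries p n U : MvPowerSeries Unit B) : B) =
      PowerSeries.coeff (d ()) (logSeries p n U) := by
    simp only [PowerSeries.coeff]; rw [← hd]
  rw [e, hdeg, one_mul, logSeries, PowerSeries.coeff_mk]
  split
  · exact norm_cLog_le S U hU _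
  · rw [norm_zero]; exact pow_nonneg (inv_nonneg.2 S.pos.le) _

/-- Congruent series have `p`-power powers congruent to higher order. -/
theorem pow_congr {σ : Type*} (S : ScaleP B p c) {P Q : MvPowerSeries σ (UB B)}
    (h : Bdd (MvPowerSeries.map inc P - MvPowerSeries.map inc Q) c) :
    ∀ K : ℕ, Bdd ((MvPowerSeries.map inc P) ^ p ^ K - (MvPowerSeries.map inc Q) ^ p ^ K)
      (c ^ (K + 1)) := by
  intro K
  induction K with
  | zero => simpa using h
  | succ K ih =>
    set y := Q ^ p ^ K with hy
    set e := P ^ p ^ K - y with he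
    have he' : MvPowerSeries.map inc e =
        (MvPowerSeries.map inc P) ^ p ^ K - (MvPowerSeries.map inc Q) ^ p ^ K := by simp [he, hy]
    obtain ⟨r, hr⟩ := exists_add_pow_prime_eq (Fact.out : p.Prime) y e
    have hP : P ^ p ^ (K + 1) - Q ^ p ^ (K + 1) = e ^ p + (p : MvPowerSeries σ (UB B)) * y * e * r := by
      rw [pow_succ p K, pow_mul, pow_mul, ← hy, show P ^ p ^ K = y + e by rw [he]; ring, hr]; ring
    have hmap : (MvPowerSeries.map inc P) ^ p ^ (K + 1) - (MvPowerSeries.map inc Q) ^ p ^ (K + 1) =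
        (MvPowerSeries.map inc e) ^ p +
          (MvPowerSeries.C (p : B) * MvPowerSeries.map inc (y * r)) * MvPowerSeries.map inc e := by
      rw [← map_pow, ← map_pow, ← map_sub, hP, map_add, map_pow]
      simp only [map_mul, map_natCast]; ring
    rw [hmap]
    have hc := S.pos.le
    rw [← he'] at ih
    have hpow : ∀ j : ℕ, Bdd ((MvPowerSeries.map inc e) ^ (j + 1)) ((c ^ (K + 1)) ^ (j + 1)) := by
      intro j
      induction j with
      | zero => simpa using ih
      | succ j ihj =>
        rw [pow_succ _ (j + 1), pow_succ (c ^ (K + 1)) (j + 1)]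
        exact ihj.mul (by positivity) (by positivity) ih
    refine Bdd.add ?_ ?_
    · have h2 := (Fact.out : p.Prime).two_le
      have := hpow (p - 1)
      rw [Nat.sub_add_cancel (by omega)] at this
      intro d
      refine (this d).trans ?_
      rw [← pow_mul]
      exact pow_le_pow_of_le_one hc S.lt_one.le (by nlinarith)
    · intro d
      have h1 : Bdd (MvPowerSeries.C (p : B) * MvPowerSeries.map inc (y * r)) c := fun d' => by
        rw [MvPowerSeries.coeff_C_mul, S.p_mul]
        exact mul_le_of_le_one_right hc (bdd_map_inc (y * r) d')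
      refine ((h1.mul hc (by positivity) ih) d).trans (le_of_eq ?_)
      rw [pow_succ' c (K + 1)]

/-- Logarithms of congruent series are congruent. -/
theorem log_congr {σ : Type*} [Finite σ] (S : ScaleP B p c) (U : Fin (n - 1) → B)
    (hU : ∀ i, ‖U i‖ ≤ 1) {P Q : MvPowerSeries σ (UB B)}
    (hP : MvPowerSeries.constantCoeff P = 0) (hQ : MvPowerSeries.constantCoeff Q = 0)
    (h : Bdd (MvPowerSeries.map inc P - MvPowerSeries.map inc Q) c) :
    Bdd (PowerSeries.subst (MvPowerSeries.map inc P) (logSeries p n U) -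
      PowerSeries.subst (MvPowerSeries.map inc Q) (logSeries p n U)) c := by
  intro d
  have hsP : PowerSeries.HasSubst (MvPowerSeries.map inc P) :=
    PowerSeries.HasSubst.of_constantCoeff_zero (by rw [constantCoeff_map, hP, map_zero])
  have hsQ : PowerSeries.HasSubst (MvPowerSeries.map inc Q) :=
    PowerSeries.HasSubst.of_constantCoeff_zero (by rw [constantCoeff_map, hQ, map_zero])
  rw [map_sub, PowerSeries.coeff_subst hsP, PowerSeries.coeff_subst hsQ,
    ← finsum_sub_distrib (PowerSeries.coeff_subst_finite hsP _ _)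
      (PowerSeries.coeff_subst_finite hsQ _ _)]
  refine norm_finsum_le _ S.pos.le fun e => ?_
  rw [smul_eq_mul, smul_eq_mul, ← mul_sub, ← map_sub, logSeries, PowerSeries.coeff_mk]
  split_ifs with he
  · set K := Nat.log p e
    rw [he]
    refine (norm_mul_le _ _).trans ?_
    calc ‖cLog p n U K‖ * _ ≤ (c⁻¹) ^ K * c ^ (K + 1) :=
          mul_le_mul (norm_cLog_le S U hU K) (pow_congr S h K d) (norm_nonneg _)
            (pow_nonneg (inv_nonneg.2 S.pos.le) K)
      _ = c := by rw [pow_succ, ← mul_assoc, ← mul_pow, inv_mul_cancel₀ S.pos.ne', one_pow, one_mul]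
  · rw [zero_mul, norm_zero]; exact S.pos.le

end Ring

end Vale.P217.Gs

end
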