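import Vale.Agent.P217.GaussBigLog
import Vale.Agent.P217.CoverPhi

/-!
Additivity of the big logarithm and linearisation of homomorphisms composed with the universal
cover.
-/

noncomputable section

set_option linter.unusedSectionVars false

namespace Vale.P217.Gs

open Filter Topology

variable {p : ℕ} [Fact p.Prime] {K : Type*} [NontriviallyNormedField K] [IsUltrametricDist K]
  [CompleteSpace K] [CharP K p] [PerfectRing K p]

section Roots

theorem coe_rootSeq (n : ℕ) (z : Ball K) (l : ℕ) :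
    (rootSeq p n z l : K) = fr p (-((n * l : ℕ) : ℤ)) (z : K) := by
  refine fr_injective (p := p) ((n * l : ℕ) : ℤ) ?_
  rw [← fr_add, add_neg_cancel, fr_zero, fr_natCast]
  exact congrArg Subtype.val (rootSeq_pow p n z l)

theorem eq_fr_neg {x y : K} {i : ℕ} (h : x ^ p ^ i = y) : x = fr p (-(i : ℤ)) y := by
  rw [← h, ← fr_natCast, ← fr_add, neg_add_cancel, fr_zero]

theorem phiK_pow' {n : ℕ} (hn : 1 ≤ n) {u : Fin (n - 1) → Ball K} {ε : ℝ}
    (hu : SmallParam n u ε) {z : Ball K} (hz : ‖z‖ < 1) :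
    phiK p n u (z ^ p ^ n) = mulP p n u (phiK p n u z) := by
  have h : rootSeq p n (z ^ p ^ n) = fun l => rootSeq p n z l ^ p ^ n := by
    funext l
    refine Subtype.ext ?_
    rw [coe_rootSeq]
    show _ = (rootSeq p n z l : K) ^ p ^ n
    rw [coe_rootSeq, ← fr_map_pow]
    rfl
  rw [phiK, h]
  exact phiSeq_shift p n hn hu (norm_rootSeq_lt p n hz) (isRootSeq_rootSeq p n hz)

theorem norm_phiK_lt {n : ℕ} (hn : 1 ≤ n) {u : Fin (n - 1) → Ball K} {ε : ℝ}
    (hu : SmallParam n u ε) {z : Ball K} (hz : ‖z‖ < 1) : ‖phiK p n u z‖ < 1 :=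
  norm_phiSeq_lt_one p n hn hu (norm_rootSeq_lt p n hz) (isRootSeq_rootSeq p n hz)

theorem phiK_eq_iterate {n : ℕ} (hn : 1 ≤ n) {u : Fin (n - 1) → Ball K} {ε : ℝ}
    (hu : SmallParam n u ε) {z : Ball K} (hz : ‖z‖ < 1) (l : ℕ) :
    phiK p n u z = (mulP p n u)^[l] (phiK p n u (rootSeq p n z l)) := by
  induction l with
  | zero => simp [rootSeq]
  | succ l ih =>
    rw [ih, Function.iterate_succ_apply, ← phiK_pow' hn hu (norm_rootSeq_lt p n hz (l + 1)),
      rootSeq_pow_succ]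

theorem norm_phiK_sub {n : ℕ} (hn : 1 ≤ n) {u : Fin (n - 1) → Ball K} {ε : ℝ}
    (hu : SmallParam n u ε) {z : Ball K} (hz : ‖z‖ < 1) : ‖phiK p n u z - z‖ ≤ ε := by
  have h := norm_phiSeq_sub_le p n hn hu (norm_rootSeq_lt p n hz) (isRootSeq_rootSeq p n hz)
  simpa [rootSeq, phiK] using h

theorem iterate_mulP_zero {n : ℕ} (hn : 1 ≤ n) {x : Ball K} (hx : ‖x‖ < 1) (l : ℕ) :
    (mulP p n (0 : Fin (n - 1) → Ball K))^[l] x = x ^ p ^ (n * l) := by
  induction l with
  | zero => simp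
  | succ l ih =>
    rw [Function.iterate_succ_apply',
      mulP_zero_param p n hn (norm_iterate_mulP_lt p n _ hx l), ih, ← pow_mul, ← pow_add,
      Nat.mul_succ]

theorem iterate_mulP_hom' {n h : ℕ} {u : Fin (n - 1) → Ball K} {v : Fin (h - 1) → Ball K}
    {f : PowerSeries (Ball K)} (hf : IsHomSeries (fg p n u) (fg p h v) f) {x : Ball K}
    (hx : ‖x‖ < 1) (l : ℕ) :
    evalP f ((mulP p n u)^[l] x) = (mulP p h v)^[l] (evalP f x) := by
  have e := congrArg Pt.val ((homPt hf).map_nsmul (p ^ l) (Pt.mk (fg p n u) x hx))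
  rw [val_nsmul_pow] at e
  change evalP f (p ^ l • Pt.mk (fg p n u) x hx).val = _ at e
  rw [val_nsmul_pow] at e
  exact e

theorem fadd_root_pow {m : ℕ} (hm : 1 ≤ m) {a b : Ball K} (ha : ‖a‖ < 1) (hb : ‖b‖ < 1) (l : ℕ) :
    fadd (fg p m (0 : Fin (m - 1) → Ball K)) (rootSeq p m a l) (rootSeq p m b l) ^ p ^ (m * l) =
      fadd (fg p m (0 : Fin (m - 1) → Ball K)) a b := by
  induction l with
  | zero => simp [rootSeq]
  | succ l ih =>
    rw [Nat.mul_succ, Nat.add_comm (m * l) m, pow_add, pow_mul,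
      fadd_zero_param_pow p m hm (norm_rootSeq_lt p m ha (l + 1)) (norm_rootSeq_lt p m hb (l + 1)),
      rootSeq_pow_succ, rootSeq_pow_succ, ih]

end Roots

variable {B : Type} [NormedCommRing B] [IsUltrametricDist B] [NormOneClass B] [Algebra ℚ B]
  [CompleteSpace B] {c : ℝ} (D : GaussData p K B c)

theorem pz_one : (pz p 1 : B) = (p : B) := by rw [pz, zpow_one, map_natCast]

theorem norm_tB_sub_le (a b : Ball K) : ‖tB D a - tB D b‖ ≤ max c ‖a - b‖ := by
  have h := D.T_add ((a - b : Ball K) : K) (b : K)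
  have hab : ((a - b : Ball K) : K) + (b : K) = a := by simp
  rw [hab] at h
  have hm : max ‖((a - b : Ball K) : K)‖ ‖(b : K)‖ ≤ 1 := max_le (a - b).2 b.2
  have e : ((tB D a - tB D b : UB B) : B) =
      (D.T (a : K) - D.T ((a - b : Ball K) : K) - D.T (b : K)) + D.T ((a - b : Ball K) : K) := by
    show D.T (a : K) - D.T (b : K) = _
    ring
  rw [← norm_coe_UB, e]
  refine (IsUltrametricDist.norm_add_le_max _ _).trans (max_le_max ?_ ?_)
  · exact h.trans (mul_le_of_le_one_right D.c_pos.le hm)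
  · rw [norm_T D]; exact le_rfl

/-- The multiplicative lift commutes with evaluation, modulo the ball of radius `c`. -/
theorem norm_tB_evalMv_sub {σ : Type*} [Finite σ] {P : MvPowerSeries σ (Ball K)}
    {Q : MvPowerSeries σ (UB B)}
    (hPQ : MvPowerSeries.map (red D) Q = MvPowerSeries.map (tau D) P) {x : σ → Ball K}
    (hx : ∀ i, ‖x i‖ < 1) :
    ‖tB D (evalMv P x) - evalMv Q fun i => tB D (x i)‖ ≤ c := by
  have hx' : ∀ i, ‖tB D (x i)‖ < 1 := fun i => (norm_tB D (x i)).trans_lt (hx i)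
  have hP := hasSum_evalMv hx P
  have hQ := hasSum_evalMv hx' Q
  obtain ⟨s, h1, h2⟩ := ((hP.eventually (Metric.closedBall_mem_nhds _ D.c_pos)).and
    (hQ.eventually (Metric.closedBall_mem_nhds _ D.c_pos))).exists
  simp only [dist_eq_norm] at h1 h2
  set S := ∑ d ∈ s, MvPowerSeries.coeff d P * d.prod fun i e => x i ^ e with hS
  set S' := ∑ d ∈ s, MvPowerSeries.coeff d Q * d.prod fun i e => tB D (x i) ^ e with hS'
  have hfin : tau D S = red D S' := by
    rw [hS, hS', map_sum, map_sum]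
    refine Finset.sum_congr rfl fun d _ => ?_
    have hc := congrArg (MvPowerSeries.coeff d) hPQ
    rw [MvPowerSeries.coeff_map, MvPowerSeries.coeff_map] at hc
    rw [map_mul, map_mul, hc, map_finsuppProd, map_finsuppProd]
    congr 1
    refine Finsupp.prod_congr fun i _ => ?_
    rw [map_pow, map_pow, tau_apply]
  have hE : tau D (evalMv P x) = tau D S := by
    have h0 : tau D (evalMv P x - S) = 0 := by
      rw [tau_apply, ← map_zero (red D), red_eq_iff]
      rw [ZeroMemClass.coe_zero, sub_zero]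
      show ‖tB D (evalMv P x - S)‖ ≤ c
      rw [norm_tB, norm_sub_rev]
      exact h1
    rwa [map_sub, sub_eq_zero] at h0
  have h3 : ‖(tB D (evalMv P x) : B) - (S' : B)‖ ≤ c :=
    (red_eq_iff D).1 (hE.trans hfin)
  have h4 : ‖tB D (evalMv P x) - S'‖ ≤ c := h3
  have e : tB D (evalMv P x) - evalMv Q (fun i => tB D (x i)) =
      (tB D (evalMv P x) - S') + (S' - evalMv Q fun i => tB D (x i)) := by abel
  rw [e]
  exact (IsUltrametricDist.norm_add_le_max _ _).trans (max_le h4 h2)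

theorem pow_congr_scalar (D : GaussData p K B c) {θ : ℝ} (hθc : c ≤ θ) (hθ1 : θ ≤ 1) {A A' : UB B}
    (h : ‖A - A'‖ ≤ θ) :
    ∀ j : ℕ, ‖A ^ p ^ j - A' ^ p ^ j‖ ≤ θ ^ (j + 1) ∧
      (θ ^ (j + 1) ≤ c → ‖A ^ p ^ (j + 1) - A' ^ p ^ (j + 1)‖ ≤ c * ‖A ^ p ^ j - A' ^ p ^ j‖) := by
  have hθ0 : 0 ≤ θ := D.c_pos.le.trans hθc
  have hp : p.Prime := Fact.out
  have step : ∀ j : ℕ, ‖A ^ p ^ (j + 1) - A' ^ p ^ (j + 1)‖ ≤
      max (‖A ^ p ^ j - A' ^ p ^ j‖ ^ p) (c * ‖A ^ p ^ j - A' ^ p ^ j‖) := by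
    intro j
    obtain ⟨r, hr⟩ := exists_add_pow_prime_eq hp (A' ^ p ^ j) (A ^ p ^ j - A' ^ p ^ j)
    set e := A ^ p ^ j - A' ^ p ^ j with he
    have hP : A ^ p ^ (j + 1) - A' ^ p ^ (j + 1) =
        e ^ p + (p : UB B) * (A' ^ p ^ j * r * e) := by
      rw [pow_succ, pow_mul, pow_mul,
        show A ^ p ^ j = A' ^ p ^ j + e by rw [he]; ring, hr]
      ring
    rw [hP]
    refine (IsUltrametricDist.norm_add_le_max _ _).trans (max_le_max (norm_pow_le' _ _) ?_)
    show ‖(((p : UB B) * (A' ^ p ^ j * r * e) : UB B) : B)‖ ≤ _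
    rw [MulMemClass.coe_mul, show ((p : UB B) : B) = (p : B) from map_natCast (inc (B := B)) p,
      (scaleP D).p_mul]
    refine mul_le_mul_of_nonneg_left ?_ D.c_pos.le
    refine (norm_mul_le _ e).trans ?_
    exact mul_le_of_le_one_left (norm_nonneg _) (UnitNormed.norm_le_one _)
  have main : ∀ j : ℕ, ‖A ^ p ^ j - A' ^ p ^ j‖ ≤ θ ^ (j + 1) := by
    intro j
    induction j with
    | zero => simpa using h
    | succ j ih =>
      refine (step j).trans (max_le ?_ ?_)
      · refine (pow_le_pow_left₀ (norm_nonneg _) ih p).trans ?_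
        rw [← pow_mul]
        refine pow_le_pow_of_le_one hθ0 hθ1 ?_
        have := Nat.mul_le_mul_left (j + 1) hp.two_le
        omega
      · rw [pow_succ' θ (j + 1)]
        exact mul_le_mul hθc ih (norm_nonneg _) hθ0
  refine fun j => ⟨main j, fun hj => (step j).trans (max_le ?_ le_rfl)⟩
  set δ := ‖A ^ p ^ j - A' ^ p ^ j‖
  calc δ ^ p = δ ^ (p - 1) * δ := by rw [← pow_succ, Nat.sub_add_cancel hp.one_le]
    _ ≤ c * δ := by
      refine mul_le_mul_of_nonneg_right ?_ (norm_nonneg _)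
      exact (pow_le_of_le_one (norm_nonneg _) (UnitNormed.norm_le_one _)
        (by have := hp.two_le; omega)).trans ((main j).trans hj)

/-- Values of the logarithm at close points differ by a bounded amount. -/
theorem exists_log_congr (D : GaussData p K B c) {θ : ℝ} (hθ : θ < 1) :
    ∃ C : ℝ, 0 ≤ C ∧ ∀ (m : ℕ) (U : Fin (m - 1) → B), (∀ i, ‖U i‖ ≤ 1) → ∀ A A' : UB B,
      ‖A‖ < 1 → ‖A'‖ < 1 → ‖A - A'‖ ≤ θ →
        ‖psum1 (logSeries p m U) A - psum1 (logSeries p m U) A'‖ ≤ C := by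
  set θ' := max c θ with hθ'
  have hθ'1 : θ' < 1 := max_lt D.c_lt hθ
  have hc : 1 ≤ c⁻¹ := (one_le_inv₀ D.c_pos).2 D.c_lt.le
  obtain ⟨J, hJ⟩ := eventually_atTop.1 ((tendsto_pow_atTop_nhds_zero_of_lt_one
    (D.c_pos.le.trans (le_max_left c θ)) hθ'1).eventually (eventually_le_nhds D.c_pos))
  refine ⟨(c⁻¹) ^ J, by positivity, fun m U hU A A' hA hA' h => ?_⟩
  have hstep := pow_congr_scalar D (θ := θ') (le_max_left _ _) hθ'1.le
    (h.trans (le_max_right _ _))
  have hbound : ∀ j : ℕ, (c⁻¹) ^ j * ‖A ^ p ^ j - A' ^ p ^ j‖ ≤ (c⁻¹) ^ J := by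
    intro j
    induction j with
    | zero =>
      rw [pow_zero, one_mul]
      exact (UnitNormed.norm_le_one _).trans (one_le_pow₀ hc)
    | succ j ih =>
      rcases Nat.lt_or_ge j J with hj | hj
      · exact (mul_le_of_le_one_right (by positivity) (UnitNormed.norm_le_one _)).trans
          (pow_le_pow_right₀ hc hj)
      · refine le_trans ?_ ih
        rw [pow_succ, mul_assoc]
        refine mul_le_mul_of_nonneg_left ?_ (by positivity)
        refine le_trans (mul_le_mul_of_nonneg_left ((hstep j).2 (hJ _ (by omega)))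
          (inv_nonneg.2 D.c_pos.le)) ?_
        rw [← mul_assoc, inv_mul_cancel₀ D.c_pos.ne', one_mul]
  refine norm_le_of_hasSum ((hasSum_psum1 zero_le_one (growth_logSeries (scaleP D) U hU) D hA).sub
    (hasSum_psum1 zero_le_one (growth_logSeries (scaleP D) U hU) D hA')) (by positivity) fun d => ?_
  rw [← mul_sub, logSeries, PowerSeries.coeff_mk]
  split_ifs with hd
  · set j := Nat.log p d with hj
    refine (norm_mul_le _ _).trans (le_trans ?_ (hbound j))
    rw [hd]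
    exact mul_le_mul_of_nonneg_right (norm_cLog_le (scaleP D) U hU j) (norm_nonneg _)
  · rw [zero_mul, norm_zero]; positivity

theorem p_mul_cLog_succ {n : ℕ} (U : Fin (n - 1) → B) (M : ℕ) :
    (p : B) * cLog p n U (M + 1) =
      ∑ i : Fin (M + 1), cLog p n U (M - (i : ℕ)) * uvar n U ((i : ℕ) + 1) ^ p ^ (M - (i : ℕ)) := by
  rw [cLog, ← mul_assoc, ← map_natCast (algebraMap ℚ B) p, ← map_mul,
    mul_inv_cancel₀ (Nat.cast_ne_zero.2 (Fact.out : p.Prime).ne_zero), map_one, one_mul]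

theorem norm_p_mul_cLog_add_sub (D : GaussData p K B c) {n : ℕ} (hn : 1 ≤ n) {U : Fin (n - 1) → B} {ε G : ℝ} (hε : ε ≤ 1)
    (hU : ∀ i, ‖U i‖ ≤ ε) (hG0 : 0 ≤ G) (hG : ∀ k : ℕ, (c⁻¹) ^ k * ε ^ p ^ k ≤ G) (M : ℕ) :
    ‖(p : B) * cLog p n U (M + n) - cLog p n U M‖ ≤ G := by
  obtain ⟨N, hN⟩ : ∃ N, M + n = N + 1 := ⟨M + n - 1, by omega⟩
  have hU1 : ∀ i, ‖U i‖ ≤ 1 := fun i => (hU i).trans hε
  let i0 : Fin (N + 1) := ⟨n - 1, by omega⟩
  rw [hN, p_mul_cLog_succ, ← Finset.add_sum_erase _ _ (Finset.mem_univ i0)]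
  have h0 : N - (i0 : ℕ) = M ∧ uvar n U ((i0 : ℕ) + 1) = 1 := by
    refine ⟨by simp only [i0]; omega, ?_⟩
    simp only [i0, uvar]
    rw [dif_neg (by omega), if_pos (by omega)]
  rw [h0.1, h0.2, one_pow, mul_one, add_sub_cancel_left]
  refine IsUltrametricDist.norm_sum_le_of_forall_le_of_nonneg hG0 fun i hi => ?_
  have hne : (i : ℕ) + 1 ≠ n := fun h => (Finset.mem_erase.1 hi).1
    (Fin.ext (show (i : ℕ) = n - 1 by omega))
  have hpk : p ^ (N - (i : ℕ)) ≠ 0 := pow_ne_zero _ (Fact.out : p.Prime).ne_zero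
  unfold uvar
  split_ifs with h
  · refine (norm_mul_le _ _).trans (le_trans ?_ (hG (N - i)))
    exact mul_le_mul (norm_cLog_le (scaleP D) U hU1 _)
      ((norm_pow_le _ _).trans (pow_le_pow_left₀ (norm_nonneg _) (hU _) _)) (norm_nonneg _)
      (pow_nonneg (inv_nonneg.2 D.c_pos.le) _)
  · rw [zero_pow hpk, mul_zero, norm_zero]; exact hG0

theorem cLog_zero_small {h i : ℕ} (h1 : 1 ≤ i) (h2 : i < h) :
    cLog p h (0 : Fin (h - 1) → B) i = 0 := by
  obtain ⟨i, rfl⟩ : ∃ j, i = j + 1 := ⟨i - 1, by omega⟩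
  rw [cLog, Finset.sum_eq_zero, mul_zero]
  intro j _
  have hj := j.2
  rw [uvar, dif_pos (by omega), Pi.zero_apply,
    zero_pow (pow_ne_zero _ (Fact.out : p.Prime).ne_zero), mul_zero]

theorem scaled_cLog_zero (D : GaussData p K B c) {h : ℕ} (hh : 1 ≤ h) (r : ℕ) {i : ℕ}
    (hi : i < h) :
    pz p (r : ℤ) * cLog p h (0 : Fin (h - 1) → B) (h * r + i) = if i = 0 then 1 else 0 := by
  induction r with
  | zero =>
    rw [Nat.cast_zero, pz, zpow_zero, map_one, one_mul, mul_zero, zero_add]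
    split_ifs with hi0
    · subst hi0; rw [cLog]
    · exact cLog_zero_small (by omega) hi
  | succ r ih =>
    have h0 : (p : B) * cLog p h (0 : Fin (h - 1) → B) (h * r + i + h) =
        cLog p h (0 : Fin (h - 1) → B) (h * r + i) := by
      refine sub_eq_zero.1 (norm_le_zero_iff.1 ?_)
      exact norm_p_mul_cLog_add_sub D hh zero_le_one (fun j => by simp) le_rfl
        (fun k => by simp [zero_pow (pow_ne_zero k (Fact.out : p.Prime).ne_zero)]) _
    rw [← ih, ← h0, Nat.cast_succ, pz_add, pz_one, mul_assoc]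
    congr 3
    ring

/-- The big logarithm as a limit of scaled logarithms. -/
theorem tendsto_scaled_log {h : ℕ} (hh : 1 ≤ h) {z : K} (hz : ‖z‖ < 1) {A : ℕ → UB B}
    (hA : ∀ l : ℕ, (A l : B) = D.T (fr p (-((h * l : ℕ) : ℤ)) z)) :
    Tendsto (fun l : ℕ => pz p (l : ℤ) * psum1 (logSeries p h (0 : Fin (h - 1) → B)) (A l)) atTop
      (𝓝 (bigLog p D h z)) := by
  have hlim := tendsto_scaled D hh zero_le_one
    (growth_logSeries (scaleP D) (0 : Fin (h - 1) → B) fun i => by simp) le_rfl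
    (fun d hd => by rw [coeff_logSeries_eq_zero p h _ hd, norm_zero])
    (d := fun i : Fin h => if (i : ℕ) = 0 then 1 else 0)
    (fun i => by
      simp only [coeff_logSeries_pow, scaled_cLog_zero D hh _ i.2]
      exact tendsto_const_nhds) hz hA
  rw [Finset.sum_eq_single (⟨0, hh⟩ : Fin h)] at hlim
  · simpa using hlim
  · intro i _ hi
    rw [if_neg (fun h0 => hi (Fin.ext h0)), zero_mul]
  · intro hi; exact absurd (Finset.mem_univ _) hi

theorem psum1_log_evalMv (D : GaussData p K B c) {m : ℕ} {x : Fin 2 → UB B}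
    (hx : ∀ i, ‖x i‖ < 1) :
    psum1 (logSeries p m (0 : Fin (m - 1) → B))
        (evalMv (fg p m (0 : Fin (m - 1) → UB B)).toPowerSeries x) =
      psum1 (logSeries p m (0 : Fin (m - 1) → B)) (x 0) +
        psum1 (logSeries p m (0 : Fin (m - 1) → B)) (x 1) := by
  set g := logSeries p m (0 : Fin (m - 1) → B) with hg
  have hG := growth_logSeries (scaleP D) (0 : Fin (m - 1) → B) fun i => by simp
  have hp := (Fact.out : p.Prime).two_le
  have hX : ∀ t : Fin 2, MvPowerSeries.constantCoeff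
      (MvPowerSeries.X t : MvPowerSeries (Fin 2) (UB B)) = 0 := fun t => by simp
  have hF : MvPowerSeries.map inc (fg p m (0 : Fin (m - 1) → UB B)).toPowerSeries =
      (fg p m (0 : Fin (m - 1) → B)).toPowerSeries := by
    have : (fg p m (0 : Fin (m - 1) → UB B)).map inc = fg p m (0 : Fin (m - 1) → B) := by
      rw [fg_map]; congr 1
    exact congrArg FormalGroup.toPowerSeries this
  have h0 := log_fg p m (0 : Fin (m - 1) → B)
  have h1 : ∀ t : Fin 2, PowerSeries.subst (MvPowerSeries.X t : MvPowerSeries (Fin 2) B) g =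
      PowerSeries.subst (MvPowerSeries.map inc (MvPowerSeries.X t)) g := fun t => by
    rw [MvPowerSeries.map_X]
  rw [← hg, ← hF, h1, h1] at h0
  rw [← psum_subst D.c_pos D.c_lt zero_le_one hG hp
      (fg p m (0 : Fin (m - 1) → UB B)).zero_constantCoeff hx, h0,
    psum_add D.c_pos zero_le_one (hG.subst D.c_pos D.c_lt zero_le_one (hX 0))
      (hG.subst D.c_pos D.c_lt zero_le_one (hX 1)) hp hx,
    psum_subst D.c_pos D.c_lt zero_le_one hG hp (hX 0) hx,
    psum_subst D.c_pos D.c_lt zero_le_one hG hp (hX 1) hx, evalMv_X hx, evalMv_X hx]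

/-- Bounded differences disappear after scaling. -/
theorem eq_of_scaled (D : GaussData p K B c) {a b : ℕ → B} {X Y : B}
    (ha : Tendsto (fun l : ℕ => pz p (l : ℤ) * a l) atTop (𝓝 X))
    (hb : Tendsto (fun l : ℕ => pz p (l : ℤ) * b l) atTop (𝓝 Y)) {C : ℝ}
    (h : ∀ l, ‖a l - b l‖ ≤ C) : X = Y := by
  have h2 : Tendsto (fun l : ℕ => pz p (l : ℤ) * (a l - b l)) atTop (𝓝 0) := by
    refine squeeze_zero_norm (fun l => ?_) (show Tendsto (fun l : ℕ => c ^ l * C) atTop (𝓝 0) by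
      simpa using (tendsto_pow_atTop_nhds_zero_of_lt_one D.c_pos.le D.c_lt).mul_const C)
    rw [norm_pz_mul D, zpow_natCast]
    exact mul_le_mul_of_nonneg_left (h l) (pow_nonneg D.c_pos.le l)
  refine sub_eq_zero.1 (tendsto_nhds_unique ?_ h2)
  simpa [mul_sub] using ha.sub hb

theorem bigLog_fadd' {m : ℕ} (hm : 1 ≤ m) {a b : Ball K} (ha : ‖a‖ < 1) (hb : ‖b‖ < 1) :
    bigLog p D m ((fadd (fg p m (0 : Fin (m - 1) → Ball K)) a b : Ball K) : K) =
      bigLog p D m (a : K) + bigLog p D m (b : K) := by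
  set F := fg p m (0 : Fin (m - 1) → Ball K) with hF
  set Fu := fg p m (0 : Fin (m - 1) → UB B) with hFu
  set lg := logSeries p m (0 : Fin (m - 1) → B) with hlg
  set al := rootSeq p m a with hal
  set bl := rootSeq p m b with hbl
  have hal1 := norm_rootSeq_lt p m ha
  have hbl1 := norm_rootSeq_lt p m hb
  have hs := norm_fadd_lt_one F ha hb
  let S : ℕ → Ball K := fun l => fadd F (al l) (bl l)
  have hlimS := tendsto_scaled_log D hm (z := ((fadd F a b : Ball K) : K)) hs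
    (A := fun l => tB D (S l)) fun l => by
      rw [coe_tB]
      exact congrArg D.T (eq_fr_neg (congrArg Subtype.val (fadd_root_pow hm ha hb l)))
  have hlima := tendsto_scaled_log D hm (z := (a : K)) ha
    (A := fun l => tB D (al l)) fun l => by rw [coe_tB, hal, coe_rootSeq]
  have hlimb := tendsto_scaled_log D hm (z := (b : K)) hb
    (A := fun l => tB D (bl l)) fun l => by rw [coe_tB, hbl, coe_rootSeq]
  obtain ⟨C, -, hC⟩ := exists_log_congr D D.c_lt
  have hsum := hlima.add hlimb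
  simp only [← mul_add] at hsum
  refine eq_of_scaled D hlimS hsum (C := C) fun l => ?_
  have hx : ∀ i, ‖(![al l, bl l] : Fin 2 → Ball K) i‖ < 1 := fun i => by
    fin_cases i
    · exact hal1 l
    · exact hbl1 l
  have hx' : ∀ i, ‖tB D ((![al l, bl l] : Fin 2 → Ball K) i)‖ < 1 := fun i =>
    (norm_tB D _).trans_lt (hx i)
  have hred : MvPowerSeries.map (red D) Fu.toPowerSeries =
      MvPowerSeries.map (tau D) F.toPowerSeries := by
    have : Fu.map (red D) = F.map (tau D) := by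
      rw [hFu, hF, fg_map, fg_map]; congr 1; ext i; simp
    exact congrArg FormalGroup.toPowerSeries this
  have hlog := psum1_log_evalMv D (m := m) hx'
  simp only [Matrix.cons_val_zero, Matrix.cons_val_one] at hlog
  rw [← hlog]
  refine hC m _ (fun i => by simp) _ _ ?_ ?_ (norm_tB_evalMv_sub D hred hx)
  · exact (norm_tB D _).trans_lt (norm_evalMv_lt_one hx _ F.zero_constantCoeff)
  · exact norm_evalMv_lt_one hx' _ Fu.zero_constantCoeff

theorem exists_limit_eCoef {n : ℕ} (hn : 1 ≤ n) (u : Fin (n - 1) → Ball K) {ε : ℝ}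
    (hu : SmallParam n u ε) {h : ℕ} (Ψ : PowerSeries (Ball K))
    (hΨ : IsHomSeries (fg p n u) (fg p h (0 : Fin (h - 1) → Ball K)) Ψ) (i : Fin n) :
    ∃ d, Tendsto (fun r : ℕ => pz p (r : ℤ) * eCoef D Ψ h (n * r + i)) atTop (𝓝 d) := by
  obtain ⟨hε0, hε1, hui⟩ := hu
  obtain ⟨G, hG⟩ := (tendsto_bound (Fact.out : p.Prime).two_le D.c_pos hε0 hε1).bddAbove_range
  set M0 := max G ((c⁻¹) ^ n) with hM0
  have hc : 1 ≤ c⁻¹ := (one_le_inv₀ D.c_pos).2 D.c_lt.le
  have hM00 : 0 ≤ M0 := (by positivity : (0 : ℝ) ≤ (c⁻¹) ^ n).trans (le_max_right _ _)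
  have hG' : ∀ k : ℕ, (c⁻¹) ^ k * ε ^ p ^ k ≤ M0 := fun k =>
    (hG (Set.mem_range_self k)).trans (le_max_left _ _)
  have hU : ∀ (j : ℕ) (t : Fin (n - 1)), ‖(inc ∘ twistU D u j) t‖ ≤ ε := fun j t => by
    show ‖tB D (u t) ^ p ^ j‖ ≤ ε
    refine (norm_pow_le' _ _).trans ((pow_le_of_le_one (norm_nonneg _)
      (UnitNormed.norm_le_one _) (pow_ne_zero _ (Fact.out : p.Prime).ne_zero)).trans ?_)
    exact (norm_tB D _).le.trans (hui t)
  have hdiff : ∀ j : ℕ, ‖(p : B) * eCoef D Ψ h (j + n) - eCoef D Ψ h j‖ ≤ M0 := by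
    intro j
    rw [eCoef_eq D u Ψ (j + n), eCoef_eq D u Ψ j,
      ← Finset.sum_range_add_sum_Ico _ (show j + 1 ≤ j + n + 1 by omega), mul_add,
      add_sub_right_comm, Finset.mul_sum, ← Finset.sum_sub_distrib]
    refine (IsUltrametricDist.norm_add_le_max _ _).trans (max_le ?_ ?_)
    · refine IsUltrametricDist.norm_sum_le_of_forall_le_of_nonneg hM00 fun t ht => ?_
      rw [Finset.mem_range] at ht
      rw [mul_left_comm, ← mul_sub, show j + n - t = (j - t) + n by omega]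
      refine (norm_mul_le _ _).trans ((mul_le_of_le_one_left (norm_nonneg _)
        (norm_delta_le D u Ψ hΨ t)).trans ?_)
      exact norm_p_mul_cLog_add_sub D hn hε1.le (hU t) hM00 hG' _
    · rw [Finset.mul_sum]
      refine IsUltrametricDist.norm_sum_le_of_forall_le_of_nonneg hM00 fun t ht => ?_
      rw [Finset.mem_Ico] at ht
      rw [(scaleP D).p_mul]
      refine (mul_le_of_le_one_left (norm_nonneg _) D.c_lt.le).trans ((norm_mul_le _ _).trans
        ((mul_le_of_le_one_left (norm_nonneg _) (norm_delta_le D u Ψ hΨ t)).trans ?_))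
      refine (norm_cLog_le (scaleP D) _ (fun s => (hU t s).trans hε1.le) _).trans ?_
      exact (pow_le_pow_right₀ hc (by omega)).trans (le_max_right _ _)
  refine cauchySeq_tendsto_of_complete
    (NonarchimedeanAddGroup.cauchySeq_of_tendsto_sub_nhds_zero ?_)
  refine squeeze_zero_norm (fun r => ?_) (show Tendsto (fun r : ℕ => c ^ r * M0) atTop (𝓝 0) by
    simpa using (tendsto_pow_atTop_nhds_zero_of_lt_one D.c_pos.le D.c_lt).mul_const M0)
  rw [Nat.cast_succ, pz_add, pz_one, mul_assoc, ← mul_sub, norm_pz_mul D, zpow_natCast,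
    show n * (r + 1) + (i : ℕ) = n * r + i + n by ring]
  exact mul_le_mul_of_nonneg_left (hdiff _) (pow_nonneg D.c_pos.le r)

theorem linearisation' {n : ℕ} (hn : 1 ≤ n) (u : Fin (n - 1) → Ball K) {ε : ℝ}
    (hu : SmallParam n u ε) {h : ℕ} (hh : 1 ≤ h) (Ψ : PowerSeries (Ball K))
    (hΨ : IsHomSeries (fg p n u) (fg p h (0 : Fin (h - 1) → Ball K)) Ψ) :
    ∃ d : Fin n → B, ∀ z : Ball K, ‖z‖ < 1 →
      bigLog p D h ((evalP Ψ (phiK p n u z) : Ball K) : K) =
        ∑ i : Fin n, d i * bigLog p D n ((z : K) ^ p ^ (i : ℕ)) := by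
  choose d hd using exists_limit_eCoef D hn u hu Ψ hΨ
  refine ⟨d, fun z hz => ?_⟩
  set w := rootSeq p n z with hwdef
  have hw : ∀ l, ‖w l‖ < 1 := norm_rootSeq_lt p n hz
  let X : ℕ → Ball K := fun l => evalP Ψ (phiK p n u (w l))
  have hphi : ∀ l, ‖phiK p n u (w l)‖ < 1 := fun l => norm_phiK_lt hn hu (hw l)
  have hX : ∀ l, ‖X l‖ < 1 := fun l => norm_evalP_lt_one (hphi l) Ψ hΨ.1
  have hXpow : ∀ l, X l ^ p ^ (h * l) = evalP Ψ (phiK p n u z) := fun l => by
    rw [phiK_eq_iterate hn hu hz l, iterate_mulP_hom' hΨ (hphi l) l,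
      iterate_mulP_zero hh (hX l) l]
  have hlimX := tendsto_scaled_log D hh (z := ((evalP Ψ (phiK p n u z) : Ball K) : K))
    (show ‖evalP Ψ (phiK p n u z)‖ < 1 from
      norm_evalP_lt_one (norm_phiK_lt hn hu hz) Ψ hΨ.1)
    (A := fun l => tB D (X l)) fun l => by
      rw [coe_tB]
      exact congrArg D.T (eq_fr_neg (congrArg Subtype.val (hXpow l)))
  have hlimW := tendsto_scaled D hn zero_le_one (growth_logHom D Ψ hΨ.1 (h := h)) D.c_pos.le
    (fun e he => norm_coeff_logHom_le D u Ψ hΨ he) hd (z := (z : K)) hz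
    (A := fun l => tB D (w l)) fun l => by rw [coe_tB, hwdef, coe_rootSeq]
  obtain ⟨C, -, hC⟩ := exists_log_congr D (max_lt D.c_lt hu.2.1)
  refine eq_of_scaled D hlimX hlimW (C := C) fun l => ?_
  have hwl : ∀ _ : Unit, ‖tB D (w l)‖ < 1 := fun _ => (norm_tB D _).trans_lt (hw l)
  have hL : psum1 (logHom D Ψ h) (tB D (w l)) =
      psum1 (logSeries p h (0 : Fin (h - 1) → B)) (evalP (liftS D Ψ) (tB D (w l))) :=
    psum_subst D.c_pos D.c_lt zero_le_one
      (growth_logSeries (scaleP D) (0 : Fin (h - 1) → B) fun i => by simp)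
      (Fact.out : p.Prime).two_le (constantCoeff_liftS D Ψ hΨ.1) hwl
  rw [hL]
  refine hC h _ (fun i => by simp) _ _ ((norm_tB D _).trans_lt (hX l))
    (norm_evalP_lt_one (hwl ()) _ (constantCoeff_liftS D Ψ hΨ.1)) ?_
  refine (norm_sub_trans _ (tB D (evalP Ψ (w l))) _).trans (max_le ?_ ?_)
  · refine (norm_tB_sub_le D _ _).trans (max_le_max le_rfl ?_)
    exact norm_evalMv_sub_le (fun _ => hphi l) (fun _ => hw l) Ψ hu.1
      fun _ => norm_phiK_sub hn hu (hw l)
  · exact (norm_tB_evalMv_sub D (map_red_liftS D Ψ) fun _ => hw l).trans (le_max_left _ _)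

end Vale.P217.Gs

end
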