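import Vale.Agent.P217.LubinTateMove

/-!
Height ideals: invariance under isomorphism, and their computation for the standard law.
-/

noncomputable section

namespace Vale.P217

open MvPowerSeries IsLocalRing

variable (p : ℕ) [Fact p.Prime] (n : ℕ)

theorem heightIdeal_le_iff (F : FormalGroup (LTRing p n)) (h : ℕ) (I : Ideal (LTRing p n)) :
    heightIdeal p n F h ≤ I ↔
      PowerSeries.X ^ p ^ h ∣ PowerSeries.map (Ideal.Quotient.mk I) (mulSeries F p) := by
  rw [heightIdeal, Ideal.span_le, PowerSeries.X_pow_dvd_iff]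
  constructor
  · intro H j hj
    rw [PowerSeries.coeff_map, Ideal.Quotient.eq_zero_iff_mem]
    exact H ⟨j, hj, rfl⟩
  · rintro H a ⟨j, hj, rfl⟩
    have := H j hj
    rwa [PowerSeries.coeff_map, Ideal.Quotient.eq_zero_iff_mem] at this

theorem X_pow_dvd_subst {R : Type*} [CommRing R] (k : ℕ) {a f : PowerSeries R}
    (ha : PowerSeries.constantCoeff a = 0) (hf : PowerSeries.X ^ k ∣ f) :
    a ^ k ∣ PowerSeries.subst a f := by
  obtain ⟨g, rfl⟩ := hf
  rw [PowerSeries.subst_mul (hasSubst_one ha), PowerSeries.subst_pow (hasSubst_one ha),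
    PowerSeries.subst_X (hasSubst_one ha)]
  exact dvd_mul_right _ _

theorem heightIdeal_le_of_iso {F G : FormalGroup (LTRing p n)} {f : PowerSeries (LTRing p n)}
    (hf : IsIsoSeries F G f) (h : ℕ) : heightIdeal p n G h ≤ heightIdeal p n F h := by
  rw [heightIdeal_le_iff]
  set q := Ideal.Quotient.mk (heightIdeal p n F h) with hq
  have hF := (heightIdeal_le_iff p n F h _).1 le_rfl
  rw [← hq, map_mulSeries] at hF
  rw [map_mulSeries]
  have hf' := hf.map q
  set f' := PowerSeries.map q f with hf'def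
  set g := f'.substInvOfIsUnit hf'.2 with hg
  have hg0 : PowerSeries.constantCoeff g = 0 := f'.constantCoeff_substInvOfIsUnit hf'.2
  have h1 : PowerSeries.X ^ p ^ h ∣
      PowerSeries.subst f' (mulSeries (G.map q) p) := by
    rw [← hf'.1.mulSeries_comm p]
    refine hF.trans ?_
    have := X_pow_dvd_subst 1 (mulSeries_constantCoeff (F.map q) p) (f := f')
      (by rw [pow_one]; exact PowerSeries.X_dvd_iff.2 hf'.1.1)
    rwa [pow_one] at this
  have h2 := X_pow_dvd_subst _ hg0 h1
  rw [psubst_psubst_lt hg0 hf'.1.1, f'.subst_substInvOfIsUnit_right hf'.1.1 hf'.2,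
    ← PowerSeries.X_subst (mulSeries (G.map q) p)] at h2
  refine (pow_dvd_pow_of_dvd (PowerSeries.X_dvd_iff.2 hg0) _).trans ?_
  simpa using h2

theorem heightIdeal_eq_of_iso {F G : FormalGroup (LTRing p n)} {f : PowerSeries (LTRing p n)}
    (hf : IsIsoSeries F G f) (h : ℕ) : heightIdeal p n F h = heightIdeal p n G h :=
  le_antisymm (heightIdeal_le_of_iso p n hf.symm h) (heightIdeal_le_of_iso p n hf h)

theorem map_heightIdeal (F : FormalGroup (LTRing p n)) (φ : LTRing p n →+* LTRing p n) (h : ℕ) :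
    (heightIdeal p n F h).map φ = heightIdeal p n (F.map φ) h := by
  rw [heightIdeal, heightIdeal, Ideal.map_span, ← map_mulSeries]
  congr 1
  ext a
  simp only [Set.mem_image, Set.mem_setOf_eq, PowerSeries.coeff_map]
  constructor
  · rintro ⟨_, ⟨j, hj, rfl⟩, rfl⟩
    exact ⟨j, hj, rfl⟩
  · rintro ⟨j, hj, rfl⟩
    exact ⟨_, ⟨j, hj, rfl⟩, rfl⟩

theorem heightIdeal_mono' (F : FormalGroup (LTRing p n)) {h h' : ℕ} (hh : h ≤ h') :
    heightIdeal p n F h ≤ heightIdeal p n F h' :=
  Ideal.span_mono fun _ ⟨j, hj, ha⟩ =>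
    ⟨j, hj.trans_le (Nat.pow_le_pow_right (Fact.out (p := p.Prime)).pos hh), ha⟩

theorem stratum_facts (h : ℕ) (hh : 1 ≤ h) (hhn : h ≤ n) :
    (∀ j < p ^ h, stratumMap p n h (PowerSeries.coeff j
        (mulSeries (fg p n fun i => (X i : LTRing p n)) p)) = 0) ∧
      stratumMap p n h (PowerSeries.coeff (p ^ h)
        (mulSeries (fg p n fun i => (X i : LTRing p n)) p)) =
          uvar n (fun i => stratumMap p n h (X i)) h := by
  haveI : CharP (MvPowerSeries (Fin (n - 1 - (h - 1))) (GaloisField p n)) p :=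
    charP_of_injective_ringHom
      (f := (C : GaloisField p n →+* MvPowerSeries (Fin (n - 1 - (h - 1))) (GaloisField p n)))
      (fun a b hab => by simpa using congrArg constantCoeff hab) p
  obtain ⟨g, hg0, hg1, hg⟩ := mulSeries_fg_stratum p n
    (fun i => stratumMap p n h (X i)) hh hhn fun i hi => by
      have h1 := coord_generator_mem p n h i hi
      rwa [← ker_stratumMap, RingHom.mem_ker] at h1
  have hq : p ^ h ≠ 0 := pow_ne_zero _ (Fact.out (p := p.Prime)).ne_zero
  have key : ∀ j, stratumMap p n h (PowerSeries.coeff j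
      (mulSeries (fg p n fun i => (X i : LTRing p n)) p)) =
        PowerSeries.coeff j (PowerSeries.subst (PowerSeries.X ^ p ^ h) g :
          PowerSeries (MvPowerSeries (Fin (n - 1 - (h - 1))) (GaloisField p n))) := fun j => by
    rw [← PowerSeries.coeff_map, map_mulSeries, fg_map, ← hg]
    rfl
  refine ⟨fun j hj => ?_, ?_⟩
  · rw [key, PowerSeries.coeff_subst_X_pow hq]
    split
    · rename_i hd
      rw [Nat.eq_zero_of_dvd_of_lt hd hj]
      simpa using hg0
    · rfl
  · rw [key, PowerSeries.coeff_subst_X_pow hq, if_pos dvd_rfl, Nat.div_self (Nat.pos_of_ne_zero hq),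
      hg1]
    simp

theorem heightIdeal_fg_X (h : ℕ) (hh : 1 ≤ h) (hhn : h ≤ n) :
    heightIdeal p n (fg p n fun i => (X i : LTRing p n)) h = coordIdeal p n h := by
  set F := fg p n fun i => (X i : LTRing p n) with hF
  refine le_antisymm ?_ ?_
  · rw [← ker_stratumMap, heightIdeal, Ideal.span_le]
    rintro _ ⟨j, hj, rfl⟩
    exact (stratum_facts p n h hh hhn).1 j hj
  induction h, hh using Nat.le_induction with
  | base =>
    refine Ideal.span_le.2 ?_
    rintro a (rfl | ⟨i, hi, rfl⟩)
    · refine Ideal.subset_span ⟨1, by simpa using (Fact.out (p := p.Prime)).one_lt, ?_⟩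
      rw [mulSeries_coeff_one]
    · omega
  | succ h hh ih =>
    have ih' := (ih (by omega)).trans (heightIdeal_mono' p n F (Nat.le_succ h))
    refine Ideal.span_le.2 ?_
    rintro a (rfl | ⟨i, hi, rfl⟩)
    · exact ih' (natCast_mem_coordIdeal p n h)
    · rcases Nat.lt_or_ge ((i : ℕ) + 1) h with hlt | hge
      · exact ih' (coord_generator_mem p n h i hlt)
      · have hi' : i = ⟨h - 1, by omega⟩ := Fin.ext (by show (i : ℕ) = h - 1; omega)
        have h1 := (stratum_facts p n h hh (by omega)).2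
        rw [uvar, dif_pos ⟨hh, by omega⟩, ← hi'] at h1
        have hsub : PowerSeries.coeff (p ^ h) (mulSeries F p) - X i ∈ coordIdeal p n h := by
          rw [← ker_stratumMap, RingHom.mem_ker, map_sub, sub_eq_zero]
          exact h1
        have hc : PowerSeries.coeff (p ^ h) (mulSeries F p) ∈ heightIdeal p n F (h + 1) :=
          Ideal.subset_span ⟨p ^ h,
            Nat.pow_lt_pow_right (Fact.out (p := p.Prime)).one_lt (Nat.lt_succ_self h), rfl⟩
        simpa using sub_mem hc (ih' hsub)

end Vale.P217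

end
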