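import Vale.Agent.P217.LubinTateUniversal
import Mathlib.RingTheory.WittVector.Teichmuller

/-!
Moves as ring maps, their composition, and change of the universal deformation.
-/

noncomputable section

namespace Vale.P217

open MvPowerSeries IsLocalRing

section Series

variable {R S T : Type*} [CommRing R] [CommRing S] [CommRing T]

theorem formalGroup_map_map (F : FormalGroup R) (φ : R →+* S) (ψ : S →+* T) :
    (F.map φ).map ψ = F.map (ψ.comp φ) := FormalGroup.ext (map_map_series φ ψ _)

theorem series_map_map (φ : R →+* S) (ψ : S →+* T) (f : PowerSeries R) :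
    PowerSeries.map ψ (PowerSeries.map φ f) = PowerSeries.map (ψ.comp φ) f :=
  map_map_series φ ψ f

theorem series_map_subst (φ : R →+* S) {a : PowerSeries R} (ha : PowerSeries.constantCoeff a = 0)
    (f : PowerSeries R) :
    PowerSeries.map φ (PowerSeries.subst a f) =
      PowerSeries.subst (PowerSeries.map φ a) (PowerSeries.map φ f) := map_psubst φ ha f

theorem series_inverse_unique {f a b : PowerSeries R} (hf : PowerSeries.constantCoeff f = 0)
    (hb : PowerSeries.constantCoeff b = 0) (h1 : PowerSeries.subst f a = PowerSeries.X)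
    (h2 : PowerSeries.subst b f = PowerSeries.X) : a = b := by
  have := psubst_psubst_lt (τ := Unit) hb hf a
  rw [h1, h2, ← PowerSeries.X_subst a] at this
  rw [PowerSeries.subst_X (hasSubst_one hb)] at this
  simpa using this.symm

/-- The image of the inverse series is the inverse of the image. -/
theorem map_inverse {f : PowerSeries R} (hf : PowerSeries.constantCoeff f = 0)
    (hu : IsUnit (PowerSeries.coeff 1 f)) (φ : R →+* S) {b : PowerSeries S}
    (hb : PowerSeries.constantCoeff b = 0)
    (h : PowerSeries.subst b (PowerSeries.map φ f) = PowerSeries.X) :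
    PowerSeries.map φ (f.substInvOfIsUnit hu) = b := by
  refine series_inverse_unique (constantCoeff_map_series φ hf) hb ?_ h
  rw [← series_map_subst φ hf, f.subst_substInvOfIsUnit_left hf hu, PowerSeries.map_X]

theorem isUnit_of_residue [IsLocalRing R] {k : Type*} [Field k] (ρ : R →+* k)
    (hρ : Function.Surjective ρ) {x : R} (hx : IsUnit (ρ x)) : IsUnit x := by
  rw [← IsLocalRing.notMem_maximalIdeal, ← residue_eq_zero_iff ρ hρ]
  exact hx.ne_zero

end Series

variable (p : ℕ) [Fact p.Prime] (n : ℕ)

section Lift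

variable {R : Type*} [CommRing R] (ι : Coef p n →+* R) (ρ : R →+* GaloisField p n)

/-- A coefficientwise Teichmüller lift of a series without constant term. -/
def liftSeries (g : PowerSeries (GaloisField p n)) : PowerSeries R :=
  PowerSeries.mk fun m =>
    if m = 0 then 0 else ι (WittVector.teichmuller p (PowerSeries.coeff m g))

theorem constantCoeff_liftSeries (g : PowerSeries (GaloisField p n)) :
    PowerSeries.constantCoeff (liftSeries p n ι g) = 0 := by
  rw [← PowerSeries.coeff_zero_eq_constantCoeff_apply, liftSeries, PowerSeries.coeff_mk, if_pos rfl]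

theorem map_liftSeries (hι : ρ.comp ι = WittVector.constantCoeff)
    (g : PowerSeries (GaloisField p n)) (hg : PowerSeries.constantCoeff g = 0) :
    PowerSeries.map ρ (liftSeries p n ι g) = g := by
  ext m
  rw [PowerSeries.coeff_map, liftSeries, PowerSeries.coeff_mk]
  split
  · subst m
    rw [map_zero, PowerSeries.coeff_zero_eq_constantCoeff, hg]
  · exact (RingHom.congr_fun hι _).trans (WittVector.teichmuller_coeff_zero p _)

theorem exists_lift_iso [IsLocalRing R] (hρ : Function.Surjective ρ)
    (hι : ρ.comp ι = WittVector.constantCoeff) (G : FormalGroup R) [G.IsComm]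
    (Γ : FormalGroup (GaloisField p n)) (g : PowerSeries (GaloisField p n))
    (hg : IsIsoSeries (G.map ρ) Γ g) :
    ∃ (G' : FormalGroup R) (χ : PowerSeries R), IsIsoSeries G G' χ ∧ G'.IsComm ∧
      G'.map ρ = Γ ∧ PowerSeries.map ρ χ = g := by
  have hχ := map_liftSeries p n ι ρ hι g hg.1.1
  have hu : IsUnit (PowerSeries.coeff 1 (liftSeries p n ι g)) := by
    refine isUnit_of_residue ρ hρ ?_
    rw [← PowerSeries.coeff_map, hχ]
    exact hg.2
  obtain ⟨G', hG'⟩ := exists_transport G _ (constantCoeff_liftSeries p n ι g) hu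
  refine ⟨G', _, hG', hG'.isComm, ?_, hχ⟩
  have h := hG'.map ρ
  rw [hχ] at h
  exact h.target_unique hg.1

end Lift

theorem residueMap_comp_C : (residueMap p n).comp C = WittVector.constantCoeff :=
  RingHom.ext (residueMap_C p n)

/-- A move, as a mere ring map. -/
def IsMoveHom (F : FormalGroup (LTRing p n)) (τ : GaloisField p n ≃+* GaloisField p n)
    (g : PowerSeries (GaloisField p n)) (α : LTRing p n →+* LTRing p n) : Prop :=
  (∀ w : Coef p n, α (C w) = C (WittVector.map τ.toRingHom w)) ∧
    (∀ x : LTRing p n, residueMap p n (α x) = τ (residueMap p n x)) ∧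
      ∃ f : PowerSeries (LTRing p n),
        IsIsoSeries F (F.map α) f ∧ PowerSeries.map (residueMap p n) f = g

variable {Γ : FormalGroup (ZMod p)} {F : FormalGroup (LTRing p n)}

theorem existsUnique_moveHom (hF : IsUniversalDeformation p n Γ F)
    (τ : GaloisField p n ≃+* GaloisField p n) (g : PowerSeries (GaloisField p n))
    (hg : IsIsoSeries (baseChange p n Γ) (baseChange p n Γ) g) :
    ∃! α : LTRing p n →+* LTRing p n, IsMoveHom p n F τ g α := by
  have := hF.1
  set ι : Coef p n →+* LTRing p n :=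
    (C : Coef p n →+* LTRing p n).comp (WittVector.map τ.toRingHom) with hιdef
  set ρ : LTRing p n →+* GaloisField p n := τ.symm.toRingHom.comp (residueMap p n) with hρdef
  have hρ : Function.Surjective ρ := τ.symm.surjective.comp (residueMap_surjective p n)
  have hι : ρ.comp ι = WittVector.constantCoeff := RingHom.ext fun w => by
    show τ.symm (residueMap p n (C (WittVector.map τ.toRingHom w))) = _
    rw [residueMap_C]
    show τ.symm ((WittVector.map τ.toRingHom w).coeff 0) = w.coeff 0
    rw [WittVector.map_coeff]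
    exact τ.symm_apply_apply _
  have hg' : IsIsoSeries (F.map (residueMap p n)) (baseChange p n Γ) g := by rwa [hF.2.1]
  obtain ⟨G, χ, hχ, hGc, hGρ, hχρ⟩ := exists_lift_iso p n C (residueMap p n)
    (residueMap_surjective p n) (residueMap_comp_C p n) F (baseChange p n Γ) g hg'
  have hGρ' : G.map ρ = baseChange p n Γ := by
    rw [hρdef, ← formalGroup_map_map, hGρ, map_baseChange]
  have hres : ∀ (f : PowerSeries (LTRing p n)), PowerSeries.map ρ f = PowerSeries.X ↔
      PowerSeries.map (residueMap p n) f = PowerSeries.X := fun f => by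
    rw [hρdef, ← series_map_map]
    constructor <;> intro h
    · have := congrArg (PowerSeries.map τ.toRingHom) h
      rwa [series_map_map, show τ.toRingHom.comp τ.symm.toRingHom = RingHom.id _ from
        RingHom.ext τ.apply_symm_apply, PowerSeries.map_id, PowerSeries.map_X] at this
    · rw [h, PowerSeries.map_X]
  obtain ⟨α, ⟨hC, hα, f, hf, hfρ⟩, huniq⟩ :=
    universal_apply p n hF ι ρ hρ hι G hGc hGρ'
  have hfr := (hres f).1 hfρ
  refine ⟨α, ⟨fun w => RingHom.congr_fun hC w, fun x => ?_, _, hf.comp hχ, ?_⟩, ?_⟩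
  · rw [← RingHom.congr_fun hα x]
    exact (τ.apply_symm_apply _).symm
  · rw [series_map_subst _ hχ.1.1, hfr, hχρ, PowerSeries.subst_X (hasSubst_one hg.1.1)]
  · rintro β ⟨hCβ, hβ, f', hf', hfρ'⟩
    refine huniq β ⟨RingHom.ext fun w => hCβ w, RingHom.ext fun x => ?_, _,
      hf'.comp hχ.symm, ?_⟩
    · show τ.symm (residueMap p n (β x)) = _
      rw [hβ, τ.symm_apply_apply]
    · rw [hres, series_map_subst _ (χ.constantCoeff_substInvOfIsUnit hχ.2), hfρ',
        map_inverse hχ.1.1 hχ.2 _ (hg.symm.1.1) (by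
          rw [hχρ]; exact g.subst_substInvOfIsUnit_right hg.1.1 hg.2)]
      exact g.subst_substInvOfIsUnit_right hg.1.1 hg.2

theorem IsMoveHom.comp {τ τ' : GaloisField p n ≃+* GaloisField p n}
    {g g' : PowerSeries (GaloisField p n)} {α α' : LTRing p n →+* LTRing p n}
    (h : IsMoveHom p n F τ g α) (h' : IsMoveHom p n F τ' g' α') :
    IsMoveHom p n F (τ.trans τ') (PowerSeries.subst g' (PowerSeries.map τ'.toRingHom g))
      (α'.comp α) := by
  obtain ⟨hC, hα, f, hf, hfρ⟩ := h
  obtain ⟨hC', hα', f', hf', hfρ'⟩ := h'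
  refine ⟨fun w => ?_, fun x => ?_, PowerSeries.subst f' (PowerSeries.map α' f), ?_, ?_⟩
  · rw [RingHom.comp_apply, hC, hC']
    congr 1
  · rw [RingHom.comp_apply, hα', hα]
    rfl
  · rw [← formalGroup_map_map]
    exact (hf.map α').comp hf'
  · rw [series_map_subst _ hf'.1.1, hfρ', series_map_map,
      show (residueMap p n).comp α' = τ'.toRingHom.comp (residueMap p n) from RingHom.ext hα',
      ← series_map_map, hfρ]

theorem isMoveHom_id :
    IsMoveHom p n F (RingEquiv.refl _) PowerSeries.X (RingHom.id _) := by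
  refine ⟨fun w => ?_, fun x => rfl, PowerSeries.X, ?_, PowerSeries.map_X _⟩
  · show C w = C _
    congr 1
  · rw [show F.map (RingHom.id _) = F from FormalGroup.ext (by simp [MvPowerSeries.map_id])]
    exact isIsoSeries_X F

theorem existsUnique_moveEquiv (hF : IsUniversalDeformation p n Γ F)
    (τ : GaloisField p n ≃+* GaloisField p n) (g : PowerSeries (GaloisField p n))
    (hg : IsIsoSeries (baseChange p n Γ) (baseChange p n Γ) g) :
    ∃! α : LTRing p n ≃+* LTRing p n, IsMove p n F τ g α := by
  obtain ⟨α, hα, huniq⟩ := existsUnique_moveHom p n hF τ g hg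
  set h := PowerSeries.map τ.symm.toRingHom g with hh
  have hiso : IsIsoSeries (baseChange p n Γ) (baseChange p n Γ) h := by
    have := hg.map τ.symm.toRingHom
    rwa [map_baseChange] at this
  have hinv := hiso.symm
  set g' := h.substInvOfIsUnit hiso.2 with hg'
  have hτh : PowerSeries.map τ.toRingHom h = g := by
    rw [hh, series_map_map, show τ.toRingHom.comp τ.symm.toRingHom = RingHom.id _ from
      RingHom.ext τ.apply_symm_apply, PowerSeries.map_id]
    rfl
  obtain ⟨β, hβ, -⟩ := existsUnique_moveHom p n hF τ.symm g' hinv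
  have hid : ∀ γ, IsMoveHom p n F (RingEquiv.refl _) PowerSeries.X γ → γ = RingHom.id _ :=
    fun γ hγ =>
      (existsUnique_moveHom p n hF (RingEquiv.refl _) PowerSeries.X
        (isIsoSeries_X _)).unique hγ (isMoveHom_id p n)
  have h1 : β.comp α = RingHom.id _ := hid _ (by
    have := hα.comp p n hβ
    rwa [RingEquiv.self_trans_symm, ← hh,
      h.subst_substInvOfIsUnit_right hiso.1.1 hiso.2] at this)
  have h2 : α.comp β = RingHom.id _ := hid _ (by
    have := hβ.comp p n hα
    have e : PowerSeries.subst g (PowerSeries.map τ.toRingHom g') = PowerSeries.X := by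
      rw [← hτh, ← series_map_subst _ hiso.1.1, hg', h.subst_substInvOfIsUnit_left hiso.1.1 hiso.2,
        PowerSeries.map_X]
    rwa [RingEquiv.symm_trans_self, e] at this)
  refine ⟨RingEquiv.ofRingHom α β h2 h1, hα, fun γ hγ => ?_⟩
  exact RingEquiv.toRingHom_injective (huniq γ.toRingHom hγ)

/-- Change of the universal deformation along an isomorphism of the special fibres. -/
theorem isUniversal_of_iso {Γ' : FormalGroup (ZMod p)} {F' : FormalGroup (LTRing p n)}
    (hF : IsUniversalDeformation p n Γ F) (φ : PowerSeries (ZMod p)) (hφ : IsIsoSeries Γ Γ' φ)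
    (ψ : PowerSeries (LTRing p n)) (hψ : IsIsoSeries F F' ψ)
    (hψρ : PowerSeries.map (residueMap p n) ψ =
      PowerSeries.map (algebraMap (ZMod p) (GaloisField p n)) φ) :
    IsUniversalDeformation p n Γ' F' := by
  have := hF.1
  have hφk := hφ.map (algebraMap (ZMod p) (GaloisField p n))
  set φk := PowerSeries.map (algebraMap (ZMod p) (GaloisField p n)) φ with hφkdef
  refine ⟨hψ.isComm, ?_, ?_⟩
  · have h := hψ.map (residueMap p n)
    rw [hψρ, hF.2.1] at h
    exact h.target_unique hφk.1
  intro R _ _ _ _ _ ρ hρ hι G hG hGρ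
  have hφi := hφk.symm
  set φi := φk.substInvOfIsUnit hφk.2 with hφidef
  have hgi : IsIsoSeries (G.map ρ) (baseChange p n Γ) φi := by rw [hGρ]; exact hφi
  obtain ⟨G', χ, hχ, hG'c, hG'ρ, hχρ⟩ := exists_lift_iso p n (algebraMap (Coef p n) R) ρ hρ hι G
    (baseChange p n Γ) φi hgi
  obtain ⟨α, ⟨hα, f, hf, hfρ⟩, huniq⟩ := hF.2.2 R ρ hρ hι G' hG'c hG'ρ
  have key : ∀ β : LTRing p n →ₐ[Coef p n] R, ρ.comp β.toRingHom = residueMap p n →
      PowerSeries.map ρ (PowerSeries.map β.toRingHom ψ) = φk := fun β hβ => by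
    rw [series_map_map, hβ, hψρ]
  refine ⟨α, ⟨hα, _, (hψ.map α.toRingHom).comp (hf.comp hχ), ?_⟩, ?_⟩
  · rw [series_map_subst _ (hf.comp hχ).1.1, series_map_subst _ hχ.1.1, hfρ, hχρ,
      PowerSeries.subst_X (hasSubst_one hφi.1.1), key α hα]
    exact φk.subst_substInvOfIsUnit_right hφk.1.1 hφk.2
  · rintro β ⟨hβ, f', hf', hfρ'⟩
    have h1 := (hψ.map β.toRingHom).symm
    refine huniq β ⟨hβ, _, h1.comp (hf'.comp hχ.symm), ?_⟩
    rw [series_map_subst _ (hf'.comp hχ.symm).1.1, series_map_subst _ hχ.symm.1.1, hfρ',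
      map_inverse (hψ.map β.toRingHom).1.1 (hψ.map β.toRingHom).2 ρ hφi.1.1 (by
        rw [key β hβ]; exact φk.subst_substInvOfIsUnit_right hφk.1.1 hφk.2),
      map_inverse hχ.1.1 hχ.2 ρ hφk.1.1 (by
        rw [hχρ]; exact φk.subst_substInvOfIsUnit_left hφk.1.1 hφk.2),
      PowerSeries.subst_X (hasSubst_one hφk.1.1)]
    exact φk.subst_substInvOfIsUnit_left hφk.1.1 hφk.2

/-- Conjugation of moves by a change of coordinates. -/
theorem move_conj {Γ₁ Γ₂ : FormalGroup (ZMod p)} {F₁ F₂ : FormalGroup (LTRing p n)}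
    (e : LTRing p n ≃+* LTRing p n) (hC : ∀ w, e (C w) = C w)
    (he : ∀ x, residueMap p n (e x) = residueMap p n x)
    (ψ : PowerSeries (ZMod p)) (hψ : IsIsoSeries Γ₂ Γ₁ ψ)
    (θ : PowerSeries (LTRing p n)) (hθ : IsIsoSeries F₂ (F₁.map e.toRingHom) θ)
    (hθρ : PowerSeries.map (residueMap p n) θ =
      PowerSeries.map (algebraMap (ZMod p) (GaloisField p n)) ψ)
    (τ : GaloisField p n ≃+* GaloisField p n) (g : PowerSeries (GaloisField p n))
    (hg : IsIsoSeries (baseChange p n Γ₁) (baseChange p n Γ₁) g)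
    (α : LTRing p n ≃+* LTRing p n) (hα : IsMove p n F₁ τ g α) :
    ∃ g', IsIsoSeries (baseChange p n Γ₂) (baseChange p n Γ₂) g' ∧
      IsMove p n F₂ τ g' (e.symm.trans (α.trans e)) := by
  obtain ⟨hαC, hαρ, f, hf, hfρ⟩ := hα
  have hψk := hψ.map (algebraMap (ZMod p) (GaloisField p n))
  set ψk := PowerSeries.map (algebraMap (ZMod p) (GaloisField p n)) ψ with hψkdef
  set α' := e.symm.trans (α.trans e) with hα'
  have heC : ∀ w, e.symm (C w) = C w := fun w => by
    conv_lhs => rw [← hC w]
    exact e.symm_apply_apply _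
  have hα'ρ : ∀ x, residueMap p n (α' x) = τ (residueMap p n x) := fun x => by
    show residueMap p n (e (α (e.symm x))) = _
    rw [he, hαρ]
    conv_rhs => rw [← e.apply_symm_apply x, he]
  have hcomp : α'.toRingHom.comp e.toRingHom = e.toRingHom.comp α.toRingHom :=
    RingHom.ext fun x => by
      show e (α (e.symm (e x))) = e (α x)
      rw [e.symm_apply_apply]
  have h1 : IsIsoSeries (F₁.map e.toRingHom) ((F₁.map e.toRingHom).map α'.toRingHom)
      (PowerSeries.map e.toRingHom f) := by
    rw [formalGroup_map_map, hcomp, ← formalGroup_map_map]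
    exact hf.map e.toRingHom
  have h2 := (hθ.map α'.toRingHom).symm
  have hgψ : IsIsoSeries (baseChange p n Γ₂) (baseChange p n Γ₁) (PowerSeries.subst ψk g) :=
    hg.comp hψk
  refine ⟨_, hψk.symm.comp hgψ, fun w => ?_, hα'ρ, _, h2.comp (h1.comp hθ), ?_⟩
  · show e (α (e.symm (C w))) = _
    rw [heC, hαC, hC]
  · have hθτ : PowerSeries.map (residueMap p n) (PowerSeries.map α'.toRingHom θ) = ψk := by
      rw [series_map_map, show (residueMap p n).comp α'.toRingHom =
        τ.toRingHom.comp (residueMap p n) from RingHom.ext hα'ρ, ← series_map_map, hθρ,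
        series_map_map, Subsingleton.elim (τ.toRingHom.comp (algebraMap (ZMod p) _))
          (algebraMap (ZMod p) (GaloisField p n))]
    rw [series_map_subst _ (h1.comp hθ).1.1, series_map_subst _ hθ.1.1, hθρ,
      series_map_map, show (residueMap p n).comp e.toRingHom = residueMap p n from RingHom.ext he,
      hfρ, map_inverse (hθ.map α'.toRingHom).1.1 (hθ.map α'.toRingHom).2 (residueMap p n)
        hψk.symm.1.1 (by rw [hθτ]; exact ψk.subst_substInvOfIsUnit_right hψk.1.1 hψk.2)]

end Vale.P217

end
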