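import Vale.Agent.P217.LubinTateMove

/-!
Elements of the stabilizer close to `1`: they act as the identity modulo high powers of the maximal
ideal, because `[p]` contracts homomorphisms modulo powers of the maximal ideal.
-/

noncomputable section

namespace Vale.P217

open MvPowerSeries IsLocalRing

variable (p : ℕ) [Fact p.Prime] (n : ℕ)

theorem coeff_mul_mem {σ R : Type*} [CommRing R] {I J : Ideal R} {P Q : MvPowerSeries σ R}
    (hP : ∀ d, coeff d P ∈ I) (hQ : ∀ d, coeff d Q ∈ J) (d : σ →₀ ℕ) :
    coeff d (P * Q) ∈ I * J := by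
  classical
  rw [coeff_mul]
  exact Ideal.sum_mem _ fun x _ => Ideal.mul_mem_mul (hP _) (hQ _)

theorem fg_X_map_residue :
    (fg p n fun i => (X i : LTRing p n)).map (residueMap p n) =
      hondaLaw p n (GaloisField p n) := by
  rw [fg_map]
  congr 1
  exact funext (residueMap_X p n)

theorem map_residue_mulSeries (hn : 1 ≤ n) :
    PowerSeries.map (residueMap p n) (mulSeries (fg p n fun i => (X i : LTRing p n)) p) =
      PowerSeries.X ^ p ^ n := by
  rw [map_mulSeries, fg_X_map_residue, mulSeries_fg_zero p n hn]

theorem coeff_derivative_mulSeries_mem (hn : 1 ≤ n) (m : ℕ) :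
    PowerSeries.coeff m (PowerSeries.derivative (LTRing p n)
        (mulSeries (fg p n fun i => (X i : LTRing p n)) p)) ∈ maximalIdeal (LTRing p n) := by
  rw [← residue_eq_zero_iff (residueMap p n) (residueMap_surjective p n),
    PowerSeries.coeff_derivative, map_mul, map_add, map_natCast, map_one,
    ← PowerSeries.coeff_map, map_residue_mulSeries p n hn, PowerSeries.coeff_X_pow]
  split
  · rename_i h
    rw [one_mul]
    have h2 : ((m + 1 : ℕ) : GaloisField p n) = 0 := by
      rw [h, Nat.cast_pow, CharP.cast_eq_zero, zero_pow (by omega)]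
    exact_mod_cast h2
  · rw [zero_mul]

/-- `[p]` contracts homomorphisms modulo powers of the maximal ideal. -/
theorem contract (hn : 1 ≤ n) (h : PowerSeries (LTRing p n))
    (h0 : PowerSeries.constantCoeff h = 0) (i : ℕ)
    (H : ModHom (maximalIdeal (LTRing p n) ^ (i + 1)) (fg p n fun j => (X j : LTRing p n))
      (fg p n fun j => (X j : LTRing p n)) h) :
    ModHom (maximalIdeal (LTRing p n) ^ (i + 2)) (fg p n fun j => (X j : LTRing p n))
      (fg p n fun j => (X j : LTRing p n))
      (PowerSeries.subst h (mulSeries (fg p n fun j => (X j : LTRing p n)) p)) := by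
  set F := fg p n fun j => (X j : LTRing p n) with hF
  set P := mulSeries F p with hP
  set m := maximalIdeal (LTRing p n) with hm
  set q := Ideal.Quotient.mk (m ^ (i + 2)) with hq
  have hP0 : PowerSeries.constantCoeff P = 0 := mulSeries_constantCoeff F p
  have hPh : PowerSeries.constantCoeff (PowerSeries.subst h P) = 0 := constantCoeff_one h0 hP0
  rw [modHom_iff hPh, series_map_subst _ h0]
  set F' := F.map q with hF'
  set P' := PowerSeries.map q P with hP'
  set h' := PowerSeries.map q h with hh'
  have h'0 : PowerSeries.constantCoeff h' = 0 := constantCoeff_map_series q h0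
  have hD : map q (defect F F h) = defect F' F' h' := map_defect q F F h0
  have ha := fun j : Fin 2 => constantCoeff_one (constantCoeff_X j (R := LTRing p n ⧸ m ^ (i + 2))) h'0
  set A := subst
    ![PowerSeries.subst (X (0 : Fin 2) : MvPowerSeries (Fin 2) (LTRing p n ⧸ m ^ (i + 2))) h',
      PowerSeries.subst (X (1 : Fin 2) : MvPowerSeries (Fin 2) (LTRing p n ⧸ m ^ (i + 2))) h']
    F'.toPowerSeries with hA
  have hA0 : constantCoeff A = 0 := constantCoeff_pair (ha 0) (ha 1) F'.zero_constantCoeff
  have hsplit : PowerSeries.subst F'.toPowerSeries h' = A + defect F' F' h' := by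
    rw [defect, hA]
    ring
  have hD0 : constantCoeff (defect F' F' h') = 0 := by
    have := congrArg constantCoeff hsplit
    rw [constantCoeff_one F'.zero_constantCoeff h'0, map_add, hA0, zero_add] at this
    exact this.symm
  have hDD : defect F' F' h' * defect F' F' h' = 0 := by
    rw [← hD, ← map_mul]
    ext d
    rw [coeff_map, map_zero, hq, Ideal.Quotient.eq_zero_iff_mem]
    exact Ideal.pow_le_pow_right (by omega) (pow_add m (i + 1) (i + 1) ▸ coeff_mul_mem H H d)
  have hzero : PowerSeries.subst A (PowerSeries.derivative (LTRing p n ⧸ m ^ (i + 2)) P') * defect F' F' h' = 0 := by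
    have hAR0 : constantCoeff (subst
        ![PowerSeries.subst (X (0 : Fin 2) : MvPowerSeries (Fin 2) (LTRing p n)) h,
        PowerSeries.subst (X (1 : Fin 2) : MvPowerSeries (Fin 2) (LTRing p n)) h]
        F.toPowerSeries) = 0 :=
      constantCoeff_pair (constantCoeff_one (constantCoeff_X 0) h0)
        (constantCoeff_one (constantCoeff_X 1) h0) F.zero_constantCoeff
    have hder : PowerSeries.derivative (LTRing p n ⧸ m ^ (i + 2)) P' =
        PowerSeries.map q (PowerSeries.derivative (LTRing p n) P) := by
      ext d
      simp [hP', PowerSeries.coeff_derivative]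
    have hAR : map q (subst
        ![PowerSeries.subst (X (0 : Fin 2) : MvPowerSeries (Fin 2) (LTRing p n)) h,
        PowerSeries.subst (X (1 : Fin 2) : MvPowerSeries (Fin 2) (LTRing p n)) h]
        F.toPowerSeries) = A := by
      rw [map_pair q (constantCoeff_one (constantCoeff_X 0) h0)
        (constantCoeff_one (constantCoeff_X 1) h0), map_psubst q (constantCoeff_X 0),
        map_psubst q (constantCoeff_X 1), map_X, map_X]
      rfl
    rw [hder, ← hAR, ← map_psubst q hAR0, ← hD, ← map_mul]
    ext d
    rw [coeff_map, map_zero, hq, Ideal.Quotient.eq_zero_iff_mem, pow_succ']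
    refine coeff_mul_mem (fun e => ?_) H d
    rw [← residue_eq_zero_iff (residueMap p n) (residueMap_surjective p n), ← coeff_map,
      map_psubst (residueMap p n) hAR0,
      show PowerSeries.map (residueMap p n) (PowerSeries.derivative (LTRing p n) P) = 0 from ?_,
      psubst_zero_series (by rw [constantCoeff_map, hAR0, map_zero]), map_zero]
    ext d'
    rw [PowerSeries.coeff_map, map_zero,
      residue_eq_zero_iff (residueMap p n) (residueMap_surjective p n), hP, hF]
    exact coeff_derivative_mulSeries_mem p n hn d'
  have hP'0 : PowerSeries.constantCoeff P' = 0 := constantCoeff_map_series q hP0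
  have := isComm_map F q
  have hP'hom : IsHomSeries F' F' P' := by
    rw [hP', hP, map_mulSeries]
    exact mulSeries_isHomSeries F' p
  rw [defect, psubst_psubst_lt F'.zero_constantCoeff h'0, hsplit,
    psubst_add_of_sq_zero hA0 hD0 hDD, hzero, add_zero, hA, hP'hom.apply (ha 0) (ha 1),
    psubst_psubst_lt (constantCoeff_X 0) h'0, psubst_psubst_lt (constantCoeff_X 1) h'0, sub_self]

/-- Lifts of `a ∘ X ^ (p ^ (n i))` which are endomorphisms modulo `m ^ (i + 1)`. -/
def hIter (a : PowerSeries (GaloisField p n)) : ℕ → PowerSeries (LTRing p n)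
  | 0 => liftSeries p n C a
  | i + 1 => PowerSeries.subst (hIter a i) (mulSeries (fg p n fun j => (X j : LTRing p n)) p)

variable {p n}

theorem constantCoeff_hIter (a : PowerSeries (GaloisField p n)) :
    ∀ i, PowerSeries.constantCoeff (hIter p n a i) = 0
  | 0 => constantCoeff_liftSeries p n _ a
  | i + 1 => constantCoeff_one (constantCoeff_hIter a i) (mulSeries_constantCoeff _ p)

theorem map_residue_hIter (hn : 1 ≤ n) (a : PowerSeries (GaloisField p n))
    (ha : IsHomSeries (hondaLaw p n (GaloisField p n)) (hondaLaw p n (GaloisField p n)) a) :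
    ∀ i, PowerSeries.map (residueMap p n) (hIter p n a i) =
      PowerSeries.subst (PowerSeries.X ^ p ^ (n * i) : PowerSeries (GaloisField p n)) a
  | 0 => by
    rw [hIter, map_liftSeries p n C (residueMap p n) (residueMap_comp_C p n) a ha.1]
    simp
  | i + 1 => by
    rw [hIter, series_map_subst _ (constantCoeff_hIter a i), map_residue_mulSeries p n hn,
      map_residue_hIter hn a ha i]
    have hc : ∀ k : ℕ, PowerSeries.constantCoeff
        (PowerSeries.X ^ p ^ k : PowerSeries (GaloisField p n)) = 0 := fun k => by
      rw [map_pow, PowerSeries.constantCoeff_X, zero_pow (pow_ne_zero _ (Fact.out (p := p.Prime)).ne_zero)]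
    have h := ha.mulSeries_comm p
    rw [mulSeries_fg_zero p n hn] at h
    rw [← psubst_psubst_lt (hc _) ha.1, ← h, psubst_psubst_lt (hc _) (hc _),
      PowerSeries.subst_pow (hasSubst_one (hc _)), PowerSeries.subst_X (hasSubst_one (hc _)),
      ← pow_mul, ← pow_add, Nat.mul_succ]

theorem modHom_hIter (hn : 1 ≤ n) (a : PowerSeries (GaloisField p n))
    (ha : IsHomSeries (hondaLaw p n (GaloisField p n)) (hondaLaw p n (GaloisField p n)) a) :
    ∀ i, ModHom (maximalIdeal (LTRing p n) ^ (i + 1)) (fg p n fun j => (X j : LTRing p n))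
      (fg p n fun j => (X j : LTRing p n)) (hIter p n a i)
  | 0 => fun d => by
    rw [zero_add, pow_one, ← residue_eq_zero_iff (residueMap p n) (residueMap_surjective p n),
      ← coeff_map, map_defect _ _ _ (constantCoeff_hIter a 0), fg_X_map_residue,
      map_residue_hIter hn a ha 0, (defect_eq_zero_iff ?_).2 ?_, map_zero]
    · simpa using ha.1
    · simpa using ha
  | i + 1 => contract p n hn _ (constantCoeff_hIter a i) i (modHom_hIter hn a ha i)

theorem isHomSeries_shift (hn : 1 ≤ n) (a : PowerSeries (GaloisField p n))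
    (ha : IsHomSeries (hondaLaw p n (GaloisField p n)) (hondaLaw p n (GaloisField p n)) a) (i : ℕ) :
    IsHomSeries (hondaLaw p n (GaloisField p n)) (hondaLaw p n (GaloisField p n))
      (PowerSeries.subst (PowerSeries.X ^ p ^ (n * i) : PowerSeries (GaloisField p n)) a) := by
  rw [← map_residue_hIter hn a ha i,
    ← defect_eq_zero_iff (constantCoeff_map_series _ (constantCoeff_hIter a i)),
    ← fg_X_map_residue, ← map_defect _ _ _ (constantCoeff_hIter a i)]
  ext d
  rw [coeff_map, map_zero, residue_eq_zero_iff (residueMap p n) (residueMap_surjective p n)]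
  exact Ideal.pow_le_self (by omega) (modHom_hIter hn a ha i d)

theorem isIsoSeries_one_add (hn : 1 ≤ n) (a : PowerSeries (GaloisField p n))
    (ha : IsHomSeries (hondaLaw p n (GaloisField p n)) (hondaLaw p n (GaloisField p n)) a) (N : ℕ)
    (hN : 1 ≤ N) :
    IsIsoSeries (hondaLaw p n (GaloisField p n)) (hondaLaw p n (GaloisField p n))
      (subst ![PowerSeries.X,
          PowerSeries.subst (PowerSeries.X ^ p ^ (n * N) : PowerSeries (GaloisField p n)) a]
        (hondaLaw p n (GaloisField p n)).toPowerSeries) := by
  have h := isHomSeries_shift hn a ha N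
  have h2 := (Fact.out (p := p.Prime)).two_le
  have hq : 1 < p ^ (n * N) := Nat.one_lt_pow (Nat.mul_ne_zero (by omega) (by omega)) h2
  refine ⟨(isHomSeries_X _).add h, ?_⟩
  rw [coeff_one_pair PowerSeries.constantCoeff_X h.1 (FormalGroup.zero_constantCoeff _),
    FormalGroup.lin_coeff_X, FormalGroup.lin_coeff_Y, PowerSeries.coeff_one_X,
    PowerSeries.coeff_subst_X_pow (by omega),
    if_neg (fun hd => by have := Nat.le_of_dvd one_pos hd; omega)]
  simp

theorem moveHom_congr (hn : 1 ≤ n) (a : PowerSeries (GaloisField p n))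
    (ha : IsHomSeries (hondaLaw p n (GaloisField p n)) (hondaLaw p n (GaloisField p n)) a) (N : ℕ)
    (hN : 1 ≤ N) (g : PowerSeries (GaloisField p n))
    (hg : g = subst ![PowerSeries.X,
          PowerSeries.subst (PowerSeries.X ^ p ^ (n * N) : PowerSeries (GaloisField p n)) a]
        (hondaLaw p n (GaloisField p n)).toPowerSeries)
    (α : LTRing p n →+* LTRing p n)
    (hα : IsMoveHom p n (fg p n fun j => (X j : LTRing p n)) (RingEquiv.refl _) g α)
    (x : LTRing p n) : α x - x ∈ maximalIdeal (LTRing p n) ^ N := by
  obtain ⟨hC, hρα, f, hf, hfρ⟩ := hα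
  set F := fg p n fun j => (X j : LTRing p n) with hF
  set res := residueMap p n with hres
  have hgiso := isIsoSeries_one_add hn a ha N hN
  rw [← hg] at hgiso
  set f₀ : PowerSeries (LTRing p n) := subst ![PowerSeries.X, hIter p n a N] F.toPowerSeries
    with hf₀
  have hh := constantCoeff_hIter a N
  have hf₀0 : PowerSeries.constantCoeff f₀ = 0 :=
    constantCoeff_pair PowerSeries.constantCoeff_X hh F.zero_constantCoeff
  have hf₀ρ : PowerSeries.map res f₀ = g := by
    refine (map_pair res PowerSeries.constantCoeff_X hh _).trans ?_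
    rw [hg, ← fg_X_map_residue, ← map_residue_hIter hn a ha N]
    exact congrArg (fun z => subst ![z, PowerSeries.map res (hIter p n a N)]
      (F.map res).toPowerSeries) (PowerSeries.map_X res)
  have hαX : ∀ j, α (X j) ∈ maximalIdeal (LTRing p n) := fun j => by
    rw [← residue_eq_zero_iff res (residueMap_surjective p n), hρα, residueMap_X]
    rfl
  have hfinv := hf.symm
  set fi := f.substInvOfIsUnit hf.2 with hfi
  set q := Ideal.Quotient.mk (maximalIdeal (LTRing p n) ^ (N + 1)) with hq
  have := isComm_map F q
  have hq0 : IsHomSeries (F.map q) (F.map q) (PowerSeries.map q f₀) := by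
    have h1 : IsHomSeries (F.map q) (F.map q) (PowerSeries.map q (hIter p n a N)) := by
      rw [← defect_eq_zero_iff (constantCoeff_map_series q hh)]
      exact (modHom_iff hh).1 (modHom_hIter hn a ha N)
    have h2 := (isHomSeries_X (F.map q)).add h1
    convert! h2 using 1
    refine (map_pair q PowerSeries.constantCoeff_X hh _).trans ?_
    exact congrArg (fun z => subst ![z, PowerSeries.map q (hIter p n a N)]
      (F.map q).toPowerSeries) (PowerSeries.map_X q)
  have hc : PowerSeries.constantCoeff (PowerSeries.subst fi f₀) = 0 :=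
    constantCoeff_one hfinv.1.1 hf₀0
  have hmod : ModHom (maximalIdeal (LTRing p n) ^ (N + 1)) (F.map α) F
      (PowerSeries.subst fi f₀) := by
    rw [modHom_iff hc, defect_eq_zero_iff (constantCoeff_map_series _ hc),
      series_map_subst _ hfinv.1.1]
    exact hq0.comp (hfinv.map q).1
  have hres' : PowerSeries.map res (PowerSeries.subst fi f₀) = PowerSeries.X := by
    rw [series_map_subst _ hfinv.1.1, hf₀ρ, hfi, map_inverse hf.1.1 hf.2 res hgiso.symm.1.1 (by
      rw [hfρ]; exact g.subst_substInvOfIsUnit_right hgiso.1.1 hgiso.2)]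
    exact g.subst_substInvOfIsUnit_right hgiso.1.1 hgiso.2
  have hG : (F.map α).map res = hondaLaw p n (GaloisField p n) := by
    rw [formalGroup_map_map, hF, fg_map]
    congr 1
    funext j
    exact (hρα (X j)).trans (residueMap_X p n j)
  have huv := (classify_unique_mod p n res hn (residueMap_surjective p n) (F.map α) hG (N + 1)
    (fun j => α (X j)) (fun j => X j) hαX (X_mem_maximalIdeal p n) PowerSeries.X
    (PowerSeries.subst fi f₀) PowerSeries.constantCoeff_X hc (PowerSeries.map_X _) hres'
    (by
      refine modHom_of_isHomSeries _ ?_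
      rw [hF, fg_map]
      exact isHomSeries_X _) hmod).1
  refine hom_congr_mod α (RingHom.id _) (maximalIdeal (LTRing p n)) (RingHom.ext fun w => ?_) hαX
    (X_mem_maximalIdeal p n) N (fun j => ?_) x
  · rw [RingHom.comp_apply, hC]
    congr 1
  · rw [← neg_sub]
    exact neg_mem (Ideal.pow_le_pow_right (Nat.le_succ N) (huv j))

end Vale.P217

end
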