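import Vale.Agent.P217.Cocycle
import Vale.Agent.P217.Coord
import Vale.Agent.P217.LubinTateMove
import Vale.Agent.P217.LubinTateNearOne
import Vale.Agent.P217.LubinTateHeight

/-!
Lubin-Tate theory for the standard model, moves of the extended stabilizer, height ideals.
-/

noncomputable section

namespace Vale.P217

open IsLocalRing

variable (p : ℕ) [Fact p.Prime] (n : ℕ)

/-- The Honda formal group law over the prime field. -/
def honda : FormalGroup (ZMod p) := fg p n (0 : Fin (n - 1) → ZMod p)

/-- The standard universal deformation. -/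
def stdF : FormalGroup (LTRing p n) := fg p n fun i => MvPowerSeries.X i

theorem mulSeries_honda (hn : 1 ≤ n) :
    mulSeries (honda p n) p = PowerSeries.X ^ p ^ n :=
  mulSeries_fg_zero p n hn

/-- Lubin-Tate: the standard law is a universal deformation. -/
theorem isUniversal_std (hn : 1 ≤ n) :
    IsUniversalDeformation p n (honda p n) (stdF p n) :=
  isUniversal_fg p n hn

/-- The extended stabilizer acts on the ring of any universal deformation. -/
theorem existsUnique_move (hn : 1 ≤ n) (Γ : FormalGroup (ZMod p))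
    (F : FormalGroup (LTRing p n)) (hF : IsUniversalDeformation p n Γ F)
    (τ : GaloisField p n ≃+* GaloisField p n) (g : PowerSeries (GaloisField p n))
    (hg : IsIsoSeries (baseChange p n Γ) (baseChange p n Γ) g) :
    ∃! α : LTRing p n ≃+* LTRing p n, IsMove p n F τ g α :=
  existsUnique_moveEquiv p n hF τ g hg

/-- The element `1 + p ^ N a` of the stabilizer, as a series: `X +_Γ a(X ^ (p ^ (n N)))`. -/
def nearOne (a : PowerSeries (GaloisField p n)) (N : ℕ) : PowerSeries (GaloisField p n) :=
  MvPowerSeries.subst ![PowerSeries.X, PowerSeries.subst (PowerSeries.X ^ p ^ (n * N)) a]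
    (baseChange p n (honda p n)).toPowerSeries

theorem isIsoSeries_nearOne (hn : 1 ≤ n) (a : PowerSeries (GaloisField p n))
    (ha : IsHomSeries (baseChange p n (honda p n)) (baseChange p n (honda p n)) a) (N : ℕ)
    (hN : 1 ≤ N) :
    IsIsoSeries (baseChange p n (honda p n)) (baseChange p n (honda p n)) (nearOne p n a N) := by
  rw [nearOne, honda, baseChange_honda] at *
  exact isIsoSeries_one_add hn a ha N hN

/-- Elements close to `1` act as the identity modulo high powers of the maximal ideal. -/
theorem move_nearOne_congr (hn : 1 ≤ n) (a : PowerSeries (GaloisField p n))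
    (ha : IsHomSeries (baseChange p n (honda p n)) (baseChange p n (honda p n)) a) (N : ℕ)
    (hN : 1 ≤ N) (α : LTRing p n ≃+* LTRing p n)
    (hα : IsMove p n (stdF p n) (RingEquiv.refl _) (nearOne p n a N) α) (x : LTRing p n) :
    α x - x ∈ maximalIdeal (LTRing p n) ^ N := by
  rw [honda, baseChange_honda] at ha
  refine moveHom_congr hn a ha N hN _ ?_ α.toRingHom hα x
  rw [nearOne, honda, baseChange_honda]

/-- A move is `W(τ)`-semilinear evaluation: it is determined by the images of the variables. -/
theorem move_map_maximalIdeal (F : FormalGroup (LTRing p n))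
    (τ : GaloisField p n ≃+* GaloisField p n) (g : PowerSeries (GaloisField p n))
    (α : LTRing p n ≃+* LTRing p n) (hα : IsMove p n F τ g α) {x : LTRing p n}
    (hx : x ∈ maximalIdeal (LTRing p n)) : α x ∈ maximalIdeal (LTRing p n) := by
  rw [← residue_eq_zero_iff (residueMap p n) (residueMap_surjective p n)] at hx ⊢
  rw [hα.2.1, hx, map_zero]

theorem heightIdeal_zero (F : FormalGroup (LTRing p n)) : heightIdeal p n F 0 = ⊥ := by
  rw [heightIdeal, Ideal.span_eq_bot]
  rintro a ⟨j, hj, rfl⟩
  obtain rfl : j = 0 := by simpa using hj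
  rw [PowerSeries.coeff_zero_eq_constantCoeff, mulSeries_constantCoeff]

theorem heightIdeal_std (h : ℕ) (hh : 1 ≤ h) (hhn : h ≤ n) :
    heightIdeal p n (stdF p n) h = coordIdeal p n h :=
  heightIdeal_fg_X p n h hh hhn

/-- Height ideals are invariant. -/
theorem heightIdeal_map_move (F : FormalGroup (LTRing p n))
    (τ : GaloisField p n ≃+* GaloisField p n) (g : PowerSeries (GaloisField p n))
    (α : LTRing p n ≃+* LTRing p n) (hα : IsMove p n F τ g α) (h : ℕ) :
    (heightIdeal p n F h).map α.toRingHom = heightIdeal p n F h := by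
  obtain ⟨-, -, f, hf, -⟩ := hα
  rw [map_heightIdeal, ← heightIdeal_eq_of_iso p n hf h]

/-- Every law with `[p] = X ^ (p ^ n)` has a universal deformation in the same coordinates. -/
theorem exists_universal (hn : 1 ≤ n) (Γ : FormalGroup (ZMod p)) (hΓ : Γ.IsComm)
    (hp : mulSeries Γ p = PowerSeries.X ^ p ^ n) :
    ∃ F, IsUniversalDeformation p n Γ F ∧
      ∀ h, 1 ≤ h → h ≤ n → heightIdeal p n F h = coordIdeal p n h := by
  obtain ⟨φ, hφ⟩ := exists_iso_primeField p n hn (honda p n) Γ (fg_isComm p n _) hΓ
    (mulSeries_honda p n hn) hp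
  have := (isUniversal_std p n hn).1
  have hφk : IsIsoSeries ((stdF p n).map (residueMap p n)) (baseChange p n Γ)
      (PowerSeries.map (algebraMap (ZMod p) (GaloisField p n)) φ) := by
    rw [(isUniversal_std p n hn).2.1]
    exact hφ.map _
  obtain ⟨F, ψ, hψ, -, -, hψρ⟩ := exists_lift_iso p n MvPowerSeries.C (residueMap p n)
    (residueMap_surjective p n) (residueMap_comp_C p n) (stdF p n) _ _ hφk
  exact ⟨F, isUniversal_of_iso p n (isUniversal_std p n hn) φ hφ ψ hψ hψρ, fun h hh hhn => by
    rw [← heightIdeal_eq_of_iso p n hψ h, heightIdeal_std p n h hh hhn]⟩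

/-- Any universal deformation is the standard one, up to a change of coordinates. -/
theorem exists_transfer (hn : 1 ≤ n) (Γ : FormalGroup (ZMod p)) (hΓ : Γ.IsComm)
    (hp : mulSeries Γ p = PowerSeries.X ^ p ^ n) (F : FormalGroup (LTRing p n))
    (hF : IsUniversalDeformation p n Γ F) :
    ∃ e : LTRing p n ≃+* LTRing p n,
      (∀ h, (heightIdeal p n (stdF p n) h).map e.toRingHom = heightIdeal p n F h) ∧
      ∀ I : Ideal (LTRing p n),
        (IsInvariantExt p n (honda p n) (stdF p n) I ↔
          IsInvariantExt p n Γ F (I.map e.toRingHom)) ∧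
        (IsInvariantAut p n (honda p n) (stdF p n) I ↔
          IsInvariantAut p n Γ F (I.map e.toRingHom)) := by
  have := hF.1
  obtain ⟨φ, hφ⟩ := exists_iso_primeField p n hn Γ (honda p n) hΓ (fg_isComm p n _) hp
    (mulSeries_honda p n hn)
  have hφk : IsIsoSeries (F.map (residueMap p n)) (baseChange p n (honda p n))
      (PowerSeries.map (algebraMap (ZMod p) (GaloisField p n)) φ) := by
    rw [hF.2.1]
    exact hφ.map _
  obtain ⟨F₀, χ, hχ, hF₀c, hF₀ρ, hχρ⟩ := exists_lift_iso p n MvPowerSeries.C (residueMap p n)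
    (residueMap_surjective p n) (residueMap_comp_C p n) F _ _ hφk
  have hstd := isUniversal_std p n hn
  have hF₀ := isUniversal_of_iso p n hF φ hφ χ hχ hχρ
  obtain ⟨a, ⟨haC, haρ, f, hf, hfρ⟩, -⟩ := universal_apply p n hstd MvPowerSeries.C
    (residueMap p n) (residueMap_surjective p n) (residueMap_comp_C p n) F₀ hF₀c hF₀ρ
  obtain ⟨b, ⟨hbC, hbρ, f', hf', hfρ'⟩, -⟩ := universal_apply p n hF₀ MvPowerSeries.C
    (residueMap p n) (residueMap_surjective p n) (residueMap_comp_C p n) (stdF p n) hstd.1 hstd.2.1
  have hid : ∀ (G : FormalGroup (LTRing p n)), IsUniversalDeformation p n (honda p n) G →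
      ∀ γ : LTRing p n →+* LTRing p n, γ.comp MvPowerSeries.C = MvPowerSeries.C →
        (residueMap p n).comp γ = residueMap p n →
        (∃ u, IsIsoSeries G (G.map γ) u ∧
          PowerSeries.map (residueMap p n) u = PowerSeries.X) → γ = RingHom.id _ := by
    intro G hG γ h1 h2 h3
    refine (universal_apply p n hG MvPowerSeries.C (residueMap p n) (residueMap_surjective p n)
      (residueMap_comp_C p n) G hG.1 hG.2.1).unique ⟨h1, h2, h3⟩ ⟨rfl, rfl, PowerSeries.X, ?_,
      PowerSeries.map_X _⟩
    rw [show G.map (RingHom.id _) = G from FormalGroup.ext (by simp [MvPowerSeries.map_id])]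
    exact isIsoSeries_X G
  have hab : a.comp b = RingHom.id _ := by
    refine hid _ hF₀ _ (by rw [RingHom.comp_assoc, hbC, haC])
      (by rw [← RingHom.comp_assoc, haρ, hbρ])
      ⟨PowerSeries.subst f (PowerSeries.map a f'), ?_, ?_⟩
    · rw [← formalGroup_map_map]
      exact (hf'.map a).comp hf
    · rw [series_map_subst _ hf.1.1, hfρ, series_map_map, haρ, hfρ',
        PowerSeries.subst_X (hasSubst_one PowerSeries.constantCoeff_X)]
  have hba : b.comp a = RingHom.id _ := by
    refine hid _ hstd _ (by rw [RingHom.comp_assoc, haC, hbC])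
      (by rw [← RingHom.comp_assoc, hbρ, haρ])
      ⟨PowerSeries.subst f' (PowerSeries.map b f), ?_, ?_⟩
    · rw [← formalGroup_map_map]
      exact (hf.map b).comp hf'
    · rw [series_map_subst _ hf'.1.1, hfρ', series_map_map, hbρ, hfρ,
        PowerSeries.subst_X (hasSubst_one PowerSeries.constantCoeff_X)]
  set e : LTRing p n ≃+* LTRing p n := RingEquiv.ofRingHom a b hab hba with he
  have hae : e.toRingHom = a := rfl
  have hbe : e.symm.toRingHom = b := rfl
  have hC : ∀ w, e (MvPowerSeries.C w) = MvPowerSeries.C w := fun w => RingHom.congr_fun haC w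
  have hC' : ∀ w, e.symm (MvPowerSeries.C w) = MvPowerSeries.C w :=
    fun w => RingHom.congr_fun hbC w
  have hρ : ∀ x, residueMap p n (e x) = residueMap p n x := fun x => RingHom.congr_fun haρ x
  have hρ' : ∀ x, residueMap p n (e.symm x) = residueMap p n x :=
    fun x => RingHom.congr_fun hbρ x
  set θ := PowerSeries.subst χ f with hθdef
  have hθ : IsIsoSeries F ((stdF p n).map e.toRingHom) θ := hf.comp hχ
  have hθρ : PowerSeries.map (residueMap p n) θ =
      PowerSeries.map (algebraMap (ZMod p) (GaloisField p n)) φ := by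
    rw [hθdef, series_map_subst _ hχ.1.1, hfρ, hχρ]
    exact PowerSeries.subst_X (hasSubst_one (constantCoeff_map_series _ hφ.1.1))
  have hbθ : IsIsoSeries (F.map e.symm.toRingHom) (stdF p n) (PowerSeries.map b θ) := by
    have h := (hf.comp hχ).map b
    rw [formalGroup_map_map, hba,
      show (stdF p n).map (RingHom.id _) = stdF p n from
        FormalGroup.ext (by simp [MvPowerSeries.map_id])] at h
    exact h
  have hφi : PowerSeries.map (residueMap p n)
      ((PowerSeries.map b θ).substInvOfIsUnit hbθ.2) =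
        PowerSeries.map (algebraMap (ZMod p) (GaloisField p n))
          (φ.substInvOfIsUnit hφ.2) := by
    refine map_inverse hbθ.1.1 hbθ.2 _ (constantCoeff_map_series _ hφ.symm.1.1) ?_
    rw [series_map_map, hbρ, hθρ, ← series_map_subst _ hφ.symm.1.1,
      φ.subst_substInvOfIsUnit_right hφ.1.1 hφ.2, PowerSeries.map_X]
  have to₂ := fun τ g hg α hα =>
    move_conj p n e hC hρ φ hφ θ hθ hθρ τ g hg α hα
  have to₁ := fun τ g hg α hα =>
    move_conj p n e.symm hC' hρ' _ hφ.symm _ hbθ.symm hφi τ g hg α hα
  refine ⟨e, fun h => ?_, fun I => ?_⟩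
  · rw [map_heightIdeal]
    exact (heightIdeal_eq_of_iso p n hθ h).symm
  have hmm : ∀ (J : Ideal (LTRing p n)) (u v : LTRing p n ≃+* LTRing p n),
      (J.map u.toRingHom).map v.toRingHom = J.map (u.trans v).toRingHom := fun J u v =>
    Ideal.map_map _ _
  have hback : ∀ J : Ideal (LTRing p n), (J.map e.toRingHom).map e.symm.toRingHom = J := fun J => by
    rw [hmm, RingEquiv.self_trans_symm]
    exact Ideal.map_id J
  have hinj : ∀ J J' : Ideal (LTRing p n), J.map e.toRingHom = J'.map e.toRingHom → J = J' :=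
    fun J J' h => by rw [← hback J, h, hback]
  have hfwd : ∀ (α : LTRing p n ≃+* LTRing p n),
      (I.map e.toRingHom).map (e.symm.trans (α.trans e)).toRingHom =
        (I.map α.toRingHom).map e.toRingHom := fun α => by
    rw [← hmm, ← hmm, hback]
  have hbwd : ∀ (α : LTRing p n ≃+* LTRing p n),
      I.map (e.symm.symm.trans (α.trans e.symm)).toRingHom =
        ((I.map e.toRingHom).map α.toRingHom).map e.symm.toRingHom := fun α => by
    rw [← hmm, ← hmm, RingEquiv.symm_symm]
  refine ⟨⟨fun hI τ g α hg hα => ?_, fun hI τ g α hg hα => ?_⟩,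
    ⟨fun hI g α hg hα => ?_, fun hI g α hg hα => ?_⟩⟩
  · obtain ⟨g', hg', hα'⟩ := to₁ τ g hg α hα
    have := hI τ g' _ hg' hα'
    rw [hbwd] at this
    have h2 := congrArg (Ideal.map e.toRingHom) this
    rw [hmm _ e.symm e, RingEquiv.symm_trans_self] at h2
    exact (Ideal.map_id _).symm.trans h2
  · obtain ⟨g', hg', hα'⟩ := to₂ τ g hg α hα
    exact hinj _ _ ((hfwd α).symm.trans (hI τ g' _ hg' hα'))
  · obtain ⟨g', hg', hα'⟩ := to₁ _ g hg α hα
    have := hI g' _ hg' hα'
    rw [hbwd] at this
    have h2 := congrArg (Ideal.map e.toRingHom) this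
    rw [hmm _ e.symm e, RingEquiv.symm_trans_self] at h2
    exact (Ideal.map_id _).symm.trans h2
  · obtain ⟨g', hg', hα'⟩ := to₂ _ g hg α hα
    exact hinj _ _ ((hfwd α).symm.trans (hI g' _ hg' hα'))

end Vale.P217

end
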