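import Vale.Agent.P217.LubinTateStep

/-!
Deformation steps for the Honda formal group law: existence and uniqueness of parameters across a
small extension.
-/

noncomputable section

namespace Vale.P217

open MvPowerSeries

variable (p : ℕ) [Fact p.Prime] (n : ℕ)

/-- The derivative of the universal law with respect to the `j`-th parameter. -/
def dSeries {A : Type*} [CommRing A] (u : Fin (n - 1) → A) (j : Fin (n - 1)) :
    MvPowerSeries (Fin 2) A :=
  fun d => MvPolynomial.aeval u (MvPolynomial.pderiv j (coeff d (univFG p n).toPowerSeries))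

theorem coeff_fg_aeval {A : Type*} [CommRing A] (u : Fin (n - 1) → A) (d : Fin 2 →₀ ℕ) :
    coeff d (fg p n u).toPowerSeries = MvPolynomial.aeval u (coeff d (univFG p n).toPowerSeries) :=
  coeff_map _ _ _

theorem coeff_dSeries {A : Type*} [CommRing A] (u : Fin (n - 1) → A) (j : Fin (n - 1))
    (d : Fin 2 →₀ ℕ) :
    coeff d (dSeries p n u j) =
      MvPolynomial.aeval u (MvPolynomial.pderiv j (coeff d (univFG p n).toPowerSeries)) := rfl

theorem fg_add {A : Type*} [CommRing A] (u δ : Fin (n - 1) → A) (hδ : ∀ i j, δ i * δ j = 0) :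
    (fg p n (u + δ)).toPowerSeries =
      (fg p n u).toPowerSeries + ∑ j, C (δ j) * dSeries p n u j := by
  ext d
  simp only [map_add, map_sum, coeff_fg_aeval, coeff_C_mul, coeff_dSeries,
    aeval_add_of_sq_zero u δ hδ]
  exact congrArg₂ (· + ·) rfl (Finset.sum_congr rfl fun i _ => mul_comm _ _)

theorem map_dSeries {A B : Type*} [CommRing A] [CommRing B] (φ : A →+* B) (u : Fin (n - 1) → A)
    (j : Fin (n - 1)) : map φ (dSeries p n u j) = dSeries p n (φ ∘ u) j := by
  ext d
  rw [coeff_map, coeff_dSeries, coeff_dSeries, MvPolynomial.map_aeval, MvPolynomial.aeval_def,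
    RingHom.ext_int (φ.comp (algebraMap ℤ A)) (algebraMap ℤ B)]
  rfl

theorem map_fg {A B : Type*} [CommRing A] [CommRing B] (φ : A →+* B) (u : Fin (n - 1) → A) :
    map φ (fg p n u).toPowerSeries = (fg p n (φ ∘ u)).toPowerSeries :=
  congrArg FormalGroup.toPowerSeries (fg_map p n φ u)

theorem constantCoeff_dSeries {A : Type*} [CommRing A] (u : Fin (n - 1) → A) (j : Fin (n - 1)) :
    constantCoeff (dSeries p n u j) = 0 := by
  rw [← coeff_zero_eq_constantCoeff_apply, coeff_dSeries, coeff_zero_eq_constantCoeff_apply,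
    (univFG p n).zero_constantCoeff, map_zero, map_zero]

theorem coeff_Cpow_eq_zero {A : Type*} [CommRing A] (h : ℕ) {d : Fin 2 →₀ ℕ}
    (hd : d.degree ≠ p ^ h) : coeff d (Cpow p h : MvPowerSeries (Fin 2) A) = 0 := by
  rw [Finsupp.degree_eq_sum, Fin.sum_univ_two] at hd
  exact if_neg fun h' => hd h'.1

section Cocycles

variable {k : Type*} [Field k]

/-- The Honda law over a field. -/
abbrev hondaLaw (k : Type*) [Field k] : FormalGroup k := fg p n (0 : Fin (n - 1) → k)

/-- The cocycle attached to the `j`-th parameter. -/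
def Bcoc (k : Type*) [Field k] (j : Fin (n - 1)) : MvPowerSeries (Fin 2) k :=
  PowerSeries.subst (hondaLaw p n k).toPowerSeries (omega (hondaLaw p n k)) *
    dSeries p n 0 j

theorem isCocycle_Bcoc (j : Fin (n - 1)) : IsCocycle (hondaLaw p n k) (Bcoc p n k j) := by
  classical
  set δ : Fin (n - 1) → DualNumber k := Pi.single j DualNumber.eps with hδdef
  have h0 : ∀ i i', δ i * δ i' = 0 := fun i i' => by
    by_cases hi : i = j
    · by_cases hi' : i' = j
      · simp [hδdef, hi, hi']
      · simp [hδdef, Pi.single_eq_of_ne hi']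
    · simp [hδdef, Pi.single_eq_of_ne hi]
  have hfst : (dualFst (k := k)) ∘ δ = 0 := funext fun i => by
    by_cases hi : i = j
    · simp [hδdef, hi, dualFst_apply]
    · simp [hδdef, Pi.single_eq_of_ne hi]
  have hz : (dualFst (k := k)) ∘ (0 : Fin (n - 1) → DualNumber k) = 0 := funext fun i => by simp
  have hadd := fg_add p n (0 : Fin (n - 1) → DualNumber k) δ h0
  rw [zero_add, Finset.sum_eq_single j (fun i _ hi => by simp [hδdef, Pi.single_eq_of_ne hi])
    (by simp)] at hadd
  have hC : defect (fg p n δ) (fg p n 0) PowerSeries.X =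
      C DualNumber.eps * dSeries p n (0 : Fin (n - 1) → DualNumber k) j := by
    rw [defect, PowerSeries.subst_X (hasSubst_one (FormalGroup.zero_constantCoeff _)),
      PowerSeries.subst_X (hasSubst_one (constantCoeff_X 0)),
      PowerSeries.subst_X (hasSubst_one (constantCoeff_X 1)), subst_pair_X, hadd]
    simp [hδdef]
  have h := defect_cocycle (dualFst (k := k)) DualNumber.eps eps_mul_eq_zero_iff
    DualNumber.eps_mul_eps (hondaLaw p n k) (fg p n δ) (fg p n 0) PowerSeries.X
    PowerSeries.constantCoeff_X (by rw [map_fg, hfst]) (by rw [map_fg, hz])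
    (PowerSeries.map_X _) _ hC
  rwa [map_dSeries, hz] at h

theorem coeff_Bcoc_of_le (j : Fin (n - 1)) (d : Fin 2 →₀ ℕ)
    (hd : d.degree ≤ p ^ ((j : ℕ) + 1)) :
    coeff d (Bcoc p n k j) = coeff d (C (-1 : k) * Cpow p ((j : ℕ) + 1)) := by
  classical
  set δ : Fin (n - 1) → DualNumber k := Pi.single j DualNumber.eps with hδdef
  have h0 : ∀ i i', δ i * δ i' = 0 := fun i i' => by
    by_cases hi : i = j
    · by_cases hi' : i' = j
      · simp [hδdef, hi, hi']
      · simp [hδdef, Pi.single_eq_of_ne hi']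
    · simp [hδdef, Pi.single_eq_of_ne hi]
  have hjn : (j : ℕ) + 1 < n := by omega
  have hD : ∀ e : Fin 2 →₀ ℕ, e.degree ≤ p ^ ((j : ℕ) + 1) →
      coeff e (dSeries p n (0 : Fin (n - 1) → k) j) =
        coeff e (C (-1 : k) * Cpow p ((j : ℕ) + 1)) := by
    intro e he
    have h1 := coeff_fg_of_le p n δ (h := (j : ℕ) + 1) (by omega) hjn.le
      (fun i hi => by rw [hδdef, Pi.single_eq_of_ne]; intro hij; subst hij; omega) e he
    have h2 := coeff_fg_of_le p n (0 : Fin (n - 1) → DualNumber k) (h := (j : ℕ) + 1)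
      (by omega) hjn.le (fun i _ => rfl) e he
    have hu1 : uvar n δ ((j : ℕ) + 1) = DualNumber.eps := by
      rw [uvar, dif_pos ⟨by omega, hjn⟩]
      simp [hδdef]
    have hu2 : uvar n (0 : Fin (n - 1) → DualNumber k) ((j : ℕ) + 1) = 0 := by
      rw [uvar, dif_pos ⟨by omega, hjn⟩]
      rfl
    have h3 := congrArg (coeff e) (fg_add p n (0 : Fin (n - 1) → DualNumber k) δ h0)
    rw [zero_add, Finset.sum_eq_single j (fun i _ hi => by simp [hδdef, Pi.single_eq_of_ne hi])
      (by simp)] at h3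
    rw [map_add, h1, h2, hu1, hu2] at h3
    simp [hδdef] at h3
    have h4 : DualNumber.eps * (coeff e (dSeries p n (0 : Fin (n - 1) → DualNumber k) j) +
        coeff e (Cpow p ((j : ℕ) + 1) : MvPowerSeries (Fin 2) (DualNumber k))) = 0 := by
      linear_combination -h3
    rw [eps_mul_eq_zero_iff, ← dualFst_apply, map_add, ← coeff_map, ← coeff_map, map_dSeries,
      map_Cpow, show (dualFst (k := k)) ∘ (0 : Fin (n - 1) → DualNumber k) = 0 from
        funext fun i => by simp] at h4
    rw [coeff_C_mul, eq_neg_of_add_eq_zero_left h4]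
    simp
  rw [Bcoc, coeff_mul]
  rw [Finset.sum_eq_single (0, d)]
  · rw [coeff_zero_eq_constantCoeff_apply, hD d hd]
    have : constantCoeff (PowerSeries.subst (hondaLaw p n k).toPowerSeries
        (omega (hondaLaw p n k))) = 1 := by
      rw [PowerSeries.subst, constantCoeff_subst_zero
        (fun _ => FormalGroup.zero_constantCoeff _)]
      show PowerSeries.constantCoeff _ = 1
      rw [omega, PowerSeries.constantCoeff_inv, constantCoeff_dY, inv_one]
    rw [this, one_mul]
  · rintro ⟨e₁, e₂⟩ hx hne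
    rw [Finset.HasAntidiagonal.mem_antidiagonal] at hx
    simp only at hx
    have h1 : e₁ ≠ 0 := fun h => hne (by subst h; simp at hx; rw [hx])
    have hdeg : e₂.degree < d.degree := by
      rw [← hx, map_add]
      have : e₁.degree ≠ 0 := by rwa [ne_eq, Finsupp.degree_eq_zero_iff]
      omega
    rw [hD e₂ (by omega), coeff_C_mul, coeff_Cpow_eq_zero p _ (by omega)]
    simp
  · simp

theorem coeff_hondaLaw_of_le (hn : 1 ≤ n) (d : Fin 2 →₀ ℕ) (hd : d.degree ≤ p ^ n) :
    coeff d (hondaLaw p n k).toPowerSeries =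
      coeff d (X 0 + X 1 + C (-1 : k) * Cpow p n) := by
  rw [coeff_fg_of_le p n 0 hn le_rfl (fun i _ => rfl) d hd]
  have : uvar n (0 : Fin (n - 1) → k) n = 1 := by simp [uvar]
  rw [this]
  simp [sub_eq_add_neg]

variable [CharP k p]

theorem honda_cocycle_decomp (hn : 1 ≤ n) :
    (∀ Z, IsCocycle (hondaLaw p n k) Z → ∃ (c : Fin (n - 1) → k) (h : PowerSeries k),
      PowerSeries.constantCoeff h = 0 ∧
        Z = (∑ i, C (c i) * Bcoc p n k i) + cob (hondaLaw p n k) h) ∧
    (∀ (c : Fin (n - 1) → k) (h : PowerSeries k), PowerSeries.constantCoeff h = 0 →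
      (∑ i, C (c i) * Bcoc p n k i) + cob (hondaLaw p n k) h = 0 → c = 0 ∧ h = 0) :=
  cocycle_decomp p n hn (hondaLaw p n k) (-1) (neg_ne_zero.mpr one_ne_zero)
    (coeff_hondaLaw_of_le p n hn) (Bcoc p n k) (isCocycle_Bcoc p n) (fun _ => -1)
    (fun _ => neg_ne_zero.mpr one_ne_zero) (coeff_Bcoc_of_le p n)

end Cocycles

section Small

variable {S : Type*} [CommRing S] {k : Type*} [Field k] (ρ : S →+* k) (a : S)
  (ha : ∀ x, a * x = 0 ↔ ρ x = 0) (haa : a * a = 0)

include haa in
theorem defect_change (G : FormalGroup S) (hG : map ρ G.toPowerSeries = (hondaLaw p n k).toPowerSeries)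
    (v δ : Fin (n - 1) → S) (hv : ρ ∘ v = 0) (f ψ : PowerSeries S)
    (hf : PowerSeries.constantCoeff f = 0) (hfρ : PowerSeries.map ρ f = PowerSeries.X)
    (hψ : PowerSeries.constantCoeff ψ = 0) (hρa : ρ a = 0) :
    ∃ T, defect G (fg p n (fun j => v j + a * δ j)) (f + PowerSeries.C a * ψ) =
        defect G (fg p n v) f + C a * T ∧
      map ρ T = linChange (hondaLaw p n k) (PowerSeries.map ρ ψ) -
        ∑ j, C (ρ (δ j)) * dSeries p n 0 j := by
  set H := (fg p n v).toPowerSeries with hH
  set E : MvPowerSeries (Fin 2) S := ∑ j, C (δ j) * dSeries p n v j with hE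
  have hnew : (fg p n (fun j => v j + a * δ j)).toPowerSeries = H + C a * E := by
    rw [show (fun j => v j + a * δ j) = v + fun j => a * δ j from rfl,
      fg_add p n v (fun j => a * δ j) (fun i j => by rw [mul_mul_mul_comm, haa, zero_mul]),
      Finset.mul_sum]
    simp only [map_mul, mul_assoc, hH]
  have hGc := hasSubst_one G.zero_constantCoeff
  have hc : ∀ i : Fin 2, constantCoeff (X i : MvPowerSeries (Fin 2) S) = 0 := constantCoeff_X
  have hsub : ∀ {Y : MvPowerSeries (Fin 2) S}, constantCoeff Y = 0 →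
      PowerSeries.subst Y (f + PowerSeries.C a * ψ) =
        PowerSeries.subst Y f + C a * PowerSeries.subst Y ψ := fun hY => by
    rw [PowerSeries.subst_add (hasSubst_one hY), PowerSeries.subst_mul (hasSubst_one hY)]
    congr 2
    exact MvPowerSeries.subst_C a
  set a0 := PowerSeries.subst (X 0 : MvPowerSeries (Fin 2) S) f with ha0
  set a1 := PowerSeries.subst (X 1 : MvPowerSeries (Fin 2) S) f with ha1
  set b0 := PowerSeries.subst (X 0 : MvPowerSeries (Fin 2) S) ψ with hb0
  set b1 := PowerSeries.subst (X 1 : MvPowerSeries (Fin 2) S) ψ with hb1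
  have ca0 : constantCoeff a0 = 0 := constantCoeff_one (hc 0) hf
  have ca1 : constantCoeff a1 = 0 := constantCoeff_one (hc 1) hf
  have cb0 : constantCoeff b0 = 0 := constantCoeff_one (hc 0) hψ
  have cb1 : constantCoeff b1 = 0 := constantCoeff_one (hc 1) hψ
  have cn : ∀ {x y : MvPowerSeries (Fin 2) S}, constantCoeff x = 0 → constantCoeff y = 0 →
      constantCoeff (x + C a * y) = 0 := fun hx hy => by simp [hx, hy]
  have hs := hasSubst_two (cn ca0 cb0) (cn ca1 cb1)
  have htaylor : subst ![a0 + C a * b0, a1 + C a * b1] H = subst ![a0, a1] H +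
      C a * (subst ![a0, a1] (pderiv S 0 H) * b0 + subst ![a0, a1] (pderiv S 1 H) * b1) := by
    have h := subst_add_of_sq_zero (g := ![a0, a1]) (h := ![C a * b0, C a * b1])
      (fun i => by fin_cases i <;> assumption) (fun i => by fin_cases i <;> simp [cb0, cb1])
      (fun i j => by
        have hCa : (C a : MvPowerSeries (Fin 2) S) * C a = 0 := by rw [← map_mul, haa, map_zero]
        fin_cases i <;> fin_cases j <;> simp <;> rw [mul_mul_mul_comm, hCa, zero_mul]) H
    rw [Fin.sum_univ_two] at h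
    rw [show (![a0 + C a * b0, a1 + C a * b1] : Fin 2 → MvPowerSeries (Fin 2) S) =
      ![a0, a1] + ![C a * b0, C a * b1] from (by funext i; fin_cases i <;> rfl), h]
    simp only [Matrix.cons_val_zero, Matrix.cons_val_one, Matrix.cons_val_fin_one]
    ring
  refine ⟨PowerSeries.subst G.toPowerSeries ψ - subst ![a0, a1] (pderiv S 0 H) * b0 -
    subst ![a0, a1] (pderiv S 1 H) * b1 - subst ![a0 + C a * b0, a1 + C a * b1] E, ?_, ?_⟩
  · rw [defect, defect, hnew, hsub G.zero_constantCoeff, hsub (hc 0), hsub (hc 1),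
      subst_add hs, subst_mul hs, subst_C, ← hH, htaylor]
    ring
  · have hfX : ∀ i : Fin 2, map ρ (PowerSeries.subst (X i : MvPowerSeries (Fin 2) S) f) = X i :=
      fun i => by
        rw [map_psubst ρ (hc i), hfρ, map_X, PowerSeries.subst_X (hasSubst_one (constantCoeff_X i))]
    have hn0 : ∀ i : Fin 2, map ρ (![a0 + C a * b0, a1 + C a * b1] i) = X i := fun i => by
      fin_cases i <;> simp [ha0, ha1, hfX, hρa]
    have hEρ : map ρ E = ∑ j, C (ρ (δ j)) * dSeries p n 0 j := by
      simp only [hE, map_sum, map_mul, map_C, map_dSeries, hv]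
    rw [map_sub, map_sub, map_sub, map_mul, map_mul, map_psubst ρ G.zero_constantCoeff, hG,
      map_pair ρ ca0 ca1, map_pair ρ ca0 ca1, map_pair ρ (cn ca0 cb0) (cn ca1 cb1),
      ha0, ha1, hfX, hfX, hb0, hb1, map_psubst ρ (hc 0), map_psubst ρ (hc 1), map_X, map_X,
      map_pderiv_series, map_pderiv_series, hH, map_fg, hv, hEρ, subst_pair_X, subst_pair_X,
      linChange]
    have h2 := hn0 0
    have h3 := hn0 1
    simp only [Matrix.cons_val_zero, Matrix.cons_val_one, Matrix.cons_val_fin_one, ha0, ha1,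
      hb0, hb1] at h2 h3
    rw [h2, h3, subst_pair_X]

theorem map_eq_zero_of_const {ψ : PowerSeries S} (hψ : PowerSeries.constantCoeff ψ = 0) :
    PowerSeries.constantCoeff (PowerSeries.map ρ ψ) = 0 := constantCoeff_map_series ρ hψ

variable [CharP k p]

include ha haa in
/-- Existence across a small extension. -/
theorem step_exists (hn : 1 ≤ n) (hρ : Function.Surjective ρ) (G : FormalGroup S) [G.IsComm]
    (hG : map ρ G.toPowerSeries = (hondaLaw p n k).toPowerSeries)
    (v : Fin (n - 1) → S) (hv : ρ ∘ v = 0) (f : PowerSeries S)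
    (hf : PowerSeries.constantCoeff f = 0) (hfρ : PowerSeries.map ρ f = PowerSeries.X)
    (hC : ∃ C₀, defect G (fg p n v) f = C a * C₀) :
    ∃ (δ : Fin (n - 1) → S) (ψ : PowerSeries S), PowerSeries.constantCoeff ψ = 0 ∧
      defect G (fg p n (fun j => v j + a * δ j)) (f + PowerSeries.C a * ψ) = 0 := by
  obtain ⟨C₀, hC₀⟩ := hC
  have hρa : ρ a = 0 := (ha a).1 haa
  have hcoc := defect_cocycle ρ a ha haa (hondaLaw p n k) G (fg p n v) f hf hG (by rw [map_fg, hv]) hfρ C₀ hC₀
  obtain ⟨c, h, hh, hdec⟩ := (honda_cocycle_decomp p n hn).1 _ hcoc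
  choose δ hδ using fun j => hρ (c j)
  choose ψ' hψ' using fun m => hρ (PowerSeries.coeff m (-(dY (hondaLaw p n k) * h)))
  set ψ : PowerSeries S := PowerSeries.mk fun m => if m = 0 then 0 else ψ' m with hψdef
  have hψ : PowerSeries.constantCoeff ψ = 0 := by
    rw [← PowerSeries.coeff_zero_eq_constantCoeff_apply, hψdef, PowerSeries.coeff_mk, if_pos rfl]
  have hψρ : PowerSeries.map ρ ψ = -(dY (hondaLaw p n k) * h) := by
    ext m
    rw [PowerSeries.coeff_map, hψdef, PowerSeries.coeff_mk]
    split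
    · subst m
      simp [PowerSeries.coeff_zero_eq_constantCoeff, hh]
    · exact hψ' m
  obtain ⟨T, hT, hTρ⟩ := defect_change p n ρ a haa G hG v δ hv f ψ hf hfρ hψ hρa
  refine ⟨δ, ψ, hψ, ?_⟩
  rw [hT, hC₀, ← mul_add, Cmul_eq_zero_iff ρ a ha, map_add, hTρ, hψρ]
  refine (mul_eq_zero.1 ?_).resolve_left (subst_omega_ne_zero (hondaLaw p n k))
  rw [mul_add, mul_sub, ← cob_omega_mul, mul_neg, ← mul_assoc, mul_comm (omega (hondaLaw p n k)),
    dY_mul_omega, one_mul, hdec, Finset.mul_sum]
  have hneg : cob (hondaLaw p n k) (-h) = -cob (hondaLaw p n k) h := by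
    have := fun (Y : MvPowerSeries (Fin 2) k) (hY : constantCoeff Y = 0) =>
      show PowerSeries.subst Y (-h) = -PowerSeries.subst Y h by
        rw [← PowerSeries.coe_substAlgHom (hasSubst_one hY), map_neg]
    rw [cob, cob, this _ (hondaLaw p n k).zero_constantCoeff, this _ (constantCoeff_X 0),
      this _ (constantCoeff_X 1)]
    ring
  simp only [hneg, hδ, Bcoc, mul_left_comm (C _) (PowerSeries.subst _ _)]
  ring

include ha haa in
/-- Uniqueness across a small extension. -/
theorem step_unique (hn : 1 ≤ n) (G : FormalGroup S)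
    (hG : map ρ G.toPowerSeries = (hondaLaw p n k).toPowerSeries)
    (v δ : Fin (n - 1) → S) (hv : ρ ∘ v = 0) (f ψ : PowerSeries S)
    (hf : PowerSeries.constantCoeff f = 0) (hfρ : PowerSeries.map ρ f = PowerSeries.X)
    (hψ : PowerSeries.constantCoeff ψ = 0) (h1 : defect G (fg p n v) f = 0)
    (h2 : defect G (fg p n (fun j => v j + a * δ j)) (f + PowerSeries.C a * ψ) = 0) :
    (∀ j, a * δ j = 0) ∧ PowerSeries.C a * ψ = 0 := by
  have hρa : ρ a = 0 := (ha a).1 haa
  obtain ⟨T, hT, hTρ⟩ := defect_change p n ρ a haa G hG v δ hv f ψ hf hfρ hψ hρa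
  rw [h1, h2, zero_add, eq_comm, Cmul_eq_zero_iff ρ a ha, hTρ] at hT
  have h3 := congrArg (PowerSeries.subst (hondaLaw p n k).toPowerSeries (omega (hondaLaw p n k)) * ·) hT
  simp only [mul_zero, mul_sub, ← cob_omega_mul, Finset.mul_sum] at h3
  have h4 : (∑ j, C (-ρ (δ j)) * Bcoc p n k j) + cob (hondaLaw p n k) (omega (hondaLaw p n k) * PowerSeries.map ρ ψ) = 0 := by
    rw [← h3, sub_eq_add_neg, add_comm, ← Finset.sum_neg_distrib]
    congr 1
    refine Finset.sum_congr rfl fun j _ => ?_
    rw [Bcoc, map_neg]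
    ring
  obtain ⟨hc, hh⟩ := (honda_cocycle_decomp p n hn).2 _ _
    (by rw [map_mul, map_eq_zero_of_const ρ hψ, mul_zero]) h4
  refine ⟨fun j => (ha _).2 (neg_eq_zero.1 (congr_fun hc j)), ?_⟩
  have hψρ : PowerSeries.map ρ ψ = 0 := by
    rw [← one_mul (PowerSeries.map ρ ψ), ← dY_mul_omega (hondaLaw p n k), mul_assoc, hh, mul_zero]
  ext m
  rw [PowerSeries.coeff_C_mul, map_zero, ha, ← PowerSeries.coeff_map, hψρ, map_zero]

end Small

end Vale.P217

end
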