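import Vale.Agent.P217.LubinTateDeform
import Mathlib.RingTheory.AdicCompletion.Completeness

/-!
Parameters of deformations of the Honda law over complete Noetherian local rings: existence, and
uniqueness modulo each power of the maximal ideal.
-/

noncomputable section

namespace Vale.P217

open MvPowerSeries IsLocalRing

variable (p : ℕ) [Fact p.Prime] (n : ℕ)
variable {R : Type*} [CommRing R]

/-- `f` is a homomorphism from `G` to `H` modulo `I`. -/
def ModHom (I : Ideal R) (G H : FormalGroup R) (f : PowerSeries R) : Prop :=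
  ∀ d, coeff d (defect G H f) ∈ I

theorem ModHom.mono {I J : Ideal R} (hIJ : I ≤ J) {G H : FormalGroup R} {f : PowerSeries R}
    (h : ModHom I G H f) : ModHom J G H f := fun d => hIJ (h d)

theorem modHom_iff {I : Ideal R} {G H : FormalGroup R} {f : PowerSeries R}
    (hf : PowerSeries.constantCoeff f = 0) :
    ModHom I G H f ↔ defect (G.map (Ideal.Quotient.mk I)) (H.map (Ideal.Quotient.mk I))
      (PowerSeries.map (Ideal.Quotient.mk I) f) = 0 := by
  rw [← map_defect _ G H hf, MvPowerSeries.ext_iff]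
  simp only [coeff_map, map_zero, Ideal.Quotient.eq_zero_iff_mem, ModHom]

theorem modHom_of_isHomSeries (I : Ideal R) {G H : FormalGroup R} {f : PowerSeries R}
    (h : IsHomSeries G H f) : ModHom I G H f := fun d => by
  rw [(defect_eq_zero_iff h.1).2 h, map_zero]
  exact I.zero_mem

theorem map_congr_series {I : Ideal R} {f g : PowerSeries R}
    (h : ∀ m, PowerSeries.coeff m g - PowerSeries.coeff m f ∈ I) :
    PowerSeries.map (Ideal.Quotient.mk I) g = PowerSeries.map (Ideal.Quotient.mk I) f := by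
  ext m
  rw [PowerSeries.coeff_map, PowerSeries.coeff_map]
  exact Ideal.Quotient.eq.2 (h m)

theorem ModHom.congr {I : Ideal R} {G : FormalGroup R} {u v : Fin (n - 1) → R}
    {f g : PowerSeries R} (hf : PowerSeries.constantCoeff f = 0)
    (hg : PowerSeries.constantCoeff g = 0) (h : ModHom I G (fg p n v) f)
    (huv : ∀ j, u j - v j ∈ I) (hfg : ∀ m, PowerSeries.coeff m g - PowerSeries.coeff m f ∈ I) :
    ModHom I G (fg p n u) g := by
  rw [modHom_iff hg, map_congr_series hfg, fg_map,
    show Ideal.Quotient.mk I ∘ u = Ideal.Quotient.mk I ∘ v from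
      funext fun j => Ideal.Quotient.eq.2 (huv j), ← fg_map]
  exact (modHom_iff hf).1 h

variable [IsLocalRing R] {k : Type*} [Field k] (ρ : R →+* k)

theorem ker_eq_maximalIdeal' (hρ : Function.Surjective ρ) : RingHom.ker ρ = maximalIdeal R := by
  have := RingHom.ker_isMaximal_of_surjective ρ hρ
  exact IsLocalRing.eq_maximalIdeal this

theorem residue_eq_zero_iff (hρ : Function.Surjective ρ) (x : R) :
    ρ x = 0 ↔ x ∈ maximalIdeal R := by
  rw [← ker_eq_maximalIdeal' ρ hρ, RingHom.mem_ker]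

theorem residue_series_congr (hρ : Function.Surjective ρ) {f g : PowerSeries R}
    (h : ∀ m, PowerSeries.coeff m g - PowerSeries.coeff m f ∈ maximalIdeal R) :
    PowerSeries.map ρ g = PowerSeries.map ρ f := by
  ext m
  rw [PowerSeries.coeff_map, PowerSeries.coeff_map, ← sub_eq_zero, ← map_sub,
    residue_eq_zero_iff ρ hρ]
  exact h m

/-- The standing data of a small extension. -/
theorem quot_annihilator (hρ : Function.Surjective ρ) (I : Ideal R) (hI : I ≤ maximalIdeal R)
    (a : R) (haI : a ∉ I) (hma : ∀ x ∈ maximalIdeal R, a * x ∈ I) (x : R ⧸ I) :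
    Ideal.Quotient.mk I a * x = 0 ↔
      Ideal.Quotient.lift I ρ (fun y hy => (residue_eq_zero_iff ρ hρ y).2 (hI hy)) x = 0 := by
  obtain ⟨y, rfl⟩ := Ideal.Quotient.mk_surjective x
  rw [← map_mul, Ideal.Quotient.eq_zero_iff_mem, Ideal.Quotient.lift_mk,
    residue_eq_zero_iff ρ hρ]
  refine ⟨fun h => ?_, hma y⟩
  by_contra hy
  obtain ⟨w, rfl⟩ := IsLocalRing.notMem_maximalIdeal.1 hy
  exact haI (by simpa using I.mul_mem_right (↑w⁻¹) h)

theorem exists_mul_of_mem_sup {I : Ideal R} {a x : R} (h : x ∈ I ⊔ Ideal.span {a}) :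
    ∃ r, Ideal.Quotient.mk I x = Ideal.Quotient.mk I a * Ideal.Quotient.mk I r := by
  obtain ⟨i, hi, b, hb, rfl⟩ := Submodule.mem_sup.1 h
  obtain ⟨r, rfl⟩ := Ideal.mem_span_singleton'.1 hb
  exact ⟨r, by rw [map_add, Ideal.Quotient.eq_zero_iff_mem.2 hi, zero_add, map_mul, mul_comm]⟩

variable [CharP k p]

theorem lift_step (hn : 1 ≤ n) (hρ : Function.Surjective ρ) (G : FormalGroup R) [G.IsComm]
    (hG : G.map ρ = hondaLaw p n k) (I : Ideal R) (hI : I ≤ maximalIdeal R) (a : R)
    (ham : a ∈ maximalIdeal R) (hma : ∀ x ∈ maximalIdeal R, a * x ∈ I)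
    (v : Fin (n - 1) → R) (hv : ∀ j, v j ∈ maximalIdeal R) (f : PowerSeries R)
    (hf : PowerSeries.constantCoeff f = 0) (hfρ : PowerSeries.map ρ f = PowerSeries.X)
    (h : ModHom (I ⊔ Ideal.span {a}) G (fg p n v) f) :
    ∃ (v' : Fin (n - 1) → R) (f' : PowerSeries R), PowerSeries.constantCoeff f' = 0 ∧
      (∀ j, v' j - v j ∈ Ideal.span {a}) ∧
      (∀ m, PowerSeries.coeff m f' - PowerSeries.coeff m f ∈ Ideal.span {a}) ∧
      ModHom I G (fg p n v') f' := by
  by_cases haI : a ∈ I
  · refine ⟨v, f, hf, fun j => by simp, fun m => by simp, h.mono ?_⟩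
    simp [Ideal.span_le, haI]
  set q := Ideal.Quotient.mk I with hq
  set ρ' := Ideal.Quotient.lift I ρ (fun y hy => (residue_eq_zero_iff ρ hρ y).2 (hI hy)) with hρ'
  have hcomp : ρ'.comp q = ρ := RingHom.ext fun x =>
    Ideal.Quotient.lift_mk (a := x) I ρ (fun y hy => (residue_eq_zero_iff ρ hρ y).2 (hI hy))
  have := isComm_map G q
  choose r hr using fun d => exists_mul_of_mem_sup (h d)
  let C₀ : MvPowerSeries (Fin 2) (R ⧸ I) := fun d => q (r d)
  have hdef : defect (G.map q) (fg p n (q ∘ v)) (PowerSeries.map q f) = C (q a) * C₀ := by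
    rw [← fg_map, ← map_defect q _ _ hf]
    ext d
    rw [coeff_map, coeff_C_mul, hr d]
    rfl
  have hρ's : Function.Surjective ρ' := fun c => by
    obtain ⟨x, rfl⟩ := hρ c
    exact ⟨q x, DFunLike.congr_fun hcomp x⟩
  obtain ⟨δ, ψ, hψ, hd⟩ := step_exists p n ρ' (q a) (quot_annihilator ρ hρ I hI a haI hma)
    (by rw [← map_mul, Ideal.Quotient.eq_zero_iff_mem]; exact hma a ham) hn hρ's (G.map q)
    (by
      show map ρ' (map q G.toPowerSeries) = _
      rw [map_map_series, hcomp]
      exact congrArg FormalGroup.toPowerSeries hG)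
    (q ∘ v) (funext fun j => by
      show ρ'.comp q (v j) = 0
      rw [hcomp]
      exact (residue_eq_zero_iff ρ hρ _).2 (hv j))
    (PowerSeries.map q f) (constantCoeff_map_series q hf)
    (by
      show map ρ' (map q f) = _
      rw [map_map_series, hcomp]
      exact hfρ) ⟨_, hdef⟩
  choose δ' hδ' using fun j => Ideal.Quotient.mk_surjective (I := I) (δ j)
  choose ψ' hψ' using fun m => Ideal.Quotient.mk_surjective (I := I) (PowerSeries.coeff m ψ)
  set ψ'' : PowerSeries R := PowerSeries.mk fun m => if m = 0 then 0 else ψ' m with hψ''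
  have hmap : PowerSeries.map q ψ'' = ψ := by
    ext m
    rw [PowerSeries.coeff_map, hψ'', PowerSeries.coeff_mk]
    split
    · subst m
      rw [map_zero, PowerSeries.coeff_zero_eq_constantCoeff, hψ]
    · exact hψ' m
  have hc'' : PowerSeries.constantCoeff ψ'' = 0 := by
    rw [← PowerSeries.coeff_zero_eq_constantCoeff_apply, hψ'', PowerSeries.coeff_mk, if_pos rfl]
  have hf' : PowerSeries.constantCoeff (f + PowerSeries.C a * ψ'') = 0 := by simp [hf, hc'']
  refine ⟨fun j => v j + a * δ' j, f + PowerSeries.C a * ψ'', hf', fun j => ?_, fun m => ?_, ?_⟩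
  · simpa using Ideal.mul_mem_right _ _ (Ideal.mem_span_singleton_self a)
  · simpa using Ideal.mul_mem_right _ _ (Ideal.mem_span_singleton_self a)
  · rw [modHom_iff hf', fg_map, map_add, map_mul, PowerSeries.map_C, hmap,
      show q ∘ (fun j => v j + a * δ' j) = fun j => (q ∘ v) j + q a * δ j from
        funext fun j => by simp [hq, hδ' j]]
    exact hd

theorem unique_step (hn : 1 ≤ n) (hρ : Function.Surjective ρ) (G : FormalGroup R)
    (hG : G.map ρ = hondaLaw p n k) (I : Ideal R) (hI : I ≤ maximalIdeal R) (a : R)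
    (ham : a ∈ maximalIdeal R) (hma : ∀ x ∈ maximalIdeal R, a * x ∈ I)
    (v v' : Fin (n - 1) → R) (hv : ∀ j, v j ∈ maximalIdeal R) (f f' : PowerSeries R)
    (hf : PowerSeries.constantCoeff f = 0) (hf' : PowerSeries.constantCoeff f' = 0)
    (hfρ : PowerSeries.map ρ f = PowerSeries.X)
    (h : ModHom I G (fg p n v) f) (h' : ModHom I G (fg p n v') f')
    (hvv : ∀ j, v' j - v j ∈ I ⊔ Ideal.span {a})
    (hff : ∀ m, PowerSeries.coeff m f' - PowerSeries.coeff m f ∈ I ⊔ Ideal.span {a}) :
    (∀ j, v' j - v j ∈ I) ∧ (∀ m, PowerSeries.coeff m f' - PowerSeries.coeff m f ∈ I) := by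
  by_cases haI : a ∈ I
  · have : I ⊔ Ideal.span {a} = I := by simp [Ideal.span_le, haI]
    rw [this] at hvv hff
    exact ⟨hvv, hff⟩
  set q := Ideal.Quotient.mk I with hq
  set ρ' := Ideal.Quotient.lift I ρ (fun y hy => (residue_eq_zero_iff ρ hρ y).2 (hI hy)) with hρ'
  have hcomp : ρ'.comp q = ρ := RingHom.ext fun x =>
    Ideal.Quotient.lift_mk (a := x) I ρ (fun y hy => (residue_eq_zero_iff ρ hρ y).2 (hI hy))
  choose δ hδ using fun j => exists_mul_of_mem_sup (I := I) (a := a) (hvv j)
  choose w hw using fun m => exists_mul_of_mem_sup (I := I) (a := a) (hff m)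
  set ψ : PowerSeries (R ⧸ I) := PowerSeries.mk fun m => if m = 0 then 0 else q (w m) with hψdef
  have hψ : PowerSeries.constantCoeff ψ = 0 := by
    rw [← PowerSeries.coeff_zero_eq_constantCoeff_apply, hψdef, PowerSeries.coeff_mk, if_pos rfl]
  have hv' : q ∘ v' = fun j => (q ∘ v) j + q a * q (δ j) := funext fun j => by
    have := hδ j
    rw [map_sub] at this
    simp only [Function.comp_apply, hq, ← this]
    ring
  have hfψ : PowerSeries.map q f' = PowerSeries.map q f + PowerSeries.C (q a) * ψ := by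
    ext m
    rw [map_add, PowerSeries.coeff_C_mul, PowerSeries.coeff_map, PowerSeries.coeff_map, hψdef,
      PowerSeries.coeff_mk]
    split
    · subst m
      simp [PowerSeries.coeff_zero_eq_constantCoeff, hf, hf']
    · have := hw m
      rw [map_sub] at this
      linear_combination this
  rw [modHom_iff hf, fg_map] at h
  rw [modHom_iff hf', fg_map, hv', hfψ] at h'
  obtain ⟨h1, h2⟩ := step_unique p n ρ' (q a) (quot_annihilator ρ hρ I hI a haI hma)
    (by rw [← map_mul, Ideal.Quotient.eq_zero_iff_mem]; exact hma a ham) hn (G.map q)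
    (by
      show map ρ' (map q G.toPowerSeries) = _
      rw [map_map_series, hcomp]
      exact congrArg FormalGroup.toPowerSeries hG)
    (q ∘ v) (q ∘ δ) (funext fun j => by
      show ρ'.comp q (v j) = 0
      rw [hcomp]
      exact (residue_eq_zero_iff ρ hρ _).2 (hv j))
    (PowerSeries.map q f) ψ (constantCoeff_map_series q hf)
    (by
      show map ρ' (map q f) = _
      rw [map_map_series, hcomp]
      exact hfρ) hψ h h'
  refine ⟨fun j => Ideal.Quotient.eq_zero_iff_mem.1 ((hδ j).trans (h1 j)), fun m => ?_⟩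
  rw [← Ideal.Quotient.eq_zero_iff_mem, map_sub, sub_eq_zero]
  have := congrArg (PowerSeries.coeff m) hfψ
  rw [h2, add_zero, PowerSeries.coeff_map, PowerSeries.coeff_map] at this
  exact this

theorem lift_finset (hn : 1 ≤ n) (hρ : Function.Surjective ρ) (G : FormalGroup R) [G.IsComm]
    (hG : G.map ρ = hondaLaw p n k) (s : Finset R) :
    ∀ (I : Ideal R), I ≤ maximalIdeal R →
      (∀ a ∈ s, a ∈ maximalIdeal R ∧ ∀ x ∈ maximalIdeal R, a * x ∈ I) →
      ∀ (v : Fin (n - 1) → R) (f : PowerSeries R), (∀ j, v j ∈ maximalIdeal R) →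
        PowerSeries.constantCoeff f = 0 → PowerSeries.map ρ f = PowerSeries.X →
        ModHom (I ⊔ Ideal.span (s : Set R)) G (fg p n v) f →
        ∃ (v' : Fin (n - 1) → R) (f' : PowerSeries R), PowerSeries.constantCoeff f' = 0 ∧
          (∀ j, v' j - v j ∈ Ideal.span (s : Set R)) ∧
          (∀ m, PowerSeries.coeff m f' - PowerSeries.coeff m f ∈ Ideal.span (s : Set R)) ∧
          ModHom I G (fg p n v') f' := by
  classical
  induction s using Finset.induction_on with
  | empty =>
    intro I _ _ v f _ hf _ h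
    exact ⟨v, f, hf, fun j => by simp, fun m => by simp, h.mono (by simp)⟩
  | insert a s has ih =>
    intro I hI hs v f hv hf hfρ h
    have hsup : I ⊔ Ideal.span ((insert a s : Finset R) : Set R) =
        (I ⊔ Ideal.span (s : Set R)) ⊔ Ideal.span {a} := by
      rw [Finset.coe_insert, Ideal.span_insert, sup_assoc, sup_comm (Ideal.span {a})]
    rw [hsup] at h
    obtain ⟨ham, hma⟩ := hs a (Finset.mem_insert_self a s)
    have hI' : I ⊔ Ideal.span (s : Set R) ≤ maximalIdeal R :=
      sup_le hI (Ideal.span_le.2 fun b hb => (hs b (Finset.mem_insert_of_mem hb)).1)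
    obtain ⟨v₁, f₁, hf₁, hv₁, hd₁, h₁⟩ := lift_step p n ρ hn hρ G hG _ hI' a ham
      (fun x hx => Ideal.mem_sup_left (hma x hx)) v hv f hf hfρ h
    have ha' : Ideal.span {a} ≤ maximalIdeal R := (Ideal.span_singleton_le_iff_mem _).2 ham
    obtain ⟨v₂, f₂, hf₂, hv₂, hd₂, h₂⟩ := ih I hI (fun b hb => hs b (Finset.mem_insert_of_mem hb))
      v₁ f₁ (fun j => by simpa using add_mem (hv j) (ha' (hv₁ j))) hf₁
      ((residue_series_congr ρ hρ fun m => ha' (hd₁ m)).trans hfρ) h₁
    have h1 : Ideal.span {a} ≤ Ideal.span ((insert a s : Finset R) : Set R) :=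
      Ideal.span_mono (by simp)
    have h2 : Ideal.span (s : Set R) ≤ Ideal.span ((insert a s : Finset R) : Set R) :=
      Ideal.span_mono (by simp)
    refine ⟨v₂, f₂, hf₂, fun j => ?_, fun m => ?_, h₂⟩
    · simpa using add_mem (h2 (hv₂ j)) (h1 (hv₁ j))
    · simpa using add_mem (h2 (hd₂ m)) (h1 (hd₁ m))

theorem unique_finset (hn : 1 ≤ n) (hρ : Function.Surjective ρ) (G : FormalGroup R)
    (hG : G.map ρ = hondaLaw p n k) (s : Finset R) :
    ∀ (I : Ideal R), I ≤ maximalIdeal R →
      (∀ a ∈ s, a ∈ maximalIdeal R ∧ ∀ x ∈ maximalIdeal R, a * x ∈ I) →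
      ∀ (v v' : Fin (n - 1) → R) (f f' : PowerSeries R), (∀ j, v j ∈ maximalIdeal R) →
        PowerSeries.constantCoeff f = 0 → PowerSeries.constantCoeff f' = 0 →
        PowerSeries.map ρ f = PowerSeries.X →
        ModHom I G (fg p n v) f → ModHom I G (fg p n v') f' →
        (∀ j, v' j - v j ∈ I ⊔ Ideal.span (s : Set R)) →
        (∀ m, PowerSeries.coeff m f' - PowerSeries.coeff m f ∈ I ⊔ Ideal.span (s : Set R)) →
        (∀ j, v' j - v j ∈ I) ∧
          (∀ m, PowerSeries.coeff m f' - PowerSeries.coeff m f ∈ I) := by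
  classical
  induction s using Finset.induction_on with
  | empty =>
    intro I _ _ v v' f f' _ _ _ _ _ _ h1 h2
    exact ⟨fun j => by simpa using h1 j, fun m => by simpa using h2 m⟩
  | insert a s has ih =>
    intro I hI hs v v' f f' hv hf hf' hfρ h h' hvv hff
    have hsup : I ⊔ Ideal.span ((insert a s : Finset R) : Set R) =
        (I ⊔ Ideal.span (s : Set R)) ⊔ Ideal.span {a} := by
      rw [Finset.coe_insert, Ideal.span_insert, sup_assoc, sup_comm (Ideal.span {a})]
    rw [hsup] at hvv hff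
    obtain ⟨ham, hma⟩ := hs a (Finset.mem_insert_self a s)
    have hI' : I ⊔ Ideal.span (s : Set R) ≤ maximalIdeal R :=
      sup_le hI (Ideal.span_le.2 fun b hb => (hs b (Finset.mem_insert_of_mem hb)).1)
    obtain ⟨h1, h2⟩ := unique_step p n ρ hn hρ G hG _ hI' a ham
      (fun x hx => Ideal.mem_sup_left (hma x hx)) v v' hv f f' hf hf' hfρ
      (h.mono le_sup_left) (h'.mono le_sup_left) hvv hff
    exact ih I hI (fun b hb => hs b (Finset.mem_insert_of_mem hb)) v v' f f' hv hf hf' hfρ h h' h1 h2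

variable [IsNoetherianRing R]

/-- Uniqueness of the parameters modulo each power of the maximal ideal. -/
theorem classify_unique_mod (hn : 1 ≤ n) (hρ : Function.Surjective ρ) (G : FormalGroup R)
    (hG : G.map ρ = hondaLaw p n k) (M : ℕ) (v v' : Fin (n - 1) → R)
    (hv : ∀ j, v j ∈ maximalIdeal R) (hv' : ∀ j, v' j ∈ maximalIdeal R) (f f' : PowerSeries R)
    (hf : PowerSeries.constantCoeff f = 0) (hf' : PowerSeries.constantCoeff f' = 0)
    (hfρ : PowerSeries.map ρ f = PowerSeries.X) (hfρ' : PowerSeries.map ρ f' = PowerSeries.X)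
    (h : ModHom (maximalIdeal R ^ M) G (fg p n v) f)
    (h' : ModHom (maximalIdeal R ^ M) G (fg p n v') f') :
    (∀ j, v' j - v j ∈ maximalIdeal R ^ M) ∧
      (∀ m, PowerSeries.coeff m f' - PowerSeries.coeff m f ∈ maximalIdeal R ^ M) := by
  suffices H : ∀ i ≤ M, (∀ j, v' j - v j ∈ maximalIdeal R ^ i) ∧
      (∀ m, PowerSeries.coeff m f' - PowerSeries.coeff m f ∈ maximalIdeal R ^ i) from H M le_rfl
  intro i
  induction i with
  | zero => intro _; simp
  | succ i ih =>
    intro hi
    rcases Nat.eq_zero_or_pos i with rfl | hi0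
    · simp only [zero_add, pow_one]
      refine ⟨fun j => sub_mem (hv' j) (hv j), fun m => ?_⟩
      rw [← residue_eq_zero_iff ρ hρ, map_sub, ← PowerSeries.coeff_map, ← PowerSeries.coeff_map,
        hfρ, hfρ', sub_self]
    obtain ⟨h1, h2⟩ := ih (by omega)
    obtain ⟨s, hs⟩ := IsNoetherian.noetherian (maximalIdeal R ^ i)
    have hs' : Ideal.span (s : Set R) = maximalIdeal R ^ i := hs
    refine unique_finset p n ρ hn hρ G hG s _ (Ideal.pow_le_self (by omega)) (fun a ha => ?_)
      v v' f f' hv hf hf' hfρ (h.mono (Ideal.pow_le_pow_right hi))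
      (h'.mono (Ideal.pow_le_pow_right hi)) (fun j => ?_) fun m => ?_
    · have ha' : a ∈ maximalIdeal R ^ i := hs' ▸ Ideal.subset_span ha
      exact ⟨Ideal.pow_le_self (by omega) ha', fun x hx => by
        rw [pow_succ]; exact Ideal.mul_mem_mul ha' hx⟩
    · rw [hs']; exact Ideal.mem_sup_right (h1 j)
    · rw [hs']; exact Ideal.mem_sup_right (h2 m)

theorem exists_limit [IsAdicComplete (maximalIdeal R) R] (x : ℕ → R)
    (h : ∀ i, x (i + 1) - x i ∈ maximalIdeal R ^ (i + 1)) :
    ∃ L, ∀ i, L - x i ∈ maximalIdeal R ^ (i + 1) := by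
  have hle : ∀ {a b : ℕ}, a ≤ b → x b - x a ∈ maximalIdeal R ^ (a + 1) := by
    intro a b hab
    induction b, hab using Nat.le_induction with
    | base => simp
    | succ b hab ih =>
      have := add_mem (Ideal.pow_le_pow_right (Nat.succ_le_succ hab) (h b)) ih
      simpa using this
  obtain ⟨L, hL⟩ := IsPrecomplete.prec (inferInstance : IsPrecomplete (maximalIdeal R) R)
    (f := x) (fun {a b} hab => by
      rw [SModEq.sub_mem, smul_eq_mul, Ideal.mul_top, ← neg_sub]
      exact neg_mem (Ideal.pow_le_pow_right (Nat.le_succ a) (hle hab)))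
  refine ⟨L, fun i => ?_⟩
  have h1 := hL (i + 1)
  rw [SModEq.sub_mem, smul_eq_mul, Ideal.mul_top] at h1
  have := sub_mem (h i) h1
  rw [show x (i + 1) - x i - (x (i + 1) - L) = L - x i by ring] at this
  exact this

theorem eq_of_forall_sub_mem [IsAdicComplete (maximalIdeal R) R] {x y : R}
    (h : ∀ i, x - y ∈ maximalIdeal R ^ i) : x = y :=
  sub_eq_zero.1 <| IsHausdorff.haus (inferInstance : IsHausdorff (maximalIdeal R) R) _ fun i => by
    rw [SModEq.sub_mem, sub_zero, smul_eq_mul, Ideal.mul_top]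
    exact h i

/-- Existence of the parameters. -/
theorem exists_classify [IsAdicComplete (maximalIdeal R) R] (hn : 1 ≤ n)
    (hρ : Function.Surjective ρ) (G : FormalGroup R) [G.IsComm]
    (hG : G.map ρ = hondaLaw p n k) :
    ∃ u : Fin (n - 1) → R, (∀ j, u j ∈ maximalIdeal R) ∧
      ∃ f, IsIsoSeries G (fg p n u) f ∧ PowerSeries.map ρ f = PowerSeries.X := by
  let Good (i : ℕ) (x : (Fin (n - 1) → R) × PowerSeries R) : Prop :=
    (∀ j, x.1 j ∈ maximalIdeal R) ∧ PowerSeries.constantCoeff x.2 = 0 ∧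
      PowerSeries.map ρ x.2 = PowerSeries.X ∧ ModHom (maximalIdeal R ^ (i + 1)) G (fg p n x.1) x.2
  have h0 : Good 0 (0, PowerSeries.X) := by
    refine ⟨fun j => Ideal.zero_mem _, PowerSeries.constantCoeff_X, PowerSeries.map_X _,
      fun d => ?_⟩
    rw [zero_add, pow_one, ← residue_eq_zero_iff ρ hρ, ← coeff_map,
      map_defect ρ _ _ PowerSeries.constantCoeff_X, hG, PowerSeries.map_X, fg_map,
      show ρ ∘ (0 : Fin (n - 1) → R) = 0 from funext fun j => map_zero ρ,
      (defect_eq_zero_iff PowerSeries.constantCoeff_X).2 (isHomSeries_X _), map_zero]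
  have hstep : ∀ i x, Good i x → ∃ y, Good (i + 1) y ∧
      (∀ j, y.1 j - x.1 j ∈ maximalIdeal R ^ (i + 1)) ∧
      ∀ m, PowerSeries.coeff m y.2 - PowerSeries.coeff m x.2 ∈ maximalIdeal R ^ (i + 1) := by
    rintro i ⟨v, f⟩ ⟨hv, hf, hfρ, h⟩
    obtain ⟨s, hs⟩ := IsNoetherian.noetherian (maximalIdeal R ^ (i + 1))
    have hs' : Ideal.span (s : Set R) = maximalIdeal R ^ (i + 1) := hs
    obtain ⟨v', f', hf', hv', hd, h'⟩ := lift_finset p n ρ hn hρ G hG s
      (maximalIdeal R ^ (i + 1 + 1)) (Ideal.pow_le_self (by omega)) (fun a ha => by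
        have ha' : a ∈ maximalIdeal R ^ (i + 1) := hs' ▸ Ideal.subset_span ha
        exact ⟨Ideal.pow_le_self (by omega) ha', fun x hx => by
          rw [pow_succ]; exact Ideal.mul_mem_mul ha' hx⟩)
      v f hv hf hfρ (h.mono (hs' ▸ le_sup_right))
    rw [hs'] at hv' hd
    refine ⟨(v', f'), ⟨fun j => ?_, hf', ?_, h'⟩, hv', hd⟩
    · simpa using add_mem (hv j) (Ideal.pow_le_self (by omega) (hv' j))
    · exact (residue_series_congr ρ hρ fun m => Ideal.pow_le_self (by omega) (hd m)).trans hfρ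
  choose next hnext using fun i (x : {x // Good i x}) => hstep i x.1 x.2
  let seq : ∀ i, {x // Good i x} := fun i =>
    Nat.rec ⟨_, h0⟩ (fun i x => ⟨next i x, (hnext i x).1⟩) i
  have hseq : ∀ i, ((seq (i + 1)).1 = next i (seq i)) := fun i => rfl
  choose u hu using fun j => exists_limit (fun i => (seq i).1.1 j) fun i => by
    simp only [hseq]
    exact (hnext i (seq i)).2.1 j
  choose c hc using fun m => exists_limit (fun i => PowerSeries.coeff m (seq i).1.2) fun i => by
    simp only [hseq]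
    exact (hnext i (seq i)).2.2 m
  set f : PowerSeries R := PowerSeries.mk c with hfdef
  have hcf : ∀ i m, PowerSeries.coeff m f - PowerSeries.coeff m (seq i).1.2 ∈
      maximalIdeal R ^ (i + 1) := fun i m => by
    rw [hfdef, PowerSeries.coeff_mk]
    exact hc m i
  have hf0 : PowerSeries.constantCoeff f = 0 := eq_of_forall_sub_mem fun i => by
    have := hcf i 0
    rw [PowerSeries.coeff_zero_eq_constantCoeff_apply, PowerSeries.coeff_zero_eq_constantCoeff_apply,
      (seq i).2.2.1] at this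
    exact Ideal.pow_le_pow_right (Nat.le_succ i) this
  have hfρ : PowerSeries.map ρ f = PowerSeries.X :=
    (residue_series_congr ρ hρ fun m => by simpa using hcf 0 m).trans (seq 0).2.2.2.1
  have hhom : IsHomSeries G (fg p n u) f := by
    rw [← defect_eq_zero_iff hf0]
    ext d
    rw [map_zero]
    refine eq_of_forall_sub_mem fun i => ?_
    rw [sub_zero]
    exact Ideal.pow_le_pow_right (Nat.le_succ i)
      ((seq i).2.2.2.2.congr p n (seq i).2.2.1 hf0 (fun j => hu j i) (hcf i) d)
  refine ⟨u, fun j => ?_, f, ⟨hhom, ?_⟩, hfρ⟩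
  · simpa using add_mem (show u j - (seq 0).1.1 j ∈ maximalIdeal R by simpa using hu j 0)
      ((seq 0).2.1 j)
  · rw [← IsLocalRing.notMem_maximalIdeal, ← residue_eq_zero_iff ρ hρ, ← PowerSeries.coeff_map,
      hfρ, PowerSeries.coeff_one_X]
    exact one_ne_zero

end Vale.P217

end
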