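import Vale.Agent.P217.Defs
import Mathlib.RingTheory.MvPowerSeries.Derivative
import Mathlib.RingTheory.PowerSeries.Derivative
import Mathlib.RingTheory.MvPowerSeries.NoZeroDivisors

/-!
Composition of homomorphisms of formal group laws, transport of structure, and the first-order
Taylor formula for substitution by square-zero increments.
-/

noncomputable section

namespace Vale.P217

open MvPowerSeries

section Subst

variable {R : Type*} [CommRing R] {σ τ : Type*}

theorem hasSubst_two {a b : MvPowerSeries τ R} (ha : constantCoeff a = 0)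
    (hb : constantCoeff b = 0) : HasSubst ![a, b] :=
  hasSubst_of_constantCoeff_zero fun i => by fin_cases i <;> assumption

theorem hasSubst_one {a : MvPowerSeries τ R} (ha : constantCoeff a = 0) :
    PowerSeries.HasSubst a :=
  PowerSeries.HasSubst.of_constantCoeff_zero ha

theorem constantCoeff_pair {a b : MvPowerSeries τ R} (ha : constantCoeff a = 0)
    (hb : constantCoeff b = 0) {P : MvPowerSeries (Fin 2) R} (hP : constantCoeff P = 0) :
    constantCoeff (subst ![a, b] P) = 0 :=
  constantCoeff_subst_eq_zero (hasSubst_two ha hb) (fun i => by fin_cases i <;> assumption) hP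

theorem constantCoeff_one {a : MvPowerSeries τ R} (ha : constantCoeff a = 0) {f : PowerSeries R}
    (hf : PowerSeries.constantCoeff f = 0) : constantCoeff (PowerSeries.subst a f) = 0 :=
  PowerSeries.constantCoeff_subst_eq_zero ha f hf

theorem subst_subst_pair {υ : Type*} {b : τ → MvPowerSeries υ R} (hb : HasSubst b)
    {a₀ a₁ : MvPowerSeries τ R} (h₀ : constantCoeff a₀ = 0) (h₁ : constantCoeff a₁ = 0)
    (P : MvPowerSeries (Fin 2) R) :
    subst b (subst ![a₀, a₁] P) = subst ![subst b a₀, subst b a₁] P := by
  rw [subst_comp_subst_apply (hasSubst_two h₀ h₁) hb]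
  congr 1
  funext i
  fin_cases i <;> rfl

theorem subst_psubst_lt {υ : Type*} {b : τ → MvPowerSeries υ R} (hb : HasSubst b)
    {a : MvPowerSeries τ R} (ha : constantCoeff a = 0) (f : PowerSeries R) :
    subst b (PowerSeries.subst a f) = PowerSeries.subst (subst b a) f :=
  subst_comp_subst_apply (hasSubst_one ha).const hb f

theorem psubst_pair {b : MvPowerSeries τ R} (hb : constantCoeff b = 0)
    {a₀ a₁ : PowerSeries R} (h₀ : PowerSeries.constantCoeff a₀ = 0)
    (h₁ : PowerSeries.constantCoeff a₁ = 0) (P : MvPowerSeries (Fin 2) R) :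
    PowerSeries.subst b (subst ![a₀, a₁] P : PowerSeries R) =
      subst ![PowerSeries.subst b a₀, PowerSeries.subst b a₁] P :=
  subst_subst_pair (hasSubst_one hb).const h₀ h₁ P

theorem psubst_psubst_lt {b : MvPowerSeries τ R} (hb : constantCoeff b = 0) {a : PowerSeries R}
    (ha : PowerSeries.constantCoeff a = 0) (f : PowerSeries R) :
    PowerSeries.subst b (PowerSeries.subst a f) = PowerSeries.subst (PowerSeries.subst b a) f :=
  PowerSeries.subst_comp_subst_apply (PowerSeries.HasSubst.of_constantCoeff_zero' ha)
    (hasSubst_one hb) f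

theorem pair_X_X : (![X 0, X 1] : Fin 2 → MvPowerSeries (Fin 2) R) = X := by
  funext i
  fin_cases i <;> rfl

theorem subst_pair_X (P : MvPowerSeries (Fin 2) R) :
    subst (![X 0, X 1] : Fin 2 → MvPowerSeries (Fin 2) R) P = P := by
  rw [pair_X_X, subst_self]
  rfl

theorem map_pair {S : Type*} [CommRing S] (φ : R →+* S) {a b : MvPowerSeries τ R}
    (ha : constantCoeff a = 0) (hb : constantCoeff b = 0) (P : MvPowerSeries (Fin 2) R) :
    map φ (subst ![a, b] P) = subst ![map φ a, map φ b] (map φ P) := by
  rw [map_subst (hasSubst_two ha hb)]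
  congr 1
  funext i
  fin_cases i <;> rfl

theorem map_psubst {S : Type*} [CommRing S] (φ : R →+* S) {a : MvPowerSeries τ R}
    (ha : constantCoeff a = 0) (f : PowerSeries R) :
    map φ (PowerSeries.subst a f) = PowerSeries.subst (map φ a) (PowerSeries.map φ f) :=
  PowerSeries.map_subst (hasSubst_one ha) f

theorem map_map_series {S T : Type*} [CommRing S] [CommRing T] (φ : R →+* S) (ψ : S →+* T)
    (P : MvPowerSeries σ R) : map ψ (map φ P) = map (ψ.comp φ) P := by
  ext d
  simp

/-- The linear coefficient of a substitution. -/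
theorem coeff_one_pair {a b : PowerSeries R} (ha : PowerSeries.constantCoeff a = 0)
    (hb : PowerSeries.constantCoeff b = 0) {P : MvPowerSeries (Fin 2) R}
    (hP : constantCoeff P = 0) :
    PowerSeries.coeff 1 (subst ![a, b] P : PowerSeries R) =
      coeff (Finsupp.single 0 1) P * PowerSeries.coeff 1 a +
        coeff (Finsupp.single 1 1) P * PowerSeries.coeff 1 b := by
  classical
  rw [PowerSeries.coeff, coeff_subst (hasSubst_two ha hb)]
  rw [finsum_eq_sum_of_support_subset (s := {Finsupp.single (0 : Fin 2) 1, Finsupp.single 1 1})]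
  · rw [Finset.sum_pair (by simp [Finsupp.single_left_inj])]
    simp [PowerSeries.coeff]
  · intro d hd
    simp only [Function.mem_support, ne_eq] at hd
    by_contra hc
    refine hd ?_
    have hA : PowerSeries.X ∣ a := PowerSeries.X_dvd_iff.mpr ha
    have hB : PowerSeries.X ∣ b := PowerSeries.X_dvd_iff.mpr hb
    by_cases hdeg : 2 ≤ d 0 + d 1
    · have hdvd : PowerSeries.X ^ 2 ∣ a ^ d 0 * b ^ d 1 := by
        refine (pow_dvd_pow PowerSeries.X hdeg).trans ?_
        rw [pow_add]
        exact mul_dvd_mul (pow_dvd_pow_of_dvd hA _) (pow_dvd_pow_of_dvd hB _)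
      have h := PowerSeries.X_pow_dvd_iff.mp hdvd 1 one_lt_two
      have : coeff (Finsupp.single () 1) (d.prod fun s e => (![a, b] s) ^ e) = 0 := by
        rw [Finsupp.prod_pow, Fin.prod_univ_two]
        exact h
      rw [this, smul_zero]
    · have h0 : d = 0 := by
        simp only [Finset.coe_insert, Finset.coe_singleton, Set.mem_insert_iff,
          Set.mem_singleton_iff, not_or] at hc
        refine Finsupp.ext fun i => ?_
        have h1 : ¬(d 0 = 1 ∧ d 1 = 0) := fun h => hc.1 (Finsupp.ext fun j => by
          fin_cases j <;> simp [h.1, h.2])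
        have h2 : ¬(d 0 = 0 ∧ d 1 = 1) := fun h => hc.2 (Finsupp.ext fun j => by
          fin_cases j <;> simp [h.1, h.2])
        fin_cases i <;> simp <;> omega
      rw [h0, coeff_zero_eq_constantCoeff_apply, hP, zero_smul]

theorem coeff_one_psubst {a f : PowerSeries R} (ha : PowerSeries.constantCoeff a = 0) :
    PowerSeries.coeff 1 (PowerSeries.subst a f) =
      PowerSeries.coeff 1 f * PowerSeries.coeff 1 a := by
  rw [PowerSeries.coeff_subst' (PowerSeries.HasSubst.of_constantCoeff_zero' ha),
    finsum_eq_single _ 1]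
  · simp
  · intro d hd
    rcases Nat.eq_zero_or_pos d with rfl | hpos
    · simp
    · have hdvd : PowerSeries.X ^ 2 ∣ a ^ d :=
        (pow_dvd_pow PowerSeries.X (show 2 ≤ d by omega)).trans
          (pow_dvd_pow_of_dvd (PowerSeries.X_dvd_iff.mpr ha) _)
      rw [PowerSeries.X_pow_dvd_iff.mp hdvd 1 one_lt_two, smul_zero]

end Subst

section Hom

variable {R : Type*} [CommRing R] {F G H : FormalGroup R} {τ : Type*}

theorem IsHomSeries.apply {f : PowerSeries R} (hf : IsHomSeries F G f) {a b : MvPowerSeries τ R}
    (ha : constantCoeff a = 0) (hb : constantCoeff b = 0) :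
    PowerSeries.subst (subst ![a, b] F.toPowerSeries) f =
      subst ![PowerSeries.subst a f, PowerSeries.subst b f] G.toPowerSeries := by
  have h := congrArg (subst ![a, b]) hf.2
  have hs := hasSubst_two ha hb
  rw [subst_psubst_lt hs F.zero_constantCoeff, subst_subst_pair hs
    (constantCoeff_one (constantCoeff_X 0) hf.1) (constantCoeff_one (constantCoeff_X 1) hf.1),
    subst_psubst_lt hs (constantCoeff_X 0), subst_psubst_lt hs (constantCoeff_X 1), subst_X hs,
    subst_X hs] at h
  exact h

theorem isHomSeries_of_eq {f : PowerSeries R} (h0 : PowerSeries.constantCoeff f = 0)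
    (h : PowerSeries.subst F.toPowerSeries f =
      subst ![PowerSeries.subst (X (0 : Fin 2)) f, PowerSeries.subst (X (1 : Fin 2)) f]
        G.toPowerSeries) : IsHomSeries F G f :=
  ⟨h0, h⟩

theorem isHomSeries_X (F : FormalGroup R) : IsHomSeries F F PowerSeries.X := by
  refine ⟨PowerSeries.constantCoeff_X, ?_⟩
  rw [PowerSeries.subst_X (hasSubst_one F.zero_constantCoeff),
    PowerSeries.subst_X (hasSubst_one (constantCoeff_X 0)),
    PowerSeries.subst_X (hasSubst_one (constantCoeff_X 1)), subst_pair_X]

theorem IsHomSeries.comp {f g : PowerSeries R} (hg : IsHomSeries G H g) (hf : IsHomSeries F G f) :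
    IsHomSeries F H (PowerSeries.subst f g) := by
  refine ⟨constantCoeff_one hf.1 hg.1, ?_⟩
  rw [psubst_psubst_lt F.zero_constantCoeff hf.1, hf.2,
    hg.apply (constantCoeff_one (constantCoeff_X 0) hf.1)
      (constantCoeff_one (constantCoeff_X 1) hf.1),
    psubst_psubst_lt (constantCoeff_X 0) hf.1, psubst_psubst_lt (constantCoeff_X 1) hf.1]

theorem IsHomSeries.mapHom {S : Type*} [CommRing S] {f : PowerSeries R} (hf : IsHomSeries F G f)
    (φ : R →+* S) : IsHomSeries (F.map φ) (G.map φ) (PowerSeries.map φ f) := by
  refine ⟨by rw [← PowerSeries.coeff_zero_eq_constantCoeff, PowerSeries.coeff_map,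
    PowerSeries.coeff_zero_eq_constantCoeff, hf.1, map_zero], ?_⟩
  have h := congrArg (MvPowerSeries.map φ) hf.2
  rw [map_psubst φ F.zero_constantCoeff, map_pair φ (constantCoeff_one (constantCoeff_X 0) hf.1)
    (constantCoeff_one (constantCoeff_X 1) hf.1), map_psubst φ (constantCoeff_X 0),
    map_psubst φ (constantCoeff_X 1), map_X, map_X] at h
  exact h

/-- An inverse series of a homomorphism is a homomorphism. -/
theorem IsHomSeries.inverse {f g : PowerSeries R} (hf : IsHomSeries F G f)
    (hg0 : PowerSeries.constantCoeff g = 0) (hfg : PowerSeries.subst g f = PowerSeries.X)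
    (hgf : PowerSeries.subst f g = PowerSeries.X) : IsHomSeries G F g := by
  refine ⟨hg0, ?_⟩
  have c0 := constantCoeff_one (constantCoeff_X (0 : Fin 2) (R := R)) hg0
  have c1 := constantCoeff_one (constantCoeff_X (1 : Fin 2) (R := R)) hg0
  have h := hf.apply c0 c1
  rw [← psubst_psubst_lt (constantCoeff_X 0) hg0, ← psubst_psubst_lt (constantCoeff_X 1) hg0, hfg,
    PowerSeries.subst_X (hasSubst_one (constantCoeff_X 0)),
    PowerSeries.subst_X (hasSubst_one (constantCoeff_X 1)), subst_pair_X] at h
  rw [← h, ← psubst_psubst_lt (constantCoeff_pair c0 c1 F.zero_constantCoeff) hf.1, hgf,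
    PowerSeries.subst_X (hasSubst_one (constantCoeff_pair c0 c1 F.zero_constantCoeff))]

/-- The inverse of an isomorphism. -/
theorem IsIsoSeries.symm {f : PowerSeries R} (hf : IsIsoSeries F G f) :
    IsIsoSeries G F (f.substInvOfIsUnit hf.2) := by
  refine ⟨hf.1.inverse (f.constantCoeff_substInvOfIsUnit hf.2)
    (f.subst_substInvOfIsUnit_right hf.1.1 hf.2)
    (f.subst_substInvOfIsUnit_left hf.1.1 hf.2), ?_⟩
  rw [PowerSeries.coeff_one_substInvOfIsUnit]
  exact Units.isUnit _

theorem isIsoSeries_X (F : FormalGroup R) : IsIsoSeries F F PowerSeries.X :=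
  ⟨isHomSeries_X F, by simp⟩

theorem IsIsoSeries.comp {f g : PowerSeries R} (hg : IsIsoSeries G H g) (hf : IsIsoSeries F G f) :
    IsIsoSeries F H (PowerSeries.subst f g) := by
  refine ⟨hg.1.comp hf.1, ?_⟩
  rw [coeff_one_psubst hf.1.1]
  exact hg.2.mul hf.2

theorem IsIsoSeries.map {S : Type*} [CommRing S] {f : PowerSeries R} (hf : IsIsoSeries F G f)
    (φ : R →+* S) : IsIsoSeries (F.map φ) (G.map φ) (PowerSeries.map φ f) :=
  ⟨hf.1.mapHom φ, by rw [PowerSeries.coeff_map]; exact hf.2.map φ⟩

/-- The target of an isomorphism is determined by the source. -/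
theorem IsIsoSeries.target_unique {f : PowerSeries R} (hf : IsIsoSeries F G f)
    (hf' : IsHomSeries F H f) : G = H := by
  set g := f.substInvOfIsUnit hf.2
  have hg0 : PowerSeries.constantCoeff g = 0 := f.constantCoeff_substInvOfIsUnit hf.2
  have c0 := constantCoeff_one (constantCoeff_X (0 : Fin 2) (R := R)) hg0
  have c1 := constantCoeff_one (constantCoeff_X (1 : Fin 2) (R := R)) hg0
  have h := (hf.1.apply c0 c1).symm.trans (hf'.apply c0 c1)
  rw [← psubst_psubst_lt (constantCoeff_X 0) hg0, ← psubst_psubst_lt (constantCoeff_X 1) hg0,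
    f.subst_substInvOfIsUnit_right hf.1.1 hf.2,
    PowerSeries.subst_X (hasSubst_one (constantCoeff_X 0)),
    PowerSeries.subst_X (hasSubst_one (constantCoeff_X 1)), subst_pair_X, subst_pair_X] at h
  exact FormalGroup.ext h

/-- Four-term interchange for a commutative formal group law. -/
theorem fgl_add_comm4 (F : FormalGroup R) [F.IsComm] {a b c d : MvPowerSeries τ R}
    (ha : constantCoeff a = 0) (hb : constantCoeff b = 0) (hc : constantCoeff c = 0)
    (hd : constantCoeff d = 0) :
    subst ![subst ![a, b] F.toPowerSeries, subst ![c, d] F.toPowerSeries] F.toPowerSeries =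
      subst ![subst ![a, c] F.toPowerSeries, subst ![b, d] F.toPowerSeries] F.toPowerSeries :=
  let x : F.Point τ := ⟨a, hasSubst_one ha⟩
  let y : F.Point τ := ⟨b, hasSubst_one hb⟩
  let z : F.Point τ := ⟨c, hasSubst_one hc⟩
  let w : F.Point τ := ⟨d, hasSubst_one hd⟩
  congrArg Subtype.val (add_add_add_comm x y z w)

/-- The sum of two homomorphisms into a commutative law. -/
theorem IsHomSeries.add [G.IsComm] {f g : PowerSeries R} (hf : IsHomSeries F G f)
    (hg : IsHomSeries F G g) :
    IsHomSeries F G (subst ![f, g] G.toPowerSeries) := by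
  refine ⟨constantCoeff_pair hf.1 hg.1 G.zero_constantCoeff, ?_⟩
  rw [psubst_pair F.zero_constantCoeff hf.1 hg.1, hf.2, hg.2,
    psubst_pair (constantCoeff_X 0) hf.1 hg.1, psubst_pair (constantCoeff_X 1) hf.1 hg.1]
  exact fgl_add_comm4 G (constantCoeff_one (constantCoeff_X 0) hf.1)
    (constantCoeff_one (constantCoeff_X 1) hf.1) (constantCoeff_one (constantCoeff_X 0) hg.1)
    (constantCoeff_one (constantCoeff_X 1) hg.1)

theorem mulSeries_constantCoeff (F : FormalGroup R) :
    ∀ m : ℕ, PowerSeries.constantCoeff (mulSeries F m) = 0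
  | 0 => by simp [mulSeries]
  | m + 1 =>
    constantCoeff_pair (mulSeries_constantCoeff F m) PowerSeries.constantCoeff_X
      F.zero_constantCoeff

theorem mulSeries_coeff_one (F : FormalGroup R) :
    ∀ m : ℕ, PowerSeries.coeff 1 (mulSeries F m) = (m : R)
  | 0 => by simp [mulSeries]
  | m + 1 => by
    rw [mulSeries, coeff_one_pair (mulSeries_constantCoeff F m) PowerSeries.constantCoeff_X
      F.zero_constantCoeff, F.lin_coeff_X, F.lin_coeff_Y, mulSeries_coeff_one F m]
    simp

theorem mulSeries_isHomSeries (F : FormalGroup R) [F.IsComm] :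
    ∀ m : ℕ, IsHomSeries F F (mulSeries F m)
  | 0 => by
    refine ⟨map_zero _, ?_⟩
    have hz : ∀ {a : MvPowerSeries (Fin 2) R}, constantCoeff a = 0 →
        PowerSeries.subst a (0 : PowerSeries R) = 0 := fun {a} ha => by
      rw [← PowerSeries.coe_substAlgHom (hasSubst_one ha), map_zero]
    rw [mulSeries, hz F.zero_constantCoeff, hz (constantCoeff_X 0), hz (constantCoeff_X 1),
      FormalGroup.add_zero F PowerSeries.HasSubst.zero]
  | m + 1 => (mulSeries_isHomSeries F m).add (isHomSeries_X F)

theorem IsHomSeries.mulSeries_comm {f : PowerSeries R} (hf : IsHomSeries F G f) :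
    ∀ m : ℕ, PowerSeries.subst (mulSeries F m) f = PowerSeries.subst f (mulSeries G m)
  | 0 => by
    rw [mulSeries, mulSeries, PowerSeries.subst_zero_of_constantCoeff_zero hf.1,
      ← PowerSeries.coe_substAlgHom (hasSubst_one hf.1), map_zero]
  | m + 1 => by
    rw [mulSeries, mulSeries, hf.apply (mulSeries_constantCoeff F m) PowerSeries.constantCoeff_X,
      hf.mulSeries_comm m]
    rw [show PowerSeries.subst (PowerSeries.X : PowerSeries R) f = f from PowerSeries.X_subst f,
      psubst_pair hf.1 (mulSeries_constantCoeff G m) PowerSeries.constantCoeff_X,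
      PowerSeries.subst_X (hasSubst_one hf.1)]

theorem map_mulSeries {S : Type*} [CommRing S] (φ : R →+* S) (F : FormalGroup R) :
    ∀ m : ℕ, PowerSeries.map φ (mulSeries F m) = mulSeries (F.map φ) m
  | 0 => by simp [mulSeries]
  | m + 1 => by
    have hX : PowerSeries.map φ (PowerSeries.X : PowerSeries R) = PowerSeries.X :=
      PowerSeries.map_X φ
    rw [mulSeries, mulSeries]
    refine (map_pair φ (mulSeries_constantCoeff F m) PowerSeries.constantCoeff_X _).trans ?_
    rw [show MvPowerSeries.map φ (mulSeries F m) = PowerSeries.map φ (mulSeries F m) from rfl,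
      map_mulSeries φ F m]
    exact congrArg (fun z => subst ![mulSeries (F.map φ) m, z] (F.map φ).toPowerSeries) hX

/-- Transport of a formal group law along an invertible series. -/
def transport (F : FormalGroup R) (f g : PowerSeries R) (hf : PowerSeries.constantCoeff f = 0)
    (hg : PowerSeries.constantCoeff g = 0)
    (hfg : PowerSeries.subst g f = PowerSeries.X) (hgf : PowerSeries.subst f g = PowerSeries.X) :
    FormalGroup R where
  toPowerSeries := PowerSeries.subst
    (subst ![PowerSeries.subst (X (0 : Fin 2)) g, PowerSeries.subst (X (1 : Fin 2)) g]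
      F.toPowerSeries) f
  zero_constantCoeff := constantCoeff_one (constantCoeff_pair
    (constantCoeff_one (constantCoeff_X 0) hg) (constantCoeff_one (constantCoeff_X 1) hg)
    F.zero_constantCoeff) hf
  lin_coeff_X := by
    have key := congrArg (PowerSeries.coeff 1) (show
        (subst ![(PowerSeries.X : PowerSeries R), 0] (PowerSeries.subst
          (subst ![PowerSeries.subst (X (0 : Fin 2)) g, PowerSeries.subst (X (1 : Fin 2)) g]
            F.toPowerSeries) f) : PowerSeries R) = PowerSeries.X by
      have hs : HasSubst ![(PowerSeries.X : PowerSeries R), 0] :=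
        hasSubst_two PowerSeries.constantCoeff_X (map_zero _)
      rw [subst_psubst_lt hs (constantCoeff_pair (constantCoeff_one (constantCoeff_X 0) hg)
          (constantCoeff_one (constantCoeff_X 1) hg) F.zero_constantCoeff),
        subst_subst_pair hs (constantCoeff_one (constantCoeff_X 0) hg)
          (constantCoeff_one (constantCoeff_X 1) hg),
        subst_psubst_lt hs (constantCoeff_X 0), subst_psubst_lt hs (constantCoeff_X 1), subst_X hs,
        subst_X hs]
      simp only [Matrix.cons_val_zero, Matrix.cons_val_one, Matrix.cons_val_fin_one]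
      rw [PowerSeries.subst_zero_of_constantCoeff_zero hg, PowerSeries.X_subst,
        FormalGroup.add_zero F (hasSubst_one hg)]
      exact hfg)
    rw [coeff_one_pair PowerSeries.constantCoeff_X (map_zero _) (constantCoeff_one
      (constantCoeff_pair (constantCoeff_one (constantCoeff_X 0) hg)
        (constantCoeff_one (constantCoeff_X 1) hg) F.zero_constantCoeff) hf)] at key
    simpa using key
  lin_coeff_Y := by
    have key := congrArg (PowerSeries.coeff 1) (show
        (subst ![0, (PowerSeries.X : PowerSeries R)] (PowerSeries.subst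
          (subst ![PowerSeries.subst (X (0 : Fin 2)) g, PowerSeries.subst (X (1 : Fin 2)) g]
            F.toPowerSeries) f) : PowerSeries R) = PowerSeries.X by
      have hs : HasSubst ![0, (PowerSeries.X : PowerSeries R)] :=
        hasSubst_two (map_zero _) PowerSeries.constantCoeff_X
      rw [subst_psubst_lt hs (constantCoeff_pair (constantCoeff_one (constantCoeff_X 0) hg)
          (constantCoeff_one (constantCoeff_X 1) hg) F.zero_constantCoeff),
        subst_subst_pair hs (constantCoeff_one (constantCoeff_X 0) hg)
          (constantCoeff_one (constantCoeff_X 1) hg),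
        subst_psubst_lt hs (constantCoeff_X 0), subst_psubst_lt hs (constantCoeff_X 1), subst_X hs,
        subst_X hs]
      simp only [Matrix.cons_val_zero, Matrix.cons_val_one, Matrix.cons_val_fin_one]
      rw [PowerSeries.subst_zero_of_constantCoeff_zero hg, PowerSeries.X_subst,
        FormalGroup.zero_add F (hasSubst_one hg)]
      exact hfg)
    rw [coeff_one_pair (map_zero _) PowerSeries.constantCoeff_X (constantCoeff_one
      (constantCoeff_pair (constantCoeff_one (constantCoeff_X 0) hg)
        (constantCoeff_one (constantCoeff_X 1) hg) F.zero_constantCoeff) hf)] at key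
    simpa using key
  assoc := by
    set T := PowerSeries.subst
      (subst ![PowerSeries.subst (X (0 : Fin 2) : MvPowerSeries (Fin 2) R) g,
          PowerSeries.subst (X (1 : Fin 2) : MvPowerSeries (Fin 2) R) g]
        F.toPowerSeries) f with hT
    have key : ∀ {a b : MvPowerSeries (Fin 3) R}, constantCoeff a = 0 → constantCoeff b = 0 →
        subst ![a, b] T = PowerSeries.subst
          (subst ![PowerSeries.subst a g, PowerSeries.subst b g] F.toPowerSeries) f := by
      intro a b ha hb
      have hs := hasSubst_two ha hb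
      rw [hT, subst_psubst_lt hs (constantCoeff_pair (constantCoeff_one (constantCoeff_X 0) hg)
          (constantCoeff_one (constantCoeff_X 1) hg) F.zero_constantCoeff),
        subst_subst_pair hs (constantCoeff_one (constantCoeff_X 0) hg)
          (constantCoeff_one (constantCoeff_X 1) hg),
        subst_psubst_lt hs (constantCoeff_X 0), subst_psubst_lt hs (constantCoeff_X 1), subst_X hs,
        subst_X hs]
      rfl
    have hT0 : constantCoeff T = 0 := constantCoeff_one (constantCoeff_pair
      (constantCoeff_one (constantCoeff_X 0) hg) (constantCoeff_one (constantCoeff_X 1) hg)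
      F.zero_constantCoeff) hf
    have hback : ∀ {a b : MvPowerSeries (Fin 3) R}, constantCoeff a = 0 → constantCoeff b = 0 →
        PowerSeries.subst (subst ![a, b] T) g =
          subst ![PowerSeries.subst a g, PowerSeries.subst b g] F.toPowerSeries := by
      intro a b ha hb
      have hc := constantCoeff_pair (constantCoeff_one ha hg) (constantCoeff_one hb hg)
        F.zero_constantCoeff
      rw [key ha hb, ← psubst_psubst_lt hc hf, hgf, PowerSeries.subst_X (hasSubst_one hc)]
    rw [key (constantCoeff_pair (constantCoeff_X 0) (constantCoeff_X 1) hT0) (constantCoeff_X 2),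
      key (constantCoeff_X 0) (constantCoeff_pair (constantCoeff_X 1) (constantCoeff_X 2) hT0),
      hback (constantCoeff_X 0) (constantCoeff_X 1), hback (constantCoeff_X 1) (constantCoeff_X 2),
      FormalGroup.assoc' F (hasSubst_one (constantCoeff_one (constantCoeff_X 0) hg))
        (hasSubst_one (constantCoeff_one (constantCoeff_X 1) hg))
        (hasSubst_one (constantCoeff_one (constantCoeff_X 2) hg))]

theorem transport_hom (F : FormalGroup R) (f g : PowerSeries R)
    (hf : PowerSeries.constantCoeff f = 0) (hg : PowerSeries.constantCoeff g = 0)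
    (hfg : PowerSeries.subst g f = PowerSeries.X) (hgf : PowerSeries.subst f g = PowerSeries.X) :
    IsHomSeries F (transport F f g hf hg hfg hgf) f := by
  refine ⟨hf, ?_⟩
  have c0 := constantCoeff_one (constantCoeff_X (0 : Fin 2) (R := R)) hf
  have c1 := constantCoeff_one (constantCoeff_X (1 : Fin 2) (R := R)) hf
  have hs := hasSubst_two c0 c1
  show _ = subst _ (PowerSeries.subst _ f)
  rw [subst_psubst_lt hs (constantCoeff_pair (constantCoeff_one (constantCoeff_X 0) hg)
      (constantCoeff_one (constantCoeff_X 1) hg) F.zero_constantCoeff),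
    subst_subst_pair hs (constantCoeff_one (constantCoeff_X 0) hg)
      (constantCoeff_one (constantCoeff_X 1) hg),
    subst_psubst_lt hs (constantCoeff_X 0), subst_psubst_lt hs (constantCoeff_X 1), subst_X hs,
    subst_X hs]
  simp only [Matrix.cons_val_zero, Matrix.cons_val_one, Matrix.cons_val_fin_one]
  rw [← psubst_psubst_lt (constantCoeff_X 0) hf, ← psubst_psubst_lt (constantCoeff_X 1) hf, hgf,
    PowerSeries.subst_X (hasSubst_one (constantCoeff_X 0)),
    PowerSeries.subst_X (hasSubst_one (constantCoeff_X 1)), subst_pair_X]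

/-- An isomorphism carries commutativity to the target. -/
theorem IsIsoSeries.isComm {f : PowerSeries R} (hf : IsIsoSeries F G f) [F.IsComm] : G.IsComm := by
  set g := f.substInvOfIsUnit hf.2
  have hg0 : PowerSeries.constantCoeff g = 0 := f.constantCoeff_substInvOfIsUnit hf.2
  have hfg : PowerSeries.subst g f = PowerSeries.X := f.subst_substInvOfIsUnit_right hf.1.1 hf.2
  have c0 := constantCoeff_one (constantCoeff_X (0 : Fin 2) (R := R)) hg0
  have c1 := constantCoeff_one (constantCoeff_X (1 : Fin 2) (R := R)) hg0
  have e : ∀ i : Fin 2, PowerSeries.subst (PowerSeries.subst (X i : MvPowerSeries (Fin 2) R) g) f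
      = X i := fun i => by
    rw [← psubst_psubst_lt (constantCoeff_X i) hg0, hfg,
      PowerSeries.subst_X (hasSubst_one (constantCoeff_X i))]
  have h1 := hf.1.apply c0 c1
  have h2 := hf.1.apply c1 c0
  rw [e, e] at h1 h2
  rw [subst_pair_X] at h1
  rw [FormalGroup.comm' F (hasSubst_one c1) (hasSubst_one c0)] at h2
  exact ⟨h1.symm.trans h2⟩

theorem exists_transport (F : FormalGroup R) (f : PowerSeries R)
    (hf : PowerSeries.constantCoeff f = 0) (hf1 : IsUnit (PowerSeries.coeff 1 f)) :
    ∃ G : FormalGroup R, IsIsoSeries F G f :=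
  ⟨transport F f (f.substInvOfIsUnit hf1) hf (f.constantCoeff_substInvOfIsUnit hf1)
    (f.subst_substInvOfIsUnit_right hf hf1) (f.subst_substInvOfIsUnit_left hf hf1),
    transport_hom F f _ hf _ _ _, hf1⟩

end Hom

section Taylor

variable {S : Type*} [CommRing S] {σ τ : Type*}

/-- Substitution by series without constant term does not lower the order. -/
theorem coeff_subst_eq_zero_of_low [Finite σ] {g : σ → MvPowerSeries τ S}
    (hg : ∀ i, constantCoeff (g i) = 0) {P : MvPowerSeries σ S} (e : τ →₀ ℕ)
    (hP : ∀ d : σ →₀ ℕ, d.degree ≤ e.degree → coeff d P = 0) : coeff e (subst g P) = 0 := by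
  refine coeff_of_lt_order (lt_of_lt_of_le ?_ (le_order_subst (hasSubst_of_constantCoeff_zero hg) P))
  have h1 : (1 : ℕ∞) ≤ ⨅ i, (g i).order := le_iInf fun i => by
    rw [Order.one_le_iff_pos]
    exact pos_iff_ne_zero.mpr (order_ne_zero_iff_constCoeff_eq_zero.mpr (hg i))
  calc (e.degree : ℕ∞) < ((e.degree + 1 : ℕ) : ℕ∞) := Nat.cast_lt.mpr (Nat.lt_succ_self _)
    _ ≤ P.order := nat_le_order fun d hd => hP d (Nat.lt_succ_iff.mp hd)
    _ = 1 * P.order := (one_mul _).symm
    _ ≤ _ := mul_le_mul_left h1 _

/-- The first-order Taylor formula. -/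
theorem subst_add_of_sq_zero [Fintype σ] {g h : σ → MvPowerSeries τ S}
    (hg : ∀ i, constantCoeff (g i) = 0) (hh : ∀ i, constantCoeff (h i) = 0)
    (hh2 : ∀ i j, h i * h j = 0) (P : MvPowerSeries σ S) :
    subst (g + h) P = subst g P + ∑ i, subst g (pderiv S i P) * h i := by
  classical
  have hgh : ∀ i, constantCoeff ((g + h) i) = 0 := fun i => by simp [hg i, hh i]
  have hsg := hasSubst_of_constantCoeff_zero hg
  have hsgh := hasSubst_of_constantCoeff_zero hgh
  have hpoly : ∀ Q : MvPolynomial σ S, subst (g + h) (Q : MvPowerSeries σ S) =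
      subst g (Q : MvPowerSeries σ S) +
        ∑ i, subst g (pderiv S i (Q : MvPowerSeries σ S)) * h i := by
    intro Q
    induction Q using MvPolynomial.induction_on with
    | C a =>
      rw [MvPolynomial.coe_C, subst_C, subst_C]
      simp only [pderiv_C]
      rw [← coe_substAlgHom hsg, map_zero]
      simp
    | add P Q hP hQ =>
      simp only [MvPolynomial.coe_add, map_add, subst_add hsg, subst_add hsgh, add_mul,
        Finset.sum_add_distrib, hP, hQ]
      ring
    | mul_X P j hP =>
      simp only [MvPolynomial.coe_mul, MvPolynomial.coe_X, subst_mul hsgh, subst_X hsgh, hP,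
        Derivation.leibniz, subst_mul hsg, subst_X hsg, smul_eq_mul, subst_add hsg, Pi.add_apply]
      have hsum : ∑ i, subst g (pderiv S i (X j)) * h i = h j := by
        rw [Finset.sum_eq_single j]
        · rw [pderiv_X_self, ← coe_substAlgHom hsg, map_one, one_mul]
        · intro i _ hij
          rw [pderiv_X_of_ne hij.symm, ← coe_substAlgHom hsg, map_zero, zero_mul]
        · simp
      have h2 : (∑ i, subst g (pderiv S i (P : MvPowerSeries σ S)) * h i) * h j = 0 := by
        rw [Finset.sum_mul]
        exact Finset.sum_eq_zero fun i _ => by rw [mul_assoc, hh2, mul_zero]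
      simp only [add_mul, mul_assoc, Finset.sum_add_distrib, ← Finset.mul_sum, hsum]
      rw [mul_add, mul_add, h2]
      ring
  ext e
  set P₀ := truncTotal (e.degree + 2) P
  have hlow : ∀ d : σ →₀ ℕ, d.degree < e.degree + 2 → coeff d (P - (P₀ : MvPowerSeries σ S)) = 0 := fun d hd => by
    rw [map_sub, MvPolynomial.coeff_coe, coeff_truncTotal _ hd, sub_self]
  have e1 : ∀ {v : σ → MvPowerSeries τ S}, (∀ i, constantCoeff (v i) = 0) →
      coeff e (subst v P) = coeff e (subst v (P₀ : MvPowerSeries σ S)) := fun {v} hv => by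
    have h := coeff_subst_eq_zero_of_low hv (P := P - (P₀ : MvPowerSeries σ S)) e fun d hd => hlow d (by omega)
    rwa [subst_sub (hasSubst_of_constantCoeff_zero hv), map_sub, sub_eq_zero] at h
  rw [e1 hgh, hpoly, map_add, map_add, e1 hg, map_sum, map_sum]
  congr 1
  refine Finset.sum_congr rfl fun i _ => ?_
  rw [coeff_mul, coeff_mul]
  refine Finset.sum_congr rfl fun x hx => ?_
  congr 1
  rw [Finset.HasAntidiagonal.mem_antidiagonal] at hx
  have hx1 : x.1.degree ≤ e.degree := by rw [← hx, map_add]; omega
  have h := coeff_subst_eq_zero_of_low hg (P := pderiv S i (P - (P₀ : MvPowerSeries σ S))) x.1 fun d hd => by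
    rw [coeff_pderiv, hlow _ (by rw [map_add, Finsupp.degree_single]; omega), zero_mul]
  rw [map_sub, subst_sub hsg, map_sub, sub_eq_zero] at h
  exact h.symm

theorem psubst_add_of_sq_zero {g h : MvPowerSeries τ S} (hg : constantCoeff g = 0)
    (hh : constantCoeff h = 0) (hh2 : h * h = 0) (P : PowerSeries S) :
    PowerSeries.subst (g + h) P =
      PowerSeries.subst g P + PowerSeries.subst g (PowerSeries.derivative S P) * h := by
  have := subst_add_of_sq_zero (σ := Unit) (g := fun _ => g) (h := fun _ => h) (fun _ => hg)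
    (fun _ => hh) (fun _ _ => hh2) P
  simpa [PowerSeries.subst, PowerSeries.derivative] using! this

theorem aeval_add_of_sq_zero [Fintype σ] {A : Type*} [CommRing A] (u δ : σ → A)
    (hδ : ∀ i j, δ i * δ j = 0) (P : MvPolynomial σ ℤ) :
    MvPolynomial.aeval (u + δ) P =
      MvPolynomial.aeval u P + ∑ i, MvPolynomial.aeval u (MvPolynomial.pderiv i P) * δ i := by
  classical
  induction P using MvPolynomial.induction_on with
  | C a => simp
  | add P Q hP hQ => simp only [map_add, add_mul, Finset.sum_add_distrib, hP, hQ]; ring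
  | mul_X P j hP =>
    simp only [map_mul, MvPolynomial.aeval_X, hP, Derivation.leibniz, map_add, smul_eq_mul,
      Pi.add_apply]
    have hsum : ∑ i, MvPolynomial.aeval u (MvPolynomial.pderiv i (MvPolynomial.X j :
        MvPolynomial σ ℤ)) * δ i = δ j := by
      rw [Finset.sum_eq_single j]
      · simp
      · intro i _ hij
        simp [MvPolynomial.pderiv_X_of_ne hij.symm]
      · simp
    have h2 : (∑ i, MvPolynomial.aeval u (MvPolynomial.pderiv i P) * δ i) * δ j = 0 := by
      rw [Finset.sum_mul]
      exact Finset.sum_eq_zero fun i _ => by rw [mul_assoc, hδ, mul_zero]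
    simp only [add_mul, mul_assoc, Finset.sum_add_distrib, ← Finset.mul_sum, hsum]
    rw [mul_add, mul_add, h2]
    ring

end Taylor

end Vale.P217

end
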