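import Vale.Agent.P217.LubinTateSeries
import Vale.Agent.P217.Cocycle
import Mathlib.Algebra.DualNumber
import Mathlib.RingTheory.Ideal.Quotient.Operations
import Mathlib.RingTheory.PowerSeries.Inverse

/-!
The first-order step of Lubin-Tate theory: changing parameters and isomorphism by an element
killed by the maximal ideal.
-/

noncomputable section

namespace Vale.P217

open MvPowerSeries

/-- The failure of `f` to be a homomorphism from `G` to `H`. -/
def defect {R : Type*} [CommRing R] (G H : FormalGroup R) (f : PowerSeries R) :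
    MvPowerSeries (Fin 2) R :=
  PowerSeries.subst G.toPowerSeries f -
    subst ![PowerSeries.subst (X (0 : Fin 2)) f, PowerSeries.subst (X (1 : Fin 2)) f]
      H.toPowerSeries

theorem constantCoeff_map_series {R S : Type*} [CommRing R] [CommRing S] (φ : R →+* S)
    {f : PowerSeries R} (hf : PowerSeries.constantCoeff f = 0) :
    PowerSeries.constantCoeff (PowerSeries.map φ f) = 0 := by
  rw [← PowerSeries.coeff_zero_eq_constantCoeff, PowerSeries.coeff_map,
    PowerSeries.coeff_zero_eq_constantCoeff, hf, map_zero]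

theorem map_defect {R S : Type*} [CommRing R] [CommRing S] (φ : R →+* S) (G H : FormalGroup R)
    {f : PowerSeries R} (hf : PowerSeries.constantCoeff f = 0) :
    map φ (defect G H f) = defect (G.map φ) (H.map φ) (PowerSeries.map φ f) := by
  rw [defect, defect, map_sub, map_psubst φ G.zero_constantCoeff,
    map_pair φ (constantCoeff_one (constantCoeff_X 0) hf)
      (constantCoeff_one (constantCoeff_X 1) hf),
    map_psubst φ (constantCoeff_X 0), map_psubst φ (constantCoeff_X 1), map_X, map_X]
  rfl

theorem defect_eq_zero_iff {R : Type*} [CommRing R] {G H : FormalGroup R} {f : PowerSeries R}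
    (hf : PowerSeries.constantCoeff f = 0) : defect G H f = 0 ↔ IsHomSeries G H f := by
  rw [defect, sub_eq_zero]
  exact ⟨fun h => ⟨hf, h⟩, fun h => h.2⟩

section Slots

variable {S : Type*} [CommRing S] {τ : Type*}

theorem constantCoeff_subst_zero {σ : Type*} [Finite σ] {g : σ → MvPowerSeries τ S}
    (hg : ∀ i, constantCoeff (g i) = 0) (P : MvPowerSeries σ S) :
    constantCoeff (subst g P) = constantCoeff P := by
  have hs := hasSubst_of_constantCoeff_zero hg
  have h := constantCoeff_subst_eq_zero hs hg (f := P - C (constantCoeff P)) (by simp)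
  rwa [subst_sub hs, subst_C, map_sub, constantCoeff_C, sub_eq_zero] at h

theorem psubst_zero_series {a : MvPowerSeries τ S} (ha : constantCoeff a = 0) :
    PowerSeries.subst a (0 : PowerSeries S) = 0 := by
  rw [← PowerSeries.coe_substAlgHom (hasSubst_one ha), map_zero]

theorem subst_fst_add {a b c : MvPowerSeries τ S} (ha : constantCoeff a = 0)
    (hb : constantCoeff b = 0) (hc : constantCoeff c = 0) (hc2 : c * c = 0)
    (P : MvPowerSeries (Fin 2) S) :
    subst ![a + c, b] P = subst ![a, b] P + subst ![a, b] (pderiv S 0 P) * c := by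
  have h := subst_add_of_sq_zero (g := ![a, b]) (h := ![c, 0])
    (fun i => by fin_cases i <;> assumption) (fun i => by fin_cases i <;> simp [hc])
    (fun i j => by fin_cases i <;> fin_cases j <;> simp [hc2]) P
  simpa [Fin.sum_univ_two] using h

theorem subst_snd_add {a b c : MvPowerSeries τ S} (ha : constantCoeff a = 0)
    (hb : constantCoeff b = 0) (hc : constantCoeff c = 0) (hc2 : c * c = 0)
    (P : MvPowerSeries (Fin 2) S) :
    subst ![a, b + c] P = subst ![a, b] P + subst ![a, b] (pderiv S 1 P) * c := by
  have h := subst_add_of_sq_zero (g := ![a, b]) (h := ![0, c])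
    (fun i => by fin_cases i <;> assumption) (fun i => by fin_cases i <;> simp [hc])
    (fun i j => by fin_cases i <;> fin_cases j <;> simp [hc2]) P
  simpa [Fin.sum_univ_two] using h

theorem map_pderiv_series {R : Type*} [CommRing R] {σ : Type*} (φ : R →+* S) (i : σ)
    (P : MvPowerSeries σ R) : map φ (pderiv R i P) = pderiv S i (map φ P) := by
  ext d
  simp [coeff_pderiv]

end Slots

section Dual

variable {k : Type*} [CommRing k] {σ : Type*}

/-- The inclusion of the scalars in the dual numbers. -/
def dualInl : k →+* DualNumber k := TrivSqZeroExt.inlHom k k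

theorem eps_mul_eq_zero_iff (x : DualNumber k) :
    DualNumber.eps * x = 0 ↔ TrivSqZeroExt.fst x = 0 := by
  constructor
  · intro h
    have := congrArg TrivSqZeroExt.snd h
    simpa [TrivSqZeroExt.snd_mul] using this
  · intro h
    ext <;> simp [TrivSqZeroExt.fst_mul, TrivSqZeroExt.snd_mul, h]

/-- The projection of the dual numbers to the scalars. -/
def dualFst : DualNumber k →+* k := (TrivSqZeroExt.fstHom k k k).toRingHom

theorem dualFst_apply (x : DualNumber k) : dualFst x = TrivSqZeroExt.fst x := rfl

theorem dualFst_comp_inl : (dualFst (k := k)).comp dualInl = RingHom.id k := by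
  ext x
  simp [dualFst, dualInl]

theorem eps_cancel {A B : MvPowerSeries σ k}
    (h : C DualNumber.eps * map dualInl A = C DualNumber.eps * map dualInl B) : A = B := by
  ext d
  have := congrArg (fun z => TrivSqZeroExt.snd (coeff d z)) h
  simpa [coeff_C_mul, dualInl, TrivSqZeroExt.snd_mul] using this

end Dual

section Invariant

variable {k : Type*} [Field k] (Γ : FormalGroup k)

/-- `∂Γ/∂Y (X, 0)`. -/
def dY : PowerSeries k := subst ![PowerSeries.X, 0] (pderiv k 1 Γ.toPowerSeries)

theorem constantCoeff_dY : PowerSeries.constantCoeff (dY Γ) = 1 := by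
  show MvPowerSeries.constantCoeff (dY Γ) = 1
  rw [dY, constantCoeff_subst_zero (fun i => by
    fin_cases i
    · exact PowerSeries.constantCoeff_X
    · exact map_zero (MvPowerSeries.constantCoeff (σ := Unit) (R := k))),
    ← coeff_zero_eq_constantCoeff_apply, coeff_pderiv, zero_add, Γ.lin_coeff_Y]
  simp

/-- The invariant differential `1 / (∂Γ/∂Y)(X, 0)`. -/
def omega : PowerSeries k := (dY Γ)⁻¹

theorem dY_mul_omega : dY Γ * omega Γ = 1 :=
  PowerSeries.mul_inv_cancel _ (by rw [constantCoeff_dY]; exact one_ne_zero)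

theorem subst_dY_mul_omega {τ : Type*} {a : MvPowerSeries τ k} (ha : constantCoeff a = 0) :
    PowerSeries.subst a (dY Γ) * PowerSeries.subst a (omega Γ) = 1 := by
  rw [← PowerSeries.subst_mul (hasSubst_one ha), dY_mul_omega,
    ← PowerSeries.coe_substAlgHom (hasSubst_one ha), map_one]

theorem dY_addition_three :
    PowerSeries.subst (subst ![X 0, X 1] Γ.toPowerSeries : MvPowerSeries (Fin 3) k) (dY Γ) =
      subst ![X 0, X 1] (pderiv k 1 Γ.toPowerSeries) *
        PowerSeries.subst (X 1 : MvPowerSeries (Fin 3) k) (dY Γ) := by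
  set Γ' := Γ.map (dualInl (k := k)) with hΓ'
  set t : MvPowerSeries (Fin 3) (DualNumber k) := C DualNumber.eps * X 2 with ht
  have ht0 : constantCoeff t = 0 := by simp [ht]
  have heps : (C DualNumber.eps : MvPowerSeries (Fin 3) (DualNumber k)) * C DualNumber.eps = 0 := by
    rw [← map_mul, DualNumber.eps_mul_eps, map_zero]
  have ht2 : t * t = 0 := by rw [ht, mul_mul_mul_comm, heps, zero_mul]
  have hstep : ∀ u : MvPowerSeries (Fin 3) k, constantCoeff u = 0 →
      subst ![map dualInl u, t] Γ'.toPowerSeries =
        map dualInl u + map dualInl (PowerSeries.subst u (dY Γ)) * t := by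
    intro u hu
    have hu' : constantCoeff (map (dualInl (k := k)) u) = 0 := by
      rw [constantCoeff_map, hu, map_zero]
    have h := subst_snd_add hu' (map_zero _) ht0 ht2 Γ'.toPowerSeries
    rw [zero_add, FormalGroup.add_zero Γ' (hasSubst_one hu')] at h
    rw [h]
    congr 2
    rw [hΓ', show (Γ.map dualInl).toPowerSeries = map dualInl Γ.toPowerSeries from rfl,
      ← map_pderiv_series, dY, psubst_pair hu PowerSeries.constantCoeff_X (map_zero _),
      PowerSeries.subst_X (hasSubst_one hu),
      psubst_zero_series hu, map_pair dualInl hu (map_zero _), map_zero]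
  have h01 := constantCoeff_pair (constantCoeff_X (0 : Fin 3) (R := k)) (constantCoeff_X 1)
    Γ.zero_constantCoeff
  have hs0 : constantCoeff (X 0 : MvPowerSeries (Fin 3) (DualNumber k)) = 0 := constantCoeff_X 0
  have hs1 : constantCoeff (X 1 : MvPowerSeries (Fin 3) (DualNumber k)) = 0 := constantCoeff_X 1
  have hm : map (dualInl (k := k)) (subst ![X 0, X 1] Γ.toPowerSeries :
      MvPowerSeries (Fin 3) k) = subst ![X 0, X 1] Γ'.toPowerSeries := by
    rw [map_pair _ (constantCoeff_X 0) (constantCoeff_X 1), map_X, map_X]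
    rfl
  have hassoc := FormalGroup.assoc' Γ' (hasSubst_one hs0) (hasSubst_one hs1) (hasSubst_one ht0)
  have hX1 := hstep (X 1) (constantCoeff_X 1)
  rw [map_X] at hX1
  rw [← hm, hstep _ h01, hX1] at hassoc
  have hc : constantCoeff (map dualInl (PowerSeries.subst (X 1 : MvPowerSeries (Fin 3) k) (dY Γ))
      * t) = 0 := by rw [map_mul, ht0, mul_zero]
  rw [subst_snd_add hs0 hs1 hc (by rw [mul_mul_mul_comm, ht2, mul_zero]), hm] at hassoc
  have hd : subst ![X 0, X 1] (pderiv (DualNumber k) 1 Γ'.toPowerSeries) =
      map (dualInl (k := k)) (subst ![X 0, X 1] (pderiv k 1 Γ.toPowerSeries) :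
        MvPowerSeries (Fin 3) k) := by
    rw [map_pair _ (constantCoeff_X 0) (constantCoeff_X 1), map_X, map_X, map_pderiv_series]
    rfl
  rw [hd] at hassoc
  have hfin := add_left_cancel hassoc
  have hX2 : (X 2 : MvPowerSeries (Fin 3) (DualNumber k)) = map dualInl (X 2) := (map_X _ _).symm
  rw [ht, hX2] at hfin
  have hC : C DualNumber.eps * map (dualInl (k := k))
      ((PowerSeries.subst (subst ![X 0, X 1] Γ.toPowerSeries : MvPowerSeries (Fin 3) k) (dY Γ)) *
        X 2) = C DualNumber.eps * map (dualInl (k := k))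
      ((subst ![X 0, X 1] (pderiv k 1 Γ.toPowerSeries) *
        PowerSeries.subst (X 1 : MvPowerSeries (Fin 3) k) (dY Γ)) * X 2) := by
    simp only [map_mul] at hfin ⊢
    linear_combination hfin
  have hne : (X 2 : MvPowerSeries (Fin 3) k) ≠ 0 := fun h => by
    have := congrArg (coeff (Finsupp.single (2 : Fin 3) 1)) h
    simp at this
  exact mul_right_cancel₀ hne (eps_cancel hC)

theorem omega_addition [Γ.IsComm] :
    PowerSeries.subst Γ.toPowerSeries (omega Γ) * pderiv k 1 Γ.toPowerSeries =
        PowerSeries.subst (X (1 : Fin 2)) (omega Γ) ∧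
      PowerSeries.subst Γ.toPowerSeries (omega Γ) * pderiv k 0 Γ.toPowerSeries =
        PowerSeries.subst (X (0 : Fin 2)) (omega Γ) := by
  have hv : HasSubst (![X 0, X 1, 0] : Fin 3 → MvPowerSeries (Fin 2) k) :=
    hasSubst_of_constantCoeff_zero fun i => by fin_cases i <;> simp
  have h := congrArg (subst (![X 0, X 1, 0] : Fin 3 → MvPowerSeries (Fin 2) k))
    (dY_addition_three Γ)
  rw [subst_mul hv, subst_psubst_lt hv (constantCoeff_pair (constantCoeff_X 0) (constantCoeff_X 1)
      Γ.zero_constantCoeff), subst_subst_pair hv (constantCoeff_X 0) (constantCoeff_X 1),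
    subst_subst_pair hv (constantCoeff_X 0) (constantCoeff_X 1),
    subst_psubst_lt hv (constantCoeff_X 1), subst_X hv, subst_X hv] at h
  simp only [Matrix.cons_val_zero, Matrix.cons_val_one] at h
  rw [subst_pair_X, subst_pair_X] at h
  have eY := subst_dY_mul_omega Γ (constantCoeff_X (1 : Fin 2) (R := k))
  have eG := subst_dY_mul_omega Γ Γ.zero_constantCoeff
  rw [h] at eG
  have first : PowerSeries.subst Γ.toPowerSeries (omega Γ) * pderiv k 1 Γ.toPowerSeries =
      PowerSeries.subst (X (1 : Fin 2)) (omega Γ) := by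
    linear_combination PowerSeries.subst (X (1 : Fin 2)) (omega Γ) * eG -
      PowerSeries.subst Γ.toPowerSeries (omega Γ) * pderiv k 1 Γ.toPowerSeries * eY
  refine ⟨first, ?_⟩
  have hw : HasSubst (![X 1, X 0] : Fin 2 → MvPowerSeries (Fin 2) k) :=
    hasSubst_two (constantCoeff_X 1) (constantCoeff_X 0)
  have hsw : subst (![X 1, X 0] : Fin 2 → MvPowerSeries (Fin 2) k) Γ.toPowerSeries =
      Γ.toPowerSeries := (FormalGroup.IsComm.comm (F := Γ)).symm
  have hd : subst (![X 1, X 0] : Fin 2 → MvPowerSeries (Fin 2) k) (pderiv k 1 Γ.toPowerSeries) =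
      pderiv k 0 Γ.toPowerSeries := by
    set Γ' := Γ.map (dualInl (k := k)) with hΓ'
    set t : MvPowerSeries (Fin 3) (DualNumber k) := C DualNumber.eps * X 2 with ht
    have ht0 : constantCoeff t = 0 := by simp [ht]
    have ht2 : t * t = 0 := by
      rw [ht, mul_mul_mul_comm, ← map_mul, DualNumber.eps_mul_eps, map_zero, zero_mul]
    have := (FormalGroup.IsComm.comm (F := Γ))
    have hcomm : Γ'.IsComm := ⟨by
      have hh := congrArg (map (dualInl (k := k))) (FormalGroup.IsComm.comm (F := Γ))
      rw [map_pair _ (constantCoeff_X 1) (constantCoeff_X 0), map_X, map_X] at hh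
      exact hh⟩
    have hs0 : constantCoeff (X 0 : MvPowerSeries (Fin 3) (DualNumber k)) = 0 := constantCoeff_X 0
    have hs1 : constantCoeff (X 1 : MvPowerSeries (Fin 3) (DualNumber k)) = 0 := constantCoeff_X 1
    have e := FormalGroup.comm' Γ' (hasSubst_one hs1)
      (hasSubst_one (show constantCoeff (X 0 + t) = 0 by rw [map_add, hs0, ht0, add_zero]))
    rw [subst_snd_add hs1 hs0 ht0 ht2, subst_fst_add hs0 hs1 ht0 ht2,
      FormalGroup.comm' Γ' (hasSubst_one hs1) (hasSubst_one hs0)] at e
    have hfin := add_left_cancel e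
    have h10 : subst ![X 1, X 0] (pderiv (DualNumber k) 1 Γ'.toPowerSeries) =
        map (dualInl (k := k)) (subst ![X 1, X 0] (pderiv k 1 Γ.toPowerSeries) :
          MvPowerSeries (Fin 3) k) := by
      rw [map_pair _ (constantCoeff_X 1) (constantCoeff_X 0), map_X, map_X, map_pderiv_series]
      rfl
    have h01 : subst ![X 0, X 1] (pderiv (DualNumber k) 0 Γ'.toPowerSeries) =
        map (dualInl (k := k)) (subst ![X 0, X 1] (pderiv k 0 Γ.toPowerSeries) :
          MvPowerSeries (Fin 3) k) := by
      rw [map_pair _ (constantCoeff_X 0) (constantCoeff_X 1), map_X, map_X, map_pderiv_series]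
      rfl
    have hX2 : (X 2 : MvPowerSeries (Fin 3) (DualNumber k)) = map dualInl (X 2) :=
      (map_X _ _).symm
    rw [h10, h01, ht, hX2] at hfin
    have hC : C DualNumber.eps * map (dualInl (k := k))
        ((subst ![X 1, X 0] (pderiv k 1 Γ.toPowerSeries) : MvPowerSeries (Fin 3) k) * X 2) =
        C DualNumber.eps * map (dualInl (k := k))
        ((subst ![X 0, X 1] (pderiv k 0 Γ.toPowerSeries) : MvPowerSeries (Fin 3) k) * X 2) := by
      simp only [map_mul] at hfin ⊢
      linear_combination hfin
    have hne : (X 2 : MvPowerSeries (Fin 3) k) ≠ 0 := fun h => by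
      have := congrArg (coeff (Finsupp.single (2 : Fin 3) 1)) h
      simp at this
    have h3 := congrArg (subst (![X 0, X 1, 0] : Fin 3 → MvPowerSeries (Fin 2) k))
      (mul_right_cancel₀ hne (eps_cancel hC))
    rw [subst_subst_pair hv (constantCoeff_X 1) (constantCoeff_X 0),
      subst_subst_pair hv (constantCoeff_X 0) (constantCoeff_X 1), subst_X hv, subst_X hv] at h3
    simp only [Matrix.cons_val_zero, Matrix.cons_val_one] at h3
    rwa [subst_pair_X] at h3
  have h2 := congrArg (subst (![X 1, X 0] : Fin 2 → MvPowerSeries (Fin 2) k)) first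
  rw [subst_mul hw, subst_psubst_lt hw Γ.zero_constantCoeff, hsw, hd,
    subst_psubst_lt hw (constantCoeff_X 1), subst_X hw] at h2
  simpa using h2

/-- The linearised change of an isomorphism. -/
def linChange (ψ : PowerSeries k) : MvPowerSeries (Fin 2) k :=
  PowerSeries.subst Γ.toPowerSeries ψ -
    pderiv k 0 Γ.toPowerSeries * PowerSeries.subst (X (0 : Fin 2)) ψ -
    pderiv k 1 Γ.toPowerSeries * PowerSeries.subst (X (1 : Fin 2)) ψ

theorem cob_omega_mul [Γ.IsComm] (ψ : PowerSeries k) :
    cob Γ (omega Γ * ψ) = PowerSeries.subst Γ.toPowerSeries (omega Γ) * linChange Γ ψ := by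
  obtain ⟨h1, h0⟩ := omega_addition Γ
  rw [cob, linChange, PowerSeries.subst_mul (hasSubst_one Γ.zero_constantCoeff),
    PowerSeries.subst_mul (hasSubst_one (constantCoeff_X 0)),
    PowerSeries.subst_mul (hasSubst_one (constantCoeff_X 1)), ← h1, ← h0]
  ring

theorem subst_omega_ne_zero :
    PowerSeries.subst Γ.toPowerSeries (omega Γ) ≠ 0 := fun h => by
  have := subst_dY_mul_omega Γ Γ.zero_constantCoeff
  rw [h, mul_zero] at this
  exact zero_ne_one this

end Invariant

section Step

variable {S : Type*} [CommRing S] {k : Type*} [Field k] (ρ : S →+* k) (a : S)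
  (ha : ∀ x, a * x = 0 ↔ ρ x = 0)

include ha

theorem Cmul_eq_zero_iff {σ : Type*} (Z : MvPowerSeries σ S) : C a * Z = 0 ↔ map ρ Z = 0 := by
  simp only [MvPowerSeries.ext_iff, coeff_C_mul, coeff_map, map_zero, ha]

theorem Cmul_eq_iff {σ : Type*} (Z Z' : MvPowerSeries σ S) :
    C a * Z = C a * Z' ↔ map ρ Z = map ρ Z' := by
  rw [← sub_eq_zero, ← mul_sub, Cmul_eq_zero_iff ρ a ha, map_sub, sub_eq_zero]

/-- The residual of an almost homomorphism, normalised by the invariant differential, is a
cocycle. -/
theorem defect_cocycle (haa : a * a = 0) (Γ : FormalGroup k) [Γ.IsComm] (G H : FormalGroup S)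
    [G.IsComm] [H.IsComm] (f : PowerSeries S) (hf : PowerSeries.constantCoeff f = 0)
    (hG : map ρ G.toPowerSeries = Γ.toPowerSeries) (hH : map ρ H.toPowerSeries = Γ.toPowerSeries)
    (hfρ : PowerSeries.map ρ f = PowerSeries.X)
    (C₀ : MvPowerSeries (Fin 2) S) (hC : defect G H f = C a * C₀) :
    IsCocycle Γ (PowerSeries.subst Γ.toPowerSeries (omega Γ) * map ρ C₀) := by
  have hpt : ∀ {τ : Type} {x y : MvPowerSeries τ S}, constantCoeff x = 0 → constantCoeff y = 0 →
      PowerSeries.subst (subst ![x, y] G.toPowerSeries) f =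
        subst ![PowerSeries.subst x f, PowerSeries.subst y f] H.toPowerSeries +
          C a * subst ![x, y] C₀ := by
    intro τ x y hx hy
    have hs := hasSubst_two hx hy
    have h := congrArg (subst ![x, y]) hC
    rw [defect, subst_sub hs, subst_mul hs, subst_C, subst_psubst_lt hs G.zero_constantCoeff,
      subst_subst_pair hs (constantCoeff_one (constantCoeff_X 0) hf)
        (constantCoeff_one (constantCoeff_X 1) hf),
      subst_psubst_lt hs (constantCoeff_X 0), subst_psubst_lt hs (constantCoeff_X 1), subst_X hs,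
      subst_X hs, sub_eq_iff_eq_add'] at h
    simpa using h
  have hρf : ∀ {τ : Type} (x : MvPowerSeries τ S), constantCoeff x = 0 →
      map ρ (PowerSeries.subst x f) = map ρ x := fun x hx => by
    rw [map_psubst ρ hx, hfρ, PowerSeries.subst_X]
    exact hasSubst_one (by rw [constantCoeff_map, hx, map_zero])
  set C' := map ρ C₀ with hC'
  have hfX : ∀ i : Fin 2, constantCoeff (PowerSeries.subst (X i : MvPowerSeries (Fin 2) S) f) = 0 :=
    fun i => constantCoeff_one (constantCoeff_X i) hf
  have hax0 : subst ![(X 0 : MvPowerSeries (Fin 2) k), 0] C' = 0 := by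
    have h := hpt (x := (X 0 : MvPowerSeries (Fin 2) S)) (y := 0) (constantCoeff_X 0) (map_zero _)
    rw [FormalGroup.add_zero G (hasSubst_one (constantCoeff_X 0)),
      PowerSeries.subst_zero_of_constantCoeff_zero hf,
      FormalGroup.add_zero H (hasSubst_one (hfX 0)),
      left_eq_add, Cmul_eq_zero_iff ρ a ha,
      map_pair ρ (constantCoeff_X 0) (map_zero _), map_zero, map_X] at h
    exact h
  have hax1 : subst ![0, (X 1 : MvPowerSeries (Fin 2) k)] C' = 0 := by
    have h := hpt (x := 0) (y := (X 1 : MvPowerSeries (Fin 2) S)) (map_zero _) (constantCoeff_X 1)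
    rw [FormalGroup.zero_add G (hasSubst_one (constantCoeff_X 1)),
      PowerSeries.subst_zero_of_constantCoeff_zero hf,
      FormalGroup.zero_add H (hasSubst_one (hfX 1)),
      left_eq_add, Cmul_eq_zero_iff ρ a ha,
      map_pair ρ (map_zero _) (constantCoeff_X 1), map_zero, map_X] at h
    exact h
  have hk0 : constantCoeff (0 : MvPowerSeries (Fin 2) k) = 0 := map_zero _
  have hC0 : constantCoeff C' = 0 := by
    rw [← constantCoeff_subst_zero (g := ![(X 0 : MvPowerSeries (Fin 2) k), 0]) (fun i => by
      fin_cases i <;> simp) C', hax0, map_zero]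
  have hu0 : PowerSeries.constantCoeff (0 : PowerSeries k) = 0 := map_zero _
  have hsu : HasSubst ![(PowerSeries.X : PowerSeries k), PowerSeries.X] :=
    hasSubst_two PowerSeries.constantCoeff_X PowerSeries.constantCoeff_X
  have haxis0 : subst ![(PowerSeries.X : PowerSeries k), 0] C' = (0 : PowerSeries k) := by
    have h := congrArg (subst ![(PowerSeries.X : PowerSeries k), PowerSeries.X]) hax0
    rw [subst_subst_pair hsu (constantCoeff_X 0) hk0, subst_X hsu,
      ← coe_substAlgHom hsu, map_zero] at h
    simpa using h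
  have haxis1 : subst ![0, (PowerSeries.X : PowerSeries k)] C' = (0 : PowerSeries k) := by
    have h := congrArg (subst ![(PowerSeries.X : PowerSeries k), PowerSeries.X]) hax1
    rw [subst_subst_pair hsu hk0 (constantCoeff_X 1), subst_X hsu,
      ← coe_substAlgHom hsu, map_zero] at h
    simpa using h
  have hlow : ∀ d : Fin 2 →₀ ℕ, d.degree < 2 → coeff d C' = 0 := by
    intro d hd
    have h0 := congrArg (PowerSeries.coeff 1) haxis0
    have h1 := congrArg (PowerSeries.coeff 1) haxis1
    rw [coeff_one_pair PowerSeries.constantCoeff_X (map_zero _) hC0] at h0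
    rw [coeff_one_pair (map_zero _) PowerSeries.constantCoeff_X hC0] at h1
    simp at h0 h1
    rw [Finsupp.degree_eq_sum, Fin.sum_univ_two] at hd
    by_cases ha0 : d 0 = 1
    · have : d = Finsupp.single 0 1 := Finsupp.ext fun i => by fin_cases i <;> simp <;> omega
      rw [this, h0]
    · by_cases ha1 : d 1 = 1
      · have : d = Finsupp.single 1 1 := Finsupp.ext fun i => by fin_cases i <;> simp <;> omega
        rw [this, h1]
      · have : d = 0 := Finsupp.ext fun i => by fin_cases i <;> simp <;> omega
        rw [this, coeff_zero_eq_constantCoeff_apply, hC0]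
  have hω2 : ∀ {τ : Type} {x y : MvPowerSeries τ k}, constantCoeff x = 0 →
      constantCoeff y = 0 →
      subst ![x, y] (PowerSeries.subst Γ.toPowerSeries (omega Γ)) =
        PowerSeries.subst (subst ![x, y] Γ.toPowerSeries) (omega Γ) := fun hx hy =>
    subst_psubst_lt (hasSubst_two hx hy) Γ.zero_constantCoeff _
  refine ⟨?_, ?_, ?_⟩
  · intro d hd
    classical
    rw [coeff_mul]
    refine Finset.sum_eq_zero fun x hx => ?_
    rw [Finset.HasAntidiagonal.mem_antidiagonal] at hx
    rw [hlow x.2 (lt_of_le_of_lt (by rw [← hx, map_add]; omega) hd), mul_zero]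
  · have hs : HasSubst (![X 1, X 0] : Fin 2 → MvPowerSeries (Fin 2) k) :=
      hasSubst_two (constantCoeff_X 1) (constantCoeff_X 0)
    rw [subst_mul hs, hω2 (constantCoeff_X 1) (constantCoeff_X 0),
      ← (FormalGroup.IsComm.comm (F := Γ))]
    congr 1
    have h := hpt (τ := Fin 2) (constantCoeff_X (1 : Fin 2)) (constantCoeff_X (0 : Fin 2))
    rw [← (FormalGroup.IsComm.comm (F := G)), FormalGroup.comm' H
        (hasSubst_one (constantCoeff_one (constantCoeff_X 1) hf))
        (hasSubst_one (constantCoeff_one (constantCoeff_X 0) hf)),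
      ← sub_eq_iff_eq_add', ← defect, hC, Cmul_eq_iff ρ a ha,
      map_pair ρ (constantCoeff_X 1) (constantCoeff_X 0), map_X, map_X] at h
    exact h.symm
  · have hx := constantCoeff_X (R := S) (0 : Fin 3)
    have hy := constantCoeff_X (R := S) (1 : Fin 3)
    have hz := constantCoeff_X (R := S) (2 : Fin 3)
    have hfx := constantCoeff_one hx hf
    have hfy := constantCoeff_one hy hf
    have hfz := constantCoeff_one hz hf
    have hgxy := constantCoeff_pair hx hy G.zero_constantCoeff
    have hgyz := constantCoeff_pair hy hz G.zero_constantCoeff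
    have hHxy := constantCoeff_pair hfx hfy H.zero_constantCoeff
    have hHyz := constantCoeff_pair hfy hfz H.zero_constantCoeff
    have hsmall : ∀ {Z : MvPowerSeries (Fin 3) S}, constantCoeff Z = 0 →
        constantCoeff (C a * Z) = 0 := fun hZ => by simp [hZ]
    have hCc : ∀ {u v : MvPowerSeries (Fin 3) S}, constantCoeff u = 0 → constantCoeff v = 0 →
        constantCoeff (C a * subst ![u, v] C₀) = 0 := fun {u v} hu hv => by
      have h := congrArg constantCoeff (hpt hu hv)
      rw [map_add, constantCoeff_one (constantCoeff_pair hu hv G.zero_constantCoeff) hf,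
        constantCoeff_pair (constantCoeff_one hu hf) (constantCoeff_one hv hf)
          H.zero_constantCoeff, zero_add] at h
      exact h.symm
    have hsq : ∀ Z : MvPowerSeries (Fin 3) S, C a * Z * (C a * Z) = 0 := fun Z => by
      rw [mul_mul_mul_comm, ← map_mul, haa, map_zero, zero_mul]
    have hA := hpt hgxy hz
    have hB := hpt hx hgyz
    rw [hpt hx hy, subst_fst_add hHxy hfz (hCc hx hy) (hsq _)] at hA
    rw [hpt hy hz, subst_snd_add hfx hHyz (hCc hy hz) (hsq _)] at hB
    rw [FormalGroup.assoc' G (hasSubst_one hx) (hasSubst_one hy) (hasSubst_one hz)] at hA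
    have e := hA.symm.trans hB
    rw [FormalGroup.assoc' H (hasSubst_one hfx) (hasSubst_one hfy) (hasSubst_one hfz)] at e
    set x : MvPowerSeries (Fin 3) S := X 0 with hxd
    set y : MvPowerSeries (Fin 3) S := X 1 with hyd
    set z : MvPowerSeries (Fin 3) S := X 2 with hzd
    have e' : C a * (subst ![subst ![PowerSeries.subst x f, PowerSeries.subst y f]
          H.toPowerSeries, PowerSeries.subst z f] (pderiv S 0 H.toPowerSeries) *
            subst ![x, y] C₀ + subst ![subst ![x, y] G.toPowerSeries, z] C₀) =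
        C a * (subst ![PowerSeries.subst x f, subst ![PowerSeries.subst y f,
          PowerSeries.subst z f] H.toPowerSeries] (pderiv S 1 H.toPowerSeries) *
            subst ![y, z] C₀ + subst ![x, subst ![y, z] G.toPowerSeries] C₀) := by
      linear_combination e
    rw [Cmul_eq_iff ρ a ha] at e'
    simp only [map_add, map_mul, map_pair ρ hHxy hfz, map_pair ρ hfx hHyz, map_pair ρ hx hy,
      map_pair ρ hy hz, map_pair ρ hgxy hz, map_pair ρ hx hgyz, map_pair ρ hfx hfy,
      map_pair ρ hfy hfz, map_pderiv_series, hρf _ hx, hρf _ hy, hρf _ hz, hG, hH,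
      ← hC'] at e'
    simp only [hxd, hyd, hzd, map_X] at e'
    have kx := constantCoeff_X (R := k) (0 : Fin 3)
    have ky := constantCoeff_X (R := k) (1 : Fin 3)
    have kz := constantCoeff_X (R := k) (2 : Fin 3)
    have kxy := constantCoeff_pair kx ky Γ.zero_constantCoeff
    have kyz := constantCoeff_pair ky kz Γ.zero_constantCoeff
    obtain ⟨h1, h0⟩ := omega_addition Γ
    have hsL := hasSubst_two kxy kz
    have hsR := hasSubst_two kx kyz
    have w0 := congrArg (subst ![subst ![X 0, X 1] Γ.toPowerSeries,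
      (X 2 : MvPowerSeries (Fin 3) k)]) h0
    have w1 := congrArg (subst ![(X 0 : MvPowerSeries (Fin 3) k),
      subst ![X 1, X 2] Γ.toPowerSeries]) h1
    rw [subst_mul hsL, hω2 kxy kz, subst_psubst_lt hsL (constantCoeff_X 0), subst_X hsL] at w0
    rw [subst_mul hsR, hω2 kx kyz, subst_psubst_lt hsR (constantCoeff_X 1), subst_X hsR] at w1
    simp only [Matrix.cons_val_zero, Matrix.cons_val_one, Matrix.cons_val_fin_one] at w0 w1
    rw [FormalGroup.assoc' Γ (hasSubst_one kx) (hasSubst_one ky) (hasSubst_one kz)] at w0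
    simp only [subst_mul (hasSubst_two ky kz), subst_mul (hasSubst_two kx kyz),
      subst_mul (hasSubst_two kxy kz), subst_mul (hasSubst_two kx ky), hω2 ky kz, hω2 kx kyz,
      hω2 kxy kz, hω2 kx ky,
      FormalGroup.assoc' Γ (hasSubst_one kx) (hasSubst_one ky) (hasSubst_one kz)]
    linear_combination -(PowerSeries.subst (subst ![(X 0 : MvPowerSeries (Fin 3) k),
        subst ![X 1, X 2] Γ.toPowerSeries] Γ.toPowerSeries) (omega Γ)) * e'
      + subst ![(X 0 : MvPowerSeries (Fin 3) k), X 1] C' * w0
      - subst ![(X 1 : MvPowerSeries (Fin 3) k), X 2] C' * w1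

end Step

end Vale.P217

end
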