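import Vale.Agent.P217.LubinTateLift
import Vale.Agent.P217.Coord
import Mathlib.RingTheory.AdicCompletion.RingHom

/-!
Ring maps out of power series rings by evaluation, and the classification of deformations of the
Honda law by such maps.
-/

noncomputable section

namespace Vale.P217

open MvPowerSeries IsLocalRing

section Eval

variable {d : ℕ} {A R : Type*} [CommRing A] [CommRing R]

theorem eval₂_mem_pow (ι : A →+* R) (I : Ideal R) (u : Fin d → R) (hu : ∀ i, u i ∈ I) (N : ℕ)
    (P : MvPolynomial (Fin d) A) (hP : ∀ e : Fin d →₀ ℕ, e.degree < N → P.coeff e = 0) :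
    MvPolynomial.eval₂ ι u P ∈ I ^ N := by
  rw [MvPolynomial.eval₂_eq']
  refine Ideal.sum_mem _ fun e he => Ideal.mul_mem_left _ _ ?_
  have hdeg : N ≤ e.degree := by
    by_contra h
    exact (MvPolynomial.mem_support_iff.1 he) (hP e (by omega))
  refine Ideal.pow_le_pow_right hdeg ?_
  rw [Finsupp.degree_eq_sum, ← Finset.prod_pow_eq_pow_sum]
  exact Ideal.prod_mem_prod fun i _ => Ideal.pow_mem_pow (hu i) _

/-- Evaluation at a point of `I`, modulo `I ^ N`. -/
def evalQuot (ι : A →+* R) (I : Ideal R) (u : Fin d → R) (hu : ∀ i, u i ∈ I) (N : ℕ) :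
    MvPowerSeries (Fin d) A →+* R ⧸ I ^ N where
  toFun f := Ideal.Quotient.mk _ (MvPolynomial.eval₂ ι u (truncTotal N f))
  map_one' := by
    rcases N.eq_zero_or_pos with rfl | hN
    · exact Ideal.Quotient.eq.2 (by simp)
    · rw [truncTotal_one (by omega), MvPolynomial.eval₂_one, map_one]
  map_mul' f g := by
    rw [← map_mul, ← MvPolynomial.eval₂_mul, Ideal.Quotient.eq, ← MvPolynomial.coe_eval₂Hom,
      ← map_sub]
    refine eval₂_mem_pow ι I u hu N _ fun e he => ?_
    rw [MvPolynomial.coeff_sub, coeff_truncTotal _ he]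
    exact sub_eq_zero.2 (coeff_truncTotal_mul_truncTotal_eq_coeff_mul f g he).symm
  map_zero' := by simp
  map_add' f g := by simp

theorem exists_eval (ι : A →+* R) (I : Ideal R) [IsAdicComplete I R] (u : Fin d → R)
    (hu : ∀ i, u i ∈ I) :
    ∃ α : MvPowerSeries (Fin d) A →+* R, α.comp C = ι ∧ ∀ i, α (X i) = u i := by
  have hf : ∀ {a b : ℕ} (hle : a ≤ b),
      (Ideal.Quotient.factorPow I hle).comp (evalQuot ι I u hu b) = evalQuot ι I u hu a := by
    intro a b hle
    refine RingHom.ext fun f => ?_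
    simp only [RingHom.comp_apply, evalQuot, RingHom.coe_mk, MonoidHom.coe_mk, OneHom.coe_mk,
      Ideal.Quotient.factor_mk]
    rw [Ideal.Quotient.eq, ← MvPolynomial.coe_eval₂Hom, ← map_sub]
    refine eval₂_mem_pow ι I u hu a _ fun e he => ?_
    rw [MvPolynomial.coeff_sub, coeff_truncTotal _ (lt_of_lt_of_le he hle), coeff_truncTotal _ he,
      sub_self]
  refine ⟨IsAdicComplete.liftRingHom I _ hf, RingHom.ext fun w => ?_, fun i => ?_⟩
  · refine IsHausdorff.funext' I (fun N m => ?_) |> fun h => congrFun h w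
    simp only [RingHom.comp_apply, IsAdicComplete.mk_liftRingHom, evalQuot, RingHom.coe_mk,
      MonoidHom.coe_mk, OneHom.coe_mk]
    rw [Ideal.Quotient.eq]
    rcases N.eq_zero_or_pos with rfl | hN
    · simp
    · rw [← MvPolynomial.coe_C, (truncTotal_coe_eq_self_iff _ (by omega)).2 (by
        simp [MvPolynomial.totalDegree_C]; omega), MvPolynomial.eval₂_C, sub_self]
      exact Ideal.zero_mem _
  · suffices h : (fun _ : Unit => IsAdicComplete.liftRingHom I _ hf (X i)) = fun _ => u i from
      congrFun h ()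
    refine IsHausdorff.funext' I fun N m => ?_
    simp only [IsAdicComplete.mk_liftRingHom, evalQuot, RingHom.coe_mk, MonoidHom.coe_mk,
      OneHom.coe_mk]
    rw [Ideal.Quotient.eq]
    rcases Nat.lt_or_ge 1 N with hN | hN
    · rw [show truncTotal N (X i : MvPowerSeries (Fin d) A) = MvPolynomial.X i from ?_,
        MvPolynomial.eval₂_X, sub_self]
      · exact Ideal.zero_mem _
      · refine MvPolynomial.ext _ _ fun e => ?_
        by_cases he : e.degree < N
        · rw [coeff_truncTotal _ he, ← MvPolynomial.coe_X, MvPolynomial.coeff_coe]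
        · rw [coeff_truncTotal_eq_zero _ (by omega), MvPolynomial.coeff_X', if_neg]
          intro h
          rw [← h, Finsupp.degree_single] at he
          omega
    · refine Ideal.pow_le_pow_right hN ?_
      rw [pow_one]
      refine sub_mem ?_ (hu i)
      have := eval₂_mem_pow ι I u hu 1 (truncTotal N (X i : MvPowerSeries (Fin d) A)) fun e he => by
        by_cases h : e.degree < N
        · rw [coeff_truncTotal _ h, (Finsupp.degree_eq_zero_iff e).1 (by omega),
            coeff_zero_eq_constantCoeff_apply, constantCoeff_X]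
        · exact coeff_truncTotal_eq_zero _ (by omega)
      simpa using this

theorem map_sub_truncTotal_mem (α : MvPowerSeries (Fin d) A →+* R) (I : Ideal R)
    (hα : ∀ i, α (X i) ∈ I) (N : ℕ) (f : MvPowerSeries (Fin d) A) :
    α (f - (truncTotal N f : MvPolynomial (Fin d) A)) ∈ I ^ N := by
  have h : f - (truncTotal N f : MvPolynomial (Fin d) A) ∈
      Ideal.span (Set.range fun i => (X i : MvPowerSeries (Fin d) A)) ^ N :=
    mem_pow_of_coeff_eq_zero _ (fun i => Ideal.subset_span (Set.mem_range_self i)) N _ fun e he => by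
      rw [map_sub, MvPolynomial.coeff_coe, coeff_truncTotal _ he, sub_self]
  have h2 := Ideal.mem_map_of_mem α h
  rw [Ideal.map_pow] at h2
  refine Ideal.pow_right_mono ?_ N h2
  rw [Ideal.map_span, Ideal.span_le]
  rintro _ ⟨_, ⟨i, rfl⟩, rfl⟩
  exact hα i

theorem hom_congr_mod (α β : MvPowerSeries (Fin d) A →+* R) (I : Ideal R)
    (hC : α.comp C = β.comp C) (hα : ∀ i, α (X i) ∈ I) (hβ : ∀ i, β (X i) ∈ I) (N : ℕ)
    (hX : ∀ i, α (X i) - β (X i) ∈ I ^ N) (f : MvPowerSeries (Fin d) A) :
    α f - β f ∈ I ^ N := by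
  have h : (Ideal.Quotient.mk (I ^ N)).comp (α.comp MvPolynomial.coeToMvPowerSeries.ringHom) =
      (Ideal.Quotient.mk (I ^ N)).comp (β.comp MvPolynomial.coeToMvPowerSeries.ringHom) := by
    refine MvPolynomial.ringHom_ext (fun a => ?_) fun i => ?_
    · have := RingHom.congr_fun hC a
      simp only [RingHom.comp_apply] at this
      simp [MvPolynomial.coe_C, this]
    · simpa [MvPolynomial.coe_X, Ideal.Quotient.eq] using hX i
  have h2 := RingHom.congr_fun h (truncTotal N f)
  simp only [RingHom.comp_apply, MvPolynomial.coeToMvPowerSeries.ringHom_apply,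
    Ideal.Quotient.eq] at h2
  have := sub_mem (add_mem (map_sub_truncTotal_mem α I hα N f) h2)
    (map_sub_truncTotal_mem β I hβ N f)
  rw [map_sub, map_sub] at this
  convert! this using 1
  ring

theorem hom_ext_of_complete (α β : MvPowerSeries (Fin d) A →+* R) (I : Ideal R) [IsHausdorff I R]
    (hC : α.comp C = β.comp C) (hα : ∀ i, α (X i) ∈ I) (hX : ∀ i, α (X i) = β (X i)) : α = β :=
  RingHom.ext fun f => sub_eq_zero.1 <| IsHausdorff.haus (inferInstance : IsHausdorff I R) _
    fun N => by
      rw [SModEq.sub_mem, sub_zero, smul_eq_mul, Ideal.mul_top]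
      exact hom_congr_mod α β I hC hα (fun i => hX i ▸ hα i) N (fun i => by simp [hX i]) f

end Eval

variable (p : ℕ) [Fact p.Prime] (n : ℕ)

theorem baseChange_honda :
    baseChange p n (fg p n (0 : Fin (n - 1) → ZMod p)) = hondaLaw p n (GaloisField p n) := by
  rw [baseChange, fg_map]
  congr 1
  exact funext fun i => map_zero _

theorem map_baseChange (τ : GaloisField p n →+* GaloisField p n) (Γ : FormalGroup (ZMod p)) :
    (baseChange p n Γ).map τ = baseChange p n Γ := by
  refine FormalGroup.ext ?_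
  show MvPowerSeries.map τ (MvPowerSeries.map _ _) = MvPowerSeries.map _ _
  rw [map_map_series, Subsingleton.elim (τ.comp (algebraMap (ZMod p) (GaloisField p n)))
    (algebraMap _ _)]

theorem residueMap_C (w : Coef p n) : residueMap p n (C w) = WittVector.constantCoeff w := by
  simp [residueMap]

theorem residueMap_X (i : Fin (n - 1)) : residueMap p n (X i) = 0 := by simp [residueMap]

theorem residueMap_surjective : Function.Surjective (residueMap p n) := fun a =>
  ⟨C (WittVector.teichmuller p a), by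
    rw [residueMap_C]
    exact WittVector.teichmuller_coeff_zero p a⟩

theorem residueMap_map_eq (R : Type*) [CommRing R] [IsLocalRing R]
    (ι : Coef p n →+* R) (ρ : R →+* GaloisField p n) (hρ : Function.Surjective ρ)
    (σ : GaloisField p n →+* GaloisField p n)
    (hι : ρ.comp ι = σ.comp WittVector.constantCoeff)
    (α : LTRing p n →+* R) (hC : α.comp C = ι) (hX : ∀ i, α (X i) ∈ maximalIdeal R)
    (x : LTRing p n) : ρ (α x) = σ (residueMap p n x) := by
  have h : ρ (α (x - C (constantCoeff x))) = 0 := by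
    rw [residue_eq_zero_iff ρ hρ]
    have h1 : x - C (constantCoeff x) ∈
        Ideal.span (Set.range fun i => (X i : LTRing p n)) ^ 1 :=
      mem_pow_of_coeff_eq_zero _ (fun i => Ideal.subset_span (Set.mem_range_self i)) 1 _ fun e he => by
        rw [(Finsupp.degree_eq_zero_iff e).1 (by omega)]
        simp
    rw [pow_one] at h1
    have h2 := Ideal.mem_map_of_mem α h1
    rw [Ideal.map_span] at h2
    refine Ideal.span_le.2 ?_ h2
    rintro _ ⟨_, ⟨i, rfl⟩, rfl⟩
    exact hX i
  rw [map_sub, map_sub, sub_eq_zero] at h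
  rw [h, show α (C (constantCoeff x)) = ι (constantCoeff x) from RingHom.congr_fun hC _,
    show ρ (ι (constantCoeff x)) = σ (WittVector.constantCoeff (constantCoeff x)) from
      RingHom.congr_fun hι _]
  rfl

/-- Classification of deformations of the Honda law. -/
theorem classify (hn : 1 ≤ n) (R : Type*) [CommRing R] [IsLocalRing R] [IsNoetherianRing R]
    [IsAdicComplete (maximalIdeal R) R] (ι : Coef p n →+* R) (ρ : R →+* GaloisField p n)
    (hρ : Function.Surjective ρ) (hι : ρ.comp ι = WittVector.constantCoeff)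
    (G : FormalGroup R) [G.IsComm] (hG : G.map ρ = hondaLaw p n (GaloisField p n)) :
    ∃! α : LTRing p n →+* R, α.comp C = ι ∧ ρ.comp α = residueMap p n ∧
      ∃ f, IsIsoSeries G ((fg p n fun i => (X i : LTRing p n)).map α) f ∧
        PowerSeries.map ρ f = PowerSeries.X := by
  obtain ⟨u, hu, f, hf, hfρ⟩ := exists_classify p n ρ hn hρ G hG
  obtain ⟨α, hC, hX⟩ := exists_eval ι (maximalIdeal R) u hu
  have hαu : (fun i => α (X i)) = u := funext hX
  refine ⟨α, ⟨hC, RingHom.ext fun x => ?_, f, ?_, hfρ⟩, ?_⟩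
  · exact residueMap_map_eq p n R ι ρ hρ (RingHom.id _) hι α hC (fun i => hX i ▸ hu i) x
  · rw [fg_map]
    exact (show fg p n (α ∘ fun i => X i) = fg p n u from congrArg (fg p n) hαu) ▸ hf
  rintro β ⟨hCβ, hρβ, f', hf', hfρ'⟩
  have hXβ : ∀ i, β (X i) ∈ maximalIdeal R := fun i => by
    rw [← residue_eq_zero_iff ρ hρ, ← RingHom.comp_apply, hρβ, residueMap_X]
  refine hom_ext_of_complete β α (maximalIdeal R) (hCβ.trans hC.symm) hXβ fun i => ?_
  rw [fg_map] at hf'
  refine eq_of_forall_sub_mem fun M => ?_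
  rw [hX i]
  exact (classify_unique_mod p n ρ hn hρ G hG M u (fun i => β (X i)) hu hXβ f f' hf.1.1 hf'.1.1 hfρ
    hfρ' (modHom_of_isHomSeries _ hf.1) (modHom_of_isHomSeries _ hf'.1)).1 i

theorem isUniversal_fg (hn : 1 ≤ n) :
    IsUniversalDeformation p n (fg p n (0 : Fin (n - 1) → ZMod p))
      (fg p n fun i => (X i : LTRing p n)) := by
  refine ⟨inferInstance, ?_, ?_⟩
  · rw [fg_map, baseChange_honda]
    congr 1
    exact funext (residueMap_X p n)
  intro R _ _ _ _ _ ρ hρ hι G hG hGρ
  rw [baseChange_honda] at hGρ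
  obtain ⟨α, ⟨hC, hα⟩, huniq⟩ := classify p n hn R (algebraMap (Coef p n) R) ρ hρ hι G hGρ
  refine ⟨⟨α, fun w => ?_⟩, hα, fun β hβ => ?_⟩
  · exact RingHom.congr_fun hC w
  · refine AlgHom.ext fun x => RingHom.congr_fun (huniq β.toRingHom ⟨RingHom.ext fun w => ?_, hβ⟩) x
    exact β.commutes w

/-- Universality, for an arbitrary structure map. -/
theorem universal_apply {Γ : FormalGroup (ZMod p)} {F : FormalGroup (LTRing p n)}
    (hF : IsUniversalDeformation p n Γ F) {R : Type} [CommRing R] [IsLocalRing R]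
    [IsNoetherianRing R] [IsAdicComplete (maximalIdeal R) R] (ι : Coef p n →+* R)
    (ρ : R →+* GaloisField p n) (hρ : Function.Surjective ρ)
    (hι : ρ.comp ι = WittVector.constantCoeff) (G : FormalGroup R) (hG : G.IsComm)
    (hGρ : G.map ρ = baseChange p n Γ) :
    ∃! α : LTRing p n →+* R, α.comp C = ι ∧ ρ.comp α = residueMap p n ∧
      ∃ f, IsIsoSeries G (F.map α) f ∧ PowerSeries.map ρ f = PowerSeries.X := by
  letI := ι.toAlgebra
  obtain ⟨α, hα, huniq⟩ := hF.2.2 R ρ hρ hι G hG hGρ
  refine ⟨α.toRingHom, ⟨RingHom.ext fun w => α.commutes w, hα⟩, fun β ⟨hC, hβ⟩ => ?_⟩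
  have := huniq ⟨β, fun w => RingHom.congr_fun hC w⟩ hβ
  exact congrArg AlgHom.toRingHom this

end Vale.P217

end
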