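import Mathlib.Analysis.Normed.Field.Dense
import Mathlib.Analysis.Normed.Field.WithAbs
import Mathlib.Analysis.Normed.Unbundled.SpectralNorm
import Mathlib.Analysis.Normed.Module.Completion
import Mathlib.Analysis.Normed.Field.Instances
import Mathlib.Analysis.Normed.Field.Ultra
import Mathlib.FieldTheory.Perfect
import Mathlib.FieldTheory.IsAlgClosed.AlgebraicClosure

/-!
Completed algebraic closure of an absolute value, in any characteristic.
-/

noncomputable section

namespace Vale.P217

open Polynomial

/-- A complete ultrametric field with a dense algebraically closed subfield is perfect. -/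
theorem perfectField_of_dense {K L : Type*} [Field K] [NontriviallyNormedField L]
    [CompleteSpace L] [Algebra K L] (hi : DenseRange (algebraMap K L)) [IsAlgClosed K] :
    PerfectField L := by
  obtain ⟨q, hq⟩ := CharP.exists L
  rcases CharP.char_is_prime_or_zero L q with hqp | rfl
  · have : Fact q.Prime := ⟨hqp⟩
    have : ExpChar L q := ExpChar.prime hqp
    have hsurj : Function.Surjective (fun x : L => x ^ q) := by
      intro y
      have hy := hi y
      rw [mem_closure_iff_seq_limit] at hy
      obtain ⟨u, hu, hlim⟩ := hy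
      choose a ha using hu
      choose b hb using fun i => IsAlgClosed.exists_pow_nat_eq (a i) hqp.pos
      have hcauchy : CauchySeq fun i => algebraMap K L (b i) := by
        rw [Metric.cauchySeq_iff]
        intro ε hε
        obtain ⟨N, hN⟩ := Metric.cauchySeq_iff.1 hlim.cauchySeq (ε ^ q) (by positivity)
        refine ⟨N, fun i hi j hj => ?_⟩
        have h := hN i hi j hj
        rw [dist_eq_norm, ← ha i, ← ha j, ← hb i, ← hb j, map_pow, map_pow,
          ← sub_pow_expChar, norm_pow] at h
        rw [dist_eq_norm]
        exact lt_of_pow_lt_pow_left₀ q hε.le h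
      obtain ⟨x, hx⟩ := cauchySeq_tendsto_of_complete hcauchy
      refine ⟨x, tendsto_nhds_unique (hx.pow q) ?_⟩
      refine hlim.congr fun i => ?_
      rw [← map_pow, hb, ha]
    have : PerfectRing L q := PerfectRing.ofSurjective L q hsurj
    exact PerfectRing.toPerfectField L q
  · have : CharZero L := CharP.charP_to_charZero L
    infer_instance

/-- A version of `IsAlgClosed.of_denseRange` without the characteristic zero hypothesis (same
proof: separability comes from perfectness). -/
theorem isAlgClosed_of_dense {K L : Type*} [Field K] [NontriviallyNormedField L]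
    [CompleteSpace L] [IsUltrametricDist L] [Algebra K L]
    (hi : DenseRange (algebraMap K L)) [IsAlgClosed K] : IsAlgClosed L := by
  have : PerfectField L := perfectField_of_dense hi
  apply IsAlgClosed.of_exists_root
  intro f fmon firr
  have fnatdeg0 : f.natDegree ≠ 0 := (Irreducible.natDegree_pos firr).ne'
  let F := f.SplittingField
  let : NormedField F := spectralNorm.normedField L F
  let : NormedAlgebra L F := spectralNorm.normedAlgebra L F
  let a := rootOfSplits (SplittingField.splits f)
      (by simpa using degree_ne_of_natDegree_ne fnatdeg0)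
  have fa0 : f.aeval a = 0 := by
    rw [← eval_map_algebraMap]
    exact eval_rootOfSplits (Polynomial.SplittingField.splits f)
      (by simpa using degree_ne_of_natDegree_ne fnatdeg0)
  classical
    let S : Finset F := {x ∈ (f.rootSet F).toFinset | x ≠ a}
  let δ : ℝ := if hS : S.Nonempty then Finset.min' (S.image fun x => ‖a - x‖)
      (Finset.image_nonempty.mpr hS) else 1
  have norm_sub_le : ∀ a' : F, IsConjRoot L a a' → a ≠ a' → δ ≤ ‖a - a'‖ := by
    intro a' conj ne
    by_cases hS : S.Nonempty <;> simp only [hS, ↓reduceDIte, δ]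
    · apply Finset.min'_le (S.image fun x => ‖a - x‖) (‖a - a'‖)
      apply Finset.mem_image_of_mem
      simp only [minpoly.eq_of_irreducible_of_monic firr fa0 fmon, Finset.mem_filter,
        Set.mem_toFinset, S]
      rw [← (isConjRoot_iff_mem_minpoly_rootSet ⟨f, fmon, fa0⟩)]
      exact ⟨conj, ne.symm⟩
    · simp only [ne_eq, Finset.not_nonempty_iff_eq_empty, Finset.filter_eq_empty_iff,
      Set.mem_toFinset, not_not, S] at hS
      rw [isConjRoot_iff_mem_minpoly_rootSet ⟨f, fmon, fa0⟩,
          ← minpoly.eq_of_irreducible_of_monic firr fa0 fmon] at conj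
      exact (ne (hS conj).symm).elim
  have δpos : δ > 0 := by
    by_cases hS : S.Nonempty <;> simp only [hS, ↓reduceDIte, δ]
    · simp only [gt_iff_lt, Finset.lt_min'_iff, Finset.mem_image, forall_exists_index, and_imp,
        forall_apply_eq_imp_iff₂]
      rintro a' ha'
      simp only [Finset.mem_filter, Set.mem_toFinset, S] at ha'
      rw [norm_pos_iff, sub_ne_zero]
      exact ha'.2.symm
    · linarith
  have hε : (δ / (max ‖a‖ 1)) ^ f.natDegree / (f.natDegree + 1) > 0 := by positivity
  obtain ⟨g, gmon, gdeg, gcoeff⟩ :=
    exists_monic_and_natDegree_eq_and_norm_map_algebraMap_coeff_sub_lt hi fmon hε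
  let ⟨b, hb, hab⟩ := exists_aroots_norm_sub_lt_of_norm_coeff_sub_lt
      hε fa0 fmon (gmon.map _) (gdeg ▸ (g.natDegree_map _)) gcoeff
      (by simpa [Polynomial.map_map] using (IsAlgClosed.splits g).map ((algebraMap L F).comp _))
  have hab : ‖a - b‖ < δ := by
    rw [← Real.rpow_natCast, ← mul_comm_div, div_self, one_mul,
        ← Real.rpow_mul (div_pos δpos (by positivity)).le, mul_inv_cancel₀] at hab
    · simpa [mul_assoc, div_mul_cancel₀ _ (by positivity : (max ‖a‖ 1) > 0).ne'] using hab
    · simp [fnatdeg0]
    · positivity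
  have bbot : b ∈ (⊥ : IntermediateField L F) := by
    rw [Polynomial.aroots_def, Splits.roots_map ((IsAlgClosed.splits g).map _),
        Multiset.mem_map] at hb
    obtain ⟨bCp, _, hbCp⟩ := hb
    rw [IntermediateField.mem_bot]
    exact ⟨bCp, hbCp⟩
  simp only [Polynomial.mem_roots', ne_eq, Polynomial.map_eq_zero, Polynomial.IsRoot.def,
    Polynomial.eval_map_algebraMap] at hb
  have abot : a ∈ (⊥ : IntermediateField L F) := by
    have masp : ((minpoly L a).map (algebraMap L F)).Splits := by
      simpa [minpoly.eq_of_irreducible_of_monic firr fa0 fmon] using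
        (Polynomial.SplittingField.splits f)
    simpa [IntermediateField.adjoin_simple_eq_bot_iff.mpr bbot] using
      IsKrasner.krasner
        (PerfectField.separable_of_irreducible (minpoly.irreducible ⟨f, fmon, fa0⟩))
        masp ⟨(g.map _), gmon.map _, hb.2⟩ fun a' h1 h2 ↦ lt_of_lt_of_le hab (norm_sub_le a' h1 h2)
  obtain ⟨aCp, haCp⟩ := IntermediateField.mem_bot.mp abot
  use aCp
  apply_fun algebraMap L F
  · rwa [← Polynomial.aeval_algebraMap_apply_eq_algebraMap_eval, haCp, map_zero]
  · exact RingHom.injective _

/-- A nontrivial absolute value bounded by one on the naturals extends to an algebraically closed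
complete ultrametric field. -/
theorem exists_algClosed_extension (K₀ : Type) [Field K₀] (v : AbsoluteValue K₀ ℝ)
    (hnat : ∀ j : ℕ, v (j : K₀) ≤ 1) (hnt : ∃ z, 1 < v z) :
    ∃ (K : Type) (_ : NontriviallyNormedField K),
      IsUltrametricDist K ∧ CompleteSpace K ∧ IsAlgClosed K ∧
        ∃ ι : K₀ →+* K, ∀ z, ‖ι z‖ = v z := by
  let F := UniformSpace.Completion (WithAbs v)
  let ι₁ : K₀ →+* F :=
    (UniformSpace.Completion.coeRingHom (α := WithAbs v)).comp (WithAbs.equiv v).symm.toRingHom
  have hι₁ : ∀ z, ‖ι₁ z‖ = v z := fun z => by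
    show ‖((WithAbs.toAbs v z : WithAbs v) : F)‖ = v z
    rw [UniformSpace.Completion.norm_coe]
    rfl
  obtain ⟨z, hz⟩ := hnt
  let _ : NontriviallyNormedField F :=
    { (inferInstance : NormedField F) with non_trivial := ⟨ι₁ z, (hι₁ z).symm ▸ hz⟩ }
  have : IsUltrametricDist F := IsUltrametricDist.isUltrametricDist_of_forall_norm_natCast_le_one
    fun j => by rw [← map_natCast ι₁, hι₁]; exact hnat j
  let L := AlgebraicClosure F
  let _ : NormedField L := spectralNorm.normedField F L
  have hL : ∀ x : F, ‖algebraMap F L x‖ = ‖x‖ := fun x => spectralNorm_extends x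
  let ι₂ : F →+* UniformSpace.Completion L :=
    (UniformSpace.Completion.coeRingHom (α := L)).comp (algebraMap F L)
  have hι₂ : ∀ x : F, ‖ι₂ x‖ = ‖x‖ := fun x => by
    show ‖((algebraMap F L x : L) : UniformSpace.Completion L)‖ = ‖x‖
    rw [UniformSpace.Completion.norm_coe, hL]
  let K := UniformSpace.Completion L
  let instK : NontriviallyNormedField K :=
    { (inferInstance : NormedField K) with
      non_trivial := ⟨ι₂ (ι₁ z), by rw [hι₂, hι₁]; exact hz⟩ }
  have hult : IsUltrametricDist K :=
    IsUltrametricDist.isUltrametricDist_of_forall_norm_natCast_le_one fun j => by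
      rw [← map_natCast (ι₂.comp ι₁), RingHom.comp_apply, hι₂, hι₁]; exact hnat j
  let algLK : Algebra L K := (UniformSpace.Completion.coeRingHom (α := L)).toAlgebra
  refine ⟨K, instK, hult, inferInstance, isAlgClosed_of_dense (K := L) (L := K)
    UniformSpace.Completion.denseRange_coe, ι₂.comp ι₁, fun w => ?_⟩
  rw [RingHom.comp_apply, hι₂, hι₁]

end Vale.P217

end
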