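import Mathlib.RingTheory.Valuation.LocalSubring
import Mathlib.RingTheory.Valuation.RankOne
import Mathlib.RingTheory.Ideal.KrullsHeightTheorem
import Mathlib.RingTheory.FiniteType
import Mathlib.RingTheory.Localization.FractionRing

/-!
A real absolute value dominating a Noetherian local domain.
-/

noncomputable section

namespace Vale.P217

open IsLocalRing

/-- Step 1: a valuation ring `V` containing a subring, and an element `c` of positive valuation
such that every nonzero element of `R` divides a power of `c` in `V`. -/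
theorem exists_valuation (R : Type) [CommRing R] [IsDomain R] [IsLocalRing R] [IsNoetherianRing R]
    (hmax : maximalIdeal R ≠ ⊥) :
    ∃ (V : ValuationSubring (FractionRing R)) (c : R),
      (∀ r, V.valuation (algebraMap R _ r) ≤ 1) ∧
      (∀ r ∈ maximalIdeal R, V.valuation (algebraMap R _ r) ≤ V.valuation (algebraMap R _ c)) ∧
      V.valuation (algebraMap R _ c) < 1 ∧ c ≠ 0 ∧
      ∀ b : R, b ≠ 0 → ∃ N : ℕ,
        V.valuation (algebraMap R _ c) ^ N ≤ V.valuation (algebraMap R _ b) := by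
  classical
  let K₀ := FractionRing R
  let ι : R →+* K₀ := algebraMap R K₀
  have hι : Function.Injective ι := IsFractionRing.injective R K₀
  obtain ⟨s, hs⟩ := (maximalIdeal R).fg_of_isNoetherianRing
  let eR : R →+* ι.range := ι.rangeRestrict
  let I₀ : Ideal ι.range := (maximalIdeal R).map eR
  have heR : Function.Bijective eR :=
    ⟨fun a b h => hι (congrArg Subtype.val h), RingHom.rangeRestrict_surjective ι⟩
  have hI₀ : I₀ ≠ ⊤ := by
    intro h
    have := congrArg (Ideal.comap eR) h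
    rw [Ideal.comap_map_of_bijective eR heR, Ideal.comap_top] at this
    exact (maximalIdeal.isMaximal R).ne_top this
  obtain ⟨V₀, hV₀, hV₀m⟩ := Ideal.image_subset_nonunits_valuationSubring I₀ hI₀
  have hV₀lt : ∀ r ∈ maximalIdeal R, V₀.valuation (ι r) < 1 := fun r hr =>
    V₀.mem_nonunits_iff.1 (hV₀m ⟨eR r, Ideal.mem_map_of_mem eR hr, rfl⟩)
  have hsne : (s.filter fun a => a ≠ 0).Nonempty := by
    rw [Finset.filter_nonempty_iff]
    by_contra h
    push Not at h
    apply hmax
    rw [eq_bot_iff, ← hs]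
    exact Submodule.span_le.2 fun a ha => by simpa using h a ha
  obtain ⟨c, hc, hcmax⟩ := Finset.exists_max_image _ (fun a => V₀.valuation (ι a)) hsne
  obtain ⟨hcs, hc0⟩ := Finset.mem_filter.1 hc
  have hιc : ι c ≠ 0 := (map_ne_zero_iff _ hι).2 hc0
  have hcm : c ∈ maximalIdeal R := hs ▸ Submodule.subset_span hcs
  -- the affine blow up
  let B := Algebra.adjoin R ((fun a => ι a / ι c) '' (s : Set R))
  have hBV₀ : ∀ x ∈ B, V₀.valuation x ≤ 1 := by
    intro x hx
    induction hx using Algebra.adjoin_induction with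
    | mem x hx =>
      obtain ⟨a, ha, rfl⟩ := hx
      rw [map_div₀, div_le_one₀ (zero_lt_iff.2 (V₀.valuation.ne_zero_iff.2 hιc))]
      by_cases ha0 : a = 0
      · simp [ha0]
      · exact hcmax a (Finset.mem_filter.2 ⟨ha, ha0⟩)
    | algebraMap r => exact (V₀.valuation_le_one_iff _).2 (hV₀ ⟨r, rfl⟩)
    | add x y _ _ hx hy => exact V₀.valuation.map_add_le hx hy
    | mul x y _ _ hx hy => rw [map_mul]; exact mul_le_one' hx hy
  let cB : B := algebraMap R B c
  have hcB : ¬ IsUnit cB := by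
    intro hu
    obtain ⟨u, hu⟩ := hu.exists_right_inv
    have h1 : ι c * (u : K₀) = 1 := congrArg Subtype.val hu
    have h2 : V₀.valuation (ι c) * V₀.valuation (u : K₀) < 1 :=
      mul_lt_one_of_nonneg_of_lt_one_left zero_le (hV₀lt c hcm) (hBV₀ _ u.2)
    rw [← map_mul, h1, map_one] at h2
    exact lt_irrefl _ h2
  have hdiv : ∀ r ∈ maximalIdeal R, ∃ b : B, ι r = ι c * b := by
    intro r hr
    rw [← hs] at hr
    induction hr using Submodule.span_induction with
    | mem a ha =>
      exact ⟨⟨ι a / ι c, Algebra.subset_adjoin ⟨a, ha, rfl⟩⟩, (mul_div_cancel₀ _ hιc).symm⟩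
    | zero => exact ⟨0, by simp⟩
    | add a b _ _ ha hb =>
      obtain ⟨x, hx⟩ := ha
      obtain ⟨y, hy⟩ := hb
      exact ⟨x + y, by rw [map_add, hx, hy, Subalgebra.coe_add, mul_add]⟩
    | smul t a _ ha =>
      obtain ⟨x, hx⟩ := ha
      exact ⟨t • x, by rw [smul_eq_mul, map_mul, hx, Subalgebra.coe_smul, Algebra.smul_def,
        mul_left_comm]⟩
  have : IsNoetherianRing B := by
    have hfg : B.FG := Subalgebra.fg_def.2 ⟨_, s.finite_toSet.image _, rfl⟩
    have : Algebra.FiniteType R B := B.fg_iff_finiteType.1 hfg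
    exact Algebra.FiniteType.isNoetherianRing R B
  have hBne : Ideal.span {cB} ≠ ⊤ := fun h => hcB (Ideal.span_singleton_eq_top.1 h)
  obtain ⟨M, hM, hle⟩ := Ideal.exists_le_maximal _ hBne
  obtain ⟨P₀, hP₀, -⟩ := Ideal.exists_minimalPrimes_le hle
  have hP₀p : P₀.IsPrime := hP₀.1.1
  have hcP₀ : cB ∈ P₀ := hP₀.1.2 (Ideal.subset_span rfl)
  have hht : P₀.height ≤ 1 := Ideal.height_le_one_of_isPrincipal_of_mem_minimalPrimes (Ideal.span {cB}) P₀ hP₀
  let A₁ : Subring K₀ := B.toSubring
  let P₁ : Ideal A₁ := P₀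
  have : P₁.IsPrime := hP₀p
  let L := (LocalSubring.ofPrime A₁ P₁).toSubring
  obtain ⟨V, hLV, hLm⟩ := Ideal.image_subset_nonunits_valuationSubring (maximalIdeal L)
    (maximalIdeal.isMaximal L).ne_top
  have hRL : ∀ r : R, ι r ∈ L := fun r =>
    LocalSubring.le_ofPrime A₁ P₁ (B.algebraMap_mem r)
  have hVle : ∀ r, V.valuation (ι r) ≤ 1 := fun r => (V.valuation_le_one_iff _).2 (hLV (hRL r))
  refine ⟨V, c, hVle, ?_, ?_, hc0, ?_⟩
  · intro r hr
    obtain ⟨b, hb⟩ := hdiv r hr
    show V.valuation (ι r) ≤ V.valuation (ι c)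
    rw [hb, map_mul]
    exact mul_le_of_le_one_right' ((V.valuation_le_one_iff _).2
      (hLV (LocalSubring.le_ofPrime A₁ P₁ b.2)))
  · exact V.mem_nonunits_iff.1 (hLm ⟨algebraMap A₁ L cB,
      (IsLocalization.AtPrime.to_map_mem_maximal_iff L P₁ cB).2 hcP₀, rfl⟩)
  · intro b hb
    let bL : L := ⟨ι b, hRL b⟩
    let cL : L := ⟨ι c, hRL c⟩
    have hrad : cL ∈ (Ideal.span {bL}).radical := by
      rw [Ideal.radical_eq_sInf, Submodule.mem_sInf]
      rintro p ⟨hbp, hp⟩
      by_contra hcp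
      have hq : (Ideal.comap (algebraMap A₁ L) p).IsPrime := inferInstance
      have hle : Ideal.comap (algebraMap A₁ L) p ≤ P₁ := by
        intro x hx
        rw [← IsLocalization.AtPrime.to_map_mem_maximal_iff L P₁]
        exact le_maximalIdeal hp.ne_top hx
      have hlt : Ideal.comap (algebraMap A₁ L) p < P₁ := lt_of_le_of_ne hle fun h => hcp (by
        have : cB ∈ Ideal.comap (algebraMap A₁ L) p := by rw [h]; exact hcP₀
        exact this)
      have h1 := Ideal.height_add_one_le_of_lt_of_isPrime hlt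
      have h2 : (Ideal.comap (algebraMap A₁ L) p).height + 1 ≤ 0 + 1 := by
        rw [zero_add]; exact h1.trans hht
      have h3 : (Ideal.comap (algebraMap A₁ L) p).height = 0 :=
        nonpos_iff_eq_zero.1 (WithTop.le_of_add_le_add_right ENat.one_ne_top h2)
      have h4 := Ideal.height_eq_zero_iff_eq_bot.1 h3
      have h5 : (⟨ι b, B.algebraMap_mem b⟩ : A₁) ∈ Ideal.comap (algebraMap A₁ L) p :=
        hbp (Ideal.subset_span rfl)
      rw [h4, Ideal.mem_bot] at h5
      exact hb ((map_eq_zero_iff _ hι).1 (congrArg Subtype.val h5))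
    obtain ⟨N, hN⟩ := hrad
    obtain ⟨t, ht⟩ := Ideal.mem_span_singleton'.1 hN
    refine ⟨N, ?_⟩
    have h : (t : K₀) * ι b = ι c ^ N := congrArg Subtype.val ht
    show V.valuation (ι c) ^ N ≤ V.valuation (ι b)
    rw [← map_pow, ← h, map_mul]
    exact mul_le_of_le_one_left' ((V.valuation_le_one_iff _).2 (hLV t.2))

/-- Step 2: coarsen to rank one and take real values. -/
theorem exists_absoluteValue (R : Type) [CommRing R] [IsDomain R] [IsLocalRing R]
    [IsNoetherianRing R] (hmax : maximalIdeal R ≠ ⊥) :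
    ∃ v : AbsoluteValue (FractionRing R) ℝ, (∀ j : ℕ, v (j : FractionRing R) ≤ 1) ∧
      (∃ z, 1 < v z) ∧ (∀ r, v (algebraMap R _ r) ≤ 1) ∧
        ∀ r ∈ maximalIdeal R, v (algebraMap R _ r) < 1 := by
  obtain ⟨V, c, hle, hmc, hc1, hc0, harch⟩ := exists_valuation R hmax
  let K₀ := FractionRing R
  let ι : R →+* K₀ := algebraMap R K₀
  have hιc : ι c ≠ 0 := (map_ne_zero_iff _ (IsFractionRing.injective R K₀)).2 hc0
  let cV : V := ⟨ι c, (V.valuation_le_one_iff _).1 (hle c)⟩
  let q : Ideal V := (Ideal.span {cV}).radical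
  have hq : q.IsPrime := by
    refine ⟨fun h => ?_, fun {a b} hab => ?_⟩
    · rw [Ideal.radical_eq_top, Ideal.span_singleton_eq_top] at h
      exact (V.valuation_lt_one_iff cV).2 hc1 h
    · obtain ⟨N, hN⟩ := hab
      rcases ValuationRing.dvd_total a b with ⟨t, rfl⟩ | ⟨t, rfl⟩
      · refine Or.inr ⟨2 * N, ?_⟩
        rw [show (a * t) ^ (2 * N) = t ^ N * (a * (a * t)) ^ N by ring]
        exact Ideal.mul_mem_left _ _ hN
      · refine Or.inl ⟨2 * N, ?_⟩
        rw [show (b * t) ^ (2 * N) = t ^ N * (b * t * b) ^ N by ring]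
        exact Ideal.mul_mem_left _ _ hN
  let V' := V.ofPrime q
  let w := V'.valuation
  have hmono : ∀ x : K₀, V.valuation x ≤ 1 → w x ≤ 1 := fun x hx =>
    (V'.valuation_le_one_iff x).2 (V.le_ofPrime q ((V.valuation_le_one_iff x).1 hx))
  have hwc : w (ι c) < 1 := lt_of_le_of_ne (hmono _ (hle c)) fun h =>
    (V.ofPrime_valuation_eq_one_iff_mem_primeCompl q cV).1 h
      (Ideal.le_radical (Ideal.subset_span rfl))
  have hkey : ∀ z y : K₀, w z < 1 → y ≠ 0 → w y ≤ 1 → ∃ n : ℕ, w z ^ n ≤ w y := by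
    intro z y hz hy0 hy
    have hzV : z ∈ V := by
      by_cases hz0 : z = 0
      · exact hz0 ▸ V.zero_mem
      rcases V.mem_or_inv_mem z with h | h
      · exact h
      · exfalso
        have h1 := hmono _ ((V.valuation_le_one_iff _).2 h)
        rw [map_inv₀] at h1
        exact absurd ((inv_le_one₀ (zero_lt_iff.2 (w.ne_zero_iff.2 hz0))).1 h1) (not_le.2 hz)
    have hzq : (⟨z, hzV⟩ : V) ∈ q := by
      by_contra h
      exact hz.ne ((V.ofPrime_valuation_eq_one_iff_mem_primeCompl q ⟨z, hzV⟩).2 h)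
    obtain ⟨k, hk⟩ := hzq
    obtain ⟨t, ht⟩ := Ideal.mem_span_singleton'.1 hk
    have hzk : w z ^ k ≤ w (ι c) := by
      have h : (t : K₀) * ι c = z ^ k := congrArg Subtype.val ht
      rw [← map_pow, ← h, map_mul]
      exact mul_le_of_le_one_left' (hmono _ (V.valuation_le_one t))
    obtain ⟨b₁, b₂, hb₂, hdiv⟩ := IsFractionRing.div_surjective (A := R) y
    have hb₁ : b₁ ≠ 0 := fun h => hy0 (by rw [← hdiv, h, map_zero, zero_div])
    have hιb₂ : ι b₂ ≠ 0 := (map_ne_zero_iff _ (IsFractionRing.injective R K₀)).2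
      (nonZeroDivisors.ne_zero hb₂)
    obtain ⟨N, hN⟩ := harch b₁ hb₁
    have hmono' : ∀ x y : K₀, V.valuation x ≤ V.valuation y → w x ≤ w y := by
      intro x y hxy
      by_cases hy' : y = 0
      · subst hy'
        rw [map_zero] at hxy
        rw [V.valuation.zero_iff.1 (le_zero_iff.1 hxy), map_zero]
      · have h1 : V.valuation (x / y) ≤ 1 := by
          rw [map_div₀]
          exact div_le_one_of_le₀ hxy zero_le
        have h2 := hmono _ h1
        rw [map_div₀] at h2
        exact (div_le_one₀ (zero_lt_iff.2 (w.ne_zero_iff.2 hy'))).1 h2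
    refine ⟨k * N, ?_⟩
    rw [pow_mul]
    calc (w z ^ k) ^ N ≤ w (ι c) ^ N := pow_le_pow_left₀ zero_le hzk N
      _ ≤ w (ι b₁) := by
        rw [← map_pow]
        exact hmono' _ _ (by rw [map_pow]; exact hN)
      _ ≤ w y := by
        have h : ι b₁ = y * ι b₂ := by
          rw [← hdiv, div_mul_cancel₀ _ hιb₂]
        rw [h, map_mul]
        exact mul_le_of_le_one_right' (hmono _ (hle b₂))
  have hwnt : w.IsNontrivial :=
    ⟨⟨ι c, w.ne_zero_iff.2 hιc, hwc.ne⟩⟩
  have harchΓ : MulArchimedean V'.ValueGroup := by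
    refine ⟨fun x {y} hy => ?_⟩
    obtain ⟨a, rfl⟩ := ValuationSubring.valuation_surjective V' x
    obtain ⟨b, rfl⟩ := ValuationSubring.valuation_surjective V' y
    by_cases ha : w a ≤ 1
    · exact ⟨0, (pow_zero (w b)).symm ▸ ha⟩
    · have ha' : 1 < w a := lt_of_not_ge ha
      have ha0 : a ≠ 0 := fun h => by simp [h] at ha'
      obtain ⟨n, hn⟩ := hkey b⁻¹ a⁻¹ (by rw [map_inv₀]; exact inv_lt_one_of_one_lt₀ hy)
        (inv_ne_zero ha0) (by rw [map_inv₀]; exact inv_le_one_of_one_le₀ ha'.le)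
      refine ⟨n, ?_⟩
      rw [map_inv₀, map_inv₀, inv_pow, inv_le_inv₀
        (pow_pos (zero_lt_one.trans hy) n) (zero_lt_one.trans ha')] at hn
      exact hn
  have harch₀ : MulArchimedean (MonoidWithZeroHom.ValueGroup₀ (MonoidWithZeroHom.ofClass w)) :=
    MulArchimedean.comap MonoidWithZeroHom.ValueGroup₀.embedding.toMonoidHom
      MonoidWithZeroHom.ValueGroup₀.embedding_strictMono
  obtain ⟨hr⟩ := (Valuation.nonempty_rankOne_iff_mulArchimedean (v := w)).2 harch₀
  let f : K₀ → ℝ := fun x => ((hr.hom' (w.restrict x) : NNReal) : ℝ)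
  have hf1 : ∀ x, w x ≤ 1 → f x ≤ 1 := by
    intro x hx
    have h := hr.strictMono'.monotone ((w.restrict_le_one_iff).2 hx)
    rw [map_one] at h
    exact NNReal.coe_le_coe.2 h
  have hflt : ∀ x, w x < 1 → f x < 1 := by
    intro x hx
    have h := hr.strictMono' ((w.restrict_lt_one_iff).2 hx)
    rw [map_one] at h
    exact NNReal.coe_lt_coe.2 h
  let v : AbsoluteValue K₀ ℝ :=
    { toFun := f
      map_mul' := fun x y => by simp [f]
      nonneg' := fun x => NNReal.coe_nonneg _
      eq_zero' := fun x => by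
        show ((hr.hom' (w.restrict x) : NNReal) : ℝ) = 0 ↔ x = 0
        rw [NNReal.coe_eq_zero, map_eq_zero, w.restrict.zero_iff]
      add_le' := fun x y => by
        refine le_trans ?_ (max_le_add_of_nonneg (NNReal.coe_nonneg _) (NNReal.coe_nonneg _))
        rw [← NNReal.coe_max, NNReal.coe_le_coe, ← hr.strictMono'.monotone.map_max]
        exact hr.strictMono'.monotone (w.restrict.map_add x y) }
  refine ⟨v, fun j => hf1 _ ?_, ?_, fun r => hf1 _ (hmono _ (hle r)), fun r hr' => ?_⟩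
  · rw [← map_natCast ι]
    exact hmono _ (hle _)
  · refine ⟨(ι c)⁻¹, ?_⟩
    rw [map_inv₀]
    exact (one_lt_inv₀ (AbsoluteValue.pos v hιc)).2 (hflt _ hwc)
  · refine hflt _ (lt_of_le_of_lt ?_ hwc)
    have h : V.valuation (ι r / ι c) ≤ 1 := by
      rw [map_div₀]
      exact div_le_one_of_le₀ (hmc r hr') zero_le
    have h2 := hmono _ h
    rw [map_div₀] at h2
    exact (div_le_one₀ (zero_lt_iff.2 (w.ne_zero_iff.2 hιc))).1 h2

end Vale.P217

end
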