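import Vale.Agent.P217.Ball
import Vale.Agent.P217.PointClosure
import Vale.Agent.P217.PointValuation
import Mathlib.RingTheory.Noetherian.Basic

/-!
A geometric point with prescribed kernel and values in the open unit ball on the maximal ideal.
-/

noncomputable section

namespace Vale.P217

open IsLocalRing

/-- A Noetherian local domain which is not a field embeds into the valuation ring of an
algebraically closed complete ultrametric field, the maximal ideal going into the open ball. -/
theorem exists_point (R : Type) [CommRing R] [IsDomain R] [IsLocalRing R] [IsNoetherianRing R]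
    (hmax : maximalIdeal R ≠ ⊥) :
    ∃ (K : Type) (_ : NontriviallyNormedField K),
      IsUltrametricDist K ∧ CompleteSpace K ∧ IsAlgClosed K ∧
      ∃ x : R →+* K, Function.Injective x ∧ (∀ r, ‖x r‖ ≤ 1) ∧
        ∀ r ∈ maximalIdeal R, ‖x r‖ < 1 := by
  obtain ⟨v, hnat, hnt, hle, hlt⟩ := exists_absoluteValue R hmax
  obtain ⟨K, instK, hult, hcomplete, halg, ι, hι⟩ :=
    exists_algClosed_extension (FractionRing R) v hnat hnt
  refine ⟨K, instK, hult, hcomplete, halg, ι.comp (algebraMap R (FractionRing R)),
    ι.injective.comp (IsFractionRing.injective R (FractionRing R)), fun r => ?_, fun r hr => ?_⟩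
  · rw [RingHom.comp_apply, hι]; exact hle r
  · rw [RingHom.comp_apply, hι]; exact hlt r hr

end Vale.P217

end
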