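import Vale.Agent.P217.LubinTate
import Vale.Agent.P217.PointTools
import Vale.Agent.P217.Point
import Mathlib.RingTheory.Ideal.MinimalPrime.Noetherian
import Mathlib.RingTheory.Filtration
import Vale.Agent.P217.Expansion
import Vale.Agent.P217.CharZero
import Vale.Agent.P217.GaussExist

/-!
Classification of the invariant prime and radical ideals.
-/

noncomputable section

namespace Vale.P217

open IsLocalRing

variable (p : ℕ) [Fact p.Prime] (n : ℕ)

/-- Invariance under the elements `1 + p ^ N a` for all large `N`. -/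
def IsInvariantNearOne (I : Ideal (LTRing p n)) : Prop :=
  ∃ N₀, ∀ (a : PowerSeries (GaloisField p n)) (N : ℕ) (α : LTRing p n ≃+* LTRing p n),
    IsHomSeries (baseChange p n (honda p n)) (baseChange p n (honda p n)) a → N₀ ≤ N →
      IsMove p n (stdF p n) (RingEquiv.refl _) (nearOne p n a N) α → I.map α.toRingHom = I

theorem invariantNearOne_mem {P : Ideal (LTRing p n)} {N₀ : ℕ}
    (hinv : ∀ (a : PowerSeries (GaloisField p n)) (N : ℕ) (α : LTRing p n ≃+* LTRing p n),
      IsHomSeries (baseChange p n (honda p n)) (baseChange p n (honda p n)) a → N₀ ≤ N →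
        IsMove p n (stdF p n) (RingEquiv.refl _) (nearOne p n a N) α → P.map α.toRingHom = P)
    {a : PowerSeries (GaloisField p n)} {N : ℕ} {α : LTRing p n ≃+* LTRing p n}
    (ha : IsHomSeries (baseChange p n (honda p n)) (baseChange p n (honda p n)) a) (hN : N₀ ≤ N)
    (hα : IsMove p n (stdF p n) (RingEquiv.refl _) (nearOne p n a N) α) {f : LTRing p n}
    (hf : f ∈ P) : α f ∈ P := by
  have h := hinv a N α ha hN hα
  rw [← h]
  exact Ideal.mem_map_of_mem α.toRingHom hf

theorem baseChange_honda_map {S : Type*} [CommRing S] (φ : GaloisField p n →+* S) :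
    (baseChange p n (honda p n)).map φ = fg p n (0 : Fin (n - 1) → S) := by
  rw [baseChange, honda, fg_map, fg_map]
  congr 1
  funext i
  simp

theorem stdF_map {S : Type*} [CommRing S] (φ : LTRing p n →+* S) :
    (stdF p n).map φ = fg p n fun i => φ (MvPowerSeries.X i) := by
  rw [stdF, fg_map]
  rfl

theorem baseChange_honda_eq :
    baseChange p n (honda p n) = fg p n (0 : Fin (n - 1) → GaloisField p n) := by
  rw [baseChange, honda, fg_map]
  congr 1
  funext i
  simp

/-- Closedness of an invariant prime of positive residue characteristic under the derivations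
along its stratum. -/
theorem pderiv_mem_of_invariant {h : ℕ} (hh : 1 ≤ h) (hhn : h < n) (P : Ideal (LTRing p n))
    (hP : P.IsPrime) (hinv : IsInvariantNearOne p n P) (hle : coordIdeal p n h ≤ P)
    (hnot : ∀ i : Fin (n - 1), (i : ℕ) + 1 = h → (MvPowerSeries.X i : LTRing p n) ∉ P)
    {f : LTRing p n} (hf : f ∈ P) (i : Fin (n - 1)) (hi : h ≤ (i : ℕ) + 1) :
    MvPowerSeries.pderiv (Coef p n) i f ∈ P := by
  have hn : 1 ≤ n := by omega
  obtain ⟨N₀, hN₀⟩ := hinv
  have hPm : P ≤ maximalIdeal (LTRing p n) := IsLocalRing.le_maximalIdeal hP.ne_top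
  have : IsDomain (LTRing p n ⧸ P) := Ideal.Quotient.isDomain P
  have : IsLocalRing (LTRing p n ⧸ P) :=
    IsLocalRing.of_surjective' (Ideal.Quotient.mk P) Ideal.Quotient.mk_surjective
  set iu : Fin (n - 1) := ⟨h - 1, by omega⟩ with hiu
  have hXu : (MvPowerSeries.X iu : LTRing p n) ∉ P := hnot iu (by rw [hiu]; simp; omega)
  have hmq : ∀ r : LTRing p n, r ∈ maximalIdeal (LTRing p n) →
      Ideal.Quotient.mk P r ∈ maximalIdeal (LTRing p n ⧸ P) := fun r hr hu => by
    obtain ⟨s, hs⟩ := hu.exists_right_inv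
    obtain ⟨s, rfl⟩ := Ideal.Quotient.mk_surjective s
    rw [← map_mul, ← map_one (Ideal.Quotient.mk P), Ideal.Quotient.mk_eq_mk_iff_sub_mem] at hs
    have h1 : r * s - (r * s - 1) ∈ maximalIdeal (LTRing p n) :=
      Ideal.sub_mem _ (Ideal.mul_mem_right _ _ hr) (hPm hs)
    rw [sub_sub_cancel] at h1
    exact (Ideal.ne_top_iff_one _).1 (IsLocalRing.maximalIdeal.isMaximal _).ne_top h1
  have hmax : maximalIdeal (LTRing p n ⧸ P) ≠ ⊥ := fun hbot => by
    have := hmq _ (X_mem_maximalIdeal p n iu)
    rw [hbot, Ideal.mem_bot, Ideal.Quotient.eq_zero_iff_mem] at this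
    exact hXu this
  obtain ⟨K, instK, instU, instC, instA, x, hxinj, hxle, hxlt⟩ :=
    exists_point (LTRing p n ⧸ P) hmax
  set φ₀ : LTRing p n →+* K := x.comp (Ideal.Quotient.mk P)
  set φ : LTRing p n →+* Ball K := φ₀.codRestrict (Ball K) fun r => hxle _ with hφ
  have hφ0 : ∀ r, φ r = 0 ↔ r ∈ P := fun r => by
    rw [← Ideal.Quotient.eq_zero_iff_mem, ← hxinj.eq_iff' (map_zero x)]
    exact Subtype.ext_iff
  have hpP : (p : LTRing p n) ∈ P := hle (natCast_mem_coordIdeal p n h)
  have hpK : ((p : ℕ) : K) = 0 := by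
    have h0 : φ₀ (p : LTRing p n) = 0 := by
      rw [RingHom.comp_apply, Ideal.Quotient.eq_zero_iff_mem.2 hpP, map_zero]
    rwa [map_natCast] at h0
  have : CharP K p :=
    (CharP.charP_iff_prime_eq_zero (Fact.out : p.Prime)).2 hpK
  have hpB : φ (p : LTRing p n) = 0 := (hφ0 _).2 hpP
  -- the radius
  have hlt : ∀ i, ‖φ (MvPowerSeries.X i)‖ < 1 := fun i =>
    hxlt _ (hmq _ (X_mem_maximalIdeal p n i))
  obtain ⟨ε, hε0, hε1, hεle⟩ := exists_radius hlt
  have hm : ∀ r ∈ maximalIdeal (LTRing p n), ‖φ r‖ ≤ ε := fun r hr =>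
    norm_le_of_mem_maximalIdeal φ hε0 (by rw [hpB, norm_zero]; exact hε0) hεle hr
  set u : Fin (n - 1) → Ball K := fun i => φ (MvPowerSeries.X i) with hu
  have hpC : coefHom φ (p : Coef p n) = 0 := by rw [coefHom, RingHom.comp_apply, map_natCast, hpB]
  set ψ : GaloisField p n →+* Ball K := residueHom (coefHom φ) hpC with hψ
  have hψm : ∀ c : LTRing p n, ‖φ c - ψ (residueMap p n c)‖ ≤ ε := fun c => by
    rw [residueMap, RingHom.comp_apply, hψ, residueHom_comp, coefHom, RingHom.comp_apply,
      ← map_sub]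
    refine hm _ ?_
    rw [← ker_residueMap, RingHom.mem_ker, map_sub, sub_eq_zero, residueMap, RingHom.comp_apply,
      RingHom.comp_apply, MvPowerSeries.constantCoeff_C]
  have hbc : (baseChange p n (honda p n)).map ψ = fg p n (0 : Fin (n - 1) → Ball K) :=
    baseChange_honda_map p n ψ
  -- pull back endomorphisms
  have hex : ∀ a : PowerSeries (Ball K), FixedEndo p n a →
      ∃ a₀ : PowerSeries (GaloisField p n), PowerSeries.map ψ a₀ = a ∧
        IsHomSeries (baseChange p n (honda p n)) (baseChange p n (honda p n)) a₀ := fun a ha => by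
    choose c hc using fun d => exists_galois_preimage hn ψ (ha.fixed d)
    have hmap : PowerSeries.map ψ (PowerSeries.mk c) = a := by
      ext d
      rw [PowerSeries.coeff_map, PowerSeries.coeff_mk, hc]
    refine ⟨PowerSeries.mk c, hmap, IsHomSeries.of_map ψ ψ.injective ?_⟩
    rw [hmap, hbc]
    exact ha.hom
  choose a₀ ha₀map ha₀hom using hex
  have hmove : ∀ (a : PowerSeries (Ball K)) (ha : FixedEndo p n a) (N : ℕ), 1 ≤ N →
      ∃! α : LTRing p n ≃+* LTRing p n,
        IsMove p n (stdF p n) (RingEquiv.refl _) (nearOne p n (a₀ a ha) N) α := fun a ha N hN =>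
    existsUnique_move p n hn _ _ (isUniversal_std p n hn) _ _
      (isIsoSeries_nearOne p n hn _ (ha₀hom a ha) N hN)
  choose α hα _ using hmove
  classical
  set v : PowerSeries (Ball K) → ℕ → Fin (n - 1) → Ball K := fun a N i =>
    if hc : FixedEndo p n a ∧ 1 ≤ N then φ (α a hc.1 N hc.2 (MvPowerSeries.X i)) else u i with hv
  have hu0 : ∀ i : Fin (n - 1), (i : ℕ) + 1 < h → u i = 0 := fun i hi =>
    (hφ0 _).2 (hle (coord_generator_mem p n h i hi))
  have huh : uvar n u h ≠ 0 := by
    rw [uvar, dif_pos ⟨hh, hhn⟩]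
    exact fun h0 => hXu ((hφ0 _).1 h0)
  have hsm : SmallParam n u ε := ⟨hε0, hε1, hεle⟩
  have heval : ∀ g : LTRing p n, φ g = evalMv (MvPowerSeries.map (coefHom φ) g) u :=
    hom_eq_evalMv φ hε0 hε1 hm
  have hvα : ∀ a (ha : FixedEndo p n a) N (hN : 1 ≤ N),
      v a N = fun i => φ (α a ha N hN (MvPowerSeries.X i)) := fun a ha N hN => by
    funext i
    rw [hv]
    exact dif_pos ⟨ha, hN⟩
  have hαφ : ∀ a (ha : FixedEndo p n a) N (hN : 1 ≤ N) (g : LTRing p n),
      φ (α a ha N hN g) = evalMv (MvPowerSeries.map (coefHom φ) g) (v a N) := fun a ha N hN g => by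
    have hm' : ∀ r ∈ maximalIdeal (LTRing p n), ‖(φ.comp (α a ha N hN).toRingHom) r‖ ≤ ε :=
      fun r hr => hm _ (move_map_maximalIdeal p n _ _ _ _ (hα a ha N hN) hr)
    have h1 := hom_eq_evalMv (φ.comp (α a ha N hN).toRingHom) hε0 hε1 hm' g
    have hC : coefHom (φ.comp (α a ha N hN).toRingHom) = coefHom φ := by
      ext w
      have h2 := (hα a ha N hN).1 w
      simp only [coefHom, RingHom.comp_apply]
      congr 2
    rw [hC] at h1
    rw [hvα a ha N hN]
    exact h1
  have hconcl := pderiv_eq_zero_of_orbit p n u hsm hh hhn hu0 huh v (max N₀ 1) (le_max_right _ _)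
    (fun a ha N hN => ?_) (MvPowerSeries.map (coefHom φ) f) ?_ ?_ i hi
  · rw [← map_pderiv, ← heval] at hconcl
    exact (hφ0 _).1 hconcl
  · have hN1 : 1 ≤ N := (le_max_right _ _).trans hN
    have hmv := hα a ha N hN1
    refine ⟨⟨hε0, hε1, fun i => ?_⟩, ?_, fun i hi => ?_, fun i => ?_⟩
    · rw [hvα a ha N hN1]
      exact hm _ (move_map_maximalIdeal p n _ _ _ _ hmv (X_mem_maximalIdeal p n i))
    · obtain ⟨-, -, g, hg, hgred⟩ := hmv
      refine ⟨PowerSeries.map φ g, ?_, fun d => ?_⟩
      · have h1 := hg.1.map φ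
        rw [stdF_map] at h1
        have h2 : ((stdF p n).map (α a ha N hN1).toRingHom).map φ = fg p n (v a N) := by
          rw [stdF_map, fg_map, hvα a ha N hN1]
          rfl
        rwa [h2] at h1
      · have h1 : nearOneBall p n a N = PowerSeries.map ψ (nearOne p n (a₀ a ha) N) := by
          rw [nearOne, nearOneBall]
          have hs : MvPowerSeries.HasSubst ![(PowerSeries.X : PowerSeries (GaloisField p n)),
              PowerSeries.subst (PowerSeries.X ^ p ^ (n * N)) (a₀ a ha)] :=
            MvPowerSeries.hasSubst_of_constantCoeff_zero fun t => by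
              fin_cases t
              · exact PowerSeries.constantCoeff_X
              · exact MvPowerSeries.constantCoeff_subst_eq_zero
                  (MvPowerSeries.hasSubst_of_constantCoeff_zero fun _ => by
                    simp [PowerSeries.X, (Fact.out : p.Prime).ne_zero])
                  (fun _ => by simp [PowerSeries.X, (Fact.out : p.Prime).ne_zero])
                  (ha₀hom a ha).1
          rw [PowerSeries.map, MvPowerSeries.map_subst hs, ← FormalGroup.map_toPowerSeries, hbc]
          congr 1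
          funext t
          fin_cases t
          · simp [PowerSeries.X]
          · have hsX : PowerSeries.HasSubst
                ((PowerSeries.X : PowerSeries (GaloisField p n)) ^ p ^ (n * N)) :=
              PowerSeries.HasSubst.X_pow (pow_ne_zero _ (Fact.out : p.Prime).ne_zero)
            simp only [Fin.mk_one, Matrix.cons_val_one, Matrix.cons_val_fin_one]
            rw [PowerSeries.map_subst hsX]
            simp [PowerSeries.X, ← ha₀map a ha, PowerSeries.map]
        rw [h1, PowerSeries.coeff_map, PowerSeries.coeff_map, ← hgred, PowerSeries.coeff_map]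
        exact hψm _
    · rw [hvα a ha N hN1]
      refine (hφ0 _).2 (hle ?_)
      have hmap := heightIdeal_map_move p n _ _ _ _ hmv h
      rw [heightIdeal_std p n h hh hhn.le] at hmap
      rw [← hmap]
      exact Ideal.mem_map_of_mem _ (coord_generator_mem p n h i hi)
    · rw [hvα a ha N hN1, hu, ← map_sub]
      exact norm_le_pow_of_mem φ hε0 hm N
        (move_nearOne_congr p n hn _ (ha₀hom a ha) N hN1 _ hmv _)
  · rw [← heval]
    exact (hφ0 _).2 hf
  · intro a ha N hN
    have hN1 : 1 ≤ N := (le_max_right _ _).trans hN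
    rw [← hαφ a ha N hN1]
    exact (hφ0 _).2 (invariantNearOne_mem p n hN₀ (ha₀hom a ha) ((le_max_left _ _).trans hN)
      (hα a ha N hN1) hf)

theorem exists_separating_pow (P P' : Ideal (LTRing p n)) (hP : P.IsPrime) (hne : ¬P' ≤ P) :
    ∃ M, ¬P' ≤ P ⊔ maximalIdeal (LTRing p n) ^ M := by
  obtain ⟨x, hx, hxP⟩ := SetLike.not_le_iff_exists.1 hne
  have : IsLocalRing (LTRing p n ⧸ P) := by
    have : Nontrivial (LTRing p n ⧸ P) := Ideal.Quotient.nontrivial_iff.2 hP.ne_top
    exact IsLocalRing.of_surjective' (Ideal.Quotient.mk P) Ideal.Quotient.mk_surjective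
  have htop : (maximalIdeal (LTRing p n)).map (Ideal.Quotient.mk P) ≠ ⊤ := by
    intro h
    have h2 := congrArg (Ideal.comap (Ideal.Quotient.mk P)) h
    rw [Ideal.comap_map_of_surjective _ Ideal.Quotient.mk_surjective, Ideal.comap_top,
      ← RingHom.ker_eq_comap_bot, Ideal.mk_ker,
      sup_eq_left.2 (IsLocalRing.le_maximalIdeal hP.ne_top)] at h2
    exact (IsLocalRing.maximalIdeal.isMaximal _).ne_top h2
  by_contra hall
  push Not at hall
  have hbot := Ideal.iInf_pow_eq_bot_of_isLocalRing
    ((maximalIdeal (LTRing p n)).map (Ideal.Quotient.mk P)) htop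
  have hmem : Ideal.Quotient.mk P x ∈
      ⨅ i, (maximalIdeal (LTRing p n)).map (Ideal.Quotient.mk P) ^ i := by
    refine Submodule.mem_iInf _ |>.2 fun i => ?_
    rw [← Ideal.map_pow]
    have h2 := hall i hx
    have h3 : Ideal.Quotient.mk P x ∈
        (P ⊔ maximalIdeal (LTRing p n) ^ i).map (Ideal.Quotient.mk P) :=
      Ideal.mem_map_of_mem _ h2
    rwa [Ideal.map_sup, Ideal.map_quotient_self, bot_sup_eq] at h3
  rw [hbot, Ideal.mem_bot, Ideal.Quotient.eq_zero_iff_mem] at hmem
  exact hxP hmem

theorem IsHomSeries.comp' {R : Type*} [CommRing R] {F G H : FormalGroup R} {f g : PowerSeries R}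
    (hf : IsHomSeries F G f) (hg : IsHomSeries G H g) :
    IsHomSeries F H (PowerSeries.subst f g) := by
  have hfs : PowerSeries.HasSubst f := PowerSeries.HasSubst.of_constantCoeff_zero' hf.1
  have hFs : PowerSeries.HasSubst F.toPowerSeries :=
    PowerSeries.HasSubst.of_constantCoeff_zero F.zero_constantCoeff
  have hGs : PowerSeries.HasSubst G.toPowerSeries :=
    PowerSeries.HasSubst.of_constantCoeff_zero G.zero_constantCoeff
  have hX : ∀ i : Fin 2, PowerSeries.HasSubst (MvPowerSeries.X i : MvPowerSeries (Fin 2) R) :=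
    fun i => PowerSeries.HasSubst.of_constantCoeff_zero (by simp)
  have hfi : ∀ i : Fin 2,
      PowerSeries.HasSubst (PowerSeries.subst (MvPowerSeries.X i : MvPowerSeries (Fin 2) R) f) :=
    fun i => PowerSeries.HasSubst.of_constantCoeff_zero (constantCoeff_subst_X i hf.1)
  have hgs := hasSubst_pair hg.1
  refine ⟨PowerSeries.constantCoeff_subst_eq_zero hf.1 g hg.1, ?_⟩
  rw [PowerSeries.subst_comp_subst_apply hfs hFs, hf.2]
  set b : Fin 2 → MvPowerSeries (Fin 2) R :=
    ![PowerSeries.subst (MvPowerSeries.X (0 : Fin 2)) f,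
      PowerSeries.subst (MvPowerSeries.X (1 : Fin 2)) f] with hb
  have h1 : PowerSeries.subst (MvPowerSeries.subst b G.toPowerSeries) g =
      MvPowerSeries.subst b
        (PowerSeries.subst G.toPowerSeries g) := by
    rw [PowerSeries.subst, PowerSeries.subst,
      MvPowerSeries.subst_comp_subst_apply hGs.const (hasSubst_pair hf.1)]
  rw [h1, hg.2, hb, MvPowerSeries.subst_comp_subst_apply hgs (hasSubst_pair hf.1)]
  congr 1
  funext i
  have hcomm : ∀ i : Fin 2,
      MvPowerSeries.subst b (PowerSeries.subst (MvPowerSeries.X i : MvPowerSeries (Fin 2) R) g) =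
        PowerSeries.subst (b i) g := fun i => by
    have h2 := MvPowerSeries.subst_comp_subst_apply (hX i).const (hasSubst_pair hf.1) g
    refine h2.trans ?_
    congr 1
    funext _
    exact MvPowerSeries.subst_X (hasSubst_pair hf.1) i
  fin_cases i
  · simp only [Fin.zero_eta, Matrix.cons_val_zero]
    rw [PowerSeries.subst_comp_subst_apply hfs (hX 0)]
    exact hcomm 0
  · simp only [Fin.mk_one, Matrix.cons_val_one, Matrix.cons_val_fin_one]
    rw [PowerSeries.subst_comp_subst_apply hfs (hX 1)]
    exact hcomm 1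

theorem isHomSeries_monomial {R : Type*} [CommRing R] [CharP R p] (hn : 1 ≤ n) (ζ : R)
    (hζ : ζ ^ p ^ n = ζ) : ∀ m : ℕ,
    IsHomSeries (fg p n (0 : Fin (n - 1) → R)) (fg p n 0)
      (PowerSeries.C ζ * PowerSeries.X ^ p ^ m)
  | 0 => by simpa using isHomSeries_teich p n hn ζ hζ
  | m + 1 => by
    have h := (isHomSeries_frobenius p n hn (R := R)).comp' (isHomSeries_monomial hn ζ hζ m)
    have hs : PowerSeries.HasSubst ((PowerSeries.X : PowerSeries R) ^ p) :=
      PowerSeries.HasSubst.X_pow (Fact.out : p.Prime).ne_zero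
    rw [PowerSeries.subst_mul hs, PowerSeries.subst_pow hs, PowerSeries.subst_X hs,
      PowerSeries.subst_C, ← pow_mul, ← pow_succ'] at h
    exact h

theorem natCast_eq_pow_mul_unit (hn : 1 ≤ n) {m : ℕ} (hm : m ≠ 0) :
    ∃ (a : ℕ) (u : LTRing p n), IsUnit u ∧ (m : LTRing p n) = (p : LTRing p n) ^ a * u := by
  obtain ⟨a, b, hb, rfl⟩ :=
    Nat.exists_eq_pow_mul_and_not_dvd hm p (Fact.out : p.Prime).ne_one
  refine ⟨a, (b : LTRing p n), ?_, by push_cast; rfl⟩
  by_contra hnu
  have h1 : (b : LTRing p n) ∈ maximalIdeal (LTRing p n) := hnu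
  rw [← ker_residueMap, RingHom.mem_ker, map_natCast,
    CharP.cast_eq_zero_iff (GaloisField p n) p] at h1
  exact hb h1

theorem natCast_not_mem (hn : 1 ≤ n) {P : Ideal (LTRing p n)} (hP : P.IsPrime)
    (hp : (p : LTRing p n) ∉ P) {m : ℕ} (hm : m ≠ 0) : (m : LTRing p n) ∉ P := by
  obtain ⟨a, u, hu, he⟩ := natCast_eq_pow_mul_unit p n hn hm
  rw [he]
  intro h
  rcases hP.mem_or_mem h with h1 | h1
  · exact hp (hP.mem_of_pow_mem _ h1)
  · exact hP.ne_top (Ideal.eq_top_of_isUnit_mem _ h1 hu)

/-- A prime not containing `p` and closed under all derivations is zero. -/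
theorem eq_bot_of_pderiv_closed_charZero (hn : 1 ≤ n) (P : Ideal (LTRing p n)) (hP : P.IsPrime)
    (hp : (p : LTRing p n) ∉ P)
    (hd : ∀ f ∈ P, ∀ i, MvPowerSeries.pderiv (Coef p n) i f ∈ P) : P = ⊥ := by
  classical
  set E : LTRing p n → LTRing p n := fun f =>
    ∑ i, MvPowerSeries.X i * MvPowerSeries.pderiv (Coef p n) i f with hE
  have hEc : ∀ f e, MvPowerSeries.coeff e (E f) =
      (e.degree : Coef p n) * MvPowerSeries.coeff e f := fun f e => by
    rw [hE]
    simp only [map_sum, MvPowerSeries.X, MvPowerSeries.coeff_monomial_mul, one_mul]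
    rw [Finsupp.degree_eq_sum, Nat.cast_sum, Finset.sum_mul]
    refine Finset.sum_congr rfl fun i _ => ?_
    by_cases hi : e i = 0
    · rw [if_neg, hi, Nat.cast_zero, zero_mul]
      intro hle
      have := hle i
      simp [hi] at this
    · have hle : Finsupp.single i 1 ≤ e := fun j => by
        rcases eq_or_ne j i with rfl | hj
        · simp; omega
        · simp [Finsupp.single_eq_of_ne hj]
      rw [if_pos hle, MvPowerSeries.coeff_pderiv, tsub_add_cancel_of_le hle, mul_comm]
      congr 1
      have h1 : (e - Finsupp.single i 1 : Fin (n - 1) →₀ ℕ) i + 1 = e i := by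
        simp [Finsupp.tsub_apply]; omega
      conv_rhs => rw [← h1]
      push_cast
      ring
  have hEP : ∀ f ∈ P, E f ∈ P := fun f hf =>
    Ideal.sum_mem _ fun i _ => Ideal.mul_mem_left _ _ (hd f hf i)
  have hT : ∀ k, ∀ f ∈ P, ∃ g ∈ P, ∀ e, MvPowerSeries.coeff e g =
      ((∏ j ∈ Finset.range k, ((e.degree : ℤ) - (j + 1)) : ℤ) : Coef p n) *
        MvPowerSeries.coeff e f := by
    intro k
    induction k with
    | zero => exact fun f hf => ⟨f, hf, fun e => by simp⟩
    | succ k ih =>
      intro f hf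
      obtain ⟨g, hg, hgc⟩ := ih f hf
      refine ⟨E g - ((k + 1 : ℕ) : LTRing p n) * g,
        Ideal.sub_mem _ (hEP g hg) (Ideal.mul_mem_left _ _ hg), fun e => ?_⟩
      rw [map_sub, hEc, hgc, ← map_natCast (MvPowerSeries.C : Coef p n →+* LTRing p n),
        MvPowerSeries.coeff_C_mul, hgc, Finset.prod_range_succ]
      push_cast
      ring
  have hconst : ∀ f ∈ P, MvPowerSeries.constantCoeff f = 0 := by
    intro f hf
    set c := MvPowerSeries.constantCoeff f with hc
    have hsep : ∀ k, MvPowerSeries.C c ∈ P ⊔ maximalIdeal (LTRing p n) ^ k := fun k => by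
      obtain ⟨g, hg, hgc⟩ := hT k f hf
      set h : LTRing p n := fun e =>
        if e = 0 then 0 else (Nat.choose (e.degree - 1) k : Coef p n) * MvPowerSeries.coeff e f
        with hh
      have hprod : ∀ (d : ℕ), 1 ≤ d → (∏ j ∈ Finset.range k, ((d : ℤ) - (j + 1))) =
          ((k.factorial * Nat.choose (d - 1) k : ℕ) : ℤ) := fun d hd => by
        rw [← Nat.descFactorial_eq_factorial_mul_choose, Nat.descFactorial_eq_prod_range,
          Nat.cast_prod]
        rcases le_or_gt k (d - 1) with hk | hk
        · refine Finset.prod_congr rfl fun j hj => ?_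
          rw [Finset.mem_range] at hj
          omega
        · rw [Finset.prod_eq_zero (i := d - 1) (Finset.mem_range.2 hk) (by omega),
            Finset.prod_eq_zero (i := d - 1) (Finset.mem_range.2 hk) (by simp)]
      have hprod0 : (∏ j ∈ Finset.range k, ((0 : ℤ) - (j + 1))) =
          (-1) ^ k * (k.factorial : ℤ) := by
        clear_value c
        clear * -
        induction k with
        | zero => simp
        | succ k ih =>
          rw [Finset.prod_range_succ, ih, Nat.factorial_succ, pow_succ]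
          push_cast
          ring
      have hge : g = ((k.factorial : ℕ) : LTRing p n) *
          ((-1) ^ k * MvPowerSeries.C c + h) := by
        ext1 e
        rw [hgc, ← map_natCast (MvPowerSeries.C : Coef p n →+* LTRing p n),
          MvPowerSeries.coeff_C_mul, map_add]
        have hC : ((-1 : LTRing p n)) ^ k * MvPowerSeries.C c =
            MvPowerSeries.C ((-1) ^ k * c) := by simp
        rw [hC, MvPowerSeries.coeff_C]
        rcases eq_or_ne e 0 with rfl | he
        · rw [if_pos rfl, MvPowerSeries.coeff_zero_eq_constantCoeff_apply, ← hc,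
            map_zero, Nat.cast_zero, hprod0]
          have : MvPowerSeries.coeff 0 h = 0 := by
            rw [MvPowerSeries.coeff_apply, hh]; exact if_pos rfl
          rw [this, add_zero]
          push_cast
          ring
        · have hd1 : 1 ≤ e.degree := Nat.one_le_iff_ne_zero.2 fun h0 =>
            he (Finsupp.degree_eq_zero_iff e |>.1 h0)
          have : MvPowerSeries.coeff e h =
              (Nat.choose (e.degree - 1) k : Coef p n) * MvPowerSeries.coeff e f := by
            rw [MvPowerSeries.coeff_apply, hh]; exact if_neg he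
          rw [if_neg he, zero_add, this, hprod _ hd1]
          push_cast
          ring
      rw [hge] at hg
      have h1 := (hP.mem_or_mem hg).resolve_left
        (natCast_not_mem p n hn hP hp (Nat.factorial_pos k).ne')
      have h2 : h ∈ maximalIdeal (LTRing p n) ^ k :=
        mem_pow_of_coeff_eq_zero _ (X_mem_maximalIdeal p n) k h fun e he => by
          rw [MvPowerSeries.coeff_apply, hh]
          dsimp only
          split_ifs with h0
          · rfl
          · rw [Nat.choose_eq_zero_of_lt (by omega), Nat.cast_zero, zero_mul]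
      have h3 : MvPowerSeries.C c =
          (-1) ^ k * ((-1) ^ k * MvPowerSeries.C c + h) + -((-1) ^ k * h) := by
        rw [mul_add, ← mul_assoc, ← mul_pow]
        simp
      rw [h3]
      exact Submodule.add_mem_sup (Ideal.mul_mem_left _ _ h1) (neg_mem (Ideal.mul_mem_left _ _ h2))
    have hcP : MvPowerSeries.C c ∈ P := by
      by_contra hne
      obtain ⟨M, hM⟩ := exists_separating_pow p n P (Ideal.span {MvPowerSeries.C c}) hP
        (by rw [Ideal.span_singleton_le_iff_mem]; exact hne)
      exact hM ((Ideal.span_singleton_le_iff_mem _).2 (hsep M))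
    by_contra hc0
    obtain ⟨a, b, hb, hcb⟩ := WittVector.exists_eq_pow_p_mul c hc0
    rw [hcb, map_mul, map_pow, map_natCast] at hcP
    rcases hP.mem_or_mem hcP with h1 | h1
    · exact hp (hP.mem_of_pow_mem _ h1)
    · have hbu : IsUnit b := WittVector.isUnit_of_coeff_zero_ne_zero b hb
      exact hP.ne_top (Ideal.eq_top_of_isUnit_mem _ h1 (hbu.map _))
  rw [eq_bot_iff]
  suffices ∀ k, ∀ f ∈ P, ∀ e : Fin (n - 1) →₀ ℕ, e.degree = k → MvPowerSeries.coeff e f = 0 by
    intro f hf
    rw [Ideal.mem_bot]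
    ext1 e
    rw [map_zero]
    exact this _ f hf e rfl
  intro k
  induction k with
  | zero =>
    intro f hf e he
    rw [(Finsupp.degree_eq_zero_iff e).1 he]
    exact hconst f hf
  | succ k ih =>
    intro f hf e he
    obtain ⟨i, hi⟩ : ∃ i, e i ≠ 0 := by
      by_contra! h
      rw [show e = 0 from Finsupp.ext h] at he
      simp at he
    have hle : Finsupp.single i 1 ≤ e := fun j => by
      rcases eq_or_ne j i with rfl | hj
      · simp; omega
      · simp [Finsupp.single_eq_of_ne hj]
    set e' := e - Finsupp.single i 1 with he'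
    have hee : e' + Finsupp.single i 1 = e := tsub_add_cancel_of_le hle
    have hdeg : e'.degree = k := by
      have := congrArg Finsupp.degree hee
      rw [map_add, Finsupp.degree_single, he] at this
      omega
    have h1 := ih _ (hd f hf i) e' hdeg
    rw [MvPowerSeries.coeff_pderiv, hee, mul_eq_zero] at h1
    refine h1.resolve_right fun h2 => ?_
    have h3 : ((e' i + 1 : ℕ) : Coef p n) = 0 := by exact_mod_cast h2
    have : CharZero (Coef p n) := charZero_of_inj_zero fun m hm => by
      by_contra hm0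
      obtain ⟨a, u, hu, he⟩ := natCast_eq_pow_mul_unit p n hn hm0
      have h4 : (m : LTRing p n) = 0 := by
        rw [← map_natCast (MvPowerSeries.C : Coef p n →+* LTRing p n), hm, map_zero]
      rw [he] at h4
      have h5 : (p : LTRing p n) ^ a = 0 := by
        have := hu.mul_left_eq_zero.1 h4
        exact this
      exact hp (hP.mem_of_pow_mem a (h5 ▸ P.zero_mem))
    exact Nat.succ_ne_zero _ (Nat.cast_eq_zero.1 h3)

theorem exists_preimage_teich {F : Type*} [Field F] [Fintype F] {O : Type*} [CommRing O]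
    [IsDomain O] (φ : F →*₀ O) (hφ : Function.Injective φ) {x : O}
    (hx : x ^ Fintype.card F = x) : ∃ a, φ a = x := by
  classical
  by_contra hne
  push Not at hne
  set Q := Fintype.card F
  set P : Polynomial O := Polynomial.X ^ Q - Polynomial.X with hPdef
  have h1 : 1 < Q := Fintype.one_lt_card
  have h4 : P.natDegree = Q := by
    rw [hPdef, Polynomial.natDegree_sub_eq_left_of_natDegree_lt] <;> simp [h1]
  have hP : P ≠ 0 := by
    intro h0
    rw [h0, Polynomial.natDegree_zero] at h4
    omega
  have hsub : insert x (Finset.univ.image φ) ⊆ P.roots.toFinset := by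
    intro y hy
    rw [Multiset.mem_toFinset, Polynomial.mem_roots hP, hPdef, Polynomial.IsRoot,
      Polynomial.eval_sub, Polynomial.eval_pow, Polynomial.eval_X, sub_eq_zero]
    rcases Finset.mem_insert.1 hy with rfl | hy
    · exact hx
    · obtain ⟨a, -, rfl⟩ := Finset.mem_image.1 hy
      rw [← map_pow, FiniteField.pow_card]
  have h2 := Finset.card_le_card hsub
  rw [Finset.card_insert_of_notMem (fun hm => by
      obtain ⟨a, -, ha⟩ := Finset.mem_image.1 hm
      exact hne a ha),
    Finset.card_image_of_injective _ hφ, Finset.card_univ] at h2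
  have h3 := (Multiset.toFinset_card_le _).trans (Polynomial.card_roots' P)
  omega

/-- Closedness under derivations of an invariant prime without `p`. -/
theorem pderiv_mem_of_invariant_charZero (hn : 1 ≤ n) (P : Ideal (LTRing p n))
    (hP : P.IsPrime) (hinv : IsInvariantNearOne p n P) (hp : (p : LTRing p n) ∉ P)
    {f : LTRing p n} (hf : f ∈ P) (i : Fin (n - 1)) :
    MvPowerSeries.pderiv (Coef p n) i f ∈ P := by
  obtain ⟨N₀, hN₀⟩ := hinv
  have : IsDomain (LTRing p n ⧸ P) := Ideal.Quotient.isDomain P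
  have : IsLocalRing (LTRing p n ⧸ P) :=
    IsLocalRing.of_surjective' (Ideal.Quotient.mk P) Ideal.Quotient.mk_surjective
  have hmq : ∀ r : LTRing p n, r ∈ maximalIdeal (LTRing p n) →
      Ideal.Quotient.mk P r ∈ maximalIdeal (LTRing p n ⧸ P) := fun r hr hu => by
    obtain ⟨s, hs⟩ := hu.exists_right_inv
    obtain ⟨s, rfl⟩ := Ideal.Quotient.mk_surjective s
    rw [← map_mul, ← map_one (Ideal.Quotient.mk P), Ideal.Quotient.mk_eq_mk_iff_sub_mem] at hs
    have h1 : r * s - (r * s - 1) ∈ maximalIdeal (LTRing p n) :=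
      Ideal.sub_mem _ (Ideal.mul_mem_right _ _ hr) (IsLocalRing.le_maximalIdeal hP.ne_top hs)
    rw [sub_sub_cancel] at h1
    exact (Ideal.ne_top_iff_one _).1 (IsLocalRing.maximalIdeal.isMaximal _).ne_top h1
  have hmax : maximalIdeal (LTRing p n ⧸ P) ≠ ⊥ := fun hbot => by
    have := hmq _ (natCast_mem_maximalIdeal p n)
    rw [hbot, Ideal.mem_bot, Ideal.Quotient.eq_zero_iff_mem] at this
    exact hp this
  obtain ⟨K, instK, instU, instC, instA, x, hxinj, hxle, hxlt⟩ :=
    exists_point (LTRing p n ⧸ P) hmax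
  set φ₀ : LTRing p n →+* K := x.comp (Ideal.Quotient.mk P) with hφ₀
  set φ : LTRing p n →+* Ball K := φ₀.codRestrict (Ball K) fun r => hxle _ with hφ
  have hφ0 : ∀ r, φ r = 0 ↔ r ∈ P := fun r => by
    rw [← Ideal.Quotient.eq_zero_iff_mem, ← hxinj.eq_iff' (map_zero x)]
    exact Subtype.ext_iff
  have : CharZero K := charZero_of_inj_zero fun m hm => by
    by_contra hm0
    refine natCast_not_mem p n hn hP hp hm0 ((hφ0 _).1 (Subtype.ext ?_))
    show φ₀ (m : LTRing p n) = 0
    rw [map_natCast, hm]
  obtain ⟨ε₀, hε00, hε01, hε0le⟩ := exists_radius (x := fun o : Option (Fin (n - 1)) =>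
      φ (o.elim (p : LTRing p n) fun i => MvPowerSeries.X i)) (fun o => by
    cases o with
    | none => exact hxlt _ (hmq _ (natCast_mem_maximalIdeal p n))
    | some i => exact hxlt _ (hmq _ (X_mem_maximalIdeal p n i)))
  have hm : ∀ r ∈ maximalIdeal (LTRing p n), ‖φ r‖ ≤ ε₀ := fun r hr =>
    norm_le_of_mem_maximalIdeal φ hε00 (hε0le none) (fun i => hε0le (some i)) hr
  set u : Fin (n - 1) → Ball K := fun i => φ (MvPowerSeries.X i) with hu
  have hpK : ‖((p : ℕ) : K)‖ ≤ ε₀ := by
    have h := hε0le none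
    have h2 : φ₀ (p : LTRing p n) = ((p : ℕ) : K) := map_natCast φ₀ p
    rw [← h2]
    exact h
  -- Teichmüller representatives
  set tk : GaloisField p n →*₀ Ball K :=
    { toFun := fun a => φ (MvPowerSeries.C (WittVector.teichmuller p a))
      map_zero' := by rw [WittVector.teichmuller_zero, map_zero, map_zero]
      map_one' := by rw [map_one, map_one, map_one]
      map_mul' := fun a b => by rw [map_mul, map_mul, map_mul] } with htk
  have htkinj : Function.Injective tk := fun a b hab => by
    by_contra hne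
    have h0 : φ (MvPowerSeries.C (WittVector.teichmuller p a - WittVector.teichmuller p b)) = 0 := by
      rw [map_sub, map_sub, sub_eq_zero]
      exact hab
    have hu' : IsUnit (WittVector.teichmuller p a - WittVector.teichmuller p b) := by
      refine WittVector.isUnit_of_coeff_zero_ne_zero _ fun h => hne ?_
      have h' : WittVector.constantCoeff
          (WittVector.teichmuller p a - WittVector.teichmuller p b) = 0 := h
      rw [map_sub, sub_eq_zero] at h'
      simpa [WittVector.constantCoeff] using h'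
    exact hP.ne_top (Ideal.eq_top_of_isUnit_mem _ ((hφ0 _).1 h0) (hu'.map _))
  have : Fintype (GaloisField p n) := Fintype.ofFinite _
  have hcard : Fintype.card (GaloisField p n) = p ^ n := by
    rw [← Nat.card_eq_fintype_card]; exact GaloisField.card p n (by omega)
  have hex : ∀ ζ : Ball K, ζ ^ p ^ n = ζ → ∃ a, tk a = ζ ∧ a ^ p ^ n = a := fun ζ hζ => by
    obtain ⟨a, ha⟩ := exists_preimage_teich tk htkinj (x := ζ) (by rw [hcard]; exact hζ)
    exact ⟨a, ha, by rw [← hcard]; exact FiniteField.pow_card a⟩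
  choose ζ₀ hζ₀ hζ₀p using hex
  set g₀ : GaloisField p n → ℕ → PowerSeries (GaloisField p n) :=
    fun a m => PowerSeries.C a * PowerSeries.X ^ p ^ m with hg₀
  have hg₀hom : ∀ (a : GaloisField p n), a ^ p ^ n = a → ∀ m,
      IsHomSeries (baseChange p n (honda p n)) (baseChange p n (honda p n)) (g₀ a m) :=
    fun a ha m => by
      rw [baseChange_honda_eq]
      exact isHomSeries_monomial p n hn a ha m
  have hmove : ∀ (ζ : Ball K) (hζ : ζ ^ p ^ n = ζ) (m N : ℕ), 1 ≤ N →
      ∃! α : LTRing p n ≃+* LTRing p n,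
        IsMove p n (stdF p n) (RingEquiv.refl _) (nearOne p n (g₀ (ζ₀ ζ hζ) m) N) α :=
    fun ζ hζ m N hN => existsUnique_move p n hn _ _ (isUniversal_std p n hn) _ _
      (isIsoSeries_nearOne p n hn _ (hg₀hom _ (hζ₀p ζ hζ) m) N hN)
  choose α hα _ using hmove
  classical
  set v : Ball K → ℕ → ℕ → Fin (n - 1) → Ball K := fun ζ m N i =>
    if hc : ζ ^ p ^ n = ζ ∧ 1 ≤ N then φ (α ζ hc.1 m N hc.2 (MvPowerSeries.X i)) else u i with hv
  have hvα : ∀ ζ (hζ : ζ ^ p ^ n = ζ) m N (hN : 1 ≤ N),
      v ζ m N = fun i => φ (α ζ hζ m N hN (MvPowerSeries.X i)) := fun ζ hζ m N hN => by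
    funext i
    rw [hv]
    exact dif_pos ⟨hζ, hN⟩
  have heval : ∀ g : LTRing p n, φ g = evalMv (MvPowerSeries.map (coefHom φ) g) u :=
    hom_eq_evalMv φ hε00 hε01 hm
  have hαφ : ∀ ζ (hζ : ζ ^ p ^ n = ζ) m N (hN : 1 ≤ N) (g : LTRing p n),
      φ (α ζ hζ m N hN g) = evalMv (MvPowerSeries.map (coefHom φ) g) (v ζ m N) :=
    fun ζ hζ m N hN g => by
      have hm' : ∀ r ∈ maximalIdeal (LTRing p n),
          ‖(φ.comp (α ζ hζ m N hN).toRingHom) r‖ ≤ ε₀ :=
        fun r hr => hm _ (move_map_maximalIdeal p n _ _ _ _ (hα ζ hζ m N hN) hr)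
      have h1 := hom_eq_evalMv (φ.comp (α ζ hζ m N hN).toRingHom) hε00 hε01 hm' g
      have hC : coefHom (φ.comp (α ζ hζ m N hN).toRingHom) = coefHom φ := by
        ext w
        have h2 := (hα ζ hζ m N hN).1 w
        simp only [coefHom, RingHom.comp_apply]
        congr 2
      rw [hC] at h1
      rw [hvα ζ hζ m N hN]
      exact h1
  have hconcl := pderiv_eq_zero_of_orbit_charZero p n hn u hε00 hε01
    (fun i => hε0le (some i)) hpK v (max N₀ 1) (le_max_right _ _) (fun ζ hζ m hm' N hN => ?_)
    (MvPowerSeries.map (coefHom φ) f) ?_ ?_ i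
  · rw [← map_pderiv, ← heval] at hconcl
    exact (hφ0 _).1 hconcl
  · have hN1 : 1 ≤ N := (le_max_right _ _).trans hN
    have hmv := hα ζ hζ m N hN1
    rw [hvα ζ hζ m N hN1]
    refine ⟨fun j => hm _ (move_map_maximalIdeal p n _ _ _ _ hmv (X_mem_maximalIdeal p n j)),
      fun j => ?_, ?_⟩
    · rw [hu, ← map_sub]
      exact norm_le_pow_of_mem φ hε00 hm N
        (move_nearOne_congr p n hn _ (hg₀hom _ (hζ₀p ζ hζ) m) N hN1 _ hmv _)
    · obtain ⟨-, hαres, g, hg, hgred⟩ := hmv
      refine ⟨PowerSeries.map φ g, ?_, fun d => ?_⟩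
      · have h1 := hg.1.map φ
        rw [stdF_map] at h1
        have h2 : ((stdF p n).map (α ζ hζ m N hN1).toRingHom).map φ =
            fg p n (fun j => φ (α ζ hζ m N hN1 (MvPowerSeries.X j))) := by
          rw [stdF_map, fg_map]
          rfl
        rwa [h2] at h1
      · set G := (stdF p n).map (α ζ hζ m N hN1).toRingHom with hG
        set cz : LTRing p n := MvPowerSeries.C (WittVector.teichmuller p (ζ₀ ζ hζ)) with hcz
        set L : PowerSeries (LTRing p n) := MvPowerSeries.subst
          ![PowerSeries.X, PowerSeries.C cz * PowerSeries.X ^ p ^ (m + n * N)] G.toPowerSeries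
          with hL
        have hsL : ∀ (R : Type) [CommRing R] (c : R), MvPowerSeries.HasSubst
            ![(PowerSeries.X : PowerSeries R),
              PowerSeries.C c * PowerSeries.X ^ p ^ (m + n * N)] :=
          fun R _ c => MvPowerSeries.hasSubst_of_constantCoeff_zero fun t => by
            fin_cases t
            · exact PowerSeries.constantCoeff_X
            · show PowerSeries.constantCoeff _ = 0
              simp [(Fact.out : p.Prime).ne_zero]
        have hL1 : PowerSeries.map φ L =
            liftMonomial p n (fun j => φ (α ζ hζ m N hN1 (MvPowerSeries.X j))) ζ m N := by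
          rw [hL, liftMonomial, PowerSeries.map, MvPowerSeries.map_subst (hsL _ cz)]
          congr 1
          · funext t
            fin_cases t
            · simp [PowerSeries.X]
            · simp only [Fin.mk_one, Matrix.cons_val_one, Matrix.cons_val_fin_one]
              show PowerSeries.map φ (PowerSeries.C cz * PowerSeries.X ^ p ^ (m + n * N)) = _
              simp only [map_mul, map_pow, PowerSeries.map_C, PowerSeries.map_X]
              congr 2
              exact hζ₀ ζ hζ
          · rw [← FormalGroup.map_toPowerSeries, hG, stdF_map, fg_map]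
            rfl
        have hL2 : PowerSeries.map (residueMap p n) L =
            nearOne p n (g₀ (ζ₀ ζ hζ) m) N := by
          rw [hL, nearOne, PowerSeries.map, MvPowerSeries.map_subst (hsL _ cz)]
          congr 1
          · funext t
            fin_cases t
            · simp [PowerSeries.X]
            · have hsX : PowerSeries.HasSubst
                  ((PowerSeries.X : PowerSeries (GaloisField p n)) ^ p ^ (n * N)) :=
                PowerSeries.HasSubst.X_pow (pow_ne_zero _ (Fact.out : p.Prime).ne_zero)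
              show PowerSeries.map (residueMap p n) _ = PowerSeries.subst _ (g₀ (ζ₀ ζ hζ) m)
              rw [hg₀]
              simp only [map_mul, map_pow, PowerSeries.map_C, PowerSeries.map_X,
                PowerSeries.subst_mul hsX, PowerSeries.subst_pow hsX, PowerSeries.subst_X hsX,
                PowerSeries.subst_C, ← pow_mul, ← pow_add, add_comm m (n * N)]
              congr 2
              simp [hcz, residueMap, WittVector.constantCoeff]
              rfl
          · rw [← FormalGroup.map_toPowerSeries, baseChange_honda_eq, hG, stdF_map, fg_map]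
            congr 2
            funext j
            show residueMap p n (α ζ hζ m N hN1 (MvPowerSeries.X j)) = 0
            rw [hαres]
            simp [residueMap]
        have hd : PowerSeries.coeff d g - PowerSeries.coeff d L ∈ maximalIdeal (LTRing p n) := by
          rw [← ker_residueMap, RingHom.mem_ker, map_sub, ← PowerSeries.coeff_map,
            ← PowerSeries.coeff_map, hgred, hL2, sub_self]
        rw [← hL1, PowerSeries.coeff_map, PowerSeries.coeff_map, ← map_sub]
        exact hm _ hd
  · rw [← heval]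
    exact (hφ0 _).2 hf
  · intro ζ hζ m hm' N hN
    have hN1 : 1 ≤ N := (le_max_right _ _).trans hN
    rw [← hαφ ζ hζ m N hN1]
    exact (hφ0 _).2 (invariantNearOne_mem p n hN₀ (hg₀hom _ (hζ₀p ζ hζ) m)
      ((le_max_left _ _).trans hN) (hα ζ hζ m N hN1) hf)

/-- A prime invariant near the identity which does not contain `p` is zero. -/
theorem prime_eq_bot_of_not_mem (hn : 1 ≤ n) (P : Ideal (LTRing p n)) (hP : P.IsPrime)
    (hinv : IsInvariantNearOne p n P) (hp : (p : LTRing p n) ∉ P) : P = ⊥ :=
  eq_bot_of_pderiv_closed_charZero p n hn P hP hp fun _ hf i =>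
    pderiv_mem_of_invariant_charZero p n hn P hP hinv hp hf i

/-- A prime invariant near the identity which contains `p` is a coordinate ideal. -/
theorem prime_eq_coordIdeal_of_mem (hn : 1 ≤ n) (P : Ideal (LTRing p n)) (hP : P.IsPrime)
    (hinv : IsInvariantNearOne p n P) (hp : (p : LTRing p n) ∈ P) :
    ∃ h, 1 ≤ h ∧ h ≤ n ∧ P = coordIdeal p n h := by
  classical
  have hPm : P ≤ maximalIdeal (LTRing p n) := IsLocalRing.le_maximalIdeal hP.ne_top
  set T := (Finset.Icc 1 n).filter fun h => coordIdeal p n h ≤ P with hT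
  have h1 : coordIdeal p n 1 ≤ P := Ideal.span_le.2 fun a ha => by
    rcases ha with rfl | ⟨i, hi, rfl⟩
    · exact hp
    · omega
  have hne : T.Nonempty := ⟨1, by simp [hT, hn, h1]⟩
  set h := T.max' hne with hh
  obtain ⟨hmem, hle⟩ : h ∈ Finset.Icc 1 n ∧ coordIdeal p n h ≤ P :=
    Finset.mem_filter.1 (T.max'_mem hne)
  rw [Finset.mem_Icc] at hmem
  refine ⟨h, hmem.1, hmem.2, le_antisymm ?_ hle⟩
  rcases eq_or_lt_of_le hmem.2 with hhn | hhn
  · rw [hhn, ← maximalIdeal_eq_coordIdeal p n hn]
    exact hPm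
  have hnot : ∀ i : Fin (n - 1), (i : ℕ) + 1 = h → (MvPowerSeries.X i : LTRing p n) ∉ P := by
    intro i hi hiP
    have hle' : coordIdeal p n (h + 1) ≤ P := Ideal.span_le.2 fun a ha => by
      rcases ha with rfl | ⟨j, hj, rfl⟩
      · exact hp
      · rcases eq_or_lt_of_le (Nat.lt_succ_iff.1 hj) with hjh | hjh
        · obtain rfl : j = i := Fin.ext (by omega)
          exact hiP
        · exact hle (coord_generator_mem p n h j hjh)
    have := T.le_max' (h + 1) (by simp [hT, hle']; omega)
    omega
  set π := stratumMap p n h with hπ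
  have hker : RingHom.ker π ≤ P := (ker_stratumMap p n h).le.trans hle
  set J := P.map π with hJ
  have hcomap : ∀ f, π f ∈ J → f ∈ P := fun f hf => by
    have : f ∈ (P.map π).comap π := hf
    rw [Ideal.comap_map_of_surjective π (stratumMap_surjective p n h)] at this
    exact (sup_le le_rfl hker) this
  have hJbot : J = ⊥ := by
    refine eq_bot_of_pderiv_closed p J ?_ ?_ ?_
    · intro htop
      refine hP.ne_top ((Ideal.eq_top_iff_one _).2 (hcomap 1 ?_))
      rw [htop]
      trivial
    · intro i g hg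
      obtain ⟨f, rfl⟩ := stratumMap_surjective p n h g
      have hf : f ∈ P := hcomap f hg
      set i' := stratumEmb n h i with hi'
      have hi2 : h ≤ (i' : ℕ) + 1 := by
        have h2 : h - 1 ≤ (i' : ℕ) := (range_stratumEmb n h i').1 ⟨i, rfl⟩
        omega
      have h2 := pderiv_mem_of_invariant p n hmem.1 hhn P hP hinv hle hnot hf i' hi2
      have h3 : π (MvPowerSeries.pderiv (Coef p n) i' f) =
          MvPowerSeries.pderiv (GaloisField p n) i (stratumMap p n h f) := by
        ext e
        rw [hπ, coeff_stratumMap, MvPowerSeries.coeff_pderiv, MvPowerSeries.coeff_pderiv,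
          coeff_stratumMap, map_mul, Finsupp.embDomain_add, Finsupp.embDomain_single,
          Finsupp.embDomain_apply_self, map_add, map_natCast, map_one]
      rw [← h3]
      exact Ideal.mem_map_of_mem π h2
    · intro g hg
      obtain ⟨f, rfl⟩ := stratumMap_surjective p n h g
      exact Ideal.mem_map_of_mem π (hP.mem_of_pow_mem p (hcomap _ (by rw [map_pow]; exact hg)))
  rw [← ker_stratumMap]
  intro f hf
  rw [RingHom.mem_ker, ← Ideal.mem_bot, ← hJbot]
  exact Ideal.mem_map_of_mem π hf

theorem heightIdeal_mono (F : FormalGroup (LTRing p n)) {h h' : ℕ} (hh : h ≤ h') :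
    heightIdeal p n F h ≤ heightIdeal p n F h' :=
  Ideal.span_mono fun _ ⟨j, hj, ha⟩ =>
    ⟨j, hj.trans_le (Nat.pow_le_pow_right (Fact.out : p.Prime).pos hh), ha⟩

theorem isInvariantExt_heightIdeal (Γ : FormalGroup (ZMod p)) (F : FormalGroup (LTRing p n))
    (h : ℕ) : IsInvariantExt p n Γ F (heightIdeal p n F h) :=
  fun τ g α _ hα => heightIdeal_map_move p n F τ g α hα h

theorem IsInvariantExt.aut {Γ : FormalGroup (ZMod p)} {F : FormalGroup (LTRing p n)}
    {I : Ideal (LTRing p n)} (hI : IsInvariantExt p n Γ F I) : IsInvariantAut p n Γ F I :=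
  fun g α hg hα => hI _ g α hg hα

theorem isPrime_heightIdeal_std (h : ℕ) (hhn : h ≤ n) :
    (heightIdeal p n (stdF p n) h).IsPrime := by
  rcases Nat.eq_zero_or_pos h with rfl | hpos
  · rw [heightIdeal_zero]
    have : IsDomain (LTRing p n) := NoZeroDivisors.to_isDomain _
    exact Ideal.isPrime_bot
  · rw [heightIdeal_std p n h hpos hhn]
    exact isPrime_coordIdeal p n h hpos hhn

theorem isInvariantNearOne_of_aut (hn : 1 ≤ n) {I : Ideal (LTRing p n)}
    (hI : IsInvariantAut p n (honda p n) (stdF p n) I) : IsInvariantNearOne p n I :=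
  ⟨1, fun a N α ha hN hα => hI _ α (isIsoSeries_nearOne p n hn a ha N hN) hα⟩

theorem prime_eq_heightIdeal (hn : 1 ≤ n) (P : Ideal (LTRing p n)) (hP : P.IsPrime)
    (hinv : IsInvariantNearOne p n P) : ∃ h ≤ n, P = heightIdeal p n (stdF p n) h := by
  by_cases hp : (p : LTRing p n) ∈ P
  · obtain ⟨h, h1, h2, rfl⟩ := prime_eq_coordIdeal_of_mem p n hn P hP hinv hp
    exact ⟨h, h2, (heightIdeal_std p n h h1 h2).symm⟩
  · exact ⟨0, Nat.zero_le n, by
      rw [heightIdeal_zero]; exact prime_eq_bot_of_not_mem p n hn P hP hinv hp⟩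

/-- The minimal primes over an invariant ideal are invariant near the identity. -/
theorem isInvariantNearOne_minimalPrime (hn : 1 ≤ n) {I P : Ideal (LTRing p n)}
    (hI : IsInvariantAut p n (honda p n) (stdF p n) I) (hP : P ∈ I.minimalPrimes) :
    IsInvariantNearOne p n P := by
  classical
  have hfin := Ideal.finite_minimalPrimes_of_isNoetherianRing (LTRing p n) I
  have hsep : ∀ Q ∈ I.minimalPrimes, ∃ M, ∀ M' ≥ M,
      (¬Q ≤ P → ¬Q ≤ P ⊔ maximalIdeal (LTRing p n) ^ M') ∧
      (¬P ≤ Q → ¬P ≤ Q ⊔ maximalIdeal (LTRing p n) ^ M') := by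
    intro Q hQ
    have key : ∀ A B : Ideal (LTRing p n), A.IsPrime → ∃ M, ∀ M' ≥ M,
        ¬B ≤ A → ¬B ≤ A ⊔ maximalIdeal (LTRing p n) ^ M' := by
      intro A B hA
      by_cases hAB : B ≤ A
      · exact ⟨0, fun _ _ h => absurd hAB h⟩
      · obtain ⟨M, hM⟩ := exists_separating_pow p n A B hA hAB
        exact ⟨M, fun M' hM' _ h => hM (h.trans (sup_le_sup_left (Ideal.pow_le_pow_right hM') _))⟩
    obtain ⟨M₁, h₁⟩ := key P Q hP.1.1
    obtain ⟨M₂, h₂⟩ := key Q P hQ.1.1
    exact ⟨max M₁ M₂, fun M' hM' => ⟨h₁ M' ((le_max_left _ _).trans hM'),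
      h₂ M' ((le_max_right _ _).trans hM')⟩⟩
  choose! Mf hMf using hsep
  refine ⟨max 1 (hfin.toFinset.sup Mf), fun a N α ha hN hα => ?_⟩
  have hN1 : 1 ≤ N := (le_max_left _ _).trans hN
  have hIα := hI _ α (isIsoSeries_nearOne p n hn a ha N hN1) hα
  have hsur : Function.Surjective α.toRingHom := α.surjective
  have hIc : I.comap α.toRingHom = I := by
    conv_lhs => rw [← hIα]
    exact Ideal.comap_map_of_bijective α.toRingHom α.bijective
  set Q := P.map α.toRingHom with hQ
  have hPc : Q.comap α.toRingHom = P := Ideal.comap_map_of_bijective α.toRingHom α.bijective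
  have hQprime : Q.IsPrime := by
    have := hP.1.1
    exact Ideal.map_isPrime_of_equiv α
  have hQmin : Q ∈ I.minimalPrimes := by
    refine ⟨⟨hQprime, by rw [← hIα]; exact Ideal.map_mono hP.1.2⟩, fun Q' hQ' hle => ?_⟩
    have h1 : P ≤ Q'.comap α.toRingHom := by
      refine hP.2 ⟨hQ'.1.comap _, ?_⟩ ?_
      · rw [← hIc]; exact Ideal.comap_mono hQ'.2
      · rw [← hPc]; exact Ideal.comap_mono hle
    exact Ideal.map_le_iff_le_comap.2 h1
  have hNM : Mf Q ≤ N := (Finset.le_sup (hfin.mem_toFinset.2 hQmin)).trans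
    ((le_max_right _ _).trans hN)
  obtain ⟨hs1, hs2⟩ := hMf Q hQmin N hNM
  refine le_antisymm ?_ ?_
  · by_contra hne
    refine hs1 hne fun y hy => ?_
    obtain ⟨z, hz, rfl⟩ := (Ideal.mem_map_iff_of_surjective _ hsur).1 hy
    have hd := move_nearOne_congr p n hn a ha N hN1 α hα z
    have : α.toRingHom z = z + (α z - z) := (add_sub_cancel z (α z)).symm
    rw [this]
    exact Submodule.add_mem_sup hz hd
  · by_contra hne
    refine hs2 hne fun y hy => ?_
    have hd := move_nearOne_congr p n hn a ha N hN1 α hα y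
    have : y = α y + -(α y - y) := by ring
    rw [this]
    exact Submodule.add_mem_sup (Ideal.mem_map_of_mem α.toRingHom hy) (neg_mem hd)

/-- The classification for the standard model. -/
theorem classification_std (hn : 1 ≤ n) (I : Ideal (LTRing p n)) :
    (IsInvariantAut p n (honda p n) (stdF p n) I ∧ I.IsPrime ↔
      ∃ h ≤ n, I = heightIdeal p n (stdF p n) h) ∧
    (IsInvariantAut p n (honda p n) (stdF p n) I ∧ I.IsRadical ↔
      I = ⊤ ∨ ∃ h ≤ n, I = heightIdeal p n (stdF p n) h) := by
  constructor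
  · constructor
    · rintro ⟨hI, hP⟩
      exact prime_eq_heightIdeal p n hn I hP (isInvariantNearOne_of_aut p n hn hI)
    · rintro ⟨h, hh, rfl⟩
      exact ⟨(isInvariantExt_heightIdeal p n _ _ h).aut p n, isPrime_heightIdeal_std p n h hh⟩
  · constructor
    · rintro ⟨hI, hrad⟩
      rcases eq_or_ne I ⊤ with htop | htop
      · exact Or.inl htop
      refine Or.inr ?_
      obtain ⟨M, hM, hIM⟩ := Ideal.exists_le_maximal I htop
      have := hM.isPrime
      obtain ⟨P, hP, -⟩ := Ideal.exists_minimalPrimes_le hIM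
      have hall : ∀ Q ∈ I.minimalPrimes, ∃ h ≤ n, Q = heightIdeal p n (stdF p n) h := fun Q hQ =>
        prime_eq_heightIdeal p n hn Q hQ.1.1 (isInvariantNearOne_minimalPrime p n hn hI hQ)
      obtain ⟨h, hh, hPh⟩ := hall P hP
      have hsingle : ∀ Q ∈ I.minimalPrimes, Q = P := by
        intro Q hQ
        obtain ⟨h', -, hQh⟩ := hall Q hQ
        rcases le_total h h' with hle | hle
        · have h1 : P ≤ Q := by rw [hPh, hQh]; exact heightIdeal_mono p n _ hle
          exact le_antisymm (hQ.2 hP.1 h1) h1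
        · have h1 : Q ≤ P := by rw [hPh, hQh]; exact heightIdeal_mono p n _ hle
          exact le_antisymm h1 (hP.2 hQ.1 h1)
      refine ⟨h, hh, ?_⟩
      rw [← hrad.radical, ← Ideal.sInf_minimalPrimes, ← hPh]
      exact le_antisymm (sInf_le hP) (le_sInf fun Q hQ => (hsingle Q hQ).ge)
    · rintro (rfl | ⟨h, hh, rfl⟩)
      · refine ⟨fun g α _ _ => Ideal.map_top _, ?_⟩
        intro x _
        trivial
      · exact ⟨(isInvariantExt_heightIdeal p n _ _ h).aut p n,
          (isPrime_heightIdeal_std p n h hh).isRadical⟩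

/-- Chai's invariant ideal question, for every height and every prime. -/
theorem chai_invariant_ideals (p : ℕ) [Fact p.Prime] (n : ℕ) (hn : 1 ≤ n) :
    (∃ Γ : FormalGroup (ZMod p), Γ.IsComm ∧ mulSeries Γ p = PowerSeries.X ^ p ^ n) ∧
    ∀ Γ : FormalGroup (ZMod p), Γ.IsComm → mulSeries Γ p = PowerSeries.X ^ p ^ n →
      (∃ F, IsUniversalDeformation p n Γ F ∧
        ∀ h, 1 ≤ h → h ≤ n → heightIdeal p n F h = coordIdeal p n h) ∧
      ∀ F, IsUniversalDeformation p n Γ F →
        (∀ τ g, IsIsoSeries (baseChange p n Γ) (baseChange p n Γ) g →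
          ∃! α : LTRing p n ≃+* LTRing p n, IsMove p n F τ g α) ∧
        heightIdeal p n F 0 = ⊥ ∧
        (∀ I : Ideal (LTRing p n),
          (IsInvariantExt p n Γ F I ∧ I.IsPrime ↔ ∃ h ≤ n, I = heightIdeal p n F h) ∧
          (IsInvariantExt p n Γ F I ∧ I.IsRadical ↔
            I = ⊤ ∨ ∃ h ≤ n, I = heightIdeal p n F h) ∧
          (IsInvariantAut p n Γ F I ∧ I.IsPrime ↔ ∃ h ≤ n, I = heightIdeal p n F h) ∧
          (IsInvariantAut p n Γ F I ∧ I.IsRadical ↔
            I = ⊤ ∨ ∃ h ≤ n, I = heightIdeal p n F h)) := by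
  refine ⟨⟨honda p n, by unfold honda; infer_instance, mulSeries_honda p n hn⟩,
    fun Γ hΓ hp => ⟨exists_universal p n hn Γ hΓ hp, fun F hF => ⟨fun τ g hg =>
      existsUnique_move p n hn Γ F hF τ g hg, heightIdeal_zero p n F, fun I => ?_⟩⟩⟩
  obtain ⟨e, heI, hinv⟩ := exists_transfer p n hn Γ hΓ hp F hF
  set J : Ideal (LTRing p n) := I.comap e.toRingHom with hJ
  have hJI : J.map e.toRingHom = I := Ideal.map_comap_of_surjective e.toRingHom e.surjective I
  have hc : ∀ h, (heightIdeal p n F h).comap e.toRingHom = heightIdeal p n (stdF p n) h := fun h =>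
    by rw [← heI h]; exact Ideal.comap_map_of_bijective e.toRingHom e.bijective
  have haut : IsInvariantAut p n Γ F I ↔ IsInvariantAut p n (honda p n) (stdF p n) J := by
    have h := (hinv J).2
    rw [hJI] at h
    exact h.symm
  have hprime : IsInvariantAut p n Γ F I → I.IsPrime → ∃ h ≤ n, I = heightIdeal p n F h := by
    intro h1 h2
    obtain ⟨h, hh, hJh⟩ := (classification_std p n hn J).1.1
      ⟨haut.1 h1, h2.comap _⟩
    exact ⟨h, hh, by rw [← hJI, hJh, heI]⟩
  have hrad : IsInvariantAut p n Γ F I → I.IsRadical →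
      I = ⊤ ∨ ∃ h ≤ n, I = heightIdeal p n F h := by
    intro h1 h2
    rcases (classification_std p n hn J).2.1 ⟨haut.1 h1, h2.comap _⟩ with htop | ⟨h, hh, hJh⟩
    · exact Or.inl (by rw [← hJI, htop, Ideal.map_top])
    · exact Or.inr ⟨h, hh, by rw [← hJI, hJh, heI]⟩
  have hback : ∀ h ≤ n, (heightIdeal p n F h).IsPrime := fun h hh => by
    rw [← heI h]
    have := isPrime_heightIdeal_std p n h hh
    exact Ideal.map_isPrime_of_equiv e
  have hExt : (∃ h ≤ n, I = heightIdeal p n F h) → IsInvariantExt p n Γ F I ∧ I.IsPrime := by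
    rintro ⟨h, hh, rfl⟩
    exact ⟨isInvariantExt_heightIdeal p n Γ F h, hback h hh⟩
  have hExt' : (I = ⊤ ∨ ∃ h ≤ n, I = heightIdeal p n F h) →
      IsInvariantExt p n Γ F I ∧ I.IsRadical := by
    rintro (htop | hh)
    · subst htop
      exact ⟨fun τ g α _ _ => Ideal.map_top _, fun x _ => trivial⟩
    · exact ⟨(hExt hh).1, (hExt hh).2.isRadical⟩
  exact ⟨⟨fun h => hprime (h.1.aut p n) h.2, hExt⟩, ⟨fun h => hrad (h.1.aut p n) h.2, hExt'⟩,
    ⟨fun h => hprime h.1 h.2, fun h => ⟨(hExt h).1.aut p n, (hExt h).2⟩⟩,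
    ⟨fun h => hrad h.1 h.2, fun h => ⟨(hExt' h).1.aut p n, (hExt' h).2⟩⟩⟩

end Vale.P217

end
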