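import Vale.Agent.P217.Gauss

/-!
Norms of sums of points of the Honda law over the ball, and the additive big logarithms.
-/

noncomputable section

set_option linter.unusedSectionVars false

namespace Vale.P217

variable {p : ℕ} [Fact p.Prime] {n : ℕ} {K : Type} [NontriviallyNormedField K]
  [IsUltrametricDist K] [CompleteSpace K]

section AnyParam

variable {u : Fin (n - 1) → Ball K}

theorem norm_fadd_sub (F : FormalGroup (Ball K)) {a b : Ball K} {ρ : ℝ} (ha : ‖a‖ < 1)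
    (hb : ‖b‖ < 1) (hρ1 : ρ ≤ 1) (ha' : ‖a‖ ≤ ρ) (hb' : ‖b‖ ≤ ρ) :
    ‖fadd F a b - (a + b)‖ ≤ ρ ^ 2 := by
  classical
  have hx : ∀ i, ‖(![a, b] : Fin 2 → Ball K) i‖ < 1 := fun i => by fin_cases i <;> assumption
  have h := norm_evalMv_le_pow hx
    (F.toPowerSeries - (MvPowerSeries.X 0 + MvPowerSeries.X 1)) (M := 2) (fun d hd => ?_)
    ((norm_nonneg a).trans ha') hρ1 (fun i => by fin_cases i <;> assumption)
  · rw [evalMv_sub hx, evalMv_add hx, evalMv_X hx, evalMv_X hx] at h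
    exact h
  · rw [map_sub, map_add, MvPowerSeries.coeff_X, MvPowerSeries.coeff_X]
    rw [Finsupp.degree_eq_sum, Fin.sum_univ_two] at hd
    by_cases h0 : d = 0
    · subst h0
      have h1 : (0 : Fin 2 →₀ ℕ) ≠ Finsupp.single 0 1 := fun h => by
        simpa using DFunLike.congr_fun h (0 : Fin 2)
      have h2 : (0 : Fin 2 →₀ ℕ) ≠ Finsupp.single 1 1 := fun h => by
        simpa using DFunLike.congr_fun h (1 : Fin 2)
      rw [if_neg h1, if_neg h2, MvPowerSeries.coeff_zero_eq_constantCoeff, F.zero_constantCoeff]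
      simp
    · have hne : d 0 ≠ 0 ∨ d 1 ≠ 0 := by
        by_contra hc
        push Not at hc
        exact h0 (Finsupp.ext fun i => by fin_cases i <;> simp [hc.1, hc.2])
      rcases hne with h | h
      · have hd' : d = Finsupp.single 0 1 := Finsupp.ext fun i => by fin_cases i <;> simp <;> omega
        have h1 : Finsupp.single (0 : Fin 2) 1 ≠ Finsupp.single 1 1 := fun h => by
          simpa using DFunLike.congr_fun h (1 : Fin 2)
        rw [hd', if_pos rfl, if_neg h1, F.lin_coeff_X]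
        simp
      · have hd' : d = Finsupp.single 1 1 := Finsupp.ext fun i => by fin_cases i <;> simp <;> omega
        have h1 : Finsupp.single (1 : Fin 2) 1 ≠ Finsupp.single 0 1 := fun h => by
          simpa using DFunLike.congr_fun h (0 : Fin 2)
        rw [hd', if_neg h1, if_pos rfl, F.lin_coeff_Y]
        simp

theorem Pt.norm_val_add_eq {F : FormalGroup (Ball K)} (x y : Pt F) (h : ‖y.val‖ < ‖x.val‖) :
    ‖(x + y).val‖ = ‖x.val‖ := by
  have h1 := norm_fadd_sub F x.norm_lt y.norm_lt x.norm_lt.le le_rfl h.le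
  have h2 : ‖x.val + y.val‖ = ‖x.val‖ := by
    rw [IsUltrametricDist.norm_add_eq_max_of_norm_ne_norm h.ne', max_eq_left h.le]
  have h3 : ‖fadd F x.val y.val - (x.val + y.val)‖ < ‖x.val + y.val‖ := by
    refine h1.trans_lt ?_
    rw [h2, sq]
    exact mul_lt_of_lt_one_left ((norm_nonneg _).trans_lt h) x.norm_lt
  rw [Pt.val_add, show fadd F x.val y.val =
    (fadd F x.val y.val - (x.val + y.val)) + (x.val + y.val) from (sub_add_cancel _ _).symm,
    IsUltrametricDist.norm_add_eq_max_of_norm_ne_norm h3.ne, max_eq_right h3.le, h2]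

variable {F : FormalGroup (Ball K)} [F.IsComm]

theorem Pt.norm_val_sum_sub {ι : Type*} (s : Finset ι) (x : ι → Pt F) {ρ : ℝ} (hρ0 : 0 ≤ ρ)
    (hρ1 : ρ ≤ 1) (hx : ∀ i ∈ s, ‖(x i).val‖ ≤ ρ) :
    ‖(∑ i ∈ s, x i).val - ∑ i ∈ s, (x i).val‖ ≤ ρ ^ 2 := by
  classical
  induction s using Finset.induction_on with
  | empty => simp [sq_nonneg]
  | insert a s ha ih =>
    have ih := ih fun i hi => hx i (Finset.mem_insert_of_mem hi)
    rw [Finset.sum_insert ha, Finset.sum_insert ha, Pt.val_add]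
    have hρ2 : ρ ^ 2 ≤ ρ := by nlinarith
    have hS : ‖(∑ i ∈ s, x i).val‖ ≤ ρ := by
      rw [← sub_add_cancel (∑ i ∈ s, x i).val (∑ i ∈ s, (x i).val)]
      exact (IsUltrametricDist.norm_add_le_max _ _).trans (max_le (ih.trans hρ2)
        (IsUltrametricDist.norm_sum_le_of_forall_le_of_nonneg hρ0 fun i hi =>
          hx i (Finset.mem_insert_of_mem hi)))
    have h1 := norm_fadd_sub F (x a).norm_lt (∑ i ∈ s, x i).norm_lt hρ1
      (hx a (Finset.mem_insert_self a s)) hS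
    have e : fadd F (x a).val (∑ i ∈ s, x i).val - ((x a).val + ∑ i ∈ s, (x i).val) =
        (fadd F (x a).val (∑ i ∈ s, x i).val - ((x a).val + (∑ i ∈ s, x i).val)) +
          ((∑ i ∈ s, x i).val - ∑ i ∈ s, (x i).val) := by abel
    rw [e]
    exact (IsUltrametricDist.norm_add_le_max _ _).trans (max_le h1 ih)

theorem Pt.norm_nsmul_sub (x : Pt F) (a : ℕ) {ρ : ℝ} (hρ0 : 0 ≤ ρ) (hρ1 : ρ ≤ 1)
    (hx : ‖x.val‖ ≤ ρ) : ‖(a • x).val - (a : Ball K) * x.val‖ ≤ ρ ^ 2 := by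
  have h := Pt.norm_val_sum_sub (Finset.range a) (fun _ => x) hρ0 hρ1 fun _ _ => hx
  simpa [nsmul_eq_mul] using h

theorem Pt.norm_nsmul_sum_sub {ι : Type*} (s : Finset ι) (a : ι → ℕ) (x : ι → Pt F) {ρ : ℝ}
    (hρ0 : 0 ≤ ρ) (hρ1 : ρ ≤ 1) (hx : ∀ i ∈ s, ‖(x i).val‖ ≤ ρ) :
    ‖(∑ i ∈ s, a i • x i).val - ∑ i ∈ s, (a i : Ball K) * (x i).val‖ ≤ ρ ^ 2 := by
  have hρ2 : ρ ^ 2 ≤ ρ := by nlinarith
  have hle : ∀ i ∈ s, ‖(a i • x i).val‖ ≤ ρ := fun i hi => by
    rw [← sub_add_cancel (a i • x i).val ((a i : Ball K) * (x i).val)]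
    refine (IsUltrametricDist.norm_add_le_max _ _).trans (max_le
      ((Pt.norm_nsmul_sub (x i) (a i) hρ0 hρ1 (hx i hi)).trans hρ2) ?_)
    rw [norm_mul_Ball]
    exact le_trans (mul_le_of_le_one_left (norm_nonneg _) (UnitNormed.norm_le_one _)) (hx i hi)
  rw [← sub_add_sub_cancel _ (∑ i ∈ s, (a i • x i).val), ← Finset.sum_sub_distrib]
  exact (IsUltrametricDist.norm_add_le_max _ _).trans (max_le
    (Pt.norm_val_sum_sub s _ hρ0 hρ1 hle)
    (IsUltrametricDist.norm_sum_le_of_forall_le_of_nonneg (sq_nonneg ρ) fun i hi =>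
      Pt.norm_nsmul_sub (x i) (a i) hρ0 hρ1 (hx i hi)))

theorem Pt.norm_nsmul_sum_le {ι : Type*} (s : Finset ι) (a : ι → ℕ) (x : ι → Pt F) {ρ : ℝ}
    (hρ0 : 0 ≤ ρ) (hρ1 : ρ ≤ 1) (hx : ∀ i ∈ s, ‖(x i).val‖ ≤ ρ) :
    ‖(∑ i ∈ s, a i • x i).val‖ ≤ ρ := by
  rw [← sub_add_cancel (∑ i ∈ s, a i • x i).val (∑ i ∈ s, (a i : Ball K) * (x i).val)]
  refine (IsUltrametricDist.norm_add_le_max _ _).trans (max_le
    ((Pt.norm_nsmul_sum_sub s a x hρ0 hρ1 hx).trans (by nlinarith)) ?_)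
  refine IsUltrametricDist.norm_sum_le_of_forall_le_of_nonneg hρ0 fun i hi => ?_
  rw [norm_mul_Ball]
  exact le_trans (mul_le_of_le_one_left (norm_nonneg _) (UnitNormed.norm_le_one _)) (hx i hi)

end AnyParam

variable [CharP K p]

local instance : (fg p n (0 : Fin (n - 1) → Ball K)).IsComm := fg_isComm p n _

theorem Pt.nsmul_pow_val (hn : 1 ≤ n) (x : Pt (fg p n (0 : Fin (n - 1) → Ball K))) (t : ℕ) :
    ((p ^ t) • x).val = x.val ^ p ^ (n * t) := by
  induction t with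
  | zero => simp
  | succ t ih =>
    rw [pow_succ', mul_smul, nsmul_val, mulSeries_fg_zero p n hn,
      evalP_pow (p ^ t • x).norm_lt, evalP_X (p ^ t • x).norm_lt, ih, ← pow_mul, ← pow_add,
      Nat.mul_succ]

theorem Pt.norm_nsmul_pow (hn : 1 ≤ n) (x : Pt (fg p n (0 : Fin (n - 1) → Ball K))) (t : ℕ) :
    ‖((p ^ t) • x).val‖ = ‖x.val‖ ^ p ^ (n * t) := by
  rw [Pt.nsmul_pow_val hn, norm_pow_Ball]

theorem fadd_pow (hn : 1 ≤ n) {a b : Ball K} (ha : ‖a‖ < 1) (hb : ‖b‖ < 1) (m : ℕ) :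
    fadd (fg p n (0 : Fin (n - 1) → Ball K)) a b ^ p ^ m =
      fadd (fg p n (0 : Fin (n - 1) → Ball K)) (a ^ p ^ m) (b ^ p ^ m) := by
  induction m with
  | zero => simp
  | succ m ih =>
    have hp : p ^ m ≠ 0 := pow_ne_zero _ (Fact.out : p.Prime).ne_zero
    have ha' : ‖a ^ p ^ m‖ < 1 := by
      rw [norm_pow_Ball]; exact pow_lt_one₀ (norm_nonneg _) ha hp
    have hb' : ‖b ^ p ^ m‖ < 1 := by
      rw [norm_pow_Ball]; exact pow_lt_one₀ (norm_nonneg _) hb hp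
    have h := evalP_hom (isHomSeries_frobenius p n (R := Ball K) hn) ha' hb'
    rw [evalP_pow (norm_fadd_lt_one _ ha' hb'), evalP_X (norm_fadd_lt_one _ ha' hb'),
      evalP_pow ha', evalP_X ha', evalP_pow hb', evalP_X hb'] at h
    simp only [pow_succ, pow_mul, ih]
    exact h

variable [PerfectRing K p] {B : Type} [NormedCommRing B] [Algebra ℚ B] {c : ℝ}

/-- `y ↦ bigLog (y ^ (p ^ m))` on points. -/
def logHom (D : GaussData p K B c) (hn : 1 ≤ n) (m : ℕ) :
    Pt (fg p n (0 : Fin (n - 1) → Ball K)) →+ B :=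
  AddMonoidHom.mk' (fun y => bigLog p D n ((y.val : K) ^ p ^ m)) fun a b => by
    have hp : p ^ m ≠ 0 := pow_ne_zero _ (Fact.out : p.Prime).ne_zero
    have h := bigLog_fadd p D hn (a.val ^ p ^ m) (b.val ^ p ^ m)
      (by rw [norm_pow_Ball]; exact pow_lt_one₀ (norm_nonneg _) a.norm_lt hp)
      (by rw [norm_pow_Ball]; exact pow_lt_one₀ (norm_nonneg _) b.norm_lt hp)
    rw [← fadd_pow hn a.norm_lt b.norm_lt] at h
    simpa [Pt.val_add, SubmonoidClass.coe_pow] using h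

@[simp]
theorem logHom_apply (D : GaussData p K B c) (hn : 1 ≤ n) (m : ℕ)
    (y : Pt (fg p n (0 : Fin (n - 1) → Ball K))) :
    logHom D hn m y = bigLog p D n ((y.val : K) ^ p ^ m) := rfl

end Vale.P217

end
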