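import Vale.Agent.P217.MooreDet
import Vale.Agent.P217.MoorePts
import Mathlib.Data.Fin.Tuple.Sort
import Mathlib.LinearAlgebra.Matrix.NonsingularInverse

/-!
Linear independence of big logarithms of independent points of the universal cover.
-/

noncomputable section

set_option linter.unusedSectionVars false

namespace Vale.P217

open Finset

variable (p : ℕ) [Fact p.Prime] (n : ℕ) {K : Type} [NontriviallyNormedField K]
  [IsUltrametricDist K] [CompleteSpace K] [CharP K p]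

local instance : (fg p n (0 : Fin (n - 1) → Ball K)).IsComm := fg_isComm p n _

/-- A system of combinations which is orthogonal in the weak sense. -/
theorem exists_minimal_system (hn : 1 ≤ n) {s : ℕ}
    (z : Fin s → Pt (fg p n (0 : Fin (n - 1) → Ball K))) {δ : ℝ} (hδ : 0 < δ)
    (hind : ∀ μ : Fin s → ℕ, (∃ j, ¬p ∣ μ j) → δ ≤ ‖(∑ j, μ j • z j).val‖) :
    ∃ M : Matrix (Fin s) (Fin s) ℕ,
      (∀ b, 0 < ‖(∑ i, M b i • z i).val‖) ∧
      ∀ (μ : Fin s → ℕ) (b : Fin s), ¬p ∣ μ b →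
        ‖(∑ i, M b i • z i).val‖ ≤ ‖(∑ j, μ j • ∑ i, M j i • z i).val‖ := by
  have hp : p.Prime := Fact.out
  -- only finitely many norms occur
  obtain ⟨ρ, hρ0, hρ1, hρ⟩ := exists_radius (fun i => (z i).norm_lt)
  obtain ⟨T₀, hT₀⟩ := exists_pow_lt_of_lt_one hδ hρ1
  set T := T₀ + 1
  have hT : ρ ^ p ^ (n * T) < δ := by
    refine lt_of_le_of_lt (pow_le_pow_of_le_one hρ0 hρ1.le ?_) hT₀
    exact le_trans (le_trans (Nat.le_succ T₀) (Nat.le_mul_of_pos_left T hn))
      (Nat.lt_pow_self hp.one_lt).le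
  let S : Set ℝ :=
    Set.range fun μ : Fin s → Fin (p ^ T) => ‖(∑ j, (μ j : ℕ) • z j).val‖
  have hS : ∀ μ : Fin s → ℕ, (∃ j, ¬p ∣ μ j) → ‖(∑ j, μ j • z j).val‖ ∈ S := by
    intro μ hμ
    have hlt : ∀ j, μ j % p ^ T < p ^ T := fun j => Nat.mod_lt _ (pow_pos hp.pos _)
    refine ⟨fun j => ⟨μ j % p ^ T, hlt j⟩, ?_⟩
    change ‖(∑ j, (μ j % p ^ T) • z j).val‖ = _
    have hsplit : ∑ j, μ j • z j =
        ∑ j, (μ j % p ^ T) • z j + (p ^ T) • ∑ j, (μ j / p ^ T) • z j := by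
      rw [Finset.smul_sum, ← Finset.sum_add_distrib]
      refine Finset.sum_congr rfl fun j _ => ?_
      rw [smul_smul, ← add_smul, Nat.mod_add_div]
    rw [hsplit, Pt.norm_val_add_eq]
    have h1 : ‖((p ^ T) • ∑ j, (μ j / p ^ T) • z j).val‖ < δ := by
      rw [Pt.norm_nsmul_pow hn]
      exact lt_of_le_of_lt (pow_le_pow_left₀ (norm_nonneg _)
        (Pt.norm_nsmul_sum_le _ _ _ hρ0 hρ1.le fun i _ => hρ i) _) hT
    refine h1.trans_le (hind (fun j => μ j % p ^ T) ?_)
    obtain ⟨j, hj⟩ := hμ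
    exact ⟨j, fun h => hj ((Nat.dvd_mod_iff (dvd_pow_self p (Nat.succ_ne_zero T₀))).1 h)⟩
  -- rows of a matrix which is invertible mod p are primitive
  have hrow : ∀ M : Matrix (Fin s) (Fin s) ℕ, (M.map (Nat.cast : ℕ → ZMod p)).det ≠ 0 →
      ∀ b, ∃ i, ¬p ∣ M b i := by
    intro M hM b
    by_contra h
    push Not at h
    exact hM (Matrix.det_eq_zero_of_row_eq_zero b fun i => by
      rw [Matrix.map_apply, ZMod.natCast_eq_zero_iff]; exact h i)
  let W : Set (Fin s → ℝ) := {f | ∃ M : Matrix (Fin s) (Fin s) ℕ,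
    (M.map (Nat.cast : ℕ → ZMod p)).det ≠ 0 ∧ f = fun b => ‖(∑ i, M b i • z i).val‖}
  have hWfin : W.Finite := by
    refine (Set.Finite.pi fun _ : Fin s => (Set.finite_range _ : S.Finite)).subset ?_
    rintro f ⟨M, hM, rfl⟩ b _
    exact hS _ (hrow M hM b)
  have hWne : W.Nonempty := ⟨_, 1, by simp [Matrix.map_one], rfl⟩
  obtain ⟨f, ⟨M, hM, rfl⟩, hmin⟩ := Set.exists_min_image W (fun f => ∏ b, f b) hWfin hWne
  have hpos : ∀ b, 0 < ‖(∑ i, M b i • z i).val‖ := fun b =>
    hδ.trans_le (hind _ (hrow M hM b))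
  refine ⟨M, hpos, fun μ b hb => ?_⟩
  let M' : Matrix (Fin s) (Fin s) ℕ := M.updateRow b fun i => ∑ j, μ j * M j i
  have hM' : (M'.map (Nat.cast : ℕ → ZMod p)).det ≠ 0 := by
    have e : M'.map (Nat.cast : ℕ → ZMod p) = (M.map (Nat.cast : ℕ → ZMod p)).updateRow b
        (∑ j, (μ j : ZMod p) • (M.map (Nat.cast : ℕ → ZMod p)) j) := by
      ext i k
      by_cases hi : i = b
      · subst hi
        simp [M', Finset.sum_apply]
      · simp [M', hi]
    rw [e, Matrix.det_updateRow_sum]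
    refine mul_ne_zero ?_ hM
    rwa [Ne, ZMod.natCast_eq_zero_iff]
  have h := hmin _ ⟨M', hM', rfl⟩
  simp only [← Finset.mul_prod_erase Finset.univ _ (Finset.mem_univ b)] at h
  have herase : ∏ i ∈ univ.erase b, ‖(∑ k, M' i k • z k).val‖ =
      ∏ i ∈ univ.erase b, ‖(∑ k, M i k • z k).val‖ :=
    Finset.prod_congr rfl fun i hi => by simp [M', Finset.ne_of_mem_erase hi]
  rw [herase] at h
  have h' := le_of_mul_le_mul_right h (Finset.prod_pos fun i _ => hpos i)
  refine h'.trans_eq ?_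
  congr 2
  simp only [M', Matrix.updateRow_self, Finset.sum_smul, Finset.smul_sum, smul_smul]
  exact Finset.sum_comm

variable [IsAlgClosed K]

/-- For uniformly independent points of the Honda law the vectors of Frobenius-twisted big
logarithms are linearly independent, for a suitable radius. -/
theorem bigLog_linearIndependent (hn : 1 ≤ n) {s : ℕ} (hs : s ≤ n)
    (z : Fin s → Pt (fg p n (0 : Fin (n - 1) → Ball K))) {δ : ℝ} (hδ : 0 < δ)
    (hind : ∀ μ : Fin s → ℕ, (∃ j, ¬p ∣ μ j) → δ ≤ ‖(∑ j, μ j • z j).val‖) :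
    ∃ c : ℝ, 0 < c ∧ c < 1 ∧
      ∀ (B : Type) [NormedCommRing B] [Algebra ℚ B] (D : GaussData p K B c) (d : Fin s → B),
        (∀ m : Fin n, ∑ j, d j * bigLog p D n (((z j).val : K) ^ p ^ (m : ℕ)) = 0) → d = 0 := by
  have hp : p.Prime := Fact.out
  obtain ⟨M, hpos, horth⟩ := exists_minimal_system p n hn z hδ hind
  set w := fun b => ∑ i, M b i • z i
  set v₀ := fun b => -Real.log ‖(w b).val‖
  have hv₀ : ∀ b, 0 < v₀ b := fun b => neg_pos.2 (Real.log_neg (hpos b) (w b).norm_lt)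
  set V := 1 + ∑ b, v₀ b
  have hV : ∀ b, v₀ b < V := fun b => by
    have := Finset.single_le_sum (fun i _ => (hv₀ i).le) (Finset.mem_univ b)
    change v₀ b < 1 + ∑ i, v₀ i
    linarith
  -- move all valuations into one window
  set N : ℝ := (p : ℝ) ^ n with hN
  have hN1 : 1 < N := one_lt_pow₀ (by exact_mod_cast hp.one_lt) (by omega)
  have hex : ∀ b, ∃ t, V ≤ v₀ b * N ^ t ∧ v₀ b * N ^ t < N * V := by
    intro b
    classical
    have h : ∃ t, V ≤ v₀ b * N ^ t := by
      obtain ⟨t, ht⟩ := pow_unbounded_of_one_lt (V / v₀ b) hN1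
      exact ⟨t, ((div_lt_iff₀' (hv₀ b)).1 ht).le⟩
    refine ⟨Nat.find h, Nat.find_spec h, ?_⟩
    rcases Nat.eq_zero_or_pos (Nat.find h) with h0 | h0
    · rw [h0, pow_zero, mul_one]
      exact (hV b).trans_le (le_mul_of_one_le_left ((hv₀ b).trans (hV b)).le hN1.le)
    · obtain ⟨t, ht⟩ := Nat.exists_eq_succ_of_ne_zero h0.ne'
      have hlt : v₀ b * N ^ t < V := not_le.1 (Nat.find_min h (by omega))
      rw [ht, pow_succ', mul_left_comm]
      exact mul_lt_mul_of_pos_left hlt (zero_lt_one.trans hN1)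
  choose t ht1 ht2 using hex
  set w' := fun b => p ^ t b • w b
  set v := fun b => v₀ b * N ^ t b
  have hw' : ∀ b, ‖(w' b).val‖ = Real.exp (-v b) := by
    intro b
    simp only [w', v, v₀, Pt.norm_nsmul_pow hn]
    rw [show -(-Real.log ‖(w b).val‖ * N ^ t b) = (p ^ (n * t b) : ℕ) * Real.log ‖(w b).val‖ by
      rw [hN, ← pow_mul]; push_cast; ring, Real.exp_nat_mul, Real.exp_log (hpos b)]
  -- the points of equal valuation are independent in the residue field
  have hclass : ∀ (r : ℝ) (a : Fin s → ℕ), (∀ b, a b ≠ 0 → v b = r) → (∃ b, ¬p ∣ a b) →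
      ‖∑ b, (a b : K) * ((w' b).val : K)‖ = Real.exp (-r) := by
    intro r a hsupp hne
    classical
    set S := Finset.univ.filter fun b => ¬p ∣ a b with hSdef
    have hS : ∀ b ∈ S, ‖(w' b).val‖ = Real.exp (-r) := fun b hb => by
      rw [hw' b, hsupp b fun h0 => (Finset.mem_filter.1 hb).2 (h0 ▸ dvd_zero p)]
    obtain ⟨b₁, hb₁⟩ := hne
    have hb₁S : b₁ ∈ S := Finset.mem_filter.2 ⟨Finset.mem_univ _, hb₁⟩
    have hr1 : Real.exp (-r) < 1 := hS b₁ hb₁S ▸ (w' b₁).norm_lt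
    have hsum : ∑ b, (a b : K) * ((w' b).val : K) =
        ((∑ b ∈ S, (a b : Ball K) * (w' b).val : Ball K) : K) := by
      rw [AddSubmonoidClass.coe_finsetSum, hSdef, Finset.sum_filter]
      refine Finset.sum_congr rfl fun b _ => ?_
      by_cases h : p ∣ a b
      · simp [h, (CharP.cast_eq_zero_iff K p (a b)).2 h]
      · simp [h]
    rw [hsum, norm_coe]
    refine le_antisymm (IsUltrametricDist.norm_sum_le_of_forall_le_of_nonneg (Real.exp_nonneg _)
      fun b hb => ?_) ?_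
    · rw [norm_mul_Ball]
      exact (mul_le_of_le_one_left (norm_nonneg _) (UnitNormed.norm_le_one _)).trans (hS b hb).le
    obtain ⟨b₀, hb₀, hmin⟩ := S.exists_min_image t ⟨b₁, hb₁S⟩
    have hfact : ∑ b ∈ S, a b • w' b =
        p ^ t b₀ • ∑ b, (if b ∈ S then a b * p ^ (t b - t b₀) else 0) • w b := by
      simp only [ite_smul, zero_smul, Finset.sum_ite_mem, Finset.univ_inter, Finset.smul_sum, w',
        smul_smul]
      refine Finset.sum_congr rfl fun b hb => ?_
      rw [mul_left_comm, ← pow_add, Nat.add_sub_cancel' (hmin b hb)]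
    have hge : Real.exp (-r) ≤ ‖(∑ b ∈ S, a b • w' b).val‖ := by
      rw [hfact, Pt.norm_nsmul_pow hn, ← hS b₀ hb₀]
      simp only [w', Pt.norm_nsmul_pow hn]
      refine pow_le_pow_left₀ (norm_nonneg _) (horth _ b₀ ?_) _
      simpa [hb₀] using (Finset.mem_filter.1 hb₀).2
    have happ := Pt.norm_nsmul_sum_sub S a w' (Real.exp_nonneg _) hr1.le fun b hb => (hS b hb).le
    by_contra hlt
    push Not at hlt
    have hsq : Real.exp (-r) ^ 2 < Real.exp (-r) := by
      rw [sq]; exact mul_lt_of_lt_one_left (Real.exp_pos _) hr1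
    have h := IsUltrametricDist.norm_add_le_max
      ((∑ b ∈ S, a b • w' b).val - ∑ b ∈ S, (a b : Ball K) * (w' b).val)
      (∑ b ∈ S, (a b : Ball K) * (w' b).val)
    rw [sub_add_cancel] at h
    exact absurd (h.trans_lt (max_lt (happ.trans_lt hsq) hlt)) (not_lt.2 hge)
  -- sort and apply the determinant estimate
  set σ := Tuple.sort v
  obtain ⟨lam, hlam, hgen⟩ := exists_generic p (v ∘ σ)
  refine ⟨Real.exp (-((n : ℝ) * lam)), Real.exp_pos _,
    Real.exp_lt_one_iff.2 (neg_lt_zero.2 (mul_pos (by exact_mod_cast hn) hlam)), ?_⟩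
  intro B _ _ D d hd
  have hvpos : ∀ b, 0 < v b := fun b => mul_pos (hv₀ b) (pow_pos (zero_lt_one.trans hN1) _)
  obtain ⟨r, hr⟩ := isUnit_det_bigLog (w := fun b => ((w' (σ b)).val : K)) (v := v ∘ σ) hn hs D
    (fun b => hvpos _) (Tuple.monotone_sort v)
    (fun i j => (ht2 _).trans_le (mul_le_mul_of_nonneg_left (ht1 _) (zero_lt_one.trans hN1).le))
    (fun b => hw' _) (fun x a hsupp ⟨b, hb⟩ => by
      have := hclass x (fun j => a (σ.symm j)) (fun j hj => by simpa using hsupp _ hj)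
        ⟨σ b, by simpa using hb⟩
      rw [← this, ← Equiv.sum_comp σ (fun j => (a (σ.symm j) : K) * _)]
      simp) hlam hgen rfl
  set Nm : Matrix (Fin s) (Fin s) B := Matrix.of fun b i => ((p ^ t (σ b) * M (σ b) i : ℕ) : B)
  set Z : Matrix (Fin s) (Fin s) B :=
    Matrix.of fun i k => bigLog p D n (((z i).val : K) ^ p ^ (r k : ℕ))
  have hfac : (Matrix.of fun b k => bigLog p D n (((w' (σ b)).val : K) ^ p ^ (r k : ℕ))) =
      Nm * Z := by
    ext b k
    rw [Matrix.of_apply, Matrix.mul_apply, ← logHom_apply D hn]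
    simp only [w', w, Finset.smul_sum, smul_smul, map_sum, map_nsmul, logHom_apply, Nm, Z,
      Matrix.of_apply, nsmul_eq_mul]
  rw [hfac, Matrix.det_mul] at hr
  refine Matrix.vecMul_injective_of_isUnit
    ((Matrix.isUnit_iff_isUnit_det Z).2 (IsUnit.mul_iff.1 hr).2) ?_
  funext k
  simpa [Matrix.vecMul, dotProduct, Z] using hd (r k)

end Vale.P217

end
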