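import Mathlib.Analysis.SpecialFunctions.Pow.Real
import Mathlib.Data.Fin.Tuple.Sort
import Mathlib.Data.Int.Interval
import Mathlib.Data.Nat.Choose.Cast
import Mathlib.Analysis.Real.Cardinality

/-!
The assignment problem behind the dominant term of a Moore-type determinant: minimise
`∑ j, (v j * p ^ e j - lam * e j)` over `e` injective modulo `n`.
-/

noncomputable section

namespace Vale.P217

open Finset

/-- The cost of one exponent. -/
def cost1 (p : ℕ) (lam a : ℝ) (x : ℤ) : ℝ := a * (p : ℝ) ^ x - lam * x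

/-- The cost of an exponent vector. -/
def costSum (p : ℕ) (lam : ℝ) {s : ℕ} (v : Fin s → ℝ) (e : Fin s → ℤ) : ℝ :=
  ∑ j, cost1 p lam (v j) (e j)

/-- Injective modulo `n`. -/
def InjMod (n : ℕ) {s : ℕ} (e : Fin s → ℤ) : Prop :=
  ∀ i j, (n : ℤ) ∣ e i - e j → i = j

/-- An optimal exponent vector. -/
def IsOptimal (p n : ℕ) (lam : ℝ) {s : ℕ} (v : Fin s → ℝ) (e : Fin s → ℤ) : Prop :=
  InjMod n e ∧ ∀ e', InjMod n e' → costSum p lam v e ≤ costSum p lam v e'

variable {p n s : ℕ} {lam : ℝ} {v : Fin s → ℝ} {e e' : Fin s → ℤ}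

lemma InjMod.injective (h : InjMod n e) : Function.Injective e := fun i j hij =>
  h i j (by simp [hij])

lemma InjMod.comp_perm (h : InjMod n e) (π : Equiv.Perm (Fin s)) : InjMod n (e ∘ π) :=
  fun _ _ hij => π.injective (h _ _ hij)

lemma InjMod.update (h : InjMod n e) {b : Fin s} {x : ℤ}
    (hx : ∀ j ≠ b, ¬(n : ℤ) ∣ x - e j) : InjMod n (Function.update e b x) := by
  intro i j hij
  by_cases hi : i = b <;> by_cases hj : j = b
  · rw [hi, hj]
  · rw [hi, Function.update_self, Function.update_of_ne hj] at hij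
    exact absurd hij (hx j hj)
  · rw [hj, Function.update_self, Function.update_of_ne hi] at hij
    exact absurd (dvd_sub_comm.1 hij) (hx i hi)
  · rw [Function.update_of_ne hi, Function.update_of_ne hj] at hij
    exact h i j hij

lemma costSum_update (b : Fin s) (x : ℤ) :
    costSum p lam v (Function.update e b x) =
      costSum p lam v e + (cost1 p lam (v b) x - cost1 p lam (v b) (e b)) := by
  have h1 : (fun j => cost1 p lam (v j) (Function.update e b x j)) =
      Function.update (fun j => cost1 p lam (v j) (e j)) b (cost1 p lam (v b) x) := by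
    funext j
    by_cases hj : j = b
    · subst hj; simp
    · simp [hj]
  unfold costSum
  rw [h1, Finset.sum_update_of_mem (Finset.mem_univ b),
    Finset.sum_eq_add_sum_sdiff_singleton_of_mem (Finset.mem_univ b)
      (fun j => cost1 p lam (v j) (e j))]
  ring

lemma costSum_comp_perm (π : Equiv.Perm (Fin s)) (hπ : v ∘ π = v) :
    costSum p lam v (e ∘ π) = costSum p lam v e := by
  unfold costSum
  rw [← Equiv.sum_comp π (fun j => cost1 p lam (v j) (e j))]
  refine Finset.sum_congr rfl fun j _ => ?_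
  rw [show v (π j) = v j from congrFun hπ j]
  rfl

lemma IsOptimal.comp_perm (h : IsOptimal p n lam v e) (π : Equiv.Perm (Fin s))
    (hπ : v ∘ π = v) : IsOptimal p n lam v (e ∘ π) :=
  ⟨h.1.comp_perm π, fun e' he' => (costSum_comp_perm π hπ).le.trans (h.2 e' he')⟩

lemma cost1_lower {a : ℝ} (ha : 0 ≤ a) (x : ℤ) : -lam * x ≤ cost1 p lam a x := by
  have : 0 ≤ a * (p : ℝ) ^ x := mul_nonneg ha (zpow_nonneg (Nat.cast_nonneg p) x)
  unfold cost1
  linarith

lemma sublevel_finite (hp : 1 < p) (hlam : 0 < lam) {a : ℝ} (ha : 0 < a) (A : ℝ) :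
    {x : ℤ | cost1 p lam a x ≤ A}.Finite := by
  obtain ⟨L, hL⟩ := exists_nat_gt (|A| / lam + |A| + 2 + 2 * (lam + |A|) / a)
  refine (Set.finite_Icc (-(L : ℤ)) L).subset fun x hx => ?_
  have hx' : cost1 p lam a x ≤ A := hx
  have h1 := cost1_lower (p := p) (lam := lam) ha.le x
  have hA := abs_nonneg A
  have hd : 0 ≤ 2 * (lam + |A|) / a := by positivity
  have hd' : 0 ≤ |A| / lam := by positivity
  constructor
  · by_contra h
    push Not at h
    have h' : (x : ℝ) < -(L : ℝ) := by exact_mod_cast h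
    have h2 : lam * (|A| / lam) = |A| := by field_simp
    nlinarith [le_abs_self A]
  · by_contra h
    push Not at h
    obtain ⟨k, rfl⟩ := Int.eq_ofNat_of_zero_le (le_of_lt (lt_of_le_of_lt (Int.natCast_nonneg L) h))
    have h' : (L : ℝ) < (k : ℝ) := by exact_mod_cast h
    have h3 : (k : ℝ) * ((k : ℝ) - 1) / 2 ≤ (p : ℝ) ^ k := by
      rw [← Nat.cast_choose_two ℝ k]
      calc ((k.choose 2 : ℕ) : ℝ) ≤ ((2 ^ k : ℕ) : ℝ) := Nat.cast_le.2 (Nat.choose_le_two_pow k 2)
        _ ≤ (p : ℝ) ^ k := by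
          push_cast
          exact pow_le_pow_left₀ (by norm_num) (by exact_mod_cast hp) k
    unfold cost1 at hx'
    simp only [zpow_natCast, Int.cast_natCast] at hx'
    have h4 : a * (2 * (lam + |A|) / a) = 2 * (lam + |A|) := by field_simp
    have hk1 : (2 : ℝ) ≤ k := by linarith
    have h5 : 2 * (lam + |A|) < a * ((k : ℝ) - 1) := by
      rw [← h4]; gcongr; linarith
    have h6 : a * ((k : ℝ) * ((k : ℝ) - 1) / 2) ≤ a * (p : ℝ) ^ k :=
      mul_le_mul_of_nonneg_left h3 ha.le
    nlinarith [le_abs_self A]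

lemma cost1_bddBelow (hp : 1 < p) (hlam : 0 < lam) {a : ℝ} (ha : 0 < a) :
    ∃ L, ∀ x, L ≤ cost1 p lam a x := by
  obtain ⟨L, hL⟩ :=
    ((sublevel_finite (lam := lam) hp hlam ha (cost1 p lam a 0)).image (cost1 p lam a)).bddBelow
  refine ⟨L, fun x => ?_⟩
  rcases le_or_gt (cost1 p lam a x) (cost1 p lam a 0) with h | h
  · exact hL ⟨x, h, rfl⟩
  · exact le_trans (hL ⟨0, le_refl (cost1 p lam a 0), rfl⟩) h.le

lemma exists_isOptimal (hp : 1 < p) (hlam : 0 < lam) (hv : ∀ j, 0 < v j) (hs : s ≤ n) :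
    ∃ e, IsOptimal p n lam v e := by
  choose L hL using fun j => cost1_bddBelow (p := p) hp hlam (hv j)
  let e₀ : Fin s → ℤ := fun j => (j : ℕ)
  have he₀ : InjMod n e₀ := by
    intro i j hij
    have : ((i : ℕ) : ℤ) - (j : ℕ) = 0 := by
      refine Int.eq_zero_of_dvd_of_natAbs_lt_natAbs hij ?_
      omega
    exact Fin.ext (by omega)
  set A := costSum p lam v e₀
  have hfin : {e : Fin s → ℤ | InjMod n e ∧ costSum p lam v e ≤ A}.Finite := by
    refine (Set.Finite.pi fun j =>
      sublevel_finite (lam := lam) hp hlam (hv j) (A - ∑ i ∈ univ.erase j, L i)).subset fun e he => ?_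
    intro j _
    change cost1 p lam (v j) (e j) ≤ _
    have h1 : costSum p lam v e = cost1 p lam (v j) (e j) +
        ∑ i ∈ univ.erase j, cost1 p lam (v i) (e i) := (Finset.add_sum_erase _ _ (mem_univ j)).symm
    have h2 : ∑ i ∈ univ.erase j, L i ≤ ∑ i ∈ univ.erase j, cost1 p lam (v i) (e i) :=
      Finset.sum_le_sum fun i _ => hL i (e i)
    linarith [he.2]
  obtain ⟨e, he, hmin⟩ := Set.exists_min_image _ (costSum p lam v) hfin ⟨e₀, he₀, le_rfl⟩
  refine ⟨e, he.1, fun e' he' => ?_⟩
  rcases le_or_gt (costSum p lam v e') A with h | h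
  · exact hmin e' ⟨he', h⟩
  · exact he.2.trans h.le

/-- For all but countably many `lam`, exponent vectors of equal cost have equal sum. -/
lemma exists_generic (p : ℕ) (v : Fin s → ℝ) :
    ∃ lam : ℝ, 0 < lam ∧ ∀ e e' : Fin s → ℤ,
      costSum p lam v e = costSum p lam v e' → ∑ j, e j = ∑ j, e' j := by
  let bad : (Fin s → ℤ) × (Fin s → ℤ) → ℝ := fun q =>
    (∑ j, v j * (p : ℝ) ^ q.1 j - ∑ j, v j * (p : ℝ) ^ q.2 j) /
      ((∑ j, (q.1 j : ℝ)) - ∑ j, (q.2 j : ℝ))
  have hc : (Set.range bad).Countable := Set.countable_range _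
  obtain ⟨lam, hlam, hnot⟩ : ∃ lam ∈ Set.Ioi (0 : ℝ), lam ∉ Set.range bad := by
    by_contra h
    push Not at h
    have h1 := (hc.mono h).le_aleph0
    rw [Cardinal.mk_Ioi_real] at h1
    exact absurd h1 Cardinal.aleph0_lt_continuum.not_ge
  refine ⟨lam, hlam, fun e e' he => ?_⟩
  by_contra hne
  have hne' : (∑ j, (e j : ℝ)) - ∑ j, (e' j : ℝ) ≠ 0 := by
    rw [sub_ne_zero]; exact_mod_cast hne
  refine hnot ⟨(e, e'), ?_⟩
  simp only [bad]
  rw [div_eq_iff hne']
  simp only [costSum, cost1, Finset.sum_sub_distrib, ← Finset.mul_sum] at he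
  linarith

section Window

set_option linter.unusedSectionVars false

variable (hp : 1 < p) (hs : Monotone v) (hwin : ∀ i j, v j < (p : ℝ) ^ n * v i)

lemma IsOptimal.lt_of_lt (hp : 1 < p) (h : IsOptimal p n lam v e) {i j : Fin s} (hij : v i < v j) :
    e j < e i := by
  by_contra hle
  push Not at hle
  have hne : i ≠ j := fun h' => by simp [h'] at hij
  have hne' : e i < e j := lt_of_le_of_ne hle fun h' => hne (h.1.injective h')
  have h1 := h.2 _ (h.1.comp_perm (Equiv.swap i j))
  have h2 : costSum p lam v (e ∘ Equiv.swap i j) =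
      costSum p lam v e + (v j - v i) * ((p : ℝ) ^ e i - (p : ℝ) ^ e j) := by
    have hfun : e ∘ Equiv.swap i j = Function.update (Function.update e i (e j)) j (e i) := by
      funext k
      by_cases hkj : k = j
      · subst hkj; simp
      · by_cases hki : k = i
        · subst hki; simp [hne]
        · simp [hkj, hki, Equiv.swap_apply_of_ne_of_ne hki hkj]
    rw [hfun, costSum_update, costSum_update, Function.update_of_ne hne.symm]
    unfold cost1
    ring
  have h3 : (p : ℝ) ^ e i < (p : ℝ) ^ e j :=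
    zpow_lt_zpow_right₀ (by exact_mod_cast hp) hne'
  nlinarith

include hp hwin in
lemma IsOptimal.sub_lt (hn : 1 ≤ n) (h : IsOptimal p n lam v e) (i j : Fin s) : e i - e j < n := by
  by_contra hle
  push Not at hle
  have hne : i ≠ j := fun h' => by subst h'; simp at hle; omega
  have hne' : e j + n < e i := lt_of_le_of_ne (by omega) fun h' =>
    hne (h.1 i j ⟨1, by omega⟩)
  -- exchange the residue classes
  have hfe : InjMod n (Function.update (Function.update e i (e j + n)) j (e i - n)) := by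
    have hg : InjMod n (e ∘ Equiv.swap i j) := h.1.comp_perm _
    intro a b hab
    refine hg a b ?_
    have hmod : ∀ k, (n : ℤ) ∣ Function.update (Function.update e i (e j + n)) j (e i - n) k -
        (e ∘ Equiv.swap i j) k := by
      intro k
      by_cases hkj : k = j
      · subst hkj; simp
      · by_cases hki : k = i
        · subst hki; simp [hne]
        · simp [hkj, hki, Equiv.swap_apply_of_ne_of_ne hki hkj]
    have := dvd_add (dvd_sub hab (hmod a)) (hmod b)
    generalize Function.update (Function.update e i (e j + n)) j (e i - n) = F at this ⊢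
    generalize e ∘ Equiv.swap i j = G at this ⊢
    have e3 : G a - G b = F a - F b - (F a - G a) + (F b - G b) := by ring
    rw [e3]
    exact this
  have h1 := h.2 _ hfe
  rw [costSum_update, costSum_update, Function.update_of_ne hne.symm] at h1
  unfold cost1 at h1
  have hp0 : (0 : ℝ) < p := by exact_mod_cast Nat.lt_of_lt_of_le Nat.one_pos hp.le
  have h3 : (p : ℝ) ^ (e j + n) < (p : ℝ) ^ e i :=
    zpow_lt_zpow_right₀ (by exact_mod_cast hp) hne'
  have e1 : (p : ℝ) ^ (e j + n) = (p : ℝ) ^ e j * (p : ℝ) ^ n := by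
    rw [zpow_add₀ hp0.ne', zpow_natCast]
  have e2 : (p : ℝ) ^ (e i - n) * (p : ℝ) ^ n = (p : ℝ) ^ e i := by
    rw [← zpow_natCast, ← zpow_add₀ hp0.ne', sub_add_cancel]
  push_cast at h1
  have h4 := hwin i j
  have h5 : (p : ℝ) ^ e j < (p : ℝ) ^ (e i - n) :=
    zpow_lt_zpow_right₀ (by exact_mod_cast hp) (by omega)
  rw [e1, ← e2] at h1
  nlinarith [mul_pos (sub_pos.2 h5) (sub_pos.2 h4)]

/-- An optimum which decreases along ties. -/
def IsSorted (v : Fin s → ℝ) (e : Fin s → ℤ) : Prop := ∀ i j, i < j → v i = v j → e j < e i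

lemma exists_sort (h : InjMod n e) :
    ∃ π : Equiv.Perm (Fin s), v ∘ π = v ∧ IsSorted v (e ∘ π) := by
  -- among the tie preserving permutations take the one with the largest weighted sum
  obtain ⟨π, hπ, hmax⟩ := Set.exists_max_image {π : Equiv.Perm (Fin s) | v ∘ π = v}
    (fun π => ∑ j : Fin s, ((s : ℤ) - ((j : ℕ) : ℤ)) * e (π j)) (Set.toFinite _) ⟨1, rfl⟩
  refine ⟨π, hπ, fun i j hij hv => ?_⟩
  by_contra hle
  push Not at hle
  simp only [Function.comp_apply] at hle
  have hne : e (π i) < e (π j) := lt_of_le_of_ne hle fun h' =>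
    hij.ne (π.injective (h.injective h'))
  have hmem : v ∘ (π * Equiv.swap i j) = v := by
    funext k
    have hk : v (Equiv.swap i j k) = v k := by
      rw [Equiv.swap_apply_def]
      split_ifs with a b
      · rw [a, hv]
      · rw [b, hv]
      · rfl
    simpa [hk] using congrFun hπ (Equiv.swap i j k)
  have h1 := hmax _ hmem
  have h2 : ∑ k : Fin s, ((s : ℤ) - ((k : ℕ) : ℤ)) * e ((π * Equiv.swap i j) k) -
      ∑ k : Fin s, ((s : ℤ) - ((k : ℕ) : ℤ)) * e (π k) =
      (((i : ℕ) : ℤ) - ((j : ℕ) : ℤ)) * (e (π i) - e (π j)) := by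
    rw [← Finset.sum_sub_distrib, Fintype.sum_eq_add i j hij.ne]
    · simp; ring
    · intro k hk
      simp [Equiv.swap_apply_of_ne_of_ne hk.1 hk.2]
  have h3 : 0 < (((i : ℕ) : ℤ) - ((j : ℕ) : ℤ)) * (e (π i) - e (π j)) :=
    mul_pos_of_neg_of_neg (by omega) (by omega)
  linarith

include hp hs hwin in
lemma IsOptimal.strictAnti (h : IsOptimal p n lam v e) (hsort : IsSorted v e) : StrictAnti e := by
  intro i j hij
  rcases lt_or_eq_of_le (hs hij.le) with hlt | heq
  · exact h.lt_of_lt hp hlt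
  · exact hsort i j hij heq

lemma injMod_of_strictAnti (h : StrictAnti e) (hlt : ∀ i j, e i - e j < n) : InjMod n e := by
  intro i j hij
  apply h.injective
  have := hlt i j
  have := hlt j i
  have : e i - e j = 0 := Int.eq_zero_of_dvd_of_natAbs_lt_natAbs hij (by omega)
  omega

include hp hs hwin in
lemma IsOptimal.unique (hn : 1 ≤ n)
    (hgen : ∀ a b : Fin s → ℤ, costSum p lam v a = costSum p lam v b → ∑ j, a j = ∑ j, b j)
    (h : IsOptimal p n lam v e) (h' : IsOptimal p n lam v e') (hst : IsSorted v e)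
    (hst' : IsSorted v e') : e = e' := by
  have ha := h.strictAnti hp hs hwin hst
  have ha' := h'.strictAnti hp hs hwin hst'
  have hb := h.sub_lt hp hwin hn
  have hb' := h'.sub_lt hp hwin hn
  set u := fun j => min (e j) (e' j)
  set w := fun j => max (e j) (e' j)
  have hu : InjMod n u := injMod_of_strictAnti
    (fun i j hij => lt_min (min_lt_of_left_lt (ha hij)) (min_lt_of_right_lt (ha' hij)))
    fun i j => by have := hb i j; have := hb' i j; simp only [u]; omega
  have hw : InjMod n w := injMod_of_strictAnti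
    (fun i j hij => max_lt (lt_max_of_lt_left (ha hij)) (lt_max_of_lt_right (ha' hij)))
    fun i j => by have := hb i j; have := hb' i j; simp only [w]; omega
  have hadd : costSum p lam v u + costSum p lam v w =
      costSum p lam v e + costSum p lam v e' := by
    simp only [costSum, ← Finset.sum_add_distrib]
    refine Finset.sum_congr rfl fun j _ => ?_
    rcases le_total (e j) (e' j) with hle | hle <;> simp [u, w, hle, add_comm]
  have h1 := h.2 u hu
  have h2 := h'.2 w hw
  have hs1 := hgen u e (by linarith)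
  have hs2 := hgen e e' (le_antisymm (h.2 e' h'.1) (h'.2 e h.1))
  funext j
  have k1 : u j = e j := (Finset.sum_eq_sum_iff_of_le fun i _ => min_le_left _ _).1 hs1 j (mem_univ j)
  have k2 : u j = e' j :=
    (Finset.sum_eq_sum_iff_of_le fun i _ => min_le_right _ _).1 (hs1.trans hs2) j (mem_univ j)
  exact k1.symm.trans k2

include hp hs hwin in
/-- Within a tie class the optimal exponents have no holes. -/
lemma IsOptimal.exists_eq_of_between (hn : 1 ≤ n) (h : IsOptimal p n lam v e) {i j : Fin s}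
    (hv : v i = v j) (hvi : 0 < v i) {x : ℤ} (hjx : e j < x) (hxi : x < e i) :
    ∃ k, v k = v i ∧ e k = x := by
  by_contra hcon
  push Not at hcon
  have hb := h.sub_lt hp hwin hn
  have hfree : ∀ k, ¬(n : ℤ) ∣ x - e k := by
    intro k hdvd
    have h1 := hb k j
    have h2 := hb i k
    have hxk : x - e k = 0 := Int.eq_zero_of_dvd_of_natAbs_lt_natAbs hdvd (by omega)
    rcases lt_trichotomy (v k) (v i) with hlt | heq | hgt
    · have := h.lt_of_lt hp hlt; omega
    · exact hcon k heq (by omega)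
    · have := h.lt_of_lt hp (hv ▸ hgt : v j < v k); omega
  have hi := h.2 _ (h.1.update (b := i) fun k _ => hfree k)
  have hj := h.2 _ (h.1.update (b := j) fun k _ => hfree k)
  rw [costSum_update] at hi hj
  rw [← hv] at hj
  -- strict convexity
  obtain ⟨a, ha, rfl⟩ : ∃ a : ℕ, 0 < a ∧ e j + a = x := ⟨(x - e j).toNat, by omega, by omega⟩
  obtain ⟨b, hb', hbi⟩ : ∃ b : ℕ, 0 < b ∧ e j + a + b = e i :=
    ⟨(e i - (e j + a)).toNat, by omega, by omega⟩
  rw [← hbi] at hi
  unfold cost1 at hi hj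
  have hp0 : (0 : ℝ) < p := by exact_mod_cast Nat.lt_of_lt_of_le Nat.one_pos hp.le
  have hp1 : (1 : ℝ) < p := by exact_mod_cast hp
  simp only [zpow_add₀ hp0.ne', zpow_natCast] at hi hj
  push_cast at hi hj
  set P := (p : ℝ) ^ e j
  have hP : 0 < P := zpow_pos hp0 _
  -- the increment over `b` steps from `x` exceeds `b` times the average increment before
  have g1 : ∀ m : ℕ, (m : ℝ) * ((p : ℝ) - 1) ≤ (p : ℝ) ^ m - 1 := fun m => by
    have := one_add_mul_le_pow (a := (p : ℝ) - 1) (by linarith) m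
    rw [add_sub_cancel] at this
    linarith
  have g2 : ∀ m : ℕ, (p : ℝ) ^ m - 1 ≤ (m : ℝ) * ((p : ℝ) - 1) * (p : ℝ) ^ m / p := fun m => by
    induction m with
    | zero => simp
    | succ m ih =>
      have hpm : 0 < (p : ℝ) ^ m := pow_pos hp0 m
      rw [le_div_iff₀ hp0] at ih ⊢
      push_cast
      rw [pow_succ]
      have hh : (p : ℝ) * ((p : ℝ) ^ m - 1) + ((p : ℝ) - 1) = (p : ℝ) * (p : ℝ) ^ m - 1 := by ring
      have hm : 0 ≤ (m : ℝ) * ((p : ℝ) - 1) := mul_nonneg (Nat.cast_nonneg m) (by linarith)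
      nlinarith [mul_le_mul_of_nonneg_left ih hp0.le, one_le_pow₀ (n := m) hp1.le,
        mul_nonneg hm (mul_nonneg hp0.le hpm.le)]
  have ga := g2 a
  have gb := g1 b
  rw [le_div_iff₀ hp0] at ga
  have hA : 0 < (p : ℝ) ^ a := pow_pos hp0 a
  have hbR : (0 : ℝ) < b := by exact_mod_cast hb'
  have haR : (0 : ℝ) < a := by exact_mod_cast ha
  have q1 : lam * a ≤ v i * P * ((p : ℝ) ^ a - 1) := by linarith
  have q2 : v i * P * (p : ℝ) ^ a * ((p : ℝ) ^ b - 1) ≤ lam * b := by linarith
  have hc : 0 < v i * P := mul_pos hvi hP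
  have q3 : v i * P * (p : ℝ) ^ a * ((b : ℝ) * ((p : ℝ) - 1)) ≤ lam * b :=
    le_trans (mul_le_mul_of_nonneg_left gb (by positivity)) q2
  have q4 : v i * P * (p : ℝ) ^ a * ((p : ℝ) - 1) ≤ lam := by
    refine le_of_mul_le_mul_right ?_ hbR
    linarith
  have q5 : v i * P * ((p : ℝ) ^ a - 1) * p ≤ v i * P * ((a : ℝ) * ((p : ℝ) - 1) * (p : ℝ) ^ a) := by
    have := mul_le_mul_of_nonneg_left ga hc.le
    linarith
  have q6 : lam * a * p ≤ lam * a := by
    calc lam * a * p ≤ v i * P * ((p : ℝ) ^ a - 1) * p :=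
          mul_le_mul_of_nonneg_right q1 hp0.le
      _ ≤ _ := q5
      _ = v i * P * (p : ℝ) ^ a * ((p : ℝ) - 1) * a := by ring
      _ ≤ lam * a := mul_le_mul_of_nonneg_right q4 haR.le
  have hlam : 0 < lam := lt_of_lt_of_le (by
    have : (0 : ℝ) < (p : ℝ) - 1 := by linarith
    positivity) q4
  have : 0 < lam * a := mul_pos hlam haR
  nlinarith

end Window

end Vale.P217

end
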