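import Vale.Agent.P217.Gauss
import Vale.Agent.P217.MooreOpt
import Mathlib.LinearAlgebra.Matrix.Block
import Mathlib.LinearAlgebra.Matrix.ToLinearEquiv
import Mathlib.Analysis.SpecificLimits.Normed
import Mathlib.Topology.Instances.Matrix
import Mathlib.Algebra.CharP.Quotient
import Mathlib.Algebra.BigOperators.Field

/-!
The dominant term of a determinant of big logarithms of points whose valuations lie in a window.
-/

noncomputable section

set_option linter.unusedSectionVars false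

namespace Vale.P217

open Finset Filter Topology

section Moore

/-- A Moore determinant of elements which are independent over the prime field does not vanish. -/
theorem moore_det_ne_zero {R : Type*} [CommRing R] [IsDomain R] (p : ℕ) [Fact p.Prime] [CharP R p]
    {m : ℕ} (u : Fin m → R)
    (hu : ∀ a : Fin m → ℕ, (∃ t, ¬p ∣ a t) → ∑ t, (a t : R) * u t ≠ 0) :
    (Matrix.of fun t t' : Fin m => u t ^ p ^ (t' : ℕ)).det ≠ 0 := by
  intro h0
  obtain ⟨cf, hcf, hker⟩ := Matrix.exists_mulVec_eq_zero_iff.2 h0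
  have hp : p.Prime := Fact.out
  set P : Polynomial R := ∑ t : Fin m, Polynomial.C (cf t) * Polynomial.X ^ p ^ (t : ℕ) with hP
  have hm : 1 ≤ m := by
    by_contra hm
    obtain rfl : m = 0 := by omega
    exact hcf (Subsingleton.elim _ _)
  have hroot : ∀ a : Fin m → Fin p, P.eval (∑ t, ((a t : ℕ) : R) * u t) = 0 := by
    intro a
    simp only [hP, Polynomial.eval_finsetSum, Polynomial.eval_mul, Polynomial.eval_C,
      Polynomial.eval_pow, Polynomial.eval_X]
    have hlin : ∀ k : ℕ, (∑ t, ((a t : ℕ) : R) * u t) ^ p ^ k =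
        ∑ t, ((a t : ℕ) : R) * u t ^ p ^ k := by
      intro k
      rw [sum_pow_char_pow]
      refine Finset.sum_congr rfl fun t _ => ?_
      rw [mul_pow]
      congr 1
      rw [← iterateFrobenius_def, map_natCast]
    simp only [hlin, Finset.mul_sum]
    rw [Finset.sum_comm]
    refine Finset.sum_eq_zero fun t _ => ?_
    have hk := congrFun hker t
    simp only [Matrix.mulVec, dotProduct, Matrix.of_apply, Pi.zero_apply] at hk
    calc _ = ((a t : ℕ) : R) * ∑ t' : Fin m, u t ^ p ^ (t' : ℕ) * cf t' := by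
          rw [Finset.mul_sum]; refine Finset.sum_congr rfl fun t' _ => ?_; ring
      _ = 0 := by rw [hk, mul_zero]
  have hinj : Function.Injective fun a : Fin m → Fin p => ∑ t, ((a t : ℕ) : R) * u t := by
    intro a b hab
    by_contra hne
    obtain ⟨t, ht⟩ := Function.ne_iff.1 hne
    refine hu (fun t => (a t : ℕ) + (p - (b t : ℕ))) ⟨t, ?_⟩ ?_
    · intro hdvd
      refine ht (Fin.ext ?_)
      have ha := (a t).isLt
      have hb := (b t).isLt
      obtain ⟨q, hq⟩ := hdvd
      have : q = 1 := by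
        rcases Nat.lt_or_ge q 1 with hq1 | hq1
        · rw [Nat.lt_one_iff.1 hq1] at hq; omega
        · by_contra hq2
          have : p * 2 ≤ p * q := Nat.mul_le_mul_left p (by omega)
          omega
      subst this
      omega
    · have hcast : ∀ t, (((a t : ℕ) + (p - (b t : ℕ)) : ℕ) : R) =
          ((a t : ℕ) : R) - ((b t : ℕ) : R) := by
        intro t
        rw [Nat.cast_add, Nat.cast_sub (b t).isLt.le, CharP.cast_eq_zero R p]
        ring
      simp only [hcast, sub_mul, Finset.sum_sub_distrib]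
      exact sub_eq_zero.2 hab
  have hdeg : P.natDegree < Fintype.card (Fin m → Fin p) := by
    have : P.natDegree ≤ p ^ (m - 1) := by
      refine Polynomial.natDegree_sum_le_of_forall_le _ _ fun t _ => ?_
      refine (Polynomial.natDegree_C_mul_X_pow_le _ _).trans ?_
      exact Nat.pow_le_pow_right hp.pos (by omega)
    rw [Fintype.card_fun, Fintype.card_fin, Fintype.card_fin]
    exact this.trans_lt (Nat.pow_lt_pow_right hp.one_lt (by omega))
  have hP0 := Polynomial.eq_zero_of_natDegree_lt_card_of_eval_eq_zero P hinj hroot hdeg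
  refine hcf (funext fun t => ?_)
  have hc := congrArg (fun f => Polynomial.coeff f (p ^ (t : ℕ))) hP0
  simp only [hP, Polynomial.finsetSum_coeff, Polynomial.coeff_C_mul_X_pow, Polynomial.coeff_zero]
    at hc
  rw [Finset.sum_eq_single t (fun b _ hb => if_neg fun h =>
    hb (Fin.ext (Nat.pow_right_injective hp.two_le h).symm)) (by simp)] at hc
  simpa using hc

end Moore

variable (p : ℕ) [Fact p.Prime] {K : Type} [NontriviallyNormedField K] [IsUltrametricDist K]
  [CompleteSpace K] [CharP K p] [PerfectRing K p]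

section Frob

theorem frob_natCast (k : ℕ) (z : K) :
    ((frobeniusEquiv K p : RingAut K) ^ (k : ℤ)) z = z ^ p ^ k := by
  induction k with
  | zero => simp
  | succ k ih =>
    rw [zpow_natCast] at ih ⊢
    rw [pow_succ', RingAut.mul_apply, ih, frobeniusEquiv_def, ← pow_mul, ← pow_succ]

theorem frob_add (x y : ℤ) (z : K) :
    ((frobeniusEquiv K p : RingAut K) ^ (x + y)) z =
      ((frobeniusEquiv K p : RingAut K) ^ x) (((frobeniusEquiv K p : RingAut K) ^ y) z) := by
  rw [zpow_add, RingAut.mul_apply]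

theorem frob_pow_natCast (x : ℤ) (k : ℕ) (z : K) :
    ((frobeniusEquiv K p : RingAut K) ^ x) (z ^ p ^ k) =
      ((frobeniusEquiv K p : RingAut K) ^ (x + k)) z := by
  rw [frob_add, frob_natCast]

theorem norm_frob (x : ℤ) {z : K} {a : ℝ} (h : ‖z‖ = Real.exp (-a)) :
    ‖((frobeniusEquiv K p : RingAut K) ^ x) z‖ = Real.exp (-(a * (p : ℝ) ^ x)) := by
  have hp0 : (p : ℝ) ≠ 0 := by exact_mod_cast (Fact.out : p.Prime).ne_zero
  obtain ⟨l, hl⟩ : ∃ l : ℕ, (x.natAbs : ℤ) + x = l := ⟨((x.natAbs : ℤ) + x).toNat, by omega⟩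
  set y := ((frobeniusEquiv K p : RingAut K) ^ x) z
  have hy : y ^ p ^ x.natAbs = z ^ p ^ l := by
    rw [← frob_natCast, ← frob_add, hl, frob_natCast]
  have hyn := congrArg norm hy
  rw [norm_pow, norm_pow, h, ← Real.exp_nat_mul] at hyn
  refine (pow_left_inj₀ (norm_nonneg _) (Real.exp_nonneg _)
    (pow_ne_zero x.natAbs (Fact.out : p.Prime).ne_zero)).1 (hyn.trans ?_)
  rw [← Real.exp_nat_mul]
  congr 1
  push_cast
  rw [← zpow_natCast (p : ℝ) l, ← zpow_natCast (p : ℝ) x.natAbs, ← hl, zpow_add₀ hp0]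
  ring

end Frob

variable {p} {B : Type} [NormedCommRing B] [Algebra ℚ B] {c : ℝ}

namespace GaussData

theorem norm_T (D : GaussData p K B c) (a : K) : ‖D.T a‖ = ‖a‖ := by
  simpa [D.norm_one] using D.norm_T_mul a 1

theorem norm_zpow (D : GaussData p K B c) (k : ℤ) :
    ‖algebraMap ℚ B ((p : ℚ) ^ k)‖ = c ^ k := by
  simpa [D.norm_one] using D.norm_zpow_mul k 1

theorem isUnit_zpow (_D : GaussData p K B c) (k : ℤ) :
    IsUnit (algebraMap ℚ B ((p : ℚ) ^ k)) :=
  (IsUnit.mk0 _ (zpow_ne_zero _ (Nat.cast_ne_zero.2 (Fact.out : p.Prime).ne_zero))).map _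

theorem isUnit_T (D : GaussData p K B c) {a : K} (ha : a ≠ 0) : IsUnit (D.T a) :=
  (IsUnit.mk0 a ha).map D.T

theorem norm_T_sum (D : GaussData p K B c) {ι : Type*} (s : Finset ι) (a : ι → K) {R : ℝ}
    (hR : 0 ≤ R) (ha : ∀ i ∈ s, ‖a i‖ ≤ R) :
    ‖D.T (∑ i ∈ s, a i) - ∑ i ∈ s, D.T (a i)‖ ≤ c * R := by
  haveI := D.ultra
  classical
  induction s using Finset.induction_on with
  | empty => simp [D.T_zero, mul_nonneg D.c_pos.le hR]
  | insert i s hi ih =>
    rw [Finset.sum_insert hi, Finset.sum_insert hi]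
    have h1 : ‖∑ j ∈ s, a j‖ ≤ R :=
      IsUltrametricDist.norm_sum_le_of_forall_le_of_nonneg hR fun j hj =>
        ha j (Finset.mem_insert_of_mem hj)
    have e : D.T (a i + ∑ j ∈ s, a j) - (D.T (a i) + ∑ j ∈ s, D.T (a j)) =
        (D.T (a i + ∑ j ∈ s, a j) - D.T (a i) - D.T (∑ j ∈ s, a j)) +
          (D.T (∑ j ∈ s, a j) - ∑ j ∈ s, D.T (a j)) := by ring
    rw [e]
    refine (IsUltrametricDist.norm_add_le_max _ _).trans (max_le ?_ (ih fun j hj =>
      ha j (Finset.mem_insert_of_mem hj)))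
    exact (D.T_add _ _).trans (mul_le_mul_of_nonneg_left
      (max_le (ha i (Finset.mem_insert_self i s)) h1) D.c_pos.le)

theorem norm_T_units_smul (D : GaussData p K B c) (ε : ℤˣ) (a : K) :
    ‖D.T (ε • a) - ε • D.T a‖ ≤ c * ‖a‖ := by
  rcases Int.units_eq_one_or ε with rfl | rfl
  · simp [mul_nonneg D.c_pos.le (norm_nonneg a)]
  · have h := D.T_add a (-a)
    rw [add_neg_cancel, D.T_zero, norm_neg, max_self] at h
    have e : D.T ((-1 : ℤˣ) • a) - (-1 : ℤˣ) • D.T a = -(0 - D.T a - D.T (-a)) := by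
      simp [Units.smul_def]
    rw [e, norm_neg]
    exact h

theorem norm_det_map_sub (D : GaussData p K B c) {ι : Type*} [Fintype ι] [DecidableEq ι]
    (A : Matrix ι ι K) {R : ℝ} (hR : 0 ≤ R)
    (hA : ∀ σ : Equiv.Perm ι, ∏ i, ‖A (σ i) i‖ ≤ R) :
    ‖(A.map D.T).det - D.T A.det‖ ≤ c * R := by
  haveI := D.ultra
  rw [Matrix.det_apply, Matrix.det_apply]
  have h1 : ∀ σ : Equiv.Perm ι, ‖Equiv.Perm.sign σ • ∏ i, A (σ i) i‖ ≤ R := fun σ => by
    rcases Int.units_eq_one_or (Equiv.Perm.sign σ) with h | h <;>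
      simpa [h, norm_prod] using hA σ
  have h2 : ‖(∑ σ : Equiv.Perm ι, D.T (Equiv.Perm.sign σ • ∏ i, A (σ i) i)) -
      ∑ σ : Equiv.Perm ι, Equiv.Perm.sign σ • ∏ i, (A.map D.T) (σ i) i‖ ≤ c * R := by
    rw [← Finset.sum_sub_distrib]
    refine IsUltrametricDist.norm_sum_le_of_forall_le_of_nonneg (mul_nonneg D.c_pos.le hR)
      fun σ _ => ?_
    simp only [Matrix.map_apply, ← map_prod]
    refine (D.norm_T_units_smul _ _).trans (mul_le_mul_of_nonneg_left ?_ D.c_pos.le)
    rw [norm_prod]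
    exact hA σ
  have h3 := D.norm_T_sum Finset.univ (fun σ : Equiv.Perm ι => Equiv.Perm.sign σ • ∏ i, A (σ i) i)
    hR fun σ _ => h1 σ
  rw [norm_sub_rev]
  exact le_trans (by
    have := IsUltrametricDist.norm_add_le_max
      (D.T (∑ σ : Equiv.Perm ι, Equiv.Perm.sign σ • ∏ i, A (σ i) i) -
        ∑ σ : Equiv.Perm ι, D.T (Equiv.Perm.sign σ • ∏ i, A (σ i) i))
      ((∑ σ : Equiv.Perm ι, D.T (Equiv.Perm.sign σ • ∏ i, A (σ i) i)) -
        ∑ σ : Equiv.Perm ι, Equiv.Perm.sign σ • ∏ i, (A.map D.T) (σ i) i)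
    rwa [sub_add_sub_cancel] at this) (max_le h3 h2)

/-- An element close to a unit of multiplicative norm is a unit. -/
theorem isUnit_of_close (D : GaussData p K B c) (k : ℤ) {a : K} (ha : a ≠ 0) {E : B}
    (h : ‖E - algebraMap ℚ B ((p : ℚ) ^ k) * D.T a‖ < c ^ k * ‖a‖) : IsUnit E := by
  haveI := D.complete
  set y := algebraMap ℚ B ((p : ℚ) ^ k) * D.T a
  set t := algebraMap ℚ B ((p : ℚ) ^ (-k)) * (D.T a⁻¹ * (y - E))
  have ht : ‖t‖ < 1 := by
    rw [D.norm_zpow_mul, D.norm_T_mul, norm_sub_rev, norm_inv, zpow_neg]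
    have hc : 0 < c ^ k := zpow_pos D.c_pos k
    have hn : 0 < ‖a‖ := norm_pos_iff.2 ha
    calc (c ^ k)⁻¹ * (‖a‖⁻¹ * ‖E - y‖) < (c ^ k)⁻¹ * (‖a‖⁻¹ * (c ^ k * ‖a‖)) := by gcongr
      _ = 1 := by field_simp
  have e : E = y * (1 - t) := by
    have h1 : algebraMap ℚ B ((p : ℚ) ^ k) * algebraMap ℚ B ((p : ℚ) ^ (-k)) = 1 := by
      rw [← map_mul, ← zpow_add₀ (Nat.cast_ne_zero.2 (Fact.out : p.Prime).ne_zero)]
      simp
    have h2 : D.T a * D.T a⁻¹ = 1 := by rw [← map_mul, mul_inv_cancel₀ ha, map_one]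
    calc E = y - (algebraMap ℚ B ((p : ℚ) ^ k) * algebraMap ℚ B ((p : ℚ) ^ (-k))) *
          (D.T a * D.T a⁻¹) * (y - E) := by rw [h1, h2]; ring
      _ = y * (1 - t) := by simp only [y, t]; ring
  rw [e]
  exact ((D.isUnit_zpow k).mul (D.isUnit_T ha)).mul (isUnit_one_sub_of_norm_lt_one ht)

end GaussData

section Block

/-- The ideal of topologically nilpotent elements of the ball. -/
def ballLtOne : Ideal (Ball K) where
  carrier := {x | ‖(x : K)‖ < 1}
  add_mem' {a b} ha hb := (IsUltrametricDist.norm_add_le_max (a : K) b).trans_lt (max_lt ha hb)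
  zero_mem' := by simp
  smul_mem' a {b} hb := by
    change ‖(a : K) * b‖ < 1
    rw [norm_mul]
    exact lt_of_le_of_lt (mul_le_of_le_one_left (norm_nonneg _) a.2) hb

theorem mem_ballLtOne {x : Ball K} : x ∈ ballLtOne ↔ ‖(x : K)‖ < 1 := Iff.rfl

theorem ballLtOne_isPrime : (ballLtOne : Ideal (Ball K)).IsPrime := by
  refine ⟨fun h => ?_, fun {a b} hab => ?_⟩
  · have := mem_ballLtOne.1 ((Ideal.eq_top_iff_one (ballLtOne : Ideal (Ball K))).1 h)
    simp at this
  · simp only [mem_ballLtOne] at hab ⊢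
    by_contra hne
    push Not at hne
    have h1 : ‖(a : K)‖ = 1 := le_antisymm a.2 hne.1
    have h2 : ‖(b : K)‖ = 1 := le_antisymm b.2 hne.2
    simp [h1, h2] at hab

/-- A Moore determinant of equally large elements which stay independent in the residue field
has the largest possible norm. -/
theorem norm_moore_det {m : ℕ} (u : Fin m → K) {V : ℝ} (hnorm : ∀ t, ‖u t‖ = Real.exp (-V))
    (hu : ∀ a : Fin m → ℕ, (∃ t, ¬p ∣ a t) → ‖∑ t, (a t : K) * u t‖ = Real.exp (-V)) :
    ‖(Matrix.of fun t t' : Fin m => u t ^ p ^ (t' : ℕ)).det‖ =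
      ∏ t' : Fin m, Real.exp (-V) ^ p ^ (t' : ℕ) := by
  rcases Nat.eq_zero_or_pos m with rfl | hm
  · simp
  set ω := u ⟨0, hm⟩
  have hω : ω ≠ 0 := norm_ne_zero_iff.1 (by rw [hnorm]; exact (Real.exp_pos _).ne')
  have hq : ∀ t, ‖u t / ω‖ = 1 := fun t => by
    rw [norm_div, hnorm, hnorm, div_self (Real.exp_pos _).ne']
  let x : Fin m → Ball K := fun t => ⟨u t / ω, mem_Ball.2 (hq t).le⟩
  have hunit : ‖((Matrix.of fun t t' : Fin m => x t ^ p ^ (t' : ℕ)).det : K)‖ = 1 := by
    by_contra hne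
    have hlt := lt_of_le_of_ne (Subtype.prop (Matrix.of fun t t' : Fin m => x t ^ p ^ (t' : ℕ)).det) hne
    haveI := ballLtOne_isPrime (K := K)
    set q := Ideal.Quotient.mk (ballLtOne : Ideal (Ball K))
    haveI : CharP (Ball K ⧸ (ballLtOne : Ideal (Ball K))) p := by
      refine CharP.quotient' p _ fun k hk => ?_
      rw [mem_ballLtOne] at hk
      by_contra hk0
      have hpk : ¬p ∣ k := fun h => hk0 ((CharP.cast_eq_zero_iff (Ball K) p k).2 h)
      have h1 := hu (fun t => if t = ⟨0, hm⟩ then k else 0) ⟨⟨0, hm⟩, by simpa using hpk⟩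
      simp [apply_ite (Nat.cast : ℕ → K), ite_mul, norm_mul, hnorm, (Real.exp_pos _).ne'] at h1
      simp [h1] at hk
    refine moore_det_ne_zero p (fun t => q (x t)) ?_ ?_
    · intro a ha h0
      have h1 : q (∑ t, (a t : Ball K) * x t) = 0 := by simpa using h0
      rw [Ideal.Quotient.eq_zero_iff_mem, mem_ballLtOne] at h1
      have h2 : ((∑ t, (a t : Ball K) * x t : Ball K) : K) = (∑ t, (a t : K) * u t) / ω := by
        simp [x, Finset.sum_div, mul_div_assoc]
      rw [h2, norm_div, hu a ha, hnorm, div_self (Real.exp_pos _).ne'] at h1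
      exact lt_irrefl _ h1
    · have : q (Matrix.of fun t t' : Fin m => x t ^ p ^ (t' : ℕ)).det = 0 :=
        Ideal.Quotient.eq_zero_iff_mem.2 hlt
      rw [RingHom.map_det] at this
      rw [← this]
      congr 1
  have hmap : (((Matrix.of fun t t' : Fin m => x t ^ p ^ (t' : ℕ)).det : Ball K) : K) =
      (Matrix.of fun t t' : Fin m => (u t / ω) ^ p ^ (t' : ℕ)).det := by
    rw [show ∀ y : Ball K, (y : K) = (Ball K).subtype y from fun _ => rfl, RingHom.map_det]
    congr 1
  rw [hmap] at hunit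
  have hfac : (Matrix.of fun t t' : Fin m => u t ^ p ^ (t' : ℕ)) =
      Matrix.of fun t t' : Fin m =>
        ω ^ p ^ (t' : ℕ) * (Matrix.of fun t t' : Fin m => (u t / ω) ^ p ^ (t' : ℕ)) t t' := by
    ext t t'
    simp only [Matrix.of_apply, ← mul_pow, mul_div_cancel₀ _ hω]
  rw [hfac, Matrix.det_mul_row, norm_mul, hunit, mul_one, norm_prod]
  simp [norm_pow, ω, hnorm]

/-- The same for consecutive exponents starting anywhere. -/
theorem norm_moore_det_block {ι : Type*} [Fintype ι] [DecidableEq ι] (u : ι → K) {V : ℝ}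
    (hnorm : ∀ i, ‖u i‖ = Real.exp (-V))
    (hu : ∀ a : ι → ℕ, (∃ i, ¬p ∣ a i) → ‖∑ i, (a i : K) * u i‖ = Real.exp (-V))
    (e : ι → ℤ) (he : Function.Injective e)
    (hcons : ∀ i j x, e j < x → x < e i → ∃ k, e k = x) :
    ‖(Matrix.of fun j i => ((frobeniusEquiv K p : RingAut K) ^ e i) (u j)).det‖ =
      ∏ i, Real.exp (-(V * (p : ℝ) ^ e i)) := by
  rcases isEmpty_or_nonempty ι with h | h
  · simp
  obtain ⟨i₀, hmin⟩ := Finite.exists_min e
  obtain ⟨i₁, hmax⟩ := Finite.exists_max e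
  set m := Fintype.card ι
  have hIcc : Finset.Icc (e i₀) (e i₁) = Finset.univ.image e := by
    ext x
    simp only [Finset.mem_Icc, Finset.mem_image, Finset.mem_univ, true_and]
    constructor
    · rintro ⟨h1, h2⟩
      rcases eq_or_lt_of_le h1 with h1 | h1
      · exact ⟨i₀, h1⟩
      rcases eq_or_lt_of_le h2 with h2 | h2
      · exact ⟨i₁, h2.symm⟩
      exact hcons i₁ i₀ x h1 h2
    · rintro ⟨k, rfl⟩
      exact ⟨hmin k, hmax k⟩
  have hcard := congrArg Finset.card hIcc
  rw [Int.card_Icc, Finset.card_image_of_injective _ he, Finset.card_univ] at hcard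
  let f : ι → Fin m := fun i => ⟨(e i - e i₀).toNat, by
    have := hmin i
    have := hmax i
    omega⟩
  have hf : Function.Bijective f := by
    refine (Fintype.bijective_iff_injective_and_card f).2 ⟨fun a b hab => he ?_, by simp [m]⟩
    have := hmin a
    have := hmin b
    simp only [f, Fin.mk.injEq] at hab
    omega
  let φ := Equiv.ofBijective f hf
  have hφ : ∀ i, e i = e i₀ + ((φ i : ℕ) : ℤ) := fun i => by
    have := hmin i
    simp only [φ, Equiv.ofBijective_apply, f]
    omega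
  have hM : (Matrix.of fun j i => ((frobeniusEquiv K p : RingAut K) ^ e i) (u j)) =
      ((((frobeniusEquiv K p : RingAut K) ^ e i₀).toRingHom).mapMatrix
        (Matrix.of fun t t' : Fin m => u (φ.symm t) ^ p ^ (t' : ℕ))).submatrix φ φ := by
    ext j i
    simp only [Matrix.of_apply, Matrix.submatrix_apply, RingHom.mapMatrix_apply, Matrix.map_apply]
    rw [Equiv.symm_apply_apply, hφ i]
    exact (frob_pow_natCast p (e i₀) _ (u j)).symm
  have hM' := norm_moore_det (p := p) (fun t => u (φ.symm t)) (fun t => hnorm _) fun a ha => by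
    obtain ⟨t, ht⟩ := ha
    have := hu (fun i => a (φ i)) ⟨φ.symm t, by simpa using ht⟩
    rwa [← Equiv.sum_comp φ.symm, Finset.sum_congr rfl fun t _ => by
      rw [Equiv.apply_symm_apply]] at this
  simp only [← Real.exp_nat_mul, ← Real.exp_sum] at hM'
  rw [hM, Matrix.det_submatrix_equiv_self, ← RingHom.map_det]
  refine (norm_frob p (e i₀) (a := ∑ t' : Fin m, ((p ^ (t' : ℕ) : ℕ) : ℝ) * V) ?_).trans ?_
  · rw [hM', ← Finset.sum_neg_distrib]
    simp
  · rw [← Real.exp_sum, Finset.sum_mul, ← Equiv.sum_comp φ, ← Finset.sum_neg_distrib]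
    congr 1
    refine Finset.sum_congr rfl fun i _ => ?_
    rw [hφ i, zpow_add₀ (Nat.cast_ne_zero.2 (Fact.out : p.Prime).ne_zero), zpow_natCast]
    push_cast
    ring

end Block

section Main

variable {n s : ℕ} {lam : ℝ} {v : Fin s → ℝ} {e : Fin s → ℤ} {w : Fin s → K}

theorem costSum_sublevel_finite (hp : 1 < p) (hlam : 0 < lam) (hv : ∀ j, 0 < v j) (A : ℝ) :
    {x : Fin s → ℤ | costSum p lam v x ≤ A}.Finite := by
  choose L hL using fun j => cost1_bddBelow (p := p) hp hlam (hv j)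
  refine (Set.Finite.pi fun j =>
    sublevel_finite (lam := lam) hp hlam (hv j) (A - ∑ i ∈ univ.erase j, L i)).subset fun x hx => ?_
  intro j _
  change cost1 p lam (v j) (x j) ≤ _
  have h1 : costSum p lam v x = cost1 p lam (v j) (x j) +
      ∑ i ∈ univ.erase j, cost1 p lam (v i) (x i) := (Finset.add_sum_erase _ _ (mem_univ j)).symm
  have h2 : ∑ i ∈ univ.erase j, L i ≤ ∑ i ∈ univ.erase j, cost1 p lam (v i) (x i) :=
    Finset.sum_le_sum fun i _ => hL i (x i)
  have hx' : costSum p lam v x ≤ A := hx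
  linarith

theorem exists_gap (hp : 1 < p) (hlam : 0 < lam) (hv : ∀ j, 0 < v j)
    (he : IsOptimal p n lam v e) :
    ∃ η : ℝ, 0 < η ∧ ∀ x, InjMod n x → ¬IsOptimal p n lam v x →
      costSum p lam v e + η ≤ costSum p lam v x := by
  have hlt : ∀ x, InjMod n x → ¬IsOptimal p n lam v x → costSum p lam v e < costSum p lam v x :=
    fun x hx hno => lt_of_not_ge fun hle =>
      hno ⟨hx, fun y hy => hle.trans (he.2 y hy)⟩
  set S := {x : Fin s → ℤ | InjMod n x ∧ ¬IsOptimal p n lam v x ∧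
    costSum p lam v x ≤ costSum p lam v e + 1}
  have hS : S.Finite :=
    (costSum_sublevel_finite hp hlam hv (costSum p lam v e + 1)).subset fun x hx => hx.2.2
  rcases S.eq_empty_or_nonempty with h0 | hne
  · refine ⟨1, one_pos, fun x hx hno => ?_⟩
    by_contra hlt'
    push Not at hlt'
    have : x ∈ S := ⟨hx, hno, hlt'.le⟩
    simp [h0] at this
  · obtain ⟨x₀, hx₀, hmin⟩ := Set.exists_min_image S (costSum p lam v) hS hne
    refine ⟨costSum p lam v x₀ - costSum p lam v e, sub_pos.2 (hlt x₀ hx₀.1 hx₀.2.1),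
      fun x hx hno => ?_⟩
    rcases le_or_gt (costSum p lam v x) (costSum p lam v e + 1) with h | h
    · linarith [hmin x ⟨hx, hno, h⟩]
    · linarith [hx₀.2.2]

/-- The residues of an optimum and the quotients. -/
theorem exists_residues (hn : 1 ≤ n) (e : Fin s → ℤ) :
    ∃ (r : Fin s → Fin n) (k : Fin s → ℤ), ∀ i, e i = n * k i + ((r i : ℕ) : ℤ) := by
  have hn0 : (n : ℤ) ≠ 0 := by omega
  have h1 : ∀ i, (e i % n).toNat < n := fun i => by
    have := Int.emod_lt_of_pos (e i) (show (0 : ℤ) < n by omega)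
    omega
  refine ⟨fun i => ⟨(e i % n).toNat, h1 i⟩, fun i => e i / n, fun i => ?_⟩
  have := Int.emod_nonneg (e i) hn0
  have h2 := Int.mul_ediv_add_emod (e i) n
  simp only [Int.toNat_of_nonneg this]
  omega

/-- The dominant term of the determinant. -/
theorem isUnit_det_bigLog (hn : 1 ≤ n) (hs : s ≤ n) (D : GaussData p K B c) (hv : ∀ j, 0 < v j)
    (hmono : Monotone v) (hwin : ∀ i j, v j < (p : ℝ) ^ n * v i)
    (hw : ∀ j, ‖w j‖ = Real.exp (-v j))
    (hclass : ∀ (V : ℝ) (a : Fin s → ℕ), (∀ j, a j ≠ 0 → v j = V) → (∃ j, ¬p ∣ a j) →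
      ‖∑ j, (a j : K) * w j‖ = Real.exp (-V))
    (hlam : 0 < lam)
    (hgen : ∀ a b : Fin s → ℤ, costSum p lam v a = costSum p lam v b → ∑ j, a j = ∑ j, b j)
    (hc : c = Real.exp (-((n : ℝ) * lam))) :
    ∃ r : Fin s → Fin n,
      IsUnit (Matrix.of fun j i => bigLog p D n (w j ^ p ^ (r i : ℕ))).det := by
  haveI := D.ultra
  haveI := D.complete
  have hp : 1 < p := (Fact.out : p.Prime).one_lt
  obtain ⟨e₀, he₀⟩ := exists_isOptimal (v := v) hp hlam hv hs
  obtain ⟨π, hπ, hsort⟩ := exists_sort (v := v) he₀.1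
  set e := e₀ ∘ π
  have he : IsOptimal p n lam v e := he₀.comp_perm π hπ
  obtain ⟨r, k, hek⟩ := exists_residues hn e
  refine ⟨r, ?_⟩
  obtain ⟨η, hη, hgap⟩ := exists_gap hp hlam hv he
  -- the summands
  set a : Fin s → Fin s → ℤ → B := fun j i l => algebraMap ℚ B ((p : ℚ) ^ (-l)) *
    D.T (((frobeniusEquiv K p : RingAut K) ^ ((n : ℤ) * l)) (w j ^ p ^ (r i : ℕ))) with ha
  have hnorm_a : ∀ j i l, ‖a j i l‖ =
      Real.exp (-(cost1 p lam (v j) ((n : ℤ) * l + ((r i : ℕ) : ℤ)) + lam * (r i : ℕ))) := by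
    intro j i l
    simp only [ha]
    rw [D.norm_zpow_mul, D.norm_T, frob_pow_natCast, norm_frob p _ (hw j), hc,
      ← Real.rpow_intCast, ← Real.exp_mul, ← Real.exp_add]
    congr 1
    unfold cost1
    push_cast
    ring
  have hwlt : ∀ j (i : Fin s), ‖w j ^ p ^ (r i : ℕ)‖ < 1 := fun j i => by
    rw [norm_pow, hw, ← Real.exp_nat_mul]
    refine Real.exp_lt_one_iff.2 (mul_neg_of_pos_of_neg ?_ (neg_lt_zero.2 (hv j)))
    exact_mod_cast pow_pos (Fact.out : p.Prime).pos _
  set C := costSum p lam v e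
  set Λ := ∑ i, lam * (r i : ℕ)
  set main := Real.exp (-(C + Λ))
  have hinj : ∀ (σ : Equiv.Perm (Fin s)) (f : Fin s → ℤ),
      InjMod n ((fun i => (n : ℤ) * f i + ((r i : ℕ) : ℤ)) ∘ σ.symm) := by
    intro σ f
    refine InjMod.comp_perm (fun i j hij => he.1 i j ?_) _
    rw [hek i, hek j]
    have h : ((n : ℤ) * k i + ((r i : ℕ) : ℤ)) - (n * k j + ((r j : ℕ) : ℤ)) =
        (((n : ℤ) * f i + ((r i : ℕ) : ℤ)) - (n * f j + ((r j : ℕ) : ℤ))) +
          n * (k i - k j - f i + f j) := by ring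
    rw [h]
    exact dvd_add hij (dvd_mul_right _ _)
  have hprod : ∀ (σ : Equiv.Perm (Fin s)) (f : Fin s → ℤ),
      ‖∏ i, a (σ i) i (f i)‖ ≤ Real.exp (-(costSum p lam v
        ((fun i => (n : ℤ) * f i + ((r i : ℕ) : ℤ)) ∘ σ.symm) + Λ)) := by
    intro σ f
    haveI : NormOneClass B := ⟨D.norm_one⟩
    refine (Finset.norm_prod_le _ _).trans_eq ?_
    simp only [hnorm_a, ← Real.exp_sum, Λ, costSum]
    congr 1
    rw [Finset.sum_neg_distrib, Finset.sum_add_distrib,
      ← Equiv.sum_comp σ (fun j => cost1 p lam (v j) _)]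
    simp
  -- the masked matrix of leading terms
  set A : Matrix (Fin s) (Fin s) K := Matrix.of fun j i =>
    if v j = v i then ((frobeniusEquiv K p : RingAut K) ^ e i) (w j) else 0 with hA
  set P := algebraMap ℚ B ((p : ℚ) ^ (-∑ i, k i)) with hP
  set θ := max (Real.exp (-η)) c
  have hθ1 : θ < 1 := max_lt (Real.exp_lt_one_iff.2 (neg_lt_zero.2 hη)) D.c_lt
  have hmain0 : 0 < main := Real.exp_pos _
  have hθ0 : 0 ≤ θ := le_max_of_le_left (Real.exp_nonneg _)
  -- every expansion term other than the leading ones is small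
  have hsmall : ∀ (σ : Equiv.Perm (Fin s)) (f : Fin s → ℤ), ¬(v ∘ σ = v ∧ f = k) →
      ‖∏ i, a (σ i) i (f i)‖ ≤ θ * main := by
    intro σ f hne
    have hno : ¬IsOptimal p n lam v ((fun i => (n : ℤ) * f i + ((r i : ℕ) : ℤ)) ∘ σ.symm) := by
      intro hx
      obtain ⟨τ, hτ, hxs⟩ := exists_sort (v := v) hx.1
      have heq := (hx.comp_perm τ hτ).unique hp hmono hwin hn hgen he hxs hsort
      have hid : ∀ l, σ.symm (τ l) = l := fun l => he.1 _ _ (by
        have h1 := congrFun heq l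
        simp only [Function.comp_apply] at h1
        have h2 : e (σ.symm (τ l)) - e l = n * (k (σ.symm (τ l)) - f (σ.symm (τ l))) := by
          rw [← h1, hek (σ.symm (τ l))]
          ring
        rw [h2]
        exact dvd_mul_right _ _)
      have hτσ : ∀ l, σ l = τ l := fun l => by
        conv_lhs => rw [← hid l]
        exact σ.apply_symm_apply _
      refine hne ⟨funext fun l => ?_, funext fun l => ?_⟩
      · rw [Function.comp_apply, hτσ]
        exact congrFun hτ l
      · have h1 := congrFun heq l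
        simp only [Function.comp_apply] at h1
        rw [hid l, hek l] at h1
        have hn0 : (n : ℤ) ≠ 0 := by omega
        exact mul_left_cancel₀ hn0 (by linarith)
    refine (hprod σ f).trans ?_
    refine le_trans ?_ (mul_le_mul_of_nonneg_right (le_max_left _ _) hmain0.le)
    rw [← Real.exp_add]
    exact Real.exp_le_exp.2 (by linarith [hgap _ (hinj σ f) hno])
  -- the leading terms
  have hP' : ∀ S : Finset (Fin s), algebraMap ℚ B ((p : ℚ) ^ (-∑ i ∈ S, k i)) =
      ∏ i ∈ S, algebraMap ℚ B ((p : ℚ) ^ (-k i)) := by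
    intro S
    induction S using Finset.induction_on with
    | empty => simp
    | insert x S hx ih =>
      rw [Finset.sum_insert hx, Finset.prod_insert hx, neg_add,
        zpow_add₀ (Nat.cast_ne_zero.2 (Fact.out : p.Prime).ne_zero), map_mul, ih]
  have hlead : ∀ σ : Equiv.Perm (Fin s), v ∘ σ = v →
      ∏ i, a (σ i) i (k i) = P * ∏ i, D.T (A (σ i) i) := by
    intro σ hσ
    rw [hP, hP', ← Finset.prod_mul_distrib]
    refine Finset.prod_congr rfl fun i _ => ?_
    have hvi : v (σ i) = v i := congrFun hσ i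
    simp only [ha, hA, Matrix.of_apply, hvi, if_true]
    rw [frob_pow_natCast, ← hek i]
  have hpart : ∀ F : Finset ℤ, Finset.univ.image k ⊆ F →
      ‖(Matrix.of fun j i => ∑ l ∈ F, a j i l).det - P * (A.map D.T).det‖ ≤ θ * main := by
    intro F hF
    rw [Matrix.det_apply, Matrix.det_apply, Finset.mul_sum, ← Finset.sum_sub_distrib]
    refine IsUltrametricDist.norm_sum_le_of_forall_le_of_nonneg (mul_nonneg hθ0 hmain0.le)
      fun σ _ => ?_
    rw [mul_smul_comm, ← smul_sub]
    suffices h : ‖(∏ i, (Matrix.of fun j i => ∑ l ∈ F, a j i l) (σ i) i) -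
        P * ∏ i, (A.map D.T) (σ i) i‖ ≤ θ * main by
      rcases Int.units_eq_one_or (Equiv.Perm.sign σ) with h1 | h1 <;> rw [h1] <;>
        simpa [Units.smul_def, norm_sub_rev] using h
    simp only [Matrix.of_apply, Matrix.map_apply]
    rw [Finset.prod_univ_sum]
    by_cases hσ : v ∘ σ = v
    · have hk : k ∈ Fintype.piFinset fun _ : Fin s => F :=
        Fintype.mem_piFinset.2 fun i => hF (Finset.mem_image_of_mem k (Finset.mem_univ i))
      rw [← Finset.add_sum_erase _ _ hk, hlead σ hσ, add_sub_cancel_left]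
      exact IsUltrametricDist.norm_sum_le_of_forall_le_of_nonneg (mul_nonneg hθ0 hmain0.le)
        fun f hf => hsmall σ f fun h => (Finset.mem_erase.1 hf).1 h.2
    · obtain ⟨i, hi⟩ := Function.ne_iff.1 hσ
      have hi' : v (σ i) ≠ v i := hi
      rw [Finset.prod_eq_zero (f := fun i => D.T (A (σ i) i)) (Finset.mem_univ i)
        (by simp [hA, hi', D.T_zero]), mul_zero, sub_zero]
      exact IsUltrametricDist.norm_sum_le_of_forall_le_of_nonneg (mul_nonneg hθ0 hmain0.le)
        fun f _ => hsmall σ f fun h => hσ h.1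
  set E := Matrix.of fun j i => bigLog p D n (w j ^ p ^ (r i : ℕ))
  have hlim : Tendsto (fun F : Finset ℤ => Matrix.of fun j i => ∑ l ∈ F, a j i l) atTop (𝓝 E) :=
    tendsto_pi_nhds.2 fun j => tendsto_pi_nhds.2 fun i =>
      (summable_bigLog p D hn (hwlt j i)).hasSum
  have hclose : ‖E.det - P * (A.map D.T).det‖ ≤ θ * main :=
    le_of_tendsto ((((continuous_id.matrix_det).tendsto E).comp hlim).sub_const _).norm
      ((eventually_ge_atTop (Finset.univ.image k)).mono fun F hF => hpart F hF)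
  -- the norm of the masked determinant
  set R := ∏ i, Real.exp (-(v i * (p : ℝ) ^ e i)) with hR
  have hblock : A.BlockTriangular v := fun j i h => by simp [hA, h.ne']
  have hdetA : ‖A.det‖ = R := by
    rw [hblock.det, norm_prod, hR,
      ← Finset.prod_fiberwise_of_maps_to (t := Finset.univ.image v) (g := v)
        fun i _ => Finset.mem_image_of_mem v (Finset.mem_univ i)]
    refine Finset.prod_congr rfl fun x hx => ?_
    have hB : A.toSquareBlock v x = Matrix.of fun (j i : { i // v i = x }) =>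
        ((frobeniusEquiv K p : RingAut K) ^ e i) (w j) := by
      ext j i
      simp [Matrix.toSquareBlock_def, hA, j.2, i.2]
    rw [hB, norm_moore_det_block (fun i : { i // v i = x } => w i) (V := x) ?_ ?_
      (fun i : { i // v i = x } => e i) ?_ ?_]
    · rw [Finset.prod_subtype (p := fun i => v i = x) _ (by simp)]
      exact Finset.prod_congr rfl fun i _ => by rw [i.2]
    · intro i
      rw [hw, i.2]
    · intro c₀ hc₀
      obtain ⟨i, hi⟩ := hc₀
      have h := hclass x (fun j => if h : v j = x then c₀ ⟨j, h⟩ else 0)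
        (fun j hj => by by_contra hne; simp [hne] at hj) ⟨i, by simpa [i.2] using hi⟩
      rw [← h]
      congr 1
      rw [← Fintype.sum_subtype_add_sum_subtype (fun j => v j = x)]
      rw [show ∑ j : { j // ¬v j = x }, _ = (0 : K) from Finset.sum_eq_zero fun j _ => by
        simp [j.2], add_zero]
      exact Finset.sum_congr rfl fun j _ => by simp [j.2]
    · exact fun i j h => Subtype.ext (he.1.injective h)
    · intro i j y h1 h2
      obtain ⟨l, hl, hl'⟩ := he.exists_eq_of_between hp hmono hwin hn (i := i.1) (j := j.1)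
        (i.2.trans j.2.symm) (hv _) h1 h2
      exact ⟨⟨l, hl.trans i.2⟩, hl'⟩
  have hAR : ∀ σ : Equiv.Perm (Fin s), ∏ i, ‖A (σ i) i‖ ≤ R := fun σ => by
    refine Finset.prod_le_prod (fun i _ => norm_nonneg _) fun i _ => ?_
    simp only [hA, Matrix.of_apply]
    split_ifs with h
    · rw [norm_frob p _ (hw _), h]
    · simp [Real.exp_nonneg]
  have hR0 : 0 < R := Finset.prod_pos fun i _ => Real.exp_pos _
  have hPR : c ^ (-∑ i, k i) * R = main := by
    rw [hR, ← Real.exp_sum, hc, ← Real.rpow_intCast, ← Real.exp_mul, ← Real.exp_add]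
    congr 1
    have hCe : ∀ i, (e i : ℝ) = n * k i + (r i : ℕ) := fun i => by
      rw [hek i]; push_cast; ring
    simp only [C, Λ, costSum, cost1, Finset.sum_sub_distrib, Finset.sum_neg_distrib, hCe]
    push_cast
    simp only [mul_add, Finset.sum_add_distrib, ← Finset.mul_sum]
    ring
  refine D.isUnit_of_close (-∑ i, k i) (a := A.det) (norm_pos_iff.1 (hdetA ▸ hR0)) ?_
  rw [hdetA, hPR]
  have h2 : ‖P * (A.map D.T).det - P * D.T A.det‖ ≤ θ * main := by
    rw [← mul_sub, hP, D.norm_zpow_mul, ← hPR, mul_left_comm]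
    refine mul_le_mul_of_nonneg_left ((D.norm_det_map_sub A hR0.le hAR).trans ?_)
      (zpow_nonneg D.c_pos.le _)
    exact mul_le_mul_of_nonneg_right (le_max_right _ _) hR0.le
  refine lt_of_le_of_lt ?_ (show θ * main < main from mul_lt_of_lt_one_left hmain0 hθ1)
  have h3 := IsUltrametricDist.norm_add_le_max (E.det - P * (A.map D.T).det)
    (P * (A.map D.T).det - P * D.T A.det)
  rw [sub_add_sub_cancel] at h3
  exact h3.trans (max_le hclose h2)

end Main

end Vale.P217

end
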