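import Vale.Agent.P217.MooreDet
import Vale.Agent.P217.PointTools
import Mathlib.LinearAlgebra.Vandermonde
import Mathlib.RingTheory.RootsOfUnity.AlgebraicallyClosed

/-!
Auxiliary facts for the absence of linear relations: composition of homomorphisms, series with
zeros of infinitely many norms, and a Vandermonde determinant of Teichmüller lifts.
-/

noncomputable section

set_option linter.unusedSectionVars false

namespace Vale.P217

theorem isHomSeries_subst {R : Type*} [CommRing R] {F G H : FormalGroup R} {f g : PowerSeries R}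
    (hf : IsHomSeries F G f) (hg : IsHomSeries G H g) :
    IsHomSeries F H (PowerSeries.subst f g) := by
  have hfs : PowerSeries.HasSubst f := PowerSeries.HasSubst.of_constantCoeff_zero' hf.1
  have hFs : PowerSeries.HasSubst F.toPowerSeries :=
    PowerSeries.HasSubst.of_constantCoeff_zero F.zero_constantCoeff
  have hGs : PowerSeries.HasSubst G.toPowerSeries :=
    PowerSeries.HasSubst.of_constantCoeff_zero G.zero_constantCoeff
  have hX : ∀ i : Fin 2, PowerSeries.HasSubst (MvPowerSeries.X i : MvPowerSeries (Fin 2) R) :=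
    fun i => PowerSeries.HasSubst.of_constantCoeff_zero (by simp)
  have hgs := hasSubst_pair hg.1
  refine ⟨PowerSeries.constantCoeff_subst_eq_zero hf.1 g hg.1, ?_⟩
  rw [PowerSeries.subst_comp_subst_apply hfs hFs, hf.2]
  set b : Fin 2 → MvPowerSeries (Fin 2) R :=
    ![PowerSeries.subst (MvPowerSeries.X (0 : Fin 2)) f,
      PowerSeries.subst (MvPowerSeries.X (1 : Fin 2)) f] with hb
  have h1 : PowerSeries.subst (MvPowerSeries.subst b G.toPowerSeries) g =
      MvPowerSeries.subst b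
        (PowerSeries.subst G.toPowerSeries g) := by
    rw [PowerSeries.subst, PowerSeries.subst,
      MvPowerSeries.subst_comp_subst_apply hGs.const (hasSubst_pair hf.1)]
  rw [h1, hg.2, hb, MvPowerSeries.subst_comp_subst_apply hgs (hasSubst_pair hf.1)]
  congr 1
  funext i
  have hcomm : ∀ i : Fin 2,
      MvPowerSeries.subst b (PowerSeries.subst (MvPowerSeries.X i : MvPowerSeries (Fin 2) R) g) =
        PowerSeries.subst (b i) g := fun i => by
    have h2 := MvPowerSeries.subst_comp_subst_apply (hX i).const (hasSubst_pair hf.1) g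
    refine h2.trans ?_
    congr 1
    funext _
    exact MvPowerSeries.subst_X (hasSubst_pair hf.1) i
  fin_cases i
  · simp only [Fin.zero_eta, Matrix.cons_val_zero]
    rw [PowerSeries.subst_comp_subst_apply hfs (hX 0)]
    exact hcomm 0
  · simp only [Fin.mk_one, Matrix.cons_val_one, Matrix.cons_val_fin_one]
    rw [PowerSeries.subst_comp_subst_apply hfs (hX 1)]
    exact hcomm 1

/-- A series killed by substituting a series with nonzero linear term is zero. -/
theorem eq_zero_of_subst_eq_zero {R : Type*} [CommRing R] [IsDomain R] {f g : PowerSeries R}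
    (hf : PowerSeries.constantCoeff f = 0) (hf1 : PowerSeries.coeff 1 f ≠ 0)
    (h : PowerSeries.subst f g = 0) : g = 0 := by
  classical
  by_contra hg
  have hex : ∃ d, PowerSeries.coeff d g ≠ 0 := by
    by_contra hc
    push Not at hc
    exact hg (PowerSeries.ext fun d => by rw [hc d, map_zero])
  set d := Nat.find hex
  obtain ⟨f', rfl⟩ := PowerSeries.X_dvd_iff.2 hf
  have hf' : PowerSeries.constantCoeff f' ≠ 0 := by
    rw [← PowerSeries.coeff_zero_eq_constantCoeff_apply]
    rwa [PowerSeries.coeff_succ_X_mul] at hf1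
  have hc := congrArg (PowerSeries.coeff d) h
  rw [PowerSeries.coeff_subst' (PowerSeries.HasSubst.of_constantCoeff_zero' (by simp)), map_zero,
    finsum_eq_single _ d fun e he => ?_] at hc
  · rw [smul_eq_mul, mul_pow, PowerSeries.coeff_X_pow_mul', if_pos le_rfl, Nat.sub_self,
      PowerSeries.coeff_zero_eq_constantCoeff_apply, map_pow] at hc
    exact (mul_ne_zero (Nat.find_spec hex) (pow_ne_zero _ hf')) hc
  · rcases lt_or_gt_of_ne he with he | he
    · rw [not_not.1 (Nat.find_min hex he), zero_smul]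
    · rw [mul_pow, PowerSeries.coeff_X_pow_mul', if_neg (by omega), smul_zero]

variable (p : ℕ) [Fact p.Prime] {K : Type} [NontriviallyNormedField K] [IsUltrametricDist K]
  [CompleteSpace K] [CharP K p]

theorem isHomSeries_twist {R : Type*} [CommRing R] [CharP R p] {n : ℕ} (hn : 1 ≤ n) (ζ : R)
    (hζ : ζ ^ p ^ n = ζ) : ∀ m : ℕ,
    IsHomSeries (fg p n (0 : Fin (n - 1) → R)) (fg p n 0)
      (PowerSeries.C ζ * PowerSeries.X ^ p ^ m)
  | 0 => by simpa using isHomSeries_teich p n hn ζ hζ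
  | m + 1 => by
    have h := isHomSeries_subst (isHomSeries_frobenius p n hn (R := R))
      (isHomSeries_twist hn ζ hζ m)
    have hs : PowerSeries.HasSubst ((PowerSeries.X : PowerSeries R) ^ p) :=
      PowerSeries.HasSubst.X_pow (Fact.out : p.Prime).ne_zero
    rw [PowerSeries.subst_mul hs, PowerSeries.subst_pow hs, PowerSeries.subst_X hs,
      PowerSeries.subst_C, ← pow_mul, ← pow_succ'] at h
    exact h

/-- A series with zeros of infinitely many norms in a closed interval inside `(0, 1)` vanishes. -/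
theorem eq_zero_of_zeros (f : PowerSeries (Ball K)) {a b : ℝ} (ha : 0 < a) (hb : b < 1)
    (R : Set ℝ) (hR : R.Infinite) (hRI : R ⊆ Set.Icc a b)
    (hz : ∀ r ∈ R, ∃ x : Ball K, ‖x‖ = r ∧ evalP f x = 0) : f = 0 := by
  classical
  by_contra hf
  obtain ⟨d₀, hd₀⟩ : ∃ d, PowerSeries.coeff d f ≠ 0 := by
    by_contra hc
    push Not at hc
    exact hf (PowerSeries.ext fun d => by rw [hc d, map_zero])
  have hb0 : 0 ≤ b := by
    obtain ⟨r, hr⟩ := hR.nonempty
    exact ha.le.trans ((hRI hr).1.trans (hRI hr).2)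
  set low := ‖PowerSeries.coeff d₀ f‖ * a ^ d₀ with hlow
  have hlow0 : 0 < low := mul_pos (norm_pos_iff.2 hd₀) (pow_pos ha _)
  obtain ⟨D, hD⟩ := exists_pow_lt_of_lt_one hlow0 hb
  set S := insert d₀ (Finset.range D)
  -- the norms at which two terms are equally large
  let bad : Set ℝ := ⋃ d ∈ S, ⋃ e ∈ S,
    {r | 0 < r ∧ d < e ∧ 0 < ‖PowerSeries.coeff d f‖ ∧ 0 < ‖PowerSeries.coeff e f‖ ∧
      ‖PowerSeries.coeff d f‖ * r ^ d = ‖PowerSeries.coeff e f‖ * r ^ e}
  have hbad : bad.Finite := by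
    refine S.finite_toSet.biUnion fun d _ => S.finite_toSet.biUnion fun e _ => ?_
    refine Set.Subsingleton.finite ?_
    rintro r ⟨hr, hde, -, he, h⟩ r' ⟨hr', -, -, -, h'⟩
    obtain ⟨k, hk, rfl⟩ : ∃ k, 0 < k ∧ e = d + k := ⟨e - d, by omega, by omega⟩
    rw [pow_add, mul_left_comm] at h h'
    rw [mul_comm (‖PowerSeries.coeff d f‖)] at h h'
    have h1 := mul_left_cancel₀ (pow_pos hr d).ne' h
    have h2 := mul_left_cancel₀ (pow_pos hr' d).ne' h'
    exact (pow_left_inj₀ hr.le hr'.le hk.ne').1 (mul_left_cancel₀ he.ne' (h1.symm.trans h2))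
  obtain ⟨r, hrR, hrbad⟩ := (hR.diff hbad).nonempty
  obtain ⟨x, hxr, hx0⟩ := hz r hrR
  obtain ⟨hra, hrb⟩ := hRI hrR
  have hr0 : 0 < r := ha.trans_le hra
  have hx : ‖x‖ < 1 := hxr ▸ hrb.trans_lt hb
  set t := fun d => PowerSeries.coeff d f * x ^ d
  have ht : ∀ d, ‖t d‖ = ‖PowerSeries.coeff d f‖ * r ^ d := fun d => by
    rw [norm_mul_Ball, norm_pow_Ball, hxr]
  obtain ⟨dm, hdm, hmax⟩ := S.exists_max_image (fun d => ‖t d‖)
    ⟨d₀, Finset.mem_insert_self _ _⟩
  have hlow' : low ≤ ‖t dm‖ := by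
    refine le_trans ?_ (hmax d₀ (Finset.mem_insert_self _ _))
    rw [ht]
    exact mul_le_mul_of_nonneg_left (pow_le_pow_left₀ ha.le hra _) (norm_nonneg _)
  have hstrict : ∀ d, d ≠ dm → ‖t d‖ < ‖t dm‖ := by
    intro d hne
    rcases lt_or_ge d D with hd | hd
    · have hdS : d ∈ S := Finset.mem_insert_of_mem (Finset.mem_range.2 hd)
      refine lt_of_le_of_ne (hmax d hdS) fun heq => hrbad ?_
      have hpos : 0 < ‖t d‖ := heq ▸ hlow0.trans_le hlow'
      rw [ht] at hpos
      have hpos' : 0 < ‖t dm‖ := hlow0.trans_le hlow'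
      rw [ht] at hpos'
      rw [ht, ht] at heq
      have h1 := (pos_iff_pos_of_mul_pos hpos).2 (pow_pos hr0 d)
      have h2 := (pos_iff_pos_of_mul_pos hpos').2 (pow_pos hr0 dm)
      simp only [bad, Set.mem_iUnion, Set.mem_setOf_eq]
      rcases lt_or_gt_of_ne hne with h | h
      · exact ⟨d, hdS, dm, hdm, hr0, h, h1, h2, heq⟩
      · exact ⟨dm, hdm, d, hdS, hr0, h, h2, h1, heq.symm⟩
    · refine lt_of_lt_of_le ?_ hlow'
      rw [ht]
      refine lt_of_le_of_lt ?_ hD
      calc ‖PowerSeries.coeff d f‖ * r ^ d ≤ 1 * b ^ d :=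
            mul_le_mul (UnitNormed.norm_le_one _) (pow_le_pow_left₀ hr0.le hrb _)
              (pow_nonneg hr0.le _) zero_le_one
        _ ≤ b ^ D := by rw [one_mul]; exact pow_le_pow_of_le_one hb0 hb.le hd
  have hsum : HasSum t (evalP f x) := hasSum_evalP hx f
  rw [hx0] at hsum
  have h0 : ‖(0 : Ball K)‖ = ‖t dm‖ := by
    refine tendsto_nhds_unique hsum.norm ?_
    refine tendsto_const_nhds.congr' ?_
    filter_upwards [Filter.eventually_ge_atTop {dm}] with F hF
    rw [← Finset.add_sum_erase F t (Finset.singleton_subset_iff.1 hF)]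
    rcases (F.erase dm).eq_empty_or_nonempty with he | he
    · simp [he]
    obtain ⟨i, hi, hle⟩ : ∃ i ∈ F.erase dm, ‖∑ d ∈ F.erase dm, t d‖ ≤ ‖t i‖ := by
      obtain ⟨i, hi, hm⟩ := (F.erase dm).exists_max_image (fun d => ‖t d‖) he
      exact ⟨i, hi, IsUltrametricDist.norm_sum_le_of_forall_le_of_nonneg (norm_nonneg _) hm⟩
    have hlt := hle.trans_lt (hstrict i (Finset.ne_of_mem_erase hi))
    rw [IsUltrametricDist.norm_add_eq_max_of_norm_ne_norm hlt.ne', max_eq_left hlt.le]
  rw [norm_zero] at h0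
  exact (hlow0.trans_le hlow').ne h0

variable [PerfectRing K p]

/-- An element of `𝔽_{p^n}` whose first `n` conjugates are distinct. -/
theorem exists_distinct_conjugates [IsAlgClosed K] {n : ℕ} (hn : 1 ≤ n) :
    ∃ ζ : K, ζ ^ p ^ n = ζ ∧ ‖ζ‖ = 1 ∧
      ∀ i j : Fin n, i ≠ j → ‖ζ ^ p ^ (i : ℕ) - ζ ^ p ^ (j : ℕ)‖ = 1 := by
  have hp : p.Prime := Fact.out
  have hQ : 1 < p ^ n := Nat.one_lt_pow (by omega) hp.one_lt
  haveI hne : NeZero (((p ^ n - 1 : ℕ) : K)) := ⟨by
    rw [Nat.cast_sub hQ.le, Nat.cast_pow, CharP.cast_eq_zero K p, zero_pow (by omega)]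
    simp⟩
  haveI : NeZero (p ^ n - 1) := ⟨by omega⟩
  obtain ⟨ζ, hζ⟩ := HasEnoughRootsOfUnity.exists_primitiveRoot K (p ^ n - 1)
  have hfix : ζ ^ p ^ n = ζ := by
    calc ζ ^ p ^ n = ζ ^ (p ^ n - 1) * ζ := by rw [← pow_succ, Nat.sub_add_cancel hQ.le]
      _ = ζ := by rw [hζ.pow_eq_one, one_mul]
  have hnorm : ∀ y : K, y ^ p ^ n = y → y ≠ 0 → ‖y‖ = 1 := by
    intro y hy hy0
    have h : ‖y‖ ^ (p ^ n - 1) * ‖y‖ = 1 * ‖y‖ := by
      rw [← pow_succ, Nat.sub_add_cancel hQ.le, ← norm_pow, hy, one_mul]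
    exact (pow_eq_one_iff_of_nonneg (norm_nonneg y) (by omega)).1
      (mul_right_cancel₀ (norm_ne_zero_iff.2 hy0) h)
  refine ⟨ζ, hfix, hnorm ζ hfix (hζ.ne_zero (by omega)), fun i j hij => hnorm _ ?_ ?_⟩
  · rw [sub_pow_char_pow, ← pow_mul, ← pow_mul, mul_comm, pow_mul, hfix, mul_comm, pow_mul, hfix]
  · rw [sub_ne_zero]
    intro h
    have hlt : ∀ k : Fin n, p ^ (k : ℕ) < p ^ n - 1 ∨ n = 1 := fun k => by
      rcases Nat.lt_or_ge 1 n with h1 | h1
      · left
        have h2 : 2 * p ^ (k : ℕ) ≤ p * p ^ (n - 1) :=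
          Nat.mul_le_mul hp.two_le (Nat.pow_le_pow_right hp.pos (by omega))
        rw [← pow_succ', show n - 1 + 1 = n by omega] at h2
        have h3 : 2 ≤ p ^ (n - 1) := le_trans hp.two_le (Nat.le_self_pow (by omega) p)
        have h4 : 2 * p ^ (n - 1) ≤ p ^ n := by
          conv_rhs => rw [show n = n - 1 + 1 by omega, pow_succ']
          exact Nat.mul_le_mul_right _ hp.two_le
        omega
      · right; omega
    rcases hlt i with hi | hn1
    · rcases hlt j with hj | hn1
      · exact hij (Fin.ext (Nat.pow_right_injective hp.two_le (hζ.pow_inj hi hj h)))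
      · exact hij (Fin.ext (by omega))
    · exact hij (Fin.ext (by omega))

variable {B : Type} [NormedCommRing B] [Algebra ℚ B] {c : ℝ}

/-- The Vandermonde matrix of Teichmüller lifts of residue-distinct elements is invertible. -/
theorem isUnit_det_vandermonde_T (D : GaussData p K B c) {m : ℕ} (x : Fin m → K)
    (hx : ∀ i, ‖x i‖ ≤ 1) (hxd : ∀ i j, i ≠ j → ‖x i - x j‖ = 1) :
    IsUnit (Matrix.vandermonde fun i => D.T (x i)).det := by
  rw [Matrix.det_vandermonde]
  refine IsUnit.prod_iff.2 fun i _ => IsUnit.prod_iff.2 fun j hj => ?_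
  have h1 : ‖x j - x i‖ = 1 := hxd j i (ne_of_gt (Finset.mem_Ioi.1 hj))
  refine D.isUnit_of_close 0 (a := x j - x i) (norm_ne_zero_iff.1 (by rw [h1]; exact one_ne_zero)) ?_
  have h2 := D.T_add (x j - x i) (x i)
  rw [sub_add_cancel, sub_right_comm] at h2
  simp only [zpow_zero, map_one, one_mul, h1] at h2 ⊢
  refine lt_of_le_of_lt (h2.trans ?_) D.c_lt
  exact mul_le_of_le_one_right D.c_pos.le (max_le le_rfl (hx i))

end Vale.P217

end
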