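import Vale.Agent.P217.Moore
import Vale.Agent.P217.HondaMap
import Vale.Agent.P217.GaussExist
import Vale.Agent.P217.NoRelationAux

/-!
The orbit displacements satisfy no linear relation.
-/

noncomputable section

set_option linter.unusedSectionVars false

namespace Vale.P217

variable (p : ℕ) [Fact p.Prime] (n : ℕ) {K : Type} [NontriviallyNormedField K]
  [IsUltrametricDist K] [CompleteSpace K] [CharP K p] [IsAlgClosed K]

/-- An endomorphism of the Honda law with coefficients fixed by the `p ^ n`-th power map. -/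
structure FixedEndo (a : PowerSeries (Ball K)) : Prop where
  hom : IsHomSeries (fg p n (0 : Fin (n - 1) → Ball K)) (fg p n 0) a
  fixed : FixedCoeff p n a

theorem fixedEndo_twist (hn : 1 ≤ n) (ζ : Ball K) (hζ : ζ ^ p ^ n = ζ) (m : ℕ) :
    FixedEndo p n (PowerSeries.C ζ * PowerSeries.X ^ p ^ m) := by
  refine ⟨isHomSeries_twist p hn ζ hζ m, fun d => ?_⟩
  rw [PowerSeries.coeff_C_mul_X_pow]
  split_ifs
  · exact hζ
  · exact zero_pow (pow_ne_zero _ (Fact.out : p.Prime).ne_zero)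

theorem evalP_twist (ζ : Ball K) (m : ℕ) {z : Ball K} (hz : ‖z‖ < 1) :
    evalP (PowerSeries.C ζ * PowerSeries.X ^ p ^ m) z = ζ * z ^ p ^ m := by
  rw [evalP_mul hz, evalP_C hz, evalP_pow hz, evalP_X hz]

/-- A series which vanishes on the image of the universal cover is zero. -/
theorem eq_zero_of_vanish_on_cover (hn : 1 ≤ n) (u : Fin (n - 1) → Ball K) {ε : ℝ}
    (hu : SmallParam n u ε) (Ψ : PowerSeries (Ball K))
    (hΨ : ∀ z : Ball K, ‖z‖ < 1 → evalP Ψ (phiK p n u z) = 0) : Ψ = 0 := by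
  obtain ⟨x₀, hx₀, hx₁⟩ := NormedField.exists_norm_lt_one K
  set r := ‖x₀‖
  have hε : max ε 0 < 1 := max_lt hu.2.1 one_pos
  -- roots of `x₀` of large order have norm close to one
  choose y hy using fun k : ℕ => IsAlgClosed.exists_pow_nat_eq x₀ (Nat.succ_pos k)
  have hyn : ∀ k, ‖y k‖ ^ (k + 1) = r := fun k => by rw [← norm_pow, hy]
  have hylt : ∀ k, ‖y k‖ < 1 := fun k => by
    by_contra hge
    push Not at hge
    exact absurd (hyn k) (ne_of_gt (hx₁.trans_le (one_le_pow₀ hge)))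
  have hypos : ∀ k, 0 < ‖y k‖ := fun k => (norm_nonneg _).lt_of_ne' fun h0 => by
    have := hyn k
    rw [h0, zero_pow (Nat.succ_ne_zero k)] at this
    exact hx₀.ne this
  obtain ⟨k₀, hk₀⟩ : ∃ k₀, max ε 0 < ‖y k₀‖ * ‖y k₀‖ := by
    by_contra hc
    push Not at hc
    obtain ⟨k, hk⟩ := exists_pow_lt_of_lt_one (mul_pos hx₀ hx₀) hε
    have h1 := pow_le_pow_left₀ (mul_nonneg (norm_nonneg _) (norm_nonneg _)) (hc k) (k + 1)
    rw [mul_pow, hyn] at h1
    exact absurd (h1.trans (pow_le_pow_of_le_one (le_max_right _ _) hε.le (Nat.le_succ k)))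
      (not_le.2 hk)
  have hmono : ∀ k, k₀ ≤ k → ‖y k₀‖ ≤ ‖y k‖ := fun k hk => by
    by_contra hlt
    push Not at hlt
    have h1 := pow_lt_pow_left₀ hlt (norm_nonneg _) (Nat.succ_ne_zero k₀)
    rw [hyn k₀] at h1
    have h2 : r ≤ ‖y k‖ ^ (k₀ + 1) := by
      rw [← hyn k]
      exact pow_le_pow_of_le_one (norm_nonneg _) (hylt k).le (by omega)
    exact absurd h1 (not_lt.2 h2)
  let g : ℕ → ℝ := fun j => ‖y k₀‖ * ‖y (k₀ + j)‖
  have hg : Function.Injective g := by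
    intro a b hab
    have h1 : ‖y (k₀ + a)‖ = ‖y (k₀ + b)‖ := mul_left_cancel₀ (hypos k₀).ne' hab
    have h2 := hyn (k₀ + a)
    rw [h1, ← hyn (k₀ + b)] at h2
    have := (pow_right_strictAnti₀ (hypos (k₀ + b)) (hylt (k₀ + b))).injective h2
    omega
  refine eq_zero_of_zeros Ψ (a := ‖y k₀‖ * ‖y k₀‖) (b := ‖y k₀‖)
    (mul_pos (hypos k₀) (hypos k₀)) (hylt k₀) (Set.range g) (Set.infinite_range_of_injective hg)
    ?_ ?_
  · rintro _ ⟨j, rfl⟩
    exact ⟨mul_le_mul_of_nonneg_left (hmono _ (Nat.le_add_right k₀ j)) (norm_nonneg _),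
      mul_le_of_le_one_right (norm_nonneg _) (hylt _).le⟩
  · rintro _ ⟨j, rfl⟩
    have hle : ‖y k₀ * y (k₀ + j)‖ < 1 := by
      rw [norm_mul]
      exact (mul_le_of_le_one_right (norm_nonneg _) (hylt _).le).trans_lt (hylt k₀)
    let z : Ball K := ⟨y k₀ * y (k₀ + j), mem_Ball.2 hle.le⟩
    have hz : ‖z‖ < 1 := hle
    refine ⟨phiK p n u z, ?_, hΨ z hz⟩
    have h1 := norm_phiSeq_sub_le p n hn hu (norm_rootSeq_lt p n hz) (isRootSeq_rootSeq p n hz)
    have h0 : rootSeq p n z 0 = z := by simp [rootSeq]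
    rw [h0] at h1
    have h2 : ε < ‖z‖ := by
      refine lt_of_le_of_lt (le_max_left ε 0) (hk₀.trans_le ?_)
      rw [← norm_coe, show ((z : Ball K) : K) = y k₀ * y (k₀ + j) from rfl, norm_mul]
      exact mul_le_mul_of_nonneg_left (hmono _ (Nat.le_add_right k₀ j)) (norm_nonneg _)
    have h3 : ‖phiK p n u z - z‖ < ‖z‖ := h1.trans_lt h2
    rw [← sub_add_cancel (phiK p n u z) z, IsUltrametricDist.norm_add_eq_max_of_norm_ne_norm h3.ne,
      max_eq_right h3.le, ← norm_coe]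
    exact norm_mul _ _

/-- No linear relation holds between the displacements `ι (φ (a z_j))`. -/
theorem no_relation (hn : 1 ≤ n) (u : Fin (n - 1) → Ball K) {ε : ℝ} (hu : SmallParam n u ε)
    {h : ℕ} (hh : 1 ≤ h) (ι : PowerSeries (Ball K))
    (hι : IsHomSeries (fg p n u) (fg p h (0 : Fin (h - 1) → Ball K)) ι)
    (hι1 : PowerSeries.coeff 1 ι ≠ 0) {s : ℕ} (hs : s ≤ n)
    (z : Fin s → Pt (fg p n (0 : Fin (n - 1) → Ball K))) {δ : ℝ} (hδ : 0 < δ)
    (hind : ∀ μ : Fin s → ℕ, (∃ j, ¬p ∣ μ j) → δ ≤ ‖(∑ j, μ j • z j).val‖)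
    (β : Fin s → PowerSeries (Ball K))
    (hβ : ∀ j, IsHomSeries (fg p h (0 : Fin (h - 1) → Ball K)) (fg p h 0) (β j))
    (hsmall : ∀ (a : PowerSeries (Ball K)), FixedEndo p n a → ∀ j,
      ‖evalP ι (phiK p n u (evalP a (z j).val))‖ < 1)
    (hrel : ∀ (a : PowerSeries (Ball K)) (ha : FixedEndo p n a),
      ∑ j, homPt (hβ j) (Pt.mk _ _ (hsmall a ha j)) = 0) :
    β = 0 := by
  have hp : p.Prime := Fact.out
  obtain ⟨c, hc0, hc1, hmoore⟩ := bigLog_linearIndependent p n hn hs z hδ hind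
  obtain ⟨B, i1, i2, ⟨D⟩⟩ := exists_gaussData p K hc0 hc1
  set Ψ := fun j => PowerSeries.subst ι (β j)
  have hΨ : ∀ j, IsHomSeries (fg p n u) (fg p h (0 : Fin (h - 1) → Ball K)) (Ψ j) :=
    fun j => isHomSeries_subst hι (hβ j)
  choose d hd using fun j => linearisation p n D hn u hu hh (Ψ j) (hΨ j)
  have hphi : ∀ {x : Ball K}, ‖x‖ < 1 → ‖phiK p n u x‖ < 1 := fun {x} hx =>
    norm_phiSeq_lt_one p n hn hu (norm_rootSeq_lt p n hx) (isRootSeq_rootSeq p n hx)
  -- the relation, after taking big logarithms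
  have hlog : ∀ (a : PowerSeries (Ball K)), FixedEndo p n a →
      ∑ j, ∑ i : Fin n, d j i *
        bigLog p D n (((evalP a (z j).val : Ball K) : K) ^ p ^ (i : ℕ)) = 0 := by
    intro a ha
    have h0 := congrArg (logHom D hh 0) (hrel a ha)
    rw [map_sum, map_zero] at h0
    rw [← h0]
    refine Finset.sum_congr rfl fun j _ => ?_
    have hw : ‖evalP a (z j).val‖ < 1 := norm_evalP_lt_one (z j).norm_lt a ha.hom.1
    rw [← hd j _ hw, logHom_apply]
    simp only [Ψ, evalP_subst (hphi hw) ι hι.1]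
    simp [homPt, pow_zero, pow_one]
  -- Vandermonde separates the Frobenius twists
  obtain ⟨ζ₀, hζfix, hζnorm, hζd⟩ := exists_distinct_conjugates p (K := K) hn
  let ζ : Ball K := ⟨ζ₀, mem_Ball.2 hζnorm.le⟩
  set E : ℕ → Fin n → B := fun m i =>
    ∑ j, d j i * bigLog p D n (((z j).val : K) ^ p ^ (m + (i : ℕ))) with hE
  have hEzero : ∀ m i, E m i = 0 := by
    intro m i
    have hV := isUnit_det_vandermonde_T p D (fun i : Fin n => ζ₀ ^ p ^ (i : ℕ))
      (fun i => by rw [norm_pow, hζnorm, one_pow]) hζd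
    refine congrFun (Matrix.vecMul_injective_of_isUnit
      ((Matrix.isUnit_iff_isUnit_det _).2 hV) (a₁ := E m) (a₂ := 0) ?_) i
    simp only [Matrix.zero_vecMul]
    funext k
    have hζk : (ζ ^ (k : ℕ)) ^ p ^ n = ζ ^ (k : ℕ) := by
      rw [← pow_mul, mul_comm, pow_mul]
      exact congrArg (· ^ (k : ℕ)) (Subtype.ext hζfix)
    have h1 := hlog _ (fixedEndo_twist p n hn (ζ ^ (k : ℕ)) hζk m)
    rw [Finset.sum_comm] at h1
    simp only [Matrix.vecMul, dotProduct, Matrix.vandermonde_apply, Pi.zero_apply, hE]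
    rw [← h1]
    refine Finset.sum_congr rfl fun i _ => ?_
    rw [Finset.sum_mul]
    refine Finset.sum_congr rfl fun j _ => ?_
    rw [evalP_twist p _ _ (z j).norm_lt]
    push_cast
    rw [mul_pow, ← pow_mul _ (p ^ m), ← pow_add,
      bigLog_teich_mul p D hn (by
        rw [norm_pow]
        exact pow_lt_one₀ (norm_nonneg _) (z j).norm_lt (pow_ne_zero _ hp.ne_zero)) ?_]
    · rw [← map_pow D.T, ← pow_mul (ζ₀) (p ^ (i : ℕ)), ← pow_mul, mul_comm (p ^ (i : ℕ))]
      ring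
    · rw [← pow_mul, ← pow_mul, show (k : ℕ) * (p ^ (i : ℕ) * p ^ n) = p ^ n * ((k : ℕ) * p ^ (i : ℕ)) by ring,
        pow_mul, ← pow_mul (ζ : K) (k : ℕ)]
      exact congrArg (· ^ ((k : ℕ) * p ^ (i : ℕ))) hζfix
  -- Moore
  have hd0 : ∀ i, (fun j => d j i) = 0 := by
    intro i
    refine hmoore B D _ fun k => ?_
    have h1 := hEzero ((k : ℕ) + (n - (i : ℕ))) i
    simp only [hE] at h1
    have hshift : ∀ j, bigLog p D n (((z j).val : K) ^ p ^ ((k : ℕ) + (n - (i : ℕ)) + (i : ℕ))) =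
        algebraMap ℚ B (p : ℚ) * bigLog p D n (((z j).val : K) ^ p ^ (k : ℕ)) := fun j => by
      rw [show (k : ℕ) + (n - (i : ℕ)) + (i : ℕ) = (k : ℕ) + n by omega, pow_add, pow_mul]
      refine bigLog_pow p D hn ?_
      rw [norm_pow]
      exact pow_lt_one₀ (norm_nonneg _) (z j).norm_lt (pow_ne_zero _ hp.ne_zero)
    simp only [hshift, mul_left_comm (d _ i), ← Finset.mul_sum] at h1
    exact ((IsUnit.mk0 (p : ℚ) (Nat.cast_ne_zero.2 hp.ne_zero)).map
      (algebraMap ℚ B)).mul_right_eq_zero.1 h1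
  funext j
  refine eq_zero_of_subst_eq_zero hι.1 hι1 (eq_zero_of_vanish_on_cover p n hn u hu (Ψ j)
    fun x hx => ?_)
  have h1 := hd j x hx
  rw [Finset.sum_eq_zero fun i _ => by rw [show d j i = 0 from congrFun (hd0 i) j, zero_mul]] at h1
  exact Subtype.ext (bigLog_eq_zero p D hh
    (norm_evalP_lt_one (hphi hx) (Ψ j) (hΨ j).1) h1)

end Vale.P217

end
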