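import Mathlib.Data.Finsupp.Lex
import Mathlib.Data.Prod.Lex
import Mathlib.RingTheory.MvPowerSeries.Basic
import Mathlib.Data.Finsupp.Weight

/-!
A space of series which is closed for the adic topology and stable under a field endomorphism
`φ` contains enough series with coefficients fixed by `φ`.
-/

noncomputable section

namespace Vale.P217

open MvPowerSeries

variable {σ : Type*} [LinearOrder σ] {K : Type*} [Field K]

/-- A linear order of the exponents refining the degree. -/
def expKey (d : σ →₀ ℕ) : Lex (ℕ × Lex (σ →₀ ℕ)) := toLex (d.degree, toLex d)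

theorem expKey_injective : Function.Injective (expKey (σ := σ)) := fun a b hab => by
  simpa [expKey] using congrArg (fun x => ofLex (ofLex x).2) hab

theorem degree_le_of_expKey_le {a b : σ →₀ ℕ} (hab : expKey a ≤ expKey b) :
    a.degree ≤ b.degree := by
  rcases Prod.Lex.le_iff.1 hab with h | h
  · exact le_of_lt h
  · exact le_of_eq h.1

/-- `d` is a possible leading exponent in `V`. -/
def IsPivot (V : Submodule K (MvPowerSeries σ K)) (d : σ →₀ ℕ) : Prop :=
  ∃ F ∈ V, coeff d F = 1 ∧ ∀ e, expKey e < expKey d → coeff e F = 0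

variable {V : Submodule K (MvPowerSeries σ K)}

theorem coeff_eq_zero_of_pivots [Finite σ] {F : MvPowerSeries σ K} (hF : F ∈ V) {e : σ →₀ ℕ}
    (hpiv : ∀ d, IsPivot V d → expKey d ≤ expKey e → coeff d F = 0) : coeff e F = 0 := by
  classical
  by_contra he
  set T := ((Finsupp.finite_of_degree_le (σ := σ) e.degree).toFinset).filter
    fun d => coeff d F ≠ 0
  have heT : e ∈ T := by simp [T, he]
  obtain ⟨d, hd, hmin⟩ := Finset.exists_min_image T expKey ⟨e, heT⟩
  have hdF : coeff d F ≠ 0 := (Finset.mem_filter.1 hd).2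
  have hde : expKey d ≤ expKey e := hmin e heT
  refine hdF (hpiv d ⟨(coeff d F)⁻¹ • F, V.smul_mem _ hF, by simp [hdF], fun x hx => ?_⟩ hde)
  by_contra hne
  have hxF : coeff x F ≠ 0 := fun h0 => hne (by simp [h0])
  have hxT : x ∈ T := by
    simp [T, hxF, (degree_le_of_expKey_le hx.le).trans (degree_le_of_expKey_le hde)]
  exact absurd (hmin x hxT) (not_le.2 hx)

theorem exists_prescribed (v : (σ →₀ ℕ) → K) (Q : Finset (σ →₀ ℕ))
    (hQ : ∀ d ∈ Q, IsPivot V d) : ∃ F ∈ V, ∀ d ∈ Q, coeff d F = v d := by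
  classical
  revert hQ
  refine Finset.induction_on_max_value (motive := fun Q : Finset (σ →₀ ℕ) =>
    (∀ d ∈ Q, IsPivot V d) → ∃ F ∈ V, ∀ d ∈ Q, coeff d F = v d) expKey Q
    (fun _ => ⟨0, V.zero_mem, by simp⟩) ?_
  intro a s ha hmax ih hQ
  obtain ⟨F, hF, hFs⟩ := ih fun d hd => hQ d (Finset.mem_insert_of_mem hd)
  obtain ⟨A, hA, hA1, hA0⟩ := hQ a (Finset.mem_insert_self a s)
  refine ⟨F + (v a - coeff a F) • A, V.add_mem hF (V.smul_mem _ hA), fun d hd => ?_⟩
  rcases Finset.mem_insert.1 hd with rfl | hds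
  · simp [hA1]
  · have hlt : expKey d < expKey a := (hmax d hds).lt_of_ne fun e => ha (expKey_injective e ▸ hds)
    simp [hA0 d hlt, hFs d hds]

/-- Descent to fixed coefficients. -/
theorem exists_fixed_coeff_ne [Finite σ]
    (hloc : ∀ F : MvPowerSeries σ K,
      (∀ M : ℕ, ∃ G ∈ V, ∀ d : σ →₀ ℕ, d.degree < M → coeff d G = coeff d F) → F ∈ V)
    (φ : K →+* K) (hφ : ∀ F ∈ V, MvPowerSeries.map φ F ∈ V) {F : MvPowerSeries σ K} (hF : F ∈ V)
    {e : σ →₀ ℕ} (he : coeff e F ≠ 0) :
    ∃ G ∈ V, (∀ d, φ (coeff d G) = coeff d G) ∧ coeff e G ≠ 0 := by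
  classical
  have hB : ∀ v : (σ →₀ ℕ) → K, ∃ G ∈ V, ∀ d, IsPivot V d → coeff d G = v d := by
    intro v
    choose Φ hΦ hΦv using fun M : ℕ => exists_prescribed v
      (((Finsupp.finite_of_degree_le (σ := σ) M).toFinset).filter (IsPivot V))
      (fun d hd => (Finset.mem_filter.1 hd).2)
    refine ⟨fun d => coeff d (Φ d.degree), hloc _ fun M => ⟨Φ M, hΦ M, fun d hd => ?_⟩,
      fun d hd => ?_⟩
    · change coeff d (Φ M) = coeff d (Φ d.degree)
      refine sub_eq_zero.1 ?_
      rw [← map_sub]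
      refine coeff_eq_zero_of_pivots (V.sub_mem (hΦ _) (hΦ _)) fun x hx hxd => ?_
      have hx' := degree_le_of_expKey_le hxd
      rw [map_sub, hΦv M x (by simp [hx]; omega), hΦv _ x (by simp [hx]; omega), sub_self]
    · exact hΦv _ d (by simp [hd])
  choose G hG hGv using fun a : σ →₀ ℕ => hB fun d => if d = a then 1 else 0
  have hfix : ∀ a d, φ (coeff d (G a)) = coeff d (G a) := fun a d => by
    refine sub_eq_zero.1 ?_
    have h0 := coeff_eq_zero_of_pivots (V.sub_mem (hφ _ (hG a)) (hG a)) (e := d) fun x hx _ => by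
      rw [map_sub, coeff_map, hGv a x hx, apply_ite φ, map_one, map_zero, sub_self]
    rwa [map_sub, coeff_map] at h0
  by_contra hall
  push Not at hall
  set Q := ((Finsupp.finite_of_degree_le (σ := σ) e.degree).toFinset).filter (IsPivot V) with hQ
  have hD : F - ∑ a ∈ Q, coeff a F • G a ∈ V :=
    V.sub_mem hF (V.sum_mem fun a _ => V.smul_mem _ (hG a))
  have h0 := coeff_eq_zero_of_pivots hD (e := e) fun x hx hxe => by
    have hxQ : x ∈ Q := by simp [hQ, hx, degree_le_of_expKey_le hxe]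
    rw [map_sub, map_sum]
    simp only [map_smul, smul_eq_mul, hGv _ x hx, mul_ite, mul_one, mul_zero,
      Finset.sum_ite_eq, if_pos hxQ, sub_self]
  rw [map_sub, map_sum] at h0
  refine he ?_
  simpa [fun a => hall (G a) (hG a) (hfix a)] using h0

end Vale.P217

end
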