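import Vale.Agent.P217.RigidityDefs
import Vale.Agent.P217.RigidityDescent
import Vale.Agent.P217.CoverBasic
import Mathlib.Algebra.Field.Subfield.Basic
import Mathlib.Algebra.CharP.Subring

/-!
Asymptotically vanishing series and exact vanishing of series with coefficients in `𝔽_q`.
-/

noncomputable section

set_option linter.unusedSectionVars false

namespace Vale.P217

open MvPowerSeries Filter

variable (p : ℕ) [Fact p.Prime] (h : ℕ) {K : Type*} [NontriviallyNormedField K]
  [IsUltrametricDist K] [CharP K p]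

/-- The elements fixed by the `p ^ h`-th power. -/
def fixF : Subfield K := RingHom.eqLocusField (iterateFrobenius K p h) (RingHom.id K)

theorem mem_fixF {x : K} : x ∈ fixF p h ↔ x ^ p ^ h = x := by
  simp [fixF, RingHom.eqLocusField, RingHom.eqLocus, iterateFrobenius_def, Subfield.mem_carrier,
    ← SetLike.mem_coe]

variable [hh : Fact (1 ≤ h)]

theorem norm_le_one_of_mem_fixF {x : K} (hx : x ∈ fixF p h) : ‖x‖ ≤ 1 := by
  by_contra hlt
  rw [not_le] at hlt
  have := lt_self_pow₀ hlt (Nat.one_lt_pow (Nat.one_le_iff_ne_zero.1 hh.1)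
    (Fact.out : p.Prime).one_lt)
  rw [← norm_pow, (mem_fixF p h).1 hx] at this
  exact lt_irrefl _ this

/-- The inclusion of the fixed field into the valuation ring. -/
def ofFix : fixF (K := K) p h →+* Ball K :=
  (fixF (K := K) p h).subtype.codRestrict (Ball K) fun x => norm_le_one_of_mem_fixF p h x.2

theorem coe_ofFix (x : fixF (K := K) p h) : ((ofFix p h x : Ball K) : K) = x := rfl

theorem ofFix_pow (x : fixF (K := K) p h) : ofFix p h x ^ p ^ h = ofFix p h x :=
  Subtype.ext ((mem_fixF p h).1 x.2)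

instance fixF_charP : CharP (fixF (K := K) p h) p :=
  (RingHom.charP_iff (fixF (K := K) p h).subtype Subtype.val_injective p).2 inferInstance

instance fixF_perfectRing : PerfectRing (fixF (K := K) p h) p := by
  refine PerfectRing.ofSurjective _ p fun x => ⟨x ^ p ^ (h - 1), ?_⟩
  rw [frobenius_def, ← pow_mul, ← pow_succ, Nat.sub_add_cancel hh.1]
  exact Subtype.ext ((mem_fixF p h).1 x.2)

variable [CompleteSpace K] {s : ℕ}

theorem eval_truncTotal_close (f : MvPowerSeries (Fin s) (Ball K)) (M : ℕ) {y : Fin s → Ball K}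
    (hy : ∀ j, ‖y j‖ < 1) {ρ : ℝ} (hρ0 : 0 ≤ ρ) (hρ1 : ρ ≤ 1) (hρ : ∀ j, ‖y j‖ ≤ ρ) :
    ‖(truncTotal M (f.map (Ball K).subtype)).eval (fun j => (y j : K)) - ((evalMv f y : Ball K) : K)‖
      ≤ ρ ^ M := by
  have hP : truncTotal M (f.map (Ball K).subtype) =
      MvPolynomial.map (Ball K).subtype (truncTotal M f) := by
    refine MvPolynomial.ext _ _ fun d => ?_
    rw [MvPolynomial.coeff_map, coeff_truncTotal_eq_ite, coeff_truncTotal_eq_ite, coeff_map]
    split_ifs <;> simp
  have hev : ((truncTotal M (f.map (Ball K).subtype)).eval fun j => (y j : K)) =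
      ((evalMv ((truncTotal M f : MvPolynomial (Fin s) (Ball K)) :
        MvPowerSeries (Fin s) (Ball K)) y : Ball K) : K) := by
    rw [hP, MvPolynomial.eval_map, evalMv_eq_eval₂ hy, MvPowerSeries.eval₂_coe,
      ← Subring.subtype_apply, MvPolynomial.eval₂_comp_left]
    rfl
  rw [hev, ← Subring.subtype_apply, ← Subring.subtype_apply, ← map_sub, ← evalMv_sub hy,
    Subring.subtype_apply, norm_coe]
  refine norm_evalMv_le_pow hy _ (fun d hd => ?_) hρ0 hρ1 hρ
  rw [map_sub, MvPolynomial.coeff_coe, coeff_truncTotal _ hd, sub_self]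

theorem map_evalMv_iterateFrobenius (f : MvPowerSeries (Fin s) (fixF (K := K) p h))
    {y : Fin s → Ball K} (hy : ∀ j, ‖y j‖ < 1) :
    ∀ N : ℕ, evalMv (f.map (ofFix p h)) (fun j => y j ^ p ^ (h * N)) =
      evalMv (f.map (ofFix p h)) y ^ p ^ (h * N)
  | 0 => by simp
  | N + 1 => by
    have hy' : ∀ j, ‖y j ^ p ^ (h * N)‖ < 1 := fun j => (norm_pow_le' _ _).trans_lt
      (pow_lt_one₀ (norm_nonneg _) (hy j) (pow_ne_zero _ (Fact.out : p.Prime).ne_zero))
    have hy'' : ∀ j, ‖(y j ^ p ^ (h * N)) ^ p ^ h‖ < 1 := fun j => (norm_pow_le' _ _).trans_lt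
      (pow_lt_one₀ (norm_nonneg _) (hy' j) (pow_ne_zero _ (Fact.out : p.Prime).ne_zero))
    have hcont : Continuous (iterateFrobenius (Ball K) p h) := by
      rw [show (iterateFrobenius (Ball K) p h : Ball K → Ball K) = fun a => a ^ p ^ h from
        funext fun a => iterateFrobenius_def p h a]
      exact continuous_pow _
    have h1 := map_evalMv (iterateFrobenius (Ball K) p h) hcont hy'
      (fun j => by rw [iterateFrobenius_def]; exact hy'' j) (f.map (ofFix p h))
    have hf : MvPowerSeries.map (iterateFrobenius (Ball K) p h) (f.map (ofFix p h)) =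
        f.map (ofFix p h) := MvPowerSeries.ext fun d => by
      rw [coeff_map, coeff_map, iterateFrobenius_def, ofFix_pow]
    rw [hf, map_evalMv_iterateFrobenius f hy N] at h1
    simp only [iterateFrobenius_def, ← pow_mul, ← pow_add] at h1
    rw [Nat.mul_succ, h1]

variable {S : Set (Fin s → Pt (hondaBall p h K))}

/-- The asymptotically vanishing series form a subspace. -/
def avSpace (S : Set (Fin s → Pt (hondaBall p h K))) :
    Submodule K (MvPowerSeries (Fin s) K) where
  carrier := {H | AsympVanishing p h S H}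
  zero_mem' := fun w _ M => ⟨0, 0, fun N _ => by simp⟩
  add_mem' := fun {F G} hF hG w hw M => by
    obtain ⟨C, N₀, hC⟩ := hF w hw M
    obtain ⟨D, N₁, hD⟩ := hG w hw M
    refine ⟨max C D, max N₀ N₁, fun N hN => ?_⟩
    rw [map_add, map_add]
    refine (IsUltrametricDist.norm_add_le_max _ _).trans (max_le ?_ ?_)
    · exact (hC N (le_of_max_le_left hN)).trans
        (mul_le_mul_of_nonneg_right (le_max_left _ _) (pow_nonneg (norm_nonneg _) _))
    · exact (hD N (le_of_max_le_right hN)).trans
        (mul_le_mul_of_nonneg_right (le_max_right _ _) (pow_nonneg (norm_nonneg _) _))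
  smul_mem' := fun a F hF w hw M => by
    obtain ⟨C, N₀, hC⟩ := hF w hw M
    refine ⟨‖a‖ * C, N₀, fun N hN => ?_⟩
    rw [map_smul, MvPolynomial.smul_eval, norm_mul, mul_assoc]
    exact mul_le_mul_of_nonneg_left (hC N hN) (norm_nonneg a)

theorem mem_avSpace {H : MvPowerSeries (Fin s) K} :
    H ∈ avSpace p h S ↔ AsympVanishing p h S H := Iff.rfl

theorem asympVanishing_map_frobenius {H : MvPowerSeries (Fin s) K}
    (hH : AsympVanishing p h S H) :
    AsympVanishing p h S (MvPowerSeries.map (iterateFrobenius K p h) H) := by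
  intro w hw M
  obtain ⟨C, N₀, hC⟩ := hH w hw M
  refine ⟨max C 0 ^ p ^ h, N₀ + 1, fun N hN => ?_⟩
  obtain ⟨N, rfl⟩ : ∃ k, N = k + 1 := ⟨N - 1, by omega⟩
  have hP : truncTotal M (H.map (iterateFrobenius K p h)) =
      MvPolynomial.map (iterateFrobenius K p h) (truncTotal M H) := by
    refine MvPolynomial.ext _ _ fun d => ?_
    rw [MvPolynomial.coeff_map, coeff_truncTotal_eq_ite, coeff_truncTotal_eq_ite, coeff_map]
    split_ifs <;> simp
  have hev : ((truncTotal M (H.map (iterateFrobenius K p h))).eval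
      fun j => ((w j).val : K) ^ p ^ (h * (N + 1))) =
      ((truncTotal M H).eval fun j => ((w j).val : K) ^ p ^ (h * N)) ^ p ^ h := by
    rw [hP, MvPolynomial.eval_map]
    simp only [Nat.mul_succ, pow_add, pow_mul]
    rw [← iterateFrobenius_def p h (MvPolynomial.eval _ _)]
    change _ = iterateFrobenius K p h (MvPolynomial.eval₂ (RingHom.id K) _ _)
    rw [MvPolynomial.eval₂_comp_left]
    simp [Function.comp_def, iterateFrobenius_def]
  rw [hev, norm_pow]
  refine (pow_le_pow_left₀ (norm_nonneg _) ((hC N (by omega)).trans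
    (mul_le_mul_of_nonneg_right (le_max_left _ 0) (pow_nonneg (norm_nonneg _) _))) _).trans ?_
  rw [mul_pow, ← pow_mul, Nat.mul_succ, pow_add]
  exact le_of_eq (by ring_nf)

theorem asympVanishing_of_local {H : MvPowerSeries (Fin s) K}
    (hloc : ∀ M : ℕ, ∃ G ∈ avSpace p h S, ∀ d : Fin s →₀ ℕ, d.degree < M →
      coeff d G = coeff d H) : AsympVanishing p h S H := by
  intro w hw M
  obtain ⟨G, hG, hGH⟩ := hloc M
  have e : truncTotal M G = truncTotal M H := MvPolynomial.ext _ _ fun d => by
    rw [coeff_truncTotal_eq_ite, coeff_truncTotal_eq_ite]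
    split_ifs with hd
    · exact hGH d hd
    · rfl
  simpa [e] using (mem_avSpace p h).1 hG w hw M

/-- A series over `𝔽_q` which vanishes asymptotically vanishes exactly. -/
theorem eval_eq_zero_of_asympVanishing (f : MvPowerSeries (Fin s) (fixF (K := K) p h))
    (hf : AsympVanishing p h S ((f.map (ofFix p h)).map (Ball K).subtype))
    {w : Fin s → Pt (hondaBall p h K)} (hw : w ∈ S) :
    evalMv (f.map (ofFix p h)) (fun j => (w j).val) = 0 := by
  set y : Fin s → Ball K := fun j => (w j).val with hy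
  have hy1 : ∀ j, ‖y j‖ < 1 := fun j => (w j).norm_lt
  set ρ := ‖fun j => (y j : K)‖ with hρ
  have hρ1 : ρ < 1 := (pi_norm_lt_iff one_pos).2 hy1
  have hρj : ∀ j, ‖y j‖ ≤ ρ := fun j => norm_le_pi_norm (fun j => (y j : K)) j
  set a := evalMv (f.map (ofFix p h)) y with ha
  have hle : ∀ M : ℕ, ‖a‖ ≤ ρ ^ M := by
    intro M
    by_contra hlt
    rw [not_le] at hlt
    obtain ⟨C, N₀, hC⟩ := hf w hw M
    have hapos : 0 < ‖a‖ := (pow_nonneg (norm_nonneg _) M).trans_lt hlt
    set r := ρ ^ M / ‖a‖ with hr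
    have hr0 : 0 ≤ r := div_nonneg (pow_nonneg (norm_nonneg _) M) hapos.le
    have hr1 : r < 1 := (div_lt_one hapos).2 hlt
    obtain ⟨k, hk⟩ := exists_pow_lt_of_lt_one
      (show 0 < 1 / max C 1 from div_pos one_pos (lt_max_of_lt_right one_pos)) hr1
    set N := max N₀ k with hN
    set Q := p ^ (h * N) with hQ
    have hQk : k ≤ Q := (le_max_right N₀ k).trans
      ((Nat.le_mul_of_pos_left N hh.1).trans (Nat.lt_pow_self (Fact.out : p.Prime).one_lt).le)
    have hyQ : ∀ j, ‖y j ^ Q‖ < 1 := fun j => (norm_pow_le' _ _).trans_lt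
      (pow_lt_one₀ (norm_nonneg _) (hy1 j) (pow_ne_zero _ (Fact.out : p.Prime).ne_zero))
    have h1 := eval_truncTotal_close (f.map (ofFix p h)) M hyQ
      (pow_nonneg (norm_nonneg _) Q) (pow_le_one₀ (norm_nonneg _) hρ1.le)
      fun j => (norm_pow_le' _ _).trans (pow_le_pow_left₀ (norm_nonneg _) (hρj j) Q)
    rw [map_evalMv_iterateFrobenius p h f hy1] at h1
    have h2 := hC N (le_max_left _ _)
    have h3 : ‖a‖ ^ Q ≤ max C 1 * ρ ^ (Q * M) := by
      have e : ∀ A B : K, ‖A‖ ≤ max ‖B‖ ‖B - A‖ := fun A B => by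
        have := IsUltrametricDist.norm_add_le_max B (-(B - A))
        rwa [norm_neg, show B + -(B - A) = A by ring] at this
      rw [← norm_pow_Ball, ← norm_coe]
      refine (e _ _).trans (max_le (h2.trans ?_) (h1.trans ?_))
      · exact mul_le_mul_of_nonneg_right (le_max_left _ _) (pow_nonneg (norm_nonneg _) _)
      · rw [← pow_mul]
        exact le_mul_of_one_le_left (pow_nonneg (norm_nonneg _) _) (le_max_right _ _)
    have h4 : max C 1 * r ^ Q < 1 := by
      refine (mul_le_mul_of_nonneg_left (pow_le_pow_of_le_one hr0 hr1.le hQk)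
        (le_trans zero_le_one (le_max_right _ _))).trans_lt ?_
      rwa [mul_comm, ← lt_div_iff₀ (lt_max_of_lt_right one_pos)]
    rw [show ρ ^ (Q * M) = r ^ Q * ‖a‖ ^ Q by
      rw [← mul_pow, hr, div_mul_cancel₀ _ hapos.ne', ← pow_mul, mul_comm], ← mul_assoc] at h3
    exact absurd h3 (not_le.2 (mul_lt_of_lt_one_left (pow_pos hapos Q) h4))
  exact norm_le_zero_iff.1 (ge_of_tendsto'
    (tendsto_pow_atTop_nhds_zero_of_lt_one (norm_nonneg _) hρ1) hle)

/-- Rational descent: an asymptotically vanishing series with a nonzero coefficient gives an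
exactly vanishing series over `𝔽_q` with that coefficient nonzero. -/
theorem exists_vanishing_fix {H : MvPowerSeries (Fin s) K} (hH : AsympVanishing p h S H)
    {e : Fin s →₀ ℕ} (he : coeff e H ≠ 0) :
    ∃ f : MvPowerSeries (Fin s) (fixF (K := K) p h), coeff e f ≠ 0 ∧
      ∀ w ∈ S, evalMv (f.map (ofFix p h)) (fun j => (w j).val) = 0 := by
  obtain ⟨G, hG, hfix, hGe⟩ := exists_fixed_coeff_ne (V := avSpace p h S)
    (fun F hF => asympVanishing_of_local p h hF) (iterateFrobenius K p h)
    (fun F hF => asympVanishing_map_frobenius p h hF) ((mem_avSpace p h).2 hH) he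
  let f : MvPowerSeries (Fin s) (fixF (K := K) p h) := fun d =>
    ⟨coeff d G, (mem_fixF p h).2 (by rw [← iterateFrobenius_def]; exact hfix d)⟩
  have hfc : ∀ d, ((coeff d f : fixF (K := K) p h) : K) = coeff d G := fun _ => rfl
  have hfG : (f.map (ofFix p h)).map (Ball K).subtype = G := MvPowerSeries.ext fun d => by
    rw [coeff_map, coeff_map, Subring.subtype_apply, coe_ofFix, hfc]
  refine ⟨f, fun e0 => hGe ?_, fun w hw => ?_⟩
  · rw [← hfc, e0, ZeroMemClass.coe_zero]
  · exact eval_eq_zero_of_asympVanishing p h f (by rw [hfG]; exact hG) hw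

/-- An integral series vanishing on a subgroup vanishes asymptotically. -/
theorem asympVanishing_of_eval_eq_zero {S : AddSubgroup (Fin s → Pt (hondaBall p h K))}
    (f : MvPowerSeries (Fin s) (Ball K))
    (hf : ∀ w ∈ S, evalMv f (fun j => (w j).val) = 0) :
    AsympVanishing p h (S : Set (Fin s → Pt (hondaBall p h K))) (f.map (Ball K).subtype) := by
  intro w hw M
  refine ⟨1, 0, fun N hN => ?_⟩
  have hval : ∀ j, ((p ^ N • w) j).val = (w j).val ^ p ^ (h * N) := fun j => by
    rw [Pi.smul_apply, val_nsmul_pow]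
    clear hw hN
    induction N with
    | zero => simp
    | succ N ih =>
      rw [Function.iterate_succ_apply', ih, mulP_zero_param p h hh.1, ← pow_mul, ← pow_add,
        Nat.mul_succ]
      exact (norm_pow_le' _ _).trans_lt (pow_lt_one₀ (norm_nonneg _) (w j).norm_lt
        (pow_ne_zero _ (Fact.out : p.Prime).ne_zero))
  have h0 := hf _ (S.nsmul_mem hw (p ^ N))
  simp only [hval] at h0
  have hy : ∀ j, ‖(w j).val ^ p ^ (h * N)‖ < 1 := fun j => by
    rw [← hval]; exact Pt.norm_lt _
  have h1 := eval_truncTotal_close f M hy (pow_nonneg (norm_nonneg _) (p ^ (h * N)))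
    (pow_le_one₀ (norm_nonneg _)
      ((pi_norm_le_iff_of_nonneg zero_le_one).2 fun j => (w j).norm_lt.le))
    fun j => (norm_pow_le' _ _).trans (pow_le_pow_left₀ (norm_nonneg _)
      (norm_le_pi_norm (fun j => ((w j).val : K)) j) _)
  rw [h0, ZeroMemClass.coe_zero, sub_zero] at h1
  rw [one_mul]
  refine le_trans (le_of_eq ?_) (h1.trans (le_of_eq ?_))
  · rfl
  · rw [← pow_mul]
    rfl

end Vale.P217

end
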