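import Vale.Agent.P217.Universal
import Vale.Agent.P217.Ball

/-!
Definitions for rigidity: asymptotic vanishing and absence of relations.
-/

noncomputable section

namespace Vale.P217

variable (p : ℕ) [Fact p.Prime] (h : ℕ) {K : Type*} [NontriviallyNormedField K]
  [IsUltrametricDist K] [CompleteSpace K]

/-- The Honda law of height `h` on the valuation ring. -/
abbrev hondaBall (K : Type*) [NontriviallyNormedField K] [IsUltrametricDist K] :
    FormalGroup (Ball K) :=
  fg p h (0 : Fin (h - 1) → Ball K)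

variable {s : ℕ}

/-- `H` vanishes to all orders along the Frobenius orbits `w ^ (q ^ N)`, `w ∈ S`, `q = p ^ h`. -/
def AsympVanishing (S : Set (Fin s → Pt (hondaBall p h K))) (H : MvPowerSeries (Fin s) K) : Prop :=
  ∀ w ∈ S, ∀ M : ℕ, ∃ (C : ℝ) (N₀ : ℕ), ∀ N ≥ N₀,
    ‖(MvPowerSeries.truncTotal M H).eval fun j => ((w j).val : K) ^ p ^ (h * N)‖ ≤
      C * ‖fun j => ((w j).val : K)‖ ^ (p ^ (h * N) * M)

/-- The subgroup `S` satisfies no linear relation with endomorphism coefficients. -/
def NoRelation (S : Set (Fin s → Pt (hondaBall p h K))) : Prop :=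
  ∀ (β : Fin s → PowerSeries (Ball K))
    (hβ : ∀ j, IsHomSeries (hondaBall p h K) (hondaBall p h K) (β j)),
    (∀ w ∈ S, ∑ j, homPt (hβ j) (w j) = 0) → β = 0

end Vale.P217

end
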