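import Vale.Agent.P217.Order
import Vale.Agent.P217.Eval
import Mathlib.RingTheory.MvPowerSeries.Substitution
import Mathlib.Data.Fin.Tuple.Basic

/-!
The implicit function theorem for a series with invertible coefficient of one variable.
-/

noncomputable section

set_option linter.unusedSectionVars false

namespace Vale.P217

open MvPowerSeries

variable {L : Type*} [Field L] {r : ℕ}

/-- The substitution `X_i ↦ Φ`, the other variables are kept. -/
def graphSubst (i : Fin (r + 1)) (Φ : MvPowerSeries (Fin r) L) :
    Fin (r + 1) → MvPowerSeries (Fin r) L :=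
  i.insertNth Φ MvPowerSeries.X

theorem graphSubst_mem_below (i : Fin (r + 1)) {Φ : MvPowerSeries (Fin r) L} (hΦ : Φ ∈ below 1)
    (j : Fin (r + 1)) : graphSubst i Φ j ∈ below 1 := by
  induction j using Fin.succAboveCases i with
  | x => simpa [graphSubst] using hΦ
  | p j => simpa [graphSubst] using X_mem_below j

/-- A formal fixed point of `Φ ↦ R(X', Φ)` for `R` without linear term in `X_i`. -/
theorem exists_fixedPoint (i : Fin (r + 1)) {R : MvPowerSeries (Fin (r + 1)) L}
    (h0 : constantCoeff R = 0) (hi : coeff (Finsupp.single i 1) R = 0) :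
    ∃ Φ : MvPowerSeries (Fin r) L, constantCoeff Φ = 0 ∧ subst (graphSubst i Φ) R = Φ := by
  set T : MvPowerSeries (Fin r) L → MvPowerSeries (Fin r) L :=
    fun Φ => subst (graphSubst i Φ) R with hT
  have hR : R ∈ below 1 := mem_below_one_iff.2 h0
  have hTb : ∀ Φ, Φ ∈ below 1 → T Φ ∈ below 1 := fun Φ hΦ =>
    subst_mem_below_one (graphSubst_mem_below i hΦ) hR
  have hcontr : ∀ (e : ℕ) (A B : MvPowerSeries (Fin r) L), A ∈ below 1 → B ∈ below 1 →
      A - B ∈ below e → T A - T B ∈ below (e + 1) := by
    intro e A B hA hB hAB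
    have hdiff : ∀ j, graphSubst i A j - graphSubst i B j ∈ below e := fun j => by
      induction j using Fin.succAboveCases i with
      | x => simpa [graphSubst] using hAB
      | p j => simp [graphSubst]
    have h := subst_sub_subst_linear (graphSubst_mem_below i hA) (graphSubst_mem_below i hB)
      hdiff h0
    rwa [Fin.sum_univ_succAbove _ i, hi, map_zero, zero_mul, zero_add,
      Finset.sum_eq_zero (fun j _ => by simp [graphSubst]), sub_zero] at h
  set P : ℕ → MvPowerSeries (Fin r) L := fun k => T^[k] 0 with hP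
  have hPb : ∀ k, P k ∈ below 1 := by
    intro k
    induction k with
    | zero => exact Ideal.zero_mem _
    | succ k ih => simp only [hP, Function.iterate_succ_apply']; exact hTb _ ih
  have hstep : ∀ k, P (k + 1) - P k ∈ below (k + 1) := by
    intro k
    induction k with
    | zero => exact Ideal.sub_mem _ (hPb 1) (hPb 0)
    | succ k ih =>
      have := hcontr _ _ _ (hPb (k + 1)) (hPb k) ih
      simpa only [hP, Function.iterate_succ_apply'] using this
  have hfar : ∀ k m, k ≤ m → P m - P k ∈ below (k + 1) := by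
    intro k m hkm
    induction m, hkm using Nat.le_induction with
    | base => simp
    | succ m hm ih =>
      have := Ideal.add_mem _ (below_antitone (by omega) (hstep m)) ih
      simpa using this
  set Φ : MvPowerSeries (Fin r) L := fun d => coeff d (P d.degree) with hΦ
  have hclose : ∀ k, Φ - P k ∈ below (k + 1) := fun k d hd => by
    rw [map_sub, sub_eq_zero]
    change coeff d (P d.degree) = _
    exact (coeff_eq_of_below (hfar d.degree k (by omega)) (Nat.lt_succ_self _)).symm
  have hΦb : Φ ∈ below 1 := by simpa [hP] using hclose 0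
  refine ⟨Φ, mem_below_one_iff.1 hΦb, eq_of_below fun D => ?_⟩
  have h1 := hcontr _ _ _ hΦb (hPb D) (hclose D)
  have h2 := hclose (D + 1)
  have e : T (P D) = P (D + 1) := by simp [hP, Function.iterate_succ_apply']
  rw [e] at h1
  have := Ideal.sub_mem _ (below_antitone (show D ≤ D + 1 + 1 by omega) h1)
    (below_antitone (show D ≤ D + 1 + 1 by omega) h2)
  simpa [hT] using this

variable {O : Type*} [NormedCommRing O] [IsUltrametricDist O] [UnitNormed O] [CompleteSpace O]

/-- A series without linear term in `X_i` contracts in that coordinate. -/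
theorem eq_of_fixed_point {f : MvPowerSeries (Fin (r + 1)) O} (i : Fin (r + 1))
    (hi : coeff (Finsupp.single i 1) f = 0) {x : Fin r → O} (hx : ∀ j, ‖x j‖ < 1) {a b : O}
    (ha : ‖a‖ < 1) (hb : ‖b‖ < 1) (hfa : evalMv f (i.insertNth a x) = a)
    (hfb : evalMv f (i.insertNth b x) = b) : a = b := by
  have hins : ∀ c : O, ‖c‖ < 1 → ∀ j, ‖(i.insertNth c x : Fin (r + 1) → O) j‖ < 1 := by
    intro c hc j
    induction j using Fin.succAboveCases i with
    | x => simpa using hc
    | p j => simpa using hx j
  obtain ⟨ρ₁, hρ₁0, hρ₁1, hρ₁⟩ := exists_radius (hins a ha)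
  set ρ := max ρ₁ ‖b‖ with hρ
  have hρ0 : 0 ≤ ρ := hρ₁0.trans (le_max_left _ _)
  have hρ1 : ρ < 1 := max_lt hρ₁1 hb
  have hρa : ∀ j, ‖(i.insertNth a x : Fin (r + 1) → O) j‖ ≤ ρ := fun j =>
    (hρ₁ j).trans (le_max_left _ _)
  have hρb : ∀ j, ‖(i.insertNth b x : Fin (r + 1) → O) j‖ ≤ ρ := fun j => by
    induction j using Fin.succAboveCases i with
    | x => simp [hρ]
    | p j => simpa using hρa (i.succAbove j)
  have hterm : ∀ d : Fin (r + 1) →₀ ℕ,
      ‖coeff d f * (d.prod fun j e => (i.insertNth a x : Fin (r + 1) → O) j ^ e) -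
        coeff d f * (d.prod fun j e => (i.insertNth b x : Fin (r + 1) → O) j ^ e)‖
        ≤ ρ * ‖a - b‖ := by
    intro d
    have hB : 0 ≤ ρ * ‖a - b‖ := mul_nonneg hρ0 (norm_nonneg _)
    simp only [Finsupp.prod_fintype _ _ (fun _ => pow_zero _), Fin.prod_univ_succAbove _ i,
      Fin.insertNth_apply_same, Fin.insertNth_apply_succAbove]
    rw [← mul_sub, ← sub_mul]
    set Q := ∏ j : Fin r, x j ^ d (i.succAbove j) with hQ
    rcases Nat.lt_or_ge (d i) 1 with h1 | h1
    · simp [Nat.lt_one_iff.1 h1, hB]
    refine (norm_mul_le _ _).trans ?_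
    by_cases hQ1 : ∀ j, d (i.succAbove j) = 0
    · rcases eq_or_lt_of_le h1 with h2 | h2
      · have : d = Finsupp.single i 1 := Finsupp.ext fun j => by
          induction j using Fin.succAboveCases i with
          | x => simp [← h2]
          | p j => simp [hQ1 j, Finsupp.single_eq_of_ne (Fin.succAbove_ne i j)]
        simp [this, hi, hB]
      · refine (mul_le_of_le_one_left (norm_nonneg _) (UnitNormed.norm_le_one _)).trans ?_
        refine (norm_mul_le _ _).trans ((mul_le_of_le_one_right (norm_nonneg _)
          (UnitNormed.norm_le_one _)).trans ?_)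
        rw [← geom_sum₂_mul a b (d i)]
        refine (norm_mul_le _ _).trans (mul_le_mul_of_nonneg_right ?_ (norm_nonneg _))
        refine IsUltrametricDist.norm_sum_le_of_forall_le_of_nonneg hρ0 fun k hk => ?_
        rw [Finset.mem_range] at hk
        rcases Nat.eq_zero_or_pos k with rfl | hk0
        · rw [pow_zero, one_mul]
          refine (norm_pow_le' b _).trans ((pow_le_of_le_one (norm_nonneg _) hb.le ?_).trans
            (le_max_right _ _))
          omega
        · refine (norm_mul_le _ _).trans ((mul_le_of_le_one_right (norm_nonneg _)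
            (UnitNormed.norm_le_one _)).trans ?_)
          refine (norm_pow_le' a _).trans ((pow_le_of_le_one (norm_nonneg _) ha.le hk0.ne').trans ?_)
          simpa using hρa i
    · push Not at hQ1
      obtain ⟨j, hj⟩ := hQ1
      have hQρ : ‖Q‖ ≤ ρ := by
        rw [hQ, ← Finset.mul_prod_erase _ _ (Finset.mem_univ j)]
        refine (norm_mul_le _ _).trans ((mul_le_of_le_one_right (norm_nonneg _)
          (UnitNormed.norm_le_one _)).trans ?_)
        exact (norm_pow_le' _ _).trans ((pow_le_of_le_one (norm_nonneg _) (hx j).le hj).trans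
          (by simpa using hρa (i.succAbove j)))
      refine (mul_le_of_le_one_left (norm_nonneg _) (UnitNormed.norm_le_one _)).trans ?_
      refine (norm_mul_le _ _).trans ?_
      rw [mul_comm ρ]
      refine mul_le_mul ?_ hQρ (norm_nonneg _) (norm_nonneg _)
      rw [← geom_sum₂_mul a b (d i)]
      exact (norm_mul_le _ _).trans
        (mul_le_of_le_one_left (norm_nonneg _) (UnitNormed.norm_le_one _))
  have hle : ‖a - b‖ ≤ ρ * ‖a - b‖ := by
    conv_lhs => rw [← hfa, ← hfb]
    exact le_of_tendsto ((hasSum_evalMv (hins a ha) f).sub (hasSum_evalMv (hins b hb) f)).norm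
      (Filter.Eventually.of_forall fun s =>
        IsUltrametricDist.norm_sum_le_of_forall_le_of_nonneg
          (mul_nonneg hρ0 (norm_nonneg _)) fun d _ => hterm d)
  by_contra hne
  have hpos : 0 < ‖a - b‖ := norm_pos_iff.2 (sub_ne_zero.2 hne)
  exact absurd hle (not_le.2 (mul_lt_of_lt_one_left hpos hρ1))

/-- The implicit function: small zeros of `f` lie on the graph of `Φ`. -/
theorem exists_implicit (i : Fin (r + 1)) (f : MvPowerSeries (Fin (r + 1)) L)
    (h0 : constantCoeff f = 0) (hi : coeff (Finsupp.single i 1) f ≠ 0) (ι : L →+* O) :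
    ∃ Φ : MvPowerSeries (Fin r) L, constantCoeff Φ = 0 ∧
      ∀ w : Fin (r + 1) → O, (∀ j, ‖w j‖ < 1) → evalMv (f.map ι) w = 0 →
        w i = evalMv (Φ.map ι) fun j => w (i.succAbove j) := by
  set c := (coeff (Finsupp.single i 1) f)⁻¹ with hc
  set R : MvPowerSeries (Fin (r + 1)) L := MvPowerSeries.X i - C c * f with hR
  have hR0 : constantCoeff R = 0 := by simp [hR, h0]
  have hRi : coeff (Finsupp.single i 1) R = 0 := by
    rw [hR, map_sub, coeff_index_single_self_X, coeff_C_mul, hc, inv_mul_cancel₀ hi, sub_self]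
  obtain ⟨Φ, hΦ0, hΦ⟩ := exists_fixedPoint i hR0 hRi
  refine ⟨Φ, hΦ0, fun w hw hfw => ?_⟩
  set x : Fin r → O := fun j => w (i.succAbove j) with hx
  have hx1 : ∀ j, ‖x j‖ < 1 := fun j => hw _
  have hb : ‖evalMv (Φ.map ι) x‖ < 1 := by
    obtain ⟨ρ, hρ0, hρ1, hρ⟩ := exists_radius hx1
    exact (norm_evalMv_le_coords hx1 _ (by simp [constantCoeff_map, hΦ0]) hρ0 hρ).trans_lt hρ1
  have hwx : (i.insertNth (w i) x : Fin (r + 1) → O) = w := by
    funext j
    induction j using Fin.succAboveCases i with
    | x => simp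
    | p j => simp [hx]
  refine eq_of_fixed_point (f := R.map ι) i (by rw [coeff_map, hRi, map_zero]) hx1 (hw i) hb ?_ ?_
  · rw [hwx, hR, map_sub, map_mul, evalMv_sub hw, evalMv_mul hw, hfw, mul_zero, sub_zero,
      MvPowerSeries.map_X, evalMv_X hw]
  · have hs : HasSubst (graphSubst i Φ) :=
      hasSubst_of_below (graphSubst_mem_below i (mem_below_one_iff.2 hΦ0))
    have hcc : ∀ j, constantCoeff ((fun j => (graphSubst i Φ j).map ι) j) = 0 := fun j => by
      rw [constantCoeff_map,
        mem_below_one_iff.1 (graphSubst_mem_below i (mem_below_one_iff.2 hΦ0) j), map_zero]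
    conv_rhs => rw [← hΦ, map_subst hs, evalMv_subst hx1 hcc]
    congr 1
    funext j
    induction j using Fin.succAboveCases i with
    | x => simp [graphSubst]
    | p j => simp [graphSubst, evalMv_X hx1]

end Vale.P217

end
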