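import Vale.Agent.P217.RigidityTranslate
import Vale.Agent.P217.RigidityImplicit

/-!
A series with linear term vanishing on the subgroup gives a relation.
-/

noncomputable section

set_option linter.unusedSectionVars false

namespace Vale.P217

open MvPowerSeries

variable (p : ℕ) [Fact p.Prime] (h : ℕ) {K : Type*} [NontriviallyNormedField K]
  [IsUltrametricDist K] [CharP K p] [CompleteSpace K] [hh : Fact (1 ≤ h)]

theorem homPt_congr {O : Type*} [NormedCommRing O] [IsUltrametricDist O] [UnitNormed O]
    [CompleteSpace O] {F G : FormalGroup O} [F.IsComm] [G.IsComm] {f g : PowerSeries O}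
    (hfg : f = g) (hf : IsHomSeries F G f) (hg : IsHomSeries F G g) (a : Pt F) :
    homPt hf a = homPt hg a := by subst hfg; rfl

/-- The zero series is a homomorphism. -/
theorem isHomSeries_zero (F G : FormalGroup (Ball K)) : IsHomSeries F G 0 := by
  refine isHomSeries_of_evalP (map_zero _) fun a b ha hb => ?_
  rw [evalP_zero (norm_fadd_lt_one F ha hb), evalP_zero ha, evalP_zero hb,
    Pt.fadd_zero_left (by simp)]

/-- The inverse is a homomorphism. -/
theorem isHomSeries_negSeries (F : FormalGroup (Ball K)) [F.IsComm] :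
    IsHomSeries F F (negSeries F) :=
  isHomSeries_of_evalP (constantCoeff_negSeries F) fun a b ha hb =>
    congrArg Pt.val (neg_add (Pt.mk F a ha) (Pt.mk F b hb))

theorem negSeries_ne_zero (F : FormalGroup (Ball K)) [F.IsComm] : negSeries F ≠ 0 := by
  intro e
  obtain ⟨a, ha0, ha⟩ := exists_small_ne_zero (K := K)
  have h1 : (-Pt.mk F a ha).val = 0 := by rw [Pt.val_neg, e, evalP_zero (Pt.norm_lt _)]
  have h2 : -Pt.mk F a ha = 0 := Pt.ext (by rw [h1, Pt.val_zero])
  exact ha0 (congrArg Pt.val (neg_eq_zero.1 h2))

variable {r : ℕ}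

/-- Forgetting the coordinate `i`. -/
def forgetCoord {M : Type*} [AddCommGroup M] (i : Fin (r + 1)) :
    (Fin (r + 1) → M) →+ (Fin r → M) :=
  AddMonoidHom.mk' (fun w j => w (i.succAbove j)) fun _ _ => rfl

/-- The projection of a subgroup without relations has no relation. -/
theorem noRelation_forgetCoord (i : Fin (r + 1))
    (S : AddSubgroup (Fin (r + 1) → Pt (hondaBall p h K)))
    (hS : NoRelation p h (S : Set (Fin (r + 1) → Pt (hondaBall p h K)))) :
    NoRelation p h ((S.map (forgetCoord i) : AddSubgroup _) :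
      Set (Fin r → Pt (hondaBall p h K))) := by
  intro β hβ hsum
  set β' : Fin (r + 1) → PowerSeries (Ball K) := i.insertNth 0 β with hβ'
  have hβ'h : ∀ j, IsHomSeries (hondaBall p h K) (hondaBall p h K) (β' j) := fun j => by
    induction j using Fin.succAboveCases i with
    | x => simpa [hβ'] using isHomSeries_zero _ _
    | p j => simpa [hβ'] using hβ j
  have h0 := hS β' hβ'h fun w hw => by
    rw [Fin.sum_univ_succAbove _ i]
    have h1 := hsum (forgetCoord i w) ⟨w, hw, rfl⟩
    have e1 : homPt (hβ'h i) (w i) = 0 := by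
      rw [homPt_congr (show β' i = 0 by simp [hβ']) (hβ'h i) (isHomSeries_zero _ _)]
      exact Pt.ext (evalP_zero (w i).norm_lt)
    rw [e1, zero_add]
    refine Eq.trans (Finset.sum_congr rfl fun j _ => ?_) h1
    exact homPt_congr (by simp [hβ']) _ _ _
  funext j
  have := congrFun h0 (i.succAbove j)
  simpa [hβ'] using this

/-- A series over `𝔽_q` with nonzero linear coefficient cannot vanish on a subgroup without
relations, provided rigidity holds one dimension lower. -/
theorem false_of_linear (i : Fin (r + 1))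
    (S : AddSubgroup (Fin (r + 1) → Pt (hondaBall p h K)))
    (hS : NoRelation p h (S : Set (Fin (r + 1) → Pt (hondaBall p h K))))
    (IH : ∀ T : AddSubgroup (Fin r → Pt (hondaBall p h K)),
      NoRelation p h (T : Set (Fin r → Pt (hondaBall p h K))) →
      ∀ H, AsympVanishing p h (T : Set (Fin r → Pt (hondaBall p h K))) H → H = 0)
    (f : MvPowerSeries (Fin (r + 1)) (fixF (K := K) p h))
    (hi : coeff (Finsupp.single i 1) f ≠ 0)
    (hf : ∀ w ∈ S, evalMv (f.map (ofFix p h)) (fun j => (w j).val) = 0) : False := by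
  classical
  set T := S.map (forgetCoord i) with hT
  have hvan : ∀ F : MvPowerSeries (Fin r) (Ball K),
      (∀ w ∈ T, evalMv F (fun j => (w j).val) = 0) → F = 0 := fun F hF => by
    have h0 := IH T (noRelation_forgetCoord p h i S hS) _ (asympVanishing_of_eval_eq_zero p h F hF)
    refine MvPowerSeries.ext fun d => ?_
    have h1 := congrArg (coeff d) h0
    rw [coeff_map, map_zero] at h1
    rw [map_zero]
    exact Subtype.ext h1
  have hf0 : constantCoeff f = 0 := by
    have h0 := hf 0 S.zero_mem
    rw [evalMv_at_zero (x := fun j => ((0 : Fin (r + 1) → Pt (hondaBall p h K)) j).val) (fun _ => rfl),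
      constantCoeff_map] at h0
    exact (ofFix (K := K) p h).injective (by rw [h0, map_zero])
  obtain ⟨Φ₀, hΦ₀, hgraph⟩ := exists_implicit i f hf0 hi (ofFix p h)
  set Φ := Φ₀.map (ofFix p h) with hΦ
  have hΦc : constantCoeff Φ = 0 := by rw [hΦ, constantCoeff_map, hΦ₀, map_zero]
  have hgraph' : ∀ w ∈ S, (w i).val = evalMv Φ fun j => (w (i.succAbove j)).val := fun w hw =>
    hgraph _ (fun j => (w j).norm_lt) (hf w hw)
  set A := subst (addVars (hondaBall p h K) r) Φ with hA
  set Bv : Fin 2 → MvPowerSeries (Fin r ⊕ Fin r) (Ball K) :=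
    ![subst (fun j => MvPowerSeries.X (Sum.inl j)) Φ,
      subst (fun j => MvPowerSeries.X (Sum.inr j)) Φ] with hBv
  have hBc : ∀ t, constantCoeff (Bv t) = 0 := fun t => by
    fin_cases t <;>
      exact constantCoeff_subst_eq_zero (hasSubst_of_constantCoeff_zero fun _ => by simp)
        (fun _ => by simp) hΦc
  set D := A - subst Bv (hondaBall p h K).toPowerSeries with hD
  have hDev : ∀ x y : Fin r → Pt (hondaBall p h K),
      evalMv D (Sum.elim (fun j => (x j).val) (fun j => (y j).val)) =
        evalMv Φ (fun j => (x j + y j).val) - fadd (hondaBall p h K)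
          (evalMv Φ fun j => (x j).val) (evalMv Φ fun j => (y j).val) := by
    intro x y
    have hxy : ∀ k, ‖Sum.elim (fun j => (x j).val) (fun j => (y j).val) k‖ < 1 := fun k => by
      cases k with
      | inl j => exact (x j).norm_lt
      | inr j => exact (y j).norm_lt
    rw [hD, evalMv_sub hxy, hA,
      evalMv_subst_addVars _ Φ (fun j => (x j).norm_lt) (fun j => (y j).norm_lt),
      evalMv_subst hxy hBc, fadd]
    congr 1
    congr 1
    funext t
    fin_cases t <;>
      simp [hBv, evalMv_subst hxy (show ∀ j : Fin r,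
        constantCoeff (MvPowerSeries.X (Sum.inl j) : MvPowerSeries (Fin r ⊕ Fin r) (Ball K)) = 0 from
          fun j => constantCoeff_X _), evalMv_subst hxy (show ∀ j : Fin r,
        constantCoeff (MvPowerSeries.X (Sum.inr j) : MvPowerSeries (Fin r ⊕ Fin r) (Ball K)) = 0 from
          fun j => constantCoeff_X _), evalMv_X hxy]
  have hD0 : D = 0 := by
    have hz : ∀ x ∈ T, evalLeft D (fun j => (x j).val) = 0 := by
      rintro x ⟨w, hw, rfl⟩
      refine hvan _ fun y hy => ?_
      obtain ⟨w', hw', rfl⟩ := hy
      rw [evalMv_evalLeft (fun j => Pt.norm_lt _) (fun j => Pt.norm_lt _), hDev, sub_eq_zero]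
      have e1 := hgraph' _ (S.add_mem hw hw')
      rw [Pi.add_apply, Pt.val_add, hgraph' w hw, hgraph' w' hw'] at e1
      exact e1.symm
    refine MvPowerSeries.ext fun e => ?_
    obtain ⟨⟨c, d⟩, rfl⟩ := Finsupp.sumFinsuppEquivProdFinsupp.symm.surjective e
    rw [← coeff_sliceMv, hvan (sliceMv D d) fun x hx => ?_, map_zero, map_zero]
    rw [← coeff_evalLeft, hz x hx, map_zero]
  have hsmall : ∀ x : Fin r → Pt (hondaBall p h K), ‖evalMv Φ fun j => (x j).val‖ < 1 := fun x => by
    obtain ⟨ρ, hρ0, hρ1, hρ⟩ := exists_radius fun j => (x j).norm_lt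
    exact (norm_evalMv_le_coords (fun j => (x j).norm_lt) _ hΦc hρ0 hρ).trans_lt hρ1
  let Φp : (Fin r → Pt (hondaBall p h K)) →+ Pt (hondaBall p h K) :=
    AddMonoidHom.mk' (fun x => Pt.mk _ _ (hsmall x)) fun x y => Pt.ext (by
      have e1 := hDev x y
      rw [hD0, evalMv_zero (fun k => by cases k <;> exact Pt.norm_lt _), eq_comm, sub_eq_zero] at e1
      exact e1)
  set φ : Fin r → PowerSeries (Ball K) := fun j =>
    subst (fun k => if k = j then PowerSeries.X else 0) Φ with hφ
  have hcj : ∀ j k : Fin r, constantCoeff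
      ((if k = j then PowerSeries.X else 0) : PowerSeries (Ball K)) = 0 := fun j k => by
    split_ifs
    · exact PowerSeries.constantCoeff_X
    · exact map_zero _
  have hφv : ∀ j (a : Pt (hondaBall p h K)),
      evalP (φ j) a.val = (Φp (Pi.single j a)).val := by
    intro j a
    change evalMv (subst _ Φ) (fun _ : Unit => a.val) = evalMv Φ _
    rw [evalMv_subst (fun _ => a.norm_lt) (hcj j)]
    congr 1
    funext k
    by_cases hk : k = j
    · subst hk
      rw [if_pos rfl, Pi.single_eq_same]
      exact evalP_X a.norm_lt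
    · rw [if_neg hk, Pi.single_eq_of_ne hk, Pt.val_zero, evalMv_zero fun _ => a.norm_lt]
  have hφh : ∀ j, IsHomSeries (hondaBall p h K) (hondaBall p h K) (φ j) := fun j => by
    refine isHomSeries_of_evalP
      (constantCoeff_subst_eq_zero (hasSubst_of_constantCoeff_zero (hcj j)) (hcj j) hΦc)
      fun a b ha hb => ?_
    have e1 := hφv j (Pt.mk _ a ha + Pt.mk _ b hb)
    rw [Pi.single_add, map_add, Pt.val_add, Pt.val_add, ← hφv, ← hφv] at e1
    exact e1
  set β : Fin (r + 1) → PowerSeries (Ball K) := i.insertNth (negSeries (hondaBall p h K)) φ with hβ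
  have hβh : ∀ j, IsHomSeries (hondaBall p h K) (hondaBall p h K) (β j) := fun j => by
    induction j using Fin.succAboveCases i with
    | x => simpa [hβ] using isHomSeries_negSeries _
    | p j => simpa [hβ] using hφh j
  have hrel := hS β hβh fun w hw => by
    rw [Fin.sum_univ_succAbove _ i]
    have e1 : homPt (hβh i) (w i) = -w i := by
      rw [homPt_congr (show β i = negSeries (hondaBall p h K) by simp [hβ]) (hβh i)
        (isHomSeries_negSeries _)]
      rfl
    have e2 : ∑ j, homPt (hβh (i.succAbove j)) (w (i.succAbove j)) = w i := by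
      have e3 : ∀ j, homPt (hβh (i.succAbove j)) (w (i.succAbove j)) =
          Φp (Pi.single j (w (i.succAbove j))) := fun j => by
        rw [homPt_congr (show β (i.succAbove j) = φ j by simp [hβ]) (hβh _) (hφh j)]
        exact Pt.ext (hφv j _)
      rw [Finset.sum_congr rfl fun j _ => e3 j, ← map_sum,
        Finset.univ_sum_single fun j => w (i.succAbove j)]
      exact Pt.ext (hgraph' w hw).symm
    rw [e1, e2, neg_add_cancel]
  exact negSeries_ne_zero (hondaBall p h K) (by simpa [hβ] using congrFun hrel i)

end Vale.P217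

end
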