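import Vale.Agent.P217.CoverRoots
import Vale.Agent.P217.Basics
import Vale.Agent.P217.CoverCongr
import Mathlib.RingTheory.MvPowerSeries.Derivative

/-!
Partial evaluation, the identity theorem and first order expansion of series over the ball.
-/

noncomputable section

set_option linter.unusedSectionVars false

namespace Vale.P217

open MvPowerSeries

section Slice

variable {O : Type*} [NormedCommRing O] [IsUltrametricDist O] [UnitNormed O] [CompleteSpace O]
  {σ τ : Type*} [Fintype σ] [Fintype τ]

/-- The coefficient of `Y ^ d` as a series in the left variables. -/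
def sliceMv {R : Type*} (A : MvPowerSeries (σ ⊕ τ) R) (d : τ →₀ ℕ) : MvPowerSeries σ R :=
  fun c => A (Finsupp.sumFinsuppEquivProdFinsupp.symm (c, d))

theorem coeff_sliceMv {R : Type*} [CommRing R] (A : MvPowerSeries (σ ⊕ τ) R) (d : τ →₀ ℕ)
    (c : σ →₀ ℕ) :
    coeff c (sliceMv A d) = coeff (Finsupp.sumFinsuppEquivProdFinsupp.symm (c, d)) A := rfl

theorem map_sliceMv {R S : Type*} [CommRing R] [CommRing S] (φ : R →+* S)
    (A : MvPowerSeries (σ ⊕ τ) R) (d : τ →₀ ℕ) :
    (sliceMv A d).map φ = sliceMv (A.map φ) d := rfl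

/-- Evaluate the left variables. -/
def evalLeft (A : MvPowerSeries (σ ⊕ τ) O) (x : σ → O) : MvPowerSeries τ O :=
  fun d => evalMv (sliceMv A d) x

theorem coeff_evalLeft (A : MvPowerSeries (σ ⊕ τ) O) (x : σ → O) (d : τ →₀ ℕ) :
    coeff d (evalLeft A x) = evalMv (sliceMv A d) x := rfl

theorem evalMv_evalLeft {x : σ → O} {y : τ → O} (hx : ∀ i, ‖x i‖ < 1) (hy : ∀ i, ‖y i‖ < 1)
    (A : MvPowerSeries (σ ⊕ τ) O) :
    evalMv (evalLeft A x) y = evalMv A (Sum.elim x y) := by
  have hxy : ∀ i, ‖Sum.elim x y i‖ < 1 := fun i => by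
    cases i with
    | inl i => exact hx i
    | inr i => exact hy i
  let e : (τ →₀ ℕ) × (σ →₀ ℕ) ≃ (σ ⊕ τ →₀ ℕ) :=
    (Equiv.prodComm _ _).trans Finsupp.sumFinsuppEquivProdFinsupp.symm
  have h := e.hasSum_iff.2 (hasSum_evalMv hxy A)
  refine (hasSum_evalMv hy (evalLeft A x)).unique (HasSum.prod_fiberwise h fun d => ?_)
  refine ((hasSum_evalMv hx (sliceMv A d)).mul_right (d.prod fun i k => y i ^ k)).congr_fun
    fun c => ?_
  simp only [Function.comp_apply, e, Equiv.trans_apply, Equiv.prodComm_apply, Prod.swap_prod_mk,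
    coeff_sliceMv]
  rw [Finsupp.prod_fintype _ _ (fun _ => pow_zero _), Finsupp.prod_fintype _ _ (fun _ => pow_zero _),
    Finsupp.prod_fintype _ _ (fun _ => pow_zero _), Fintype.prod_sum_type, mul_assoc]
  simp [Finsupp.sumFinsuppEquivProdFinsupp_symm_inl, Finsupp.sumFinsuppEquivProdFinsupp_symm_inr]

theorem evalMv_at_zero {x : σ → O} (hx : ∀ i, x i = 0) (f : MvPowerSeries σ O) :
    evalMv f x = constantCoeff f := by
  have h1 : ∀ i, ‖x i‖ < 1 := fun i => by simp [hx i]
  have h := norm_evalMv_le_coords h1 (f - C (constantCoeff f)) (by simp) le_rfl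
    fun i => by simp [hx i]
  rw [norm_le_zero_iff, evalMv_sub h1, evalMv_C h1, sub_eq_zero] at h
  exact h

end Slice

section Identity

variable {K : Type*} [NontriviallyNormedField K] [IsUltrametricDist K] [CompleteSpace K]

/-- The identity theorem in one variable. -/
theorem eq_zero_of_evalP_eq_zero {f : PowerSeries (Ball K)}
    (hf : ∀ x : Ball K, ‖x‖ < 1 → evalP f x = 0) : f = 0 := by
  suffices key : ∀ (m : ℕ) (g : PowerSeries (Ball K)),
      (∀ x : Ball K, x ≠ 0 → ‖x‖ < 1 → evalP g x = 0) → PowerSeries.coeff m g = 0 from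
    PowerSeries.ext fun m => by rw [key m f fun x _ hx => hf x hx, map_zero]
  have h0 : ∀ g : PowerSeries (Ball K),
      (∀ x : Ball K, x ≠ 0 → ‖x‖ < 1 → evalP g x = 0) → PowerSeries.constantCoeff g = 0 := by
    intro g hg
    by_contra hne
    obtain ⟨y, hy0, hy1⟩ := exists_small_ne_zero (K := K)
    set c := PowerSeries.constantCoeff g with hc
    have hx0 : c * y ≠ 0 := fun e => by
      have := congrArg norm e
      rw [norm_mul_Ball, norm_zero, mul_eq_zero, norm_eq_zero, norm_eq_zero] at this
      tauto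
    have hlt : ‖c * y‖ < ‖c‖ := by
      rw [norm_mul_Ball]; exact mul_lt_of_lt_one_right (norm_pos_iff.2 hne) hy1
    have hx1 : ‖c * y‖ < 1 := hlt.trans_le (UnitNormed.norm_le_one _)
    have h := norm_evalP_le hx1 (g - PowerSeries.C c) (by simp [hc])
    rw [evalP, evalMv_sub (fun _ => hx1), show evalMv g (fun _ : Unit => c * y) = 0 from
      hg _ hx0 hx1, show evalMv (PowerSeries.C c) (fun _ : Unit => c * y) = c from evalP_C hx1 c,
      zero_sub, norm_neg] at h
    exact absurd h (not_le.2 hlt)
  intro m
  induction m with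
  | zero => exact fun g hg => by rw [PowerSeries.coeff_zero_eq_constantCoeff, h0 g hg]
  | succ m ih =>
    intro g hg
    set g' := PowerSeries.mk fun k => PowerSeries.coeff (k + 1) g with hg'
    have he : g = PowerSeries.X * g' := by
      conv_lhs => rw [PowerSeries.eq_X_mul_shift_add_const g, h0 g hg, map_zero, add_zero]
    have h := ih g' fun x hx hx1 => by
      have := hg x hx hx1
      rw [he, evalP_mul hx1, evalP_X hx1] at this
      exact (mul_eq_zero.1 this).resolve_left hx
    rwa [hg', PowerSeries.coeff_mk] at h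

/-- The identity theorem in two variables. -/
theorem eq_zero_of_evalMv_fin_two {f : MvPowerSeries (Fin 2) (Ball K)}
    (hf : ∀ a b : Ball K, ‖a‖ < 1 → ‖b‖ < 1 → evalMv f ![a, b] = 0) : f = 0 := by
  set v : Fin 2 → MvPowerSeries (Unit ⊕ Unit) (Ball K) :=
    ![MvPowerSeries.X (Sum.inl ()), MvPowerSeries.X (Sum.inr ())] with hv
  set v' : Unit ⊕ Unit → MvPowerSeries (Fin 2) (Ball K) :=
    Sum.elim (fun _ => MvPowerSeries.X 0) (fun _ => MvPowerSeries.X 1) with hv'
  have hc : ∀ i, constantCoeff (v i) = 0 := fun i => by fin_cases i <;> simp [hv]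
  have hc' : ∀ i, constantCoeff (v' i) = 0 := fun i => by
    cases i <;> simp [hv']
  have hA : subst v f = 0 := by
    refine MvPowerSeries.ext fun e => ?_
    obtain ⟨⟨c, d⟩, rfl⟩ := Finsupp.sumFinsuppEquivProdFinsupp.symm.surjective e
    rw [map_zero, ← coeff_sliceMv]
    have : sliceMv (subst v f) d = 0 := by
      refine eq_zero_of_evalP_eq_zero (f := sliceMv (subst v f) d) fun a ha => ?_
      have hz : evalLeft (subst v f) (fun _ : Unit => a) = 0 := by
        refine eq_zero_of_evalP_eq_zero (f := evalLeft (subst v f) _) fun b hb => ?_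
        change evalMv _ (fun _ : Unit => b) = 0
        rw [evalMv_evalLeft (fun _ => ha) (fun _ => hb), evalMv_subst (fun i => by
          cases i <;> assumption) hc]
        refine Eq.trans (congrArg (evalMv f) (funext fun i => ?_)) (hf a b ha hb)
        fin_cases i <;> simp [hv, evalMv_X (show ∀ i, ‖Sum.elim (fun _ : Unit => a)
          (fun _ : Unit => b) i‖ < 1 from fun i => by cases i <;> assumption)]
      change evalMv (sliceMv (subst v f) d) (fun _ : Unit => a) = 0
      rw [← coeff_evalLeft, hz, map_zero]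
    rw [this, map_zero]
  have hback := congrArg (subst v') hA
  rw [subst_comp_subst_apply (hasSubst_of_constantCoeff_zero hc)
    (hasSubst_of_constantCoeff_zero hc')] at hback
  have hid : (fun s => subst v' (v s)) = MvPowerSeries.X := by
    funext i
    fin_cases i <;> simp only [hv, Fin.zero_eta, Fin.mk_one, Fin.isValue, Matrix.cons_val_zero,
      Matrix.cons_val_one, subst_X (hasSubst_of_constantCoeff_zero hc')] <;> rfl
  rw [hid, subst_self, ← coe_substAlgHom (hasSubst_of_constantCoeff_zero hc'), map_zero] at hback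
  exact hback

/-- Series which agree on all points define the same homomorphism identity. -/
theorem isHomSeries_of_evalP {F G : FormalGroup (Ball K)} {f : PowerSeries (Ball K)}
    (h0 : PowerSeries.constantCoeff f = 0)
    (h : ∀ a b : Ball K, ‖a‖ < 1 → ‖b‖ < 1 →
      evalP f (fadd F a b) = fadd G (evalP f a) (evalP f b)) : IsHomSeries F G f := by
  refine ⟨h0, sub_eq_zero.1 (eq_zero_of_evalMv_fin_two fun a b ha hb => ?_)⟩
  have hx : ∀ i, ‖(![a, b] : Fin 2 → Ball K) i‖ < 1 := fun i => by fin_cases i <;> assumption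
  have hc : ∀ i, constantCoeff ((![PowerSeries.subst (MvPowerSeries.X (0 : Fin 2)) f,
      PowerSeries.subst (MvPowerSeries.X (1 : Fin 2)) f] :
      Fin 2 → MvPowerSeries (Fin 2) (Ball K)) i) = 0 := fun i => by
    fin_cases i <;>
      exact constantCoeff_subst_eq_zero (hasSubst_of_constantCoeff_zero fun _ => by simp)
        (fun _ => by simp) h0
  rw [evalMv_sub hx, evalMv_subst_evalP hx _ F.zero_constantCoeff, evalMv_subst hx hc, sub_eq_zero]
  refine (h a b ha hb).trans (congrArg (evalMv G.toPowerSeries) (funext fun i => ?_))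
  fin_cases i <;> simp [evalMv_subst_evalP hx, evalMv_X hx]

end Identity

section Taylor

variable {O : Type*} [NormedCommRing O] [IsUltrametricDist O] [UnitNormed O] [CompleteSpace O]
  {σ : Type*} [Fintype σ] [DecidableEq σ]

/-- First order expansion along a coordinate. -/
theorem norm_evalMv_taylor (f : MvPowerSeries σ O) {x : σ → O} (hx : ∀ i, ‖x i‖ < 1) (j : σ)
    {t : O} (ht : ‖t‖ < 1) :
    ‖evalMv f (fun i => if i = j then x i + t else x i) - evalMv f x
      - t * evalMv (pderiv O j f) x‖ ≤ ‖t‖ ^ 2 := by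
  set x' : σ → O := fun i => if i = j then x i + t else x i with hx'
  have hx'1 : ∀ i, ‖x' i‖ < 1 := fun i => by
    simp only [hx']
    split_ifs
    · exact (IsUltrametricDist.norm_add_le_max _ _).trans_lt (max_lt (hx i) ht)
    · exact hx i
  have hder : HasSum (fun e : σ →₀ ℕ => coeff e f *
      ((e j : O) * (e - Finsupp.single j 1).prod fun i k => x i ^ k)) (evalMv (pderiv O j f) x) := by
    refine (Function.Injective.hasSum_iff (add_left_injective (Finsupp.single j 1)) ?_).1 ?_
    · intro e he
      have : e j = 0 := by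
        by_contra hne
        refine he ⟨e - Finsupp.single j 1, tsub_add_cancel_of_le fun i => ?_⟩
        by_cases hi : i = j
        · subst hi; simpa using Nat.one_le_iff_ne_zero.2 hne
        · simp [Finsupp.single_eq_of_ne hi]
      simp [this]
    · refine (hasSum_evalMv hx (pderiv O j f)).congr_fun fun d => ?_
      simp only [Function.comp_apply, coeff_pderiv, add_tsub_cancel_right, Finsupp.add_apply,
        Finsupp.single_eq_same, Nat.cast_add, Nat.cast_one]
      ring
  have h := ((hasSum_evalMv hx'1 f).sub (hasSum_evalMv hx f)).sub (hder.mul_left t)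
  refine le_of_tendsto h.norm (Filter.Eventually.of_forall fun s => ?_)
  refine IsUltrametricDist.norm_sum_le_of_forall_le_of_nonneg (sq_nonneg _) fun e _ => ?_
  rw [← mul_sub, mul_left_comm, ← mul_sub]
  refine (norm_mul_le _ _).trans ((mul_le_of_le_one_left (norm_nonneg _)
    (UnitNormed.norm_le_one _)).trans ?_)
  have hP := norm_aeval_taylor (MvPolynomial.monomial e (1 : ℤ)) x
    (fun i => if i = j then 1 else 0) t
  have hx'e : (fun i => x i + t * (if i = j then 1 else 0)) = x' := by
    funext i; simp only [hx']; split_ifs <;> simp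
  rw [hx'e, dirDeriv, Finset.sum_eq_single j] at hP
  · simpa [MvPolynomial.pderiv_monomial, MvPolynomial.aeval_monomial] using hP
  · intro i _ hi
    simp [hi]
  · simp

end Taylor

end Vale.P217

end
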