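import Vale.Agent.P217.RigidityAV
import Vale.Agent.P217.RigiditySlice
import Vale.Agent.P217.CoverKernel
import Vale.Agent.P217.CoverDet

/-!
Translating a vanishing series to a point of the subgroup.
-/

noncomputable section

set_option linter.unusedSectionVars false

namespace Vale.P217

open MvPowerSeries

variable (p : ℕ) [Fact p.Prime] (h : ℕ) {K : Type*} [NontriviallyNormedField K]
  [IsUltrametricDist K] [CharP K p] [CompleteSpace K] [hh : Fact (1 ≤ h)] {s : ℕ}

/-- The sum of two vectors of variables under a formal group law. -/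
def addVars {R : Type*} [CommRing R] (F : FormalGroup R) (s : ℕ) (j : Fin s) :
    MvPowerSeries (Fin s ⊕ Fin s) R :=
  subst ![(MvPowerSeries.X (Sum.inl j) : MvPowerSeries (Fin s ⊕ Fin s) R),
    MvPowerSeries.X (Sum.inr j)] F.toPowerSeries

theorem constantCoeff_addVars {R : Type*} [CommRing R] (F : FormalGroup R) (j : Fin s) :
    constantCoeff (addVars F s j) = 0 := by
  have hc : ∀ t, constantCoeff ((![(MvPowerSeries.X (Sum.inl j) :
      MvPowerSeries (Fin s ⊕ Fin s) R), MvPowerSeries.X (Sum.inr j)]) t) = 0 := fun t => by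
    fin_cases t <;> simp
  exact constantCoeff_subst_eq_zero (hasSubst_of_constantCoeff_zero hc) hc F.zero_constantCoeff

theorem evalMv_subst_addVars (F : FormalGroup (Ball K)) (f : MvPowerSeries (Fin s) (Ball K))
    {x y : Fin s → Ball K} (hx : ∀ j, ‖x j‖ < 1) (hy : ∀ j, ‖y j‖ < 1) :
    evalMv (subst (addVars F s) f) (Sum.elim x y) = evalMv f fun j => fadd F (x j) (y j) := by
  have hxy : ∀ i, ‖Sum.elim x y i‖ < 1 := fun i => by
    cases i with
    | inl i => exact hx i
    | inr i => exact hy i
  rw [evalMv_subst hxy (constantCoeff_addVars F)]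
  congr 1
  funext j
  have hc : ∀ t, constantCoeff ((![(MvPowerSeries.X (Sum.inl j) :
      MvPowerSeries (Fin s ⊕ Fin s) (Ball K)), MvPowerSeries.X (Sum.inr j)]) t) = 0 := fun t => by
    fin_cases t <;> simp
  rw [addVars, evalMv_subst hxy hc, fadd]
  congr 1
  funext t
  fin_cases t <;> simp [evalMv_X hxy]

/-- A series vanishing on a subgroup with nonzero derivative at one of its points gives an
asymptotically vanishing series with nonzero linear coefficient. -/
theorem exists_linear_of_derivative (S : AddSubgroup (Fin s → Pt (hondaBall p h K)))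
    (f : MvPowerSeries (Fin s) (Ball K))
    (hf : ∀ w ∈ S, evalMv f (fun j => (w j).val) = 0)
    {w₀ : Fin s → Pt (hondaBall p h K)} (hw₀ : w₀ ∈ S) (j : Fin s)
    (hd : evalMv (pderiv (Ball K) j f) (fun k => (w₀ k).val) ≠ 0) :
    ∃ H : MvPowerSeries (Fin s) K,
      AsympVanishing p h (S : Set (Fin s → Pt (hondaBall p h K))) H ∧
        coeff (Finsupp.single j 1) H ≠ 0 := by
  classical
  set x : Fin s → Ball K := fun k => (w₀ k).val with hx
  have hx1 : ∀ k, ‖x k‖ < 1 := fun k => (w₀ k).norm_lt
  set G := evalLeft (subst (addVars (hondaBall p h K) s) f) x with hG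
  have hGeval : ∀ y : Fin s → Ball K, (∀ k, ‖y k‖ < 1) →
      evalMv G y = evalMv f fun k => fadd (hondaBall p h K) (x k) (y k) := fun y hy => by
    rw [hG, evalMv_evalLeft hx1 hy, evalMv_subst_addVars (hondaBall p h K) f hx1 hy]
  have hGS : ∀ w ∈ S, evalMv G (fun k => (w k).val) = 0 := fun w hw => by
    rw [hGeval _ fun k => (w k).norm_lt]
    exact hf _ (S.add_mem hw₀ hw)
  have h0n : ∀ _ : Fin s, ‖(0 : Ball K)‖ < 1 := fun _ => by simp
  set γ := evalMv (pderiv (Ball K) 1 (hondaBall p h K).toPowerSeries) ![x j, 0] with hγ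
  set D := evalMv (pderiv (Ball K) j f) x with hD
  have hxj : ∀ i, ‖(![x j, 0] : Fin 2 → Ball K) i‖ < 1 := fun i => by
    fin_cases i
    · exact hx1 j
    · simp
  have hγ0 : γ ≠ 0 := by
    intro e
    have hc : constantCoeff (pderiv (Ball K) 1 (hondaBall p h K).toPowerSeries) = 1 := by
      rw [← coeff_zero_eq_constantCoeff_apply, coeff_pderiv]
      simp [(hondaBall p h K).lin_coeff_Y]
    have h1 := norm_evalMv_le_coords hxj (pderiv (Ball K) 1 (hondaBall p h K).toPowerSeries - C 1)
      (by simp [hc]) (norm_nonneg (x j)) fun i => by fin_cases i <;> simp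
    rw [evalMv_sub hxj, ← hγ, e, evalMv_C hxj, zero_sub, norm_neg] at h1
    exact absurd (h1.trans_lt (hx1 j)) (by simp [← norm_coe])
  suffices key : coeff (Finsupp.single j 1) G = γ * D by
    refine ⟨G.map (Ball K).subtype, asympVanishing_of_eval_eq_zero p h G hGS, fun e => ?_⟩
    rw [coeff_map] at e
    have e' : coeff (Finsupp.single j 1) G = 0 := Subtype.ext e
    rw [key] at e'
    rcases mul_eq_zero.1 e' with h' | h'
    · exact hγ0 h'
    · exact hd h'
  refine sub_eq_zero.1 (eq_zero_of_forall_norm_mul_le fun t => ?_)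
  rcases lt_or_ge ‖t‖ 1 with ht | ht
  swap
  · refine (UnitNormed.norm_le_one _).trans ?_
    exact one_le_pow₀ ht
  have hg := norm_evalMv_taylor G h0n j ht
  rw [evalMv_at_zero (fun _ => rfl) (pderiv (Ball K) j G), ← coeff_zero_eq_constantCoeff_apply,
    coeff_pderiv] at hg
  simp only [zero_add, Finsupp.coe_zero, Pi.zero_apply, Nat.cast_zero, mul_one] at hg
  have hy : ∀ k, ‖(if k = j then t else 0 : Ball K)‖ < 1 := fun k => by
    split_ifs
    · exact ht
    · simp
  have hG0 : evalMv G (fun _ => (0 : Ball K)) = 0 := hGS 0 S.zero_mem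
  rw [hG0, sub_zero, hGeval _ hy] at hg
  set c := fadd (hondaBall p h K) (x j) t - x j with hc
  have hpt : (fun k => fadd (hondaBall p h K) (x k) (if k = j then t else 0)) =
      fun k => if k = j then x k + c else x k := by
    funext k
    split_ifs with hk
    · subst hk; rw [hc, add_sub_cancel]
    · exact Pt.fadd_zero_right (hx1 k)
  rw [hpt] at hg
  have hct : ‖c‖ ≤ ‖t‖ := by
    have h2 := norm_fadd_sub_le (hondaBall p h K) (hx1 j) ht (hx1 j) (b' := 0) (by simp) (norm_nonneg t) (by simp)
      (by simp)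
    rwa [Pt.fadd_zero_right (hx1 j)] at h2
  have hfc := norm_evalMv_taylor f hx1 j (hct.trans_lt ht)
  rw [show evalMv f x = 0 from hf w₀ hw₀, sub_zero] at hfc
  have hΓ := norm_evalMv_taylor (hondaBall p h K).toPowerSeries hxj 1 ht
  have hΓ1 : evalMv (hondaBall p h K).toPowerSeries (fun i => if i = (1 : Fin 2) then (![x j, 0] : Fin 2 → Ball K) i + t
      else (![x j, 0] : Fin 2 → Ball K) i) = fadd (hondaBall p h K) (x j) t := by
    rw [fadd]
    congr 1
    funext i
    fin_cases i <;> simp
  have hΓ0 : evalMv (hondaBall p h K).toPowerSeries ![x j, 0] = x j := Pt.fadd_zero_right (hx1 j)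
  rw [hΓ1, hΓ0, ← hc] at hΓ
  set Y := evalMv f fun k => if k = j then x k + c else x k with hY
  have e : t * (coeff (Finsupp.single j 1) G - γ * D) =
      (Y - c * D) + (c - t * γ) * D - (Y - t * coeff (Finsupp.single j 1) G) := by ring
  rw [e]
  refine (norm_sub_le_ultra _ _).trans (max_le ?_ hg)
  refine (IsUltrametricDist.norm_add_le_max _ _).trans (max_le ?_ ?_)
  · exact hfc.trans (pow_le_pow_left₀ (norm_nonneg _) hct 2)
  · exact (norm_mul_le_left _ _).trans hΓ

end Vale.P217

end
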