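import Vale.Agent.P217.Order
import Mathlib.RingTheory.MvPowerSeries.Expand
import Mathlib.RingTheory.FormalGroup.Basic
import Mathlib.Data.Nat.Choose.Dvd
import Mathlib.Algebra.MvPolynomial.CommRing
import Mathlib.NumberTheory.Basic
import Mathlib.Algebra.CharP.Basic

/-!
Coefficient formulas for binomial series and substitution helpers.
-/

noncomputable section

namespace Vale.P217

open MvPowerSeries Finsupp

variable {R : Type*} [CommRing R]

theorem eq_single_add_single (d : Fin 2 →₀ ℕ) : d = single 0 (d 0) + single 1 (d 1) := by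
  ext i
  fin_cases i <;> simp

theorem degree_fin_two (d : Fin 2 →₀ ℕ) : d.degree = d 0 + d 1 := by
  conv_lhs => rw [eq_single_add_single d]
  simp [map_add, Finsupp.degree_single]

theorem coeff_two_monomial (i j : ℕ) (d : Fin 2 →₀ ℕ) :
    coeff d ((X 0 : MvPowerSeries (Fin 2) R) ^ i * X 1 ^ j) =
      if d 0 = i ∧ d 1 = j then 1 else 0 := by
  classical
  rw [X_pow_eq, X_pow_eq, monomial_mul_monomial, one_mul, coeff_monomial]
  refine if_congr ⟨fun h => by simp [h], fun h => ?_⟩ rfl rfl
  rw [eq_single_add_single d, h.1, h.2]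

theorem coeff_add_pow (m : ℕ) (d : Fin 2 →₀ ℕ) :
    coeff d (((X 0 : MvPowerSeries (Fin 2) R) + X 1) ^ m) =
      if d 0 + d 1 = m then (m.choose (d 0) : R) else 0 := by
  classical
  rw [add_pow, map_sum]
  have hterm : ∀ i, coeff d ((X 0 : MvPowerSeries (Fin 2) R) ^ i * X 1 ^ (m - i) *
      (m.choose i : MvPowerSeries (Fin 2) R)) =
      if d 0 = i ∧ d 1 = m - i then (m.choose i : R) else 0 := by
    intro i
    rw [mul_comm _ (m.choose i : MvPowerSeries (Fin 2) R), ← map_natCast (C (σ := Fin 2) (R := R)),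
      coeff_C_mul, coeff_two_monomial]
    split_ifs <;> simp
  simp only [hterm]
  by_cases h : d 0 + d 1 = m
  · rw [if_pos h, Finset.sum_eq_single (d 0)]
    · rw [if_pos ⟨rfl, by omega⟩]
    · intro i _ hi
      rw [if_neg (fun hh => hi hh.1.symm)]
    · intro hmem
      simp only [Finset.mem_range] at hmem
      omega
  · rw [if_neg h]
    refine Finset.sum_eq_zero fun i hi => if_neg fun hh => h ?_
    simp only [Finset.mem_range] at hi
    omega

theorem coeff_X_zero_pow (m : ℕ) (d : Fin 2 →₀ ℕ) :
    coeff d ((X 0 : MvPowerSeries (Fin 2) R) ^ m) = if d 0 = m ∧ d 1 = 0 then 1 else 0 := by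
  simpa using coeff_two_monomial (R := R) m 0 d

theorem coeff_X_one_pow (m : ℕ) (d : Fin 2 →₀ ℕ) :
    coeff d ((X 1 : MvPowerSeries (Fin 2) R) ^ m) = if d 0 = 0 ∧ d 1 = m then 1 else 0 := by
  simpa using coeff_two_monomial (R := R) 0 m d

theorem X_add_X_mem_below : ((X 0 : MvPowerSeries (Fin 2) R) + X 1) ∈ below 1 :=
  Ideal.add_mem _ (X_mem_below 0) (X_mem_below 1)

theorem subst_pair_mem_below {τ : Type*} {a b : MvPowerSeries τ R} (ha : a ∈ below 1)
    (hb : b ∈ below 1) (F : FormalGroup R) : subst ![a, b] F.toPowerSeries ∈ below 1 :=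
  subst_mem_below_one (fun i => by fin_cases i <;> assumption)
    (mem_below_one_iff.2 F.zero_constantCoeff)

theorem fg_mem_below_one (F : FormalGroup R) : F.toPowerSeries ∈ below 1 :=
  mem_below_one_iff.2 F.zero_constantCoeff

theorem fg_sub_linear_mem_below (F : FormalGroup R) :
    F.toPowerSeries - (X 0 + X 1) ∈ below 2 := by
  have h := sub_linPart_mem_below F.zero_constantCoeff
  simpa [linPart, Fin.sum_univ_two, F.lin_coeff_X, F.lin_coeff_Y] using h

theorem hasSubst_pair_below {τ : Type*} {a b : MvPowerSeries τ R} (ha : a ∈ below 1)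
    (hb : b ∈ below 1) : HasSubst ![a, b] :=
  hasSubst_of_below fun i => by fin_cases i <;> assumption

/-- Composition of a one-variable series with a substitution. -/
theorem subst_subst_single {σ τ : Type*} [Finite σ] {f : MvPowerSeries σ R} (hf : f ∈ below 1)
    {b : σ → MvPowerSeries τ R} (hb : ∀ s, b s ∈ below 1) (l : PowerSeries R) :
    subst b (PowerSeries.subst f l) = PowerSeries.subst (subst b f) l := by
  simp only [PowerSeries.subst]
  rw [subst_comp_subst_apply (hasSubst_single_of_below hf).const (hasSubst_of_below hb)]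

theorem map_mem_below {σ S : Type*} [CommRing S] (φ : R →+* S) {D : ℕ} {f : MvPowerSeries σ R}
    (hf : f ∈ below D) : map φ f ∈ below D := fun d hd => by
  rw [coeff_map, hf d hd, map_zero]

theorem expand_mem_below {σ : Type*} [Finite σ] {m : ℕ} (hm : m ≠ 0) {D : ℕ}
    {f : MvPowerSeries σ R} (hf : f ∈ below D) : expand m hm f ∈ below (m * D) := by
  rw [expand, substAlgHom_apply]
  have hX : ∀ s : σ, (X s : MvPowerSeries σ R) ^ m ∈ below m := fun s => by
    simpa using pow_mem_below (X_mem_below (R := R) s) m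
  exact subst_mem_below (fun s => below_antitone (Nat.one_le_iff_ne_zero.2 hm) (hX s)) hX hf

/-- Truncation below a degree by lifting coefficientwise along a ring map. -/
theorem exists_lift_below {σ A : Type*} [CommRing A] (ι : A →+* R) {D : ℕ}
    (f : MvPowerSeries σ R) (h : ∀ d : σ →₀ ℕ, d.degree < D → ∃ a, ι a = coeff d f) :
    ∃ g : MvPowerSeries σ A, (∀ d : σ →₀ ℕ, D ≤ d.degree → coeff d g = 0) ∧
      map ι g - f ∈ below D := by
  classical
  choose a ha using h
  obtain ⟨g, hg⟩ : ∃ g : MvPowerSeries σ A,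
      ∀ d, coeff d g = if hd : d.degree < D then a d hd else 0 :=
    ⟨fun d => if hd : d.degree < D then a d hd else 0, fun d => rfl⟩
  refine ⟨g, fun d hd => by rw [hg, dif_neg (by omega)], fun d hd => ?_⟩
  rw [map_sub, sub_eq_zero, coeff_map, hg, dif_pos hd, ha]

end Vale.P217

end
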