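import Vale.Agent.P217.SeriesLemmas
import Vale.Agent.P217.Defs
import Mathlib.Algebra.Algebra.Rat

/-!
The logarithm of Hazewinkel's law, the left recursion, and integrality tools.
-/

noncomputable section

namespace Vale.P217

open MvPowerSeries Finsupp

/-- The series `F` has additive logarithm `l`. -/
def HasLog {B : Type*} [CommRing B] (l : PowerSeries B) (F : MvPowerSeries (Fin 2) B) : Prop :=
  PowerSeries.subst F l =
    PowerSeries.subst (X (0 : Fin 2)) l + PowerSeries.subst (X (1 : Fin 2)) l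

variable {B : Type*} [CommRing B]

theorem HasLog.map {B' : Type*} [CommRing B'] (φ : B →+* B') {l : PowerSeries B}
    {F : MvPowerSeries (Fin 2) B} (hF : F ∈ below 1) (h : HasLog l F) :
    HasLog (PowerSeries.map φ l) (MvPowerSeries.map φ F) := by
  have h' := congrArg (MvPowerSeries.map φ) h
  rw [map_add, PowerSeries.map_subst (hasSubst_single_of_below hF),
    PowerSeries.map_subst (hasSubst_single_of_below (X_mem_below _)),
    PowerSeries.map_subst (hasSubst_single_of_below (X_mem_below _)), map_X, map_X] at h'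
  exact h'

theorem HasLog.subst₂ {l : PowerSeries B} {F : MvPowerSeries (Fin 2) B} (hF : F ∈ below 1)
    (h : HasLog l F) {τ : Type*} {a b : MvPowerSeries τ B} (ha : a ∈ below 1) (hb : b ∈ below 1) :
    PowerSeries.subst (subst ![a, b] F) l = PowerSeries.subst a l + PowerSeries.subst b l := by
  have hab : ∀ s, (![a, b] : Fin 2 → MvPowerSeries τ B) s ∈ below 1 := fun s => by
    fin_cases s <;> assumption
  have h' := congrArg (subst ![a, b]) h
  rw [subst_add (hasSubst_of_below hab), subst_subst_single hF hab,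
    subst_subst_single (X_mem_below _) hab, subst_subst_single (X_mem_below _) hab,
    subst_X (hasSubst_of_below hab), subst_X (hasSubst_of_below hab)] at h'
  simpa using h'

/-- A series with linear coefficient one is injective under substitution. -/
theorem eq_of_subst_eq {τ : Type*} {l : PowerSeries B} (h0 : PowerSeries.constantCoeff l = 0)
    (h1 : PowerSeries.coeff 1 l = 1) {f g : MvPowerSeries τ B} (hf : f ∈ below 1)
    (hg : g ∈ below 1) (h : PowerSeries.subst f l = PowerSeries.subst g l) : f = g := by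
  refine eq_of_below fun D => ?_
  induction D with
  | zero => exact mem_below_zero _
  | succ D ih =>
    have h2 := subst_single_sub_linear hf hg ih h0
    rw [h, sub_self, h1, map_one, one_mul, zero_sub] at h2
    simpa using Ideal.neg_mem_iff _ |>.1 h2

variable (p n : ℕ)

section uvar

variable {R : Type*} [CommRing R]

/-- `U_i`: the value of `u_i` for `1 ≤ i < n`, `1` for `i = n` and `0` otherwise. -/
def uvar (u : Fin (n - 1) → R) (i : ℕ) : R :=
  if h : 1 ≤ i ∧ i < n then u ⟨i - 1, by omega⟩ else if i = n then 1 else 0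

theorem uvar_map {S : Type*} [CommRing S] (f : R →+* S) (u : Fin (n - 1) → R) (i : ℕ) :
    f (uvar n u i) = uvar n (f ∘ u) i := by
  unfold uvar
  split_ifs <;> simp

theorem uvar_pow (u : Fin (n - 1) → R) (i : ℕ) {m : ℕ} (hm : m ≠ 0) :
    uvar n (fun j => u j ^ m) i = uvar n u i ^ m := by
  unfold uvar
  split_ifs <;> simp [hm]

theorem uvar_eq_zero_of_lt (u : Fin (n - 1) → R) {h : ℕ} (hhn : h ≤ n)
    (hu : ∀ i : Fin (n - 1), (i : ℕ) + 1 < h → u i = 0) {i : ℕ} (hi : 1 ≤ i) (hih : i < h) :
    uvar n u i = 0 := by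
  rw [uvar, dif_pos ⟨hi, by omega⟩]
  exact hu _ (by simp only; omega)

theorem uvar_zero_vec (i : ℕ) :
    uvar n (0 : Fin (n - 1) → R) i = if i = n then 1 else 0 := by
  unfold uvar
  split_ifs with h1 h2 <;> first | rfl | (exfalso; omega)

end uvar

/-- The coefficient of `X ^ (p ^ K)` in the logarithm: `c_0 = 1` and
`p c_K = ∑_i c_{K-i} U_i ^ (p ^ (K-i))`. -/
def cLog [Algebra ℚ B] (u : Fin (n - 1) → B) : ℕ → B
  | 0 => 1
  | K + 1 => algebraMap ℚ B (p : ℚ)⁻¹ *
      ∑ i : Fin (K + 1), cLog u (K - (i : ℕ)) * uvar n u ((i : ℕ) + 1) ^ p ^ (K - (i : ℕ))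
termination_by K => K
decreasing_by omega

/-- The logarithm series. -/
def logSeries [Algebra ℚ B] (u : Fin (n - 1) → B) : PowerSeries B :=
  PowerSeries.mk fun d => if d = p ^ Nat.log p d then cLog p n u (Nat.log p d) else 0

variable [hp : Fact p.Prime]

section cLog

variable [Algebra ℚ B] (u : Fin (n - 1) → B)

omit hp in
theorem cLog_zero : cLog p n u 0 = 1 := by rw [cLog]

omit hp in
theorem cLog_succ_range (K : ℕ) : cLog p n u (K + 1) = algebraMap ℚ B (p : ℚ)⁻¹ *
    ∑ i ∈ Finset.range (K + 1), cLog p n u (K - i) * uvar n u (i + 1) ^ p ^ (K - i) := by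
  rw [cLog, Finset.sum_range]

theorem p_mul_inv : (p : B) * algebraMap ℚ B (p : ℚ)⁻¹ = 1 := by
  rw [← map_natCast (algebraMap ℚ B), ← map_mul,
    mul_inv_cancel₀ (Nat.cast_ne_zero.2 hp.1.ne_zero), map_one]

theorem eq_inv_mul {x y : B} (h : (p : B) * x = y) : x = algebraMap ℚ B (p : ℚ)⁻¹ * y := by
  rw [← h, ← mul_assoc, mul_comm (algebraMap ℚ B _), p_mul_inv, one_mul]

theorem p_mul_cancel {x y : B} (h : (p : B) * x = (p : B) * y) : x = y := by
  rw [eq_inv_mul p h, ← mul_assoc, mul_comm (algebraMap ℚ B _), p_mul_inv, one_mul]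

/-- The left recursion. -/
theorem cLog_left (K : ℕ) : (p : B) * cLog p n u (K + 1) =
    ∑ i ∈ Finset.range (K + 1),
      uvar n u (i + 1) * cLog p n (fun j => u j ^ p ^ (i + 1)) (K - i) := by
  induction K using Nat.strong_induction_on generalizing u with
  | _ K ih =>
    rw [cLog_succ_range, ← mul_assoc, p_mul_inv, one_mul, Finset.sum_range_succ,
      Finset.sum_range_succ, Nat.sub_self, cLog_zero, cLog_zero]
    congr 1
    · set ξ := algebraMap ℚ B (p : ℚ)⁻¹
      let T : ℕ → ℕ → B := fun a b => ξ * (uvar n u (a + 1) *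
        cLog p n (fun j => u j ^ p ^ (a + 1)) (K - 1 - a - b) * uvar n u (b + 1) ^ p ^ (K - b))
      have hleft : ∀ b ∈ Finset.range K,
          cLog p n u (K - b) * uvar n u (b + 1) ^ p ^ (K - b) =
            ∑ a ∈ Finset.range (K - b), T a b := by
        intro b hb
        simp only [Finset.mem_range] at hb
        obtain ⟨m, hm⟩ : ∃ m, K - b = m + 1 := ⟨K - b - 1, by omega⟩
        rw [hm, eq_inv_mul p (ih m (by omega) u), Finset.mul_sum, Finset.sum_mul]
        refine Finset.sum_congr rfl fun a ha => ?_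
        simp only [Finset.mem_range] at ha
        simp only [T, hm, show K - 1 - a - b = m - a by omega]
        ring
      have hright : ∀ a ∈ Finset.range K,
          uvar n u (a + 1) * cLog p n (fun j => u j ^ p ^ (a + 1)) (K - a) =
            ∑ b ∈ Finset.range (K - a), T a b := by
        intro a ha
        simp only [Finset.mem_range] at ha
        obtain ⟨m, hm⟩ : ∃ m, K - a = m + 1 := ⟨K - a - 1, by omega⟩
        rw [hm, cLog_succ_range, Finset.mul_sum, Finset.mul_sum]
        refine Finset.sum_congr rfl fun b hb => ?_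
        simp only [Finset.mem_range] at hb
        have e : (p ^ (a + 1)) * p ^ (m - b) = p ^ (K - b) := by
          rw [← pow_add]; congr 1; omega
        rw [uvar_pow n u _ (pow_ne_zero _ hp.1.ne_zero), ← pow_mul, e]
        simp only [T, show K - 1 - a - b = m - b by omega]
        ring
      rw [Finset.sum_congr rfl hleft, Finset.sum_congr rfl hright]
      refine Finset.sum_comm' fun x y => ?_
      simp only [Finset.mem_range]
      omega
    · simp

omit hp in
theorem cLog_map' {B' : Type*} [CommRing B'] [Algebra ℚ B'] (f : B →+* B') (K : ℕ) :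
    f (cLog p n u K) = cLog p n (f ∘ u) K := by
  induction K using Nat.strong_induction_on with
  | _ K ih =>
    cases K with
    | zero => simp [cLog_zero]
    | succ K =>
      rw [cLog_succ_range, cLog_succ_range, map_mul, RingHom.map_rat_algebraMap, map_sum]
      congr 1
      refine Finset.sum_congr rfl fun i _ => ?_
      rw [map_mul, map_pow, uvar_map, ih _ (by omega)]

theorem coeff_logSeries_pow' (K : ℕ) :
    PowerSeries.coeff (p ^ K) (logSeries p n u) = cLog p n u K := by
  rw [logSeries, PowerSeries.coeff_mk, Nat.log_pow hp.1.one_lt, if_pos rfl]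

omit hp in
theorem coeff_logSeries_eq_zero' {d : ℕ} (hd : ∀ K, d ≠ p ^ K) :
    PowerSeries.coeff d (logSeries p n u) = 0 := by
  rw [logSeries, PowerSeries.coeff_mk, if_neg (hd _)]

theorem constantCoeff_logSeries : PowerSeries.constantCoeff (logSeries p n u) = 0 := by
  rw [← PowerSeries.coeff_zero_eq_constantCoeff, coeff_logSeries_eq_zero']
  exact fun K h => pow_ne_zero K hp.1.ne_zero h.symm

theorem coeff_one_logSeries : PowerSeries.coeff 1 (logSeries p n u) = 1 := by
  have h := coeff_logSeries_pow' p n u 0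
  rwa [pow_zero, cLog_zero] at h

theorem map_logSeries {B' : Type*} [CommRing B'] [Algebra ℚ B'] (f : B →+* B') :
    PowerSeries.map f (logSeries p n u) = logSeries p n (f ∘ u) := by
  ext d
  rw [PowerSeries.coeff_map, logSeries, logSeries, PowerSeries.coeff_mk, PowerSeries.coeff_mk]
  split_ifs
  · exact cLog_map' p n u f _
  · exact map_zero f

/-- A coefficient of `l(f)`. -/
theorem coeff_log_subst {τ : Type*} {f : MvPowerSeries τ B} (hf : f ∈ below 1) (d : τ →₀ ℕ)
    {N : ℕ} (hN : d.degree ≤ N) :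
    coeff d (PowerSeries.subst f (logSeries p n u)) =
      ∑ K ∈ Finset.range (N + 1), cLog p n u K * coeff d (f ^ p ^ K) := by
  have h1 : ∑ K ∈ Finset.range (N + 1), cLog p n u K * coeff d (f ^ p ^ K) =
      ∑ j ∈ (Finset.range (N + 1)).image (fun K => p ^ K),
        PowerSeries.coeff j (logSeries p n u) * coeff d (f ^ j) := by
    rw [Finset.sum_image fun x _ y _ h => Nat.pow_right_injective hp.1.two_le h]
    exact Finset.sum_congr rfl fun K _ => by rw [coeff_logSeries_pow']
  have hb : N ≤ p ^ N := (Nat.lt_pow_self hp.1.one_lt).le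
  rw [h1, coeff_subst_range hf _ d (hN.trans hb)]
  refine (Finset.sum_subset ?_ ?_).symm
  · intro j hj
    simp only [Finset.mem_image, Finset.mem_range] at hj ⊢
    obtain ⟨K, hK, rfl⟩ := hj
    have : p ^ K ≤ p ^ N := Nat.pow_le_pow_right hp.1.pos (by omega)
    omega
  · intro j hj hnot
    simp only [Finset.mem_range] at hj
    rw [coeff_logSeries_eq_zero', zero_mul]
    intro K hK
    refine hnot (Finset.mem_image.2 ⟨K, Finset.mem_range.2 ?_, hK.symm⟩)
    have : p ^ K ≤ p ^ N := by omega
    have := (Nat.pow_le_pow_iff_right hp.1.one_lt).1 this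
    omega

end cLog

/-! ### The universal rings -/

/-- The ring map `ℤ[u] → ℚ[u]`. -/
abbrev intToRat : MvPolynomial (Fin (n - 1)) ℤ →+* MvPolynomial (Fin (n - 1)) ℚ :=
  MvPolynomial.map (Int.castRingHom ℚ)

omit hp in
theorem intToRat_injective : Function.Injective (intToRat n) :=
  MvPolynomial.map_injective _ (Int.castRingHom ℚ).injective_int

theorem exists_int_cLog (v : Fin (n - 1) → MvPolynomial (Fin (n - 1)) ℤ) (K : ℕ) :
    ∃ a, intToRat n a = (p : MvPolynomial (Fin (n - 1)) ℚ) ^ K * cLog p n (intToRat n ∘ v) K := by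
  induction K using Nat.strong_induction_on with
  | _ K ih =>
    cases K with
    | zero => exact ⟨1, by simp [cLog_zero]⟩
    | succ K =>
      choose a ha using fun i : ℕ => ih (K - i) (by omega)
      refine ⟨∑ i ∈ Finset.range (K + 1),
        (p : MvPolynomial (Fin (n - 1)) ℤ) ^ i * a i * uvar n v (i + 1) ^ p ^ (K - i), ?_⟩
      rw [pow_succ, mul_assoc, cLog_succ_range, ← mul_assoc (p : MvPolynomial (Fin (n - 1)) ℚ),
        p_mul_inv, one_mul, map_sum, Finset.mul_sum]
      refine Finset.sum_congr rfl fun i hi => ?_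
      simp only [Finset.mem_range] at hi
      rw [map_mul, map_mul, map_pow, map_natCast, map_pow, ha, uvar_map, ← mul_assoc, ← mul_assoc,
        ← pow_add, show i + (K - i) = K by omega]

/-- `c_k (a ^ (p ^ k) - b ^ (p ^ k))` is divisible by `p` integrally if `p ∣ a - b`. -/
theorem exists_int_cLog_mul_sub {σ : Type*} (v : Fin (n - 1) → MvPolynomial (Fin (n - 1)) ℤ)
    {a b : MvPowerSeries σ (MvPolynomial (Fin (n - 1)) ℤ)}
    (hab : (p : MvPowerSeries σ (MvPolynomial (Fin (n - 1)) ℤ)) ∣ a - b) (k : ℕ) (d : σ →₀ ℕ) :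
    ∃ w, cLog p n (intToRat n ∘ v) k *
        intToRat n (coeff d (a ^ p ^ k) - coeff d (b ^ p ^ k)) =
      (p : MvPolynomial (Fin (n - 1)) ℚ) * intToRat n w := by
  obtain ⟨c, hc⟩ := dvd_sub_pow_of_dvd_sub hab k
  obtain ⟨e, he⟩ := exists_int_cLog p n v k
  refine ⟨e * coeff d c, ?_⟩
  have h := congrArg (coeff d) hc
  rw [← map_natCast (C (σ := σ) (R := MvPolynomial (Fin (n - 1)) ℤ)), ← map_pow, coeff_C_mul,
    map_sub] at h
  rw [h, map_mul, map_pow, map_natCast, map_mul, he, pow_succ]
  ring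

theorem dvd_of_map_eq {σ : Type*} {a b : MvPowerSeries σ (MvPolynomial (Fin (n - 1)) ℤ)}
    (h : MvPowerSeries.map (MvPolynomial.map (Int.castRingHom (ZMod p))) a =
      MvPowerSeries.map (MvPolynomial.map (Int.castRingHom (ZMod p))) b) :
    (p : MvPowerSeries σ (MvPolynomial (Fin (n - 1)) ℤ)) ∣ a - b := by
  have hd : ∀ d, (p : MvPolynomial (Fin (n - 1)) ℤ) ∣ coeff d (a - b) := fun d => by
    have h' := congrArg (coeff d) h
    rw [coeff_map, coeff_map, ← sub_eq_zero, ← map_sub] at h'
    rw [← map_natCast (MvPolynomial.C (σ := Fin (n - 1)) (R := ℤ)), map_sub]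
    exact (MvPolynomial.C_dvd_iff_map_hom_eq_zero (Int.castRingHom (ZMod p)) (p : ℤ)
      (fun r => by simp [ZMod.intCast_zmod_eq_zero_iff_dvd]) _).2 h'
  choose c hc using hd
  obtain ⟨g, hg⟩ : ∃ g : MvPowerSeries σ (MvPolynomial (Fin (n - 1)) ℤ), ∀ d, coeff d g = c d :=
    ⟨c, fun d => rfl⟩
  refine ⟨g, MvPowerSeries.ext fun d => ?_⟩
  rw [← map_natCast (C (σ := σ) (R := MvPolynomial (Fin (n - 1)) ℤ)), coeff_C_mul, hg, hc]

omit hp in
/-- The endomorphism `u_j ↦ u_j ^ m`. -/
def powVar (m : ℕ) : MvPolynomial (Fin (n - 1)) ℤ →+* MvPolynomial (Fin (n - 1)) ℤ :=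
  (MvPolynomial.aeval fun j => MvPolynomial.X (R := ℤ) j ^ m).toRingHom

theorem map_powVar (i : ℕ) (x : MvPolynomial (Fin (n - 1)) ℤ) :
    MvPolynomial.map (Int.castRingHom (ZMod p)) (powVar n (p ^ i) x) =
      iterateFrobenius (MvPolynomial (Fin (n - 1)) (ZMod p)) p i
        (MvPolynomial.map (Int.castRingHom (ZMod p)) x) := by
  refine RingHom.congr_fun (MvPolynomial.ringHom_ext
    (f := (MvPolynomial.map (Int.castRingHom (ZMod p))).comp (powVar n (p ^ i)))
    (g := (iterateFrobenius (MvPolynomial (Fin (n - 1)) (ZMod p)) p i).comp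
      (MvPolynomial.map (Int.castRingHom (ZMod p)))) (fun r => ?_) fun j => ?_) x
  · simp
  · simp [powVar, iterateFrobenius_def]

/-- The functional-equation congruence `G ^ (p ^ i) ≡ G^σ(X ^ (p ^ i), Y ^ (p ^ i))` mod `p`. -/
theorem dvd_pow_sub_expand {σ : Type*} [Finite σ] (i : ℕ)
    (G : MvPowerSeries σ (MvPolynomial (Fin (n - 1)) ℤ)) :
    (p : MvPowerSeries σ (MvPolynomial (Fin (n - 1)) ℤ)) ∣
      G ^ p ^ i - MvPowerSeries.expand (p ^ i) (pow_ne_zero i hp.1.ne_zero)
        (MvPowerSeries.map (powVar n (p ^ i)) G) := by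
  have : ExpChar (MvPolynomial (Fin (n - 1)) (ZMod p)) p := ExpChar.prime hp.1
  refine dvd_of_map_eq p n ?_
  rw [map_pow, map_expand, ← map_iterateFrobenius_expand p hp.1.ne_zero, map_expand]
  congr 1
  ext d : 1
  rw [coeff_map, coeff_map, coeff_map, coeff_map, map_powVar]

end Vale.P217

end
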